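import Mathlib

/-!
# Row 256, folder Rt (sec. 7 of the LS paper), file Tests: ROWS, RAYS, ROUND AND HYPERQUADRIC TESTS      (chief Rt: helper216)      DEFINITIONS ARE FROZEN (ask helper216)

Mathlib only, model free, no measure.   Source: 07-round-transfer.tex l.11-103 (Def rt:model, Def rt:regularity, identity (disc)).
* plane vectors are plain pairs `ℝ × ℝ`; `rtIp u v = u·v`, `rtSq u = |u|²`.  EUCLIDEAN bounds are written `rtSq x ≤ M ^ 2`.
* `RtRow` = phase point `(A, b, y)`;  `p.flow t` = the ray `(A, b + tA, y + t|A|²)`.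
* `RtPoly` = coefficients `(c, d, α, β, k)` of `F = c + d u + α·x + β z + k (u z - |x|²)`;  `n.G = L_V F`,  `n.g = ∂_V G`,  `n.disc = |α|² - 4βd + 4kc`.
* `RtTest` = length `l`, width `r`, thickness `f`, centre `(As, bs, ys)`, polynomial `n`.   `τ.x p, τ.z p, τ.V p` = normalised coordinates at `u = 0`.
  `τ.set M` = `{|x|,|z|,|V| ≤ M, |F|,|G| ≤ M f}`;   `τ.Adm M` = `0 < l, r, f`, `f ≤ 1`, `disc = 1`, coefficients `≤ 100 M`.     THE test of the paper: `τ.Adm 1`, `τ.set 1`.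
  A ROUND test is the special case `n = rtLin`, `f = 1` (`rt_round_set`): one notion of test only.
* weight `τ.w η = r⁴ f^(1-η)`,  uncertainty width `τ.unc = r f`  (the model asks `d_ℓ ≤ τ.unc`; classical: `d_ℓ = 0`).
* `RtCover S l u η W` : `S` is covered by finitely many admissible tests of length `l`, uncertainty `≥ u`, total weight `≤ W`.     ALL coverings of sec. 7 (G1, G2, G4, lift) end in this predicate; a `κ`-regular row measure then gives `μ S ≤ κ W` (`rt_cover_mass`).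
-/

set_option autoImplicit false

namespace Claimed.Agent.R256

open scoped BigOperators

/-- `u · v` -/
def rtIp (u v : ℝ × ℝ) : ℝ := u.1 * v.1 + u.2 * v.2

/-- `|u|²` -/
def rtSq (u : ℝ × ℝ) : ℝ := u.1 ^ 2 + u.2 ^ 2

/-- a row (phase point) of the round model -/
@[ext] structure RtRow where
  A : ℝ × ℝ
  b : ℝ × ℝ
  y : ℝ

/-- the ray through a row -/
def RtRow.flow (p : RtRow) (t : ℝ) : RtRow := ⟨p.A, p.b + t • p.A, p.y + t * rtSq p.A⟩

/-- the quadratic form `q(t,b,y) = t y - |b|²` -/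
def rtQ (t : ℝ) (b : ℝ × ℝ) (y : ℝ) : ℝ := t * y - rtSq b

/-- coefficients of a hyperquadric polynomial -/
@[ext] structure RtPoly where
  c : ℝ
  d : ℝ
  al : ℝ × ℝ
  be : ℝ
  k : ℝ

namespace RtPoly

variable (n : RtPoly)

/-- `F = c + d u + α·x + β z + k (u z - |x|²)` -/
def F (u : ℝ) (x : ℝ × ℝ) (z : ℝ) : ℝ := n.c + n.d * u + rtIp n.al x + n.be * z + n.k * (u * z - rtSq x)

/-- `G = L_V F` -/
def G (u : ℝ) (x : ℝ × ℝ) (z : ℝ) (V : ℝ × ℝ) : ℝ :=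
  n.d + n.k * z + rtIp V (n.al - (2 * n.k) • x) + rtSq V * (n.be + n.k * u)

/-- `g = ∂_V G = α + 2 (β + k u) V - 2 k x` -/
def g (u : ℝ) (x V : ℝ × ℝ) : ℝ × ℝ := n.al + (2 * (n.be + n.k * u)) • V - (2 * n.k) • x

/-- the discriminant -/
def disc : ℝ := rtSq n.al - 4 * n.be * n.d + 4 * n.k * n.c

/-- all coefficients are at most `M` -/
def Bd (M : ℝ) : Prop := |n.c| ≤ M ∧ |n.d| ≤ M ∧ rtSq n.al ≤ M ^ 2 ∧ |n.be| ≤ M ∧ |n.k| ≤ M

end RtPoly

/-- the linear polynomial `F = x₁` (round tests) -/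
def rtLin : RtPoly := ⟨0, 0, (1, 0), 0, 0⟩

/-- a test (data) -/
structure RtTest where
  l : ℝ
  r : ℝ
  f : ℝ
  As : ℝ × ℝ
  bs : ℝ × ℝ
  ys : ℝ
  n : RtPoly

namespace RtTest

variable (τ : RtTest)

/-- `x = (b - b_*) / (ℓ r)` -/
noncomputable def x (p : RtRow) : ℝ × ℝ := (τ.l * τ.r)⁻¹ • (p.b - τ.bs)

/-- `z = (y - y_* - 2 A_*·(b - b_*)) / (ℓ r²)` -/
noncomputable def z (p : RtRow) : ℝ := (p.y - τ.ys - 2 * rtIp τ.As (p.b - τ.bs)) / (τ.l * τ.r ^ 2)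

/-- `V = (A - A_*) / r` -/
noncomputable def V (p : RtRow) : ℝ × ℝ := τ.r⁻¹ • (p.A - τ.As)

/-- `F` at the row -/
noncomputable def Fv (p : RtRow) : ℝ := τ.n.F 0 (τ.x p) (τ.z p)

/-- `G` at the row -/
noncomputable def Gv (p : RtRow) : ℝ := τ.n.G 0 (τ.x p) (τ.z p) (τ.V p)

/-- the `M`-enlarged round box -/
def box (M : ℝ) : Set RtRow := {p | rtSq (τ.x p) ≤ M ^ 2 ∧ |τ.z p| ≤ M ∧ rtSq (τ.V p) ≤ M ^ 2}

/-- the `M`-enlarged test -/
def set (M : ℝ) : Set RtRow := {p | p ∈ τ.box M ∧ |τ.Fv p| ≤ M * τ.f ∧ |τ.Gv p| ≤ M * τ.f}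

/-- admissibility with coefficient bound `100 M` -/
structure Adm (M : ℝ) : Prop where
  l_pos : 0 < τ.l
  r_pos : 0 < τ.r
  f_pos : 0 < τ.f
  f_le : τ.f ≤ 1
  disc : τ.n.disc = 1
  bd : τ.n.Bd (100 * M)

/-- the weight `r⁴ f^(1-η)` -/
noncomputable def w (η : ℝ) : ℝ := τ.r ^ 4 * τ.f ^ (1 - η)

/-- the uncertainty width `r f` -/
def unc : ℝ := τ.r * τ.f

end RtTest

/-- the round test with a given frame -/
def rtRound (l r : ℝ) (As bs : ℝ × ℝ) (ys : ℝ) : RtTest := ⟨l, r, 1, As, bs, ys, rtLin⟩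

/-- `S` is covered by finitely many admissible tests of length `l`, uncertainty width `≥ u`, total weight `≤ W` -/
def RtCover (S : Set RtRow) (l u η W : ℝ) : Prop :=
  ∃ (m : ℕ) (σ : Fin m → RtTest), (∀ i, (σ i).Adm 1 ∧ (σ i).l = l ∧ u ≤ (σ i).unc) ∧
    (S ⊆ ⋃ i, (σ i).set 1) ∧ ∑ i, (σ i).w η ≤ W

theorem rt_tests_eqns_cite : True := by
  have := @rtIp.eq_1
  have := @rtSq.eq_1
  have := @RtRow.flow.eq_1
  have := @rtQ.eq_1
  have := @RtPoly.F.eq_1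
  have := @RtPoly.G.eq_1
  have := @RtPoly.g.eq_1
  have := @RtPoly.disc.eq_1
  have := @RtPoly.Bd.eq_1
  have := @rtLin.eq_1
  have := @RtTest.x.eq_1
  have := @RtTest.z.eq_1
  have := @RtTest.V.eq_1
  have := @RtTest.Fv.eq_1
  have := @RtTest.Gv.eq_1
  have := @RtTest.box.eq_1
  have := @RtTest.set.eq_1
  have := @RtTest.w.eq_1
  have := @RtTest.unc.eq_1
  have := @rtRound.eq_1
  have := @RtCover.eq_1
  trivial

/-! ## first facts -/

theorem rtSq_nonneg (u : ℝ × ℝ) : 0 ≤ rtSq u := by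
  unfold rtSq
  positivity

theorem rtIp_comm (u v : ℝ × ℝ) : rtIp u v = rtIp v u := by
  unfold rtIp
  ring

theorem rtIp_self (u : ℝ × ℝ) : rtIp u u = rtSq u := by
  unfold rtIp rtSq
  ring

/-- Cauchy-Schwarz -/
theorem rtIp_sq_le (u v : ℝ × ℝ) : rtIp u v ^ 2 ≤ rtSq u * rtSq v := by
  unfold rtIp rtSq
  nlinarith [sq_nonneg (u.1 * v.2 - u.2 * v.1)]

theorem rtIp_abs_le {u v : ℝ × ℝ} {a b : ℝ} (ha : 0 ≤ a) (hb : 0 ≤ b) (hu : rtSq u ≤ a ^ 2) (hv : rtSq v ≤ b ^ 2) :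
    |rtIp u v| ≤ a * b := by
  refine abs_le_of_sq_le_sq' ?_ (mul_nonneg ha hb) |> fun h => abs_le.2 h
  calc rtIp u v ^ 2 ≤ rtSq u * rtSq v := rtIp_sq_le u v
    _ ≤ a ^ 2 * b ^ 2 := mul_le_mul hu hv (rtSq_nonneg v) (by positivity)
    _ = (a * b) ^ 2 := by ring

/-- **(disc)**, l.95: `|g|² = disc + 4 (β + k u) G - 4 k F` -/
theorem rt_disc_identity (n : RtPoly) (u : ℝ) (x : ℝ × ℝ) (z : ℝ) (V : ℝ × ℝ) :
    rtSq (n.g u x V) = n.disc + 4 * (n.be + n.k * u) * n.G u x z V - 4 * n.k * n.F u x z := by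
  simp only [RtPoly.g, RtPoly.G, RtPoly.F, RtPoly.disc, rtSq, rtIp, Prod.fst_add, Prod.snd_add, Prod.fst_sub, Prod.snd_sub,
    Prod.smul_fst, Prod.smul_snd, smul_eq_mul]
  ring

/-- `L_V G = 0` : `G` is constant along normalised rays -/
theorem rt_G_ray (n : RtPoly) (u : ℝ) (x : ℝ × ℝ) (z : ℝ) (V : ℝ × ℝ) :
    n.G u (x + u • V) (z + u * rtSq V) V = n.G 0 x z V := by
  simp only [RtPoly.G, rtSq, rtIp, Prod.fst_add, Prod.snd_add, Prod.fst_sub, Prod.snd_sub, Prod.smul_fst, Prod.smul_snd,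
    smul_eq_mul]
  ring

/-- `L_V F = G` : `F` is affine along normalised rays -/
theorem rt_F_ray (n : RtPoly) (u : ℝ) (x : ℝ × ℝ) (z : ℝ) (V : ℝ × ℝ) :
    n.F u (x + u • V) (z + u * rtSq V) = n.F 0 x z + u * n.G 0 x z V := by
  simp only [RtPoly.F, RtPoly.G, rtSq, rtIp, Prod.fst_add, Prod.snd_add, Prod.fst_sub, Prod.snd_sub, Prod.smul_fst,
    Prod.smul_snd, smul_eq_mul]
  ring

/-- `L_V g = 0` -/
theorem rt_g_ray (n : RtPoly) (u : ℝ) (x V : ℝ × ℝ) : n.g u (x + u • V) V = n.g 0 x V := by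
  ext <;>
  · simp only [RtPoly.g, Prod.fst_add, Prod.snd_add, Prod.fst_sub, Prod.snd_sub, Prod.smul_fst, Prod.smul_snd, smul_eq_mul]
    ring

theorem rtLin_disc : rtLin.disc = 1 := by
  simp [rtLin, RtPoly.disc, rtSq]

theorem rtLin_bd : rtLin.Bd (100 * 1) := by
  refine ⟨?_, ?_, ?_, ?_, ?_⟩ <;> simp [rtLin, rtSq]

theorem rt_round_adm {l r : ℝ} (hl : 0 < l) (hr : 0 < r) (As bs : ℝ × ℝ) (ys : ℝ) : (rtRound l r As bs ys).Adm 1 :=
  ⟨hl, hr, one_pos, le_rfl, rtLin_disc, rtLin_bd⟩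

/-- a round test is the round box: the two sublevel conditions are implied -/
theorem rt_round_set (l r : ℝ) (As bs : ℝ × ℝ) (ys : ℝ) {M : ℝ} (hM : 0 ≤ M) :
    (rtRound l r As bs ys).set M = (rtRound l r As bs ys).box M := by
  ext p
  constructor
  · exact fun h => h.1
  · intro h
    refine ⟨h, ?_, ?_⟩
    · have h1 : (rtRound l r As bs ys).Fv p = ((rtRound l r As bs ys).x p).1 := by
        simp [RtTest.Fv, RtPoly.F, rtRound, rtLin, rtIp]
      rw [h1]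
      have h2 := h.1
      unfold rtSq at h2
      show _ ≤ M * 1
      rw [mul_one]
      exact abs_le_of_sq_le_sq' (by nlinarith [sq_nonneg ((rtRound l r As bs ys).x p).2]) hM |> fun h => abs_le.2 h
    · have h1 : (rtRound l r As bs ys).Gv p = ((rtRound l r As bs ys).V p).1 := by
        simp [RtTest.Gv, RtPoly.G, rtRound, rtLin, rtIp]
      rw [h1]
      have h2 := h.2.2
      unfold rtSq at h2
      show _ ≤ M * 1
      rw [mul_one]
      exact abs_le_of_sq_le_sq' (by nlinarith [sq_nonneg ((rtRound l r As bs ys).V p).2]) hM |> fun h => abs_le.2 h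

theorem RtTest.w_pos (τ : RtTest) {M : ℝ} (h : τ.Adm M) (η : ℝ) : 0 < τ.w η := by
  unfold RtTest.w
  have := h.r_pos
  have := h.f_pos
  positivity

theorem RtCover.mono {S S' : Set RtRow} {l u u' η W W' : ℝ} (h : RtCover S l u η W) (hS : S' ⊆ S) (hu : u' ≤ u)
    (hW : W ≤ W') : RtCover S' l u' η W' := by
  obtain ⟨m, σ, h1, h2, h3⟩ := h
  exact ⟨m, σ, fun i => ⟨(h1 i).1, (h1 i).2.1, hu.trans (h1 i).2.2⟩, hS.trans h2, h3.trans hW⟩

theorem RtCover.empty (l u η : ℝ) : RtCover ∅ l u η 0 :=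
  ⟨0, Fin.elim0, fun i => i.elim0, Set.empty_subset _, by simp⟩

/-- union of two coverings -/
theorem RtCover.union {S S' : Set RtRow} {l u η W W' : ℝ} (h : RtCover S l u η W) (h' : RtCover S' l u η W') :
    RtCover (S ∪ S') l u η (W + W') := by
  obtain ⟨m, σ, h1, h2, h3⟩ := h
  obtain ⟨m', σ', h1', h2', h3'⟩ := h'
  refine ⟨m + m', Fin.append σ σ', ?_, ?_, ?_⟩
  · intro i
    refine Fin.addCases (fun j => ?_) (fun j => ?_) i
    · rw [Fin.append_left]; exact h1 j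
    · rw [Fin.append_right]; exact h1' j
  · rintro p (hp | hp)
    · obtain ⟨j, hj⟩ := Set.mem_iUnion.1 (h2 hp)
      exact Set.mem_iUnion.2 ⟨Fin.castAdd m' j, by rw [Fin.append_left]; exact hj⟩
    · obtain ⟨j, hj⟩ := Set.mem_iUnion.1 (h2' hp)
      exact Set.mem_iUnion.2 ⟨Fin.natAdd m j, by rw [Fin.append_right]; exact hj⟩
  · rw [Fin.sum_univ_add]
    simp only [Fin.append_left, Fin.append_right]
    exact add_le_add h3 h3'

/-- a covering bounds the mass of every monotone subadditive set function that is `κ`-regular on the tests of length `l` and uncertainty `≥ u` -/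
theorem rt_cover_mass {S : Set RtRow} {l u η W κ : ℝ} (h : RtCover S l u η W) (μ : Set RtRow → ℝ) (hκ : 0 ≤ κ)
    (hmono : ∀ s t, s ⊆ t → μ s ≤ μ t) (hsub : ∀ (m : ℕ) (s : Fin m → Set RtRow), μ (⋃ i, s i) ≤ ∑ i, μ (s i))
    (hreg : ∀ τ : RtTest, τ.Adm 1 → τ.l = l → u ≤ τ.unc → μ (τ.set 1) ≤ κ * τ.w η) : μ S ≤ κ * W := by
  obtain ⟨m, σ, h1, h2, h3⟩ := h
  calc μ S ≤ μ (⋃ i, (σ i).set 1) := hmono _ _ h2
    _ ≤ ∑ i, μ ((σ i).set 1) := hsub m _
    _ ≤ ∑ i, κ * (σ i).w η := Finset.sum_le_sum fun i _ => hreg _ (h1 i).1 (h1 i).2.1 (h1 i).2.2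
    _ = κ * ∑ i, (σ i).w η := by rw [Finset.mul_sum]
    _ ≤ κ * W := mul_le_mul_of_nonneg_left h3 hκ

end Claimed.Agent.R256
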