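import Claimed.Agent.R256.Rt.G2Main

/-!
# Row 256, folder Rt, file Geo: THE TWO COVERING THEOREMS OF THE ROUND GEOMETRY      (chief Rt: helper216)      CONTRACT (the `sorry`s are the units RT-G1, RT-G2)

Mathlib only, model free, scale free, no measure, no limit.   Sources: 07-round-transfer.tex l.157-190 (Lemma rt:covering, first half), l.208-287 (Lemma rt:single); reports 854 (G1, G2, notes 1, 2), 877 (X2, X3).
* `RtNear M d q H p p'` : the correspondence (cone-kernel)/(acc) between a row `p` (ALREADY transported to the time of `p'`) and a row `p'`: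
      `|A' - A| ≤ M d`,  `|b' - b| ≤ M q`,  `|y' - y - 2A·(b' - b)| ≤ M H`      (the tilt is the one of the EARLIER row `p`).
* `rt_G1` : an `M`-enlarged test (round bounds `M`, coefficients `100 M`, sublevels `M f`, discriminant one) is covered by admissible tests of the same length, uncertainty width `≥ r f`, total weight `≤ M^C r⁴ f^(1-η)`.
* `rt_G2` : parent length `l`, child test `τ` of length `δ l` read at the time offset `t ∈ [0, l]`, parent aperture `D = d_l ≥ 0` (`D = 0`: classical), child uncertainty `d_{δl} = D/√δ ≤ r f`.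
      The rows at the parent time whose ray at time `t` is `M`-near (scales `d_{δl}`, `q_l = l D`, `H = l D²`) to the child test are covered by parent tests of uncertainty width `≥ D`, total weight `≤ M^C δ r⁴ f^(1-η)`.
PROOF PLANS.
G1 (l.165-182).  `f ≥ M^-D₂`: round tests of width `r` (count `≤ 200 M⁵`).   `f < M^-D₂`: (disc) gives `|g|² ∈ [1/2, 2]` on the set; parabolic boxes of width `a = M^-D₁` centred at WITNESSES `p_w` of the set:
   new test `r' = a r`, centre `p_w`, polynomial `(F_w/a, G_w/a, g_w, a β, a k)` (discriminant `= |g_w|² - 4βG_w + 4kF_w = 1` by `rt_disc_identity`), `f' = M^{C''} f / a`.   Choose `D₁` first, `D₂` second.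
G2 (l.219-287): four cases `f ≤ a₀` / `f > a₀`, `K ≤ δ^{-1/2}` / `K > δ^{-1/2}`, `a₀ = min(√δ, 1/K)`, `K = |k|/δ` ; G1 is applied to the polynomial RECENTRED at width `a ≤ 1/K` (note 2 of report 854).
-/

set_option autoImplicit false

namespace Claimed.Agent.R256

/-- the correspondence between rows at one time -/
def RtNear (M d q H : ℝ) (p p' : RtRow) : Prop :=
  rtSq (p'.A - p.A) ≤ (M * d) ^ 2 ∧ rtSq (p'.b - p.b) ≤ (M * q) ^ 2 ∧ |p'.y - p.y - 2 * rtIp p.A (p'.b - p.b)| ≤ M * H

/-- the predecessors, at the time offset `t` before, of a set of rows -/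
def rtPred (M d q H t : ℝ) (S : Set RtRow) : Set RtRow := {p | ∃ p' ∈ S, RtNear M d q H (p.flow t) p'}

theorem rt_geo_eqns_cite : True := by
  have := @RtNear.eq_1
  have := @rtPred.eq_1
  trivial

/-- **G1** (Lemma rt:covering, covering part) -/
theorem rt_G1 (η : ℝ) (h0 : 0 < η) (h1 : η < 1) :
    ∃ C : ℝ, 0 < C ∧ ∀ (M : ℝ) (τ : RtTest), 2 ≤ M → τ.Adm M → RtCover (τ.set M) τ.l τ.unc η (M ^ C * τ.w η) :=
  rt_g1_main η h0 h1

/-- **G2** (Lemma rt:single, covering part) -/
theorem rt_G2 (η : ℝ) (h0 : 0 < η) (h1 : η < 1) :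
    ∃ C : ℝ, 0 < C ∧ ∀ (M l δ t D : ℝ) (τ : RtTest), 2 ≤ M → 0 < l → 0 < δ → δ ≤ 1 → 0 ≤ t → t ≤ l → 0 ≤ D →
      τ.Adm 1 → τ.l = δ * l → D ≤ τ.unc * Real.sqrt δ →
      RtCover (rtPred M (D / Real.sqrt δ) (l * D) (l * D ^ 2) t (τ.set 1)) l D η (M ^ C * δ * τ.w η) :=
  rt_g2_main η h0 h1

end Claimed.Agent.R256
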