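import Claimed.Agent.R256.Rt.ChartContract
import Claimed.Agent.R256.Rt.Geo
import Claimed.Agent.R256.Base.Cyl

/-!
# Row 256, folder Rt, file LiftDefs: VOCABULARY OF Lemma rt:weight-comparison (07 l.855-945)      (architect helper144; prefix `rt_lf_`, `rtLf`)      SORRY-FREE

Model free, no measure.   Dictionary between TRANSFORMED ROUND ROWS (`RtRow`, after the flattening chart `rtChart p₀ n`) and CYLINDER COORDINATES (`Cy5`, `CyT` of `Base/Cyl.lean`).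
* `rtFl fs p`      flattened coordinates `X = A₁, B = b₁, Y = y, N = A₂ / f_*, D = b₂ / f_*`      (07 l.857-861)
* `cySh Q Λ`       the five shear coefficients of `Q` are `≤ Λ`;      `cyNear l eb en z z'` comparison errors: base `eb` (`l eb` in position), normal `en` (`l en` in position)
* `rtLfRaw fs Q`   the FULL HYPERQUADRIC of a cylinder test: `b₂ - f_* (d + α b₁ + β y) - f_* K q - f_* c t`;   `rt_lf_raw_F`, `rt_lf_raw_G`, `rt_lf_raw_disc` (exact)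
* `rtLfPol fs Q`   the same normalised to discriminant one
* `rtLfCy fs m x b y r f`   the CYLINDER TEST read off a polynomial `m` close to `b₂`;   `rt_lf_cy_pos`, `rt_lf_cy_vel` (exact)
* `n.unc p₀`       inverse of the centring `RtPoly.cen p₀`;   `τ.par θ` = THE POLYNOMIAL OF THE TEST `τ` (read at the time `θ`) IN PARENT COORDINATES:
                   `(τ.par θ).Fe (p.ev θ) = l r τ.Fv (p.flow θ)`,  `(τ.par θ).G … = r τ.Gv (p.flow θ)`,  same discriminant      (07 l.472-483: `n_λ`)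
* `rtLfSc δ p`     the row in position units `δ`;   a box of LENGTH `δ` is `rtLfSc δ p ∈ rtBx (rtLfSc δ p₀) 1 M`;   `rt_lf_K_sc`, `rt_lf_K_flow` (the two-ray invariant)
* `rt_lf_unit`, `rt_lf_surj` : the coefficient map of a flattening chart is ONTO.
-/

set_option autoImplicit false

namespace Claimed.Agent.R256

/-- flattened coordinates of a transformed row -/
noncomputable def rtFl (fs : ℝ) (p : RtRow) : Cy5 := ⟨p.A.1, p.b.1, p.y, p.A.2 / fs, p.b.2 / fs⟩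

/-- the five shear coefficients are at most `Λ` -/
def cySh (Q : CyT) (Λ : ℝ) : Prop := |Q.c| ≤ Λ ∧ |Q.d| ≤ Λ ∧ |Q.al| ≤ Λ ∧ |Q.be| ≤ Λ ∧ |Q.K| ≤ Λ

/-- comparison errors at length `l` -/
def cyNear (l eb en : ℝ) (z z' : Cy5) : Prop :=
  |z'.X - z.X| ≤ eb ∧ |z'.B - z.B| ≤ l * eb ∧ |z'.Y - z.Y| ≤ l * eb ∧ |z'.N - z.N| ≤ en ∧ |z'.D - z.D| ≤ l * en

/-- the five coordinates: base coordinates at most `W` -/
def cyBd (W : ℝ) (z : Cy5) : Prop := |z.X| ≤ W ∧ |z.B| ≤ W ∧ |z.Y| ≤ W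

/-- a bounded row -/
def rtLfSm (p : RtRow) : Prop := rtSq p.A ≤ 1 ∧ rtSq p.b ≤ 1 ∧ |p.y| ≤ 1

/-- the full hyperquadric of a cylinder test -/
def rtLfRaw (fs : ℝ) (Q : CyT) : RtPoly := ⟨-(fs * Q.d), -(fs * Q.c), (-(fs * Q.al), 1), -(fs * Q.be), -(fs * Q.K)⟩

/-- scalar multiple of a coefficient vector -/
def RtPoly.sc (a : ℝ) (n : RtPoly) : RtPoly := ⟨a * n.c, a * n.d, a • n.al, a * n.be, a * n.k⟩

/-- the full hyperquadric normalised to discriminant one -/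
noncomputable def rtLfPol (fs : ℝ) (Q : CyT) : RtPoly := (rtLfRaw fs Q).sc (Real.sqrt (rtLfRaw fs Q).disc)⁻¹

/-- the cylinder test read off a polynomial close to `b₂` -/
noncomputable def rtLfCy (fs : ℝ) (m : RtPoly) (x b y r f : ℝ) : CyT :=
  ⟨x, b, y, r, f, -(m.d / (m.al.2 * fs)), -(m.c / (m.al.2 * fs)), -(m.al.1 / (m.al.2 * fs)), -(m.be / (m.al.2 * fs)),
    -(m.k / (m.al.2 * fs))⟩

/-- the inverse of the centring of coefficients -/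
def RtPoly.unc (p₀ : RtRow) (n : RtPoly) : RtPoly :=
  ⟨n.c - rtIp (n.al - (2 * n.be) • p₀.A + (2 * n.k) • p₀.b) p₀.b - n.be * p₀.y + n.k * rtSq p₀.b,
    n.d - n.k * p₀.y - rtIp p₀.A (n.al - (2 * n.be) • p₀.A) - rtSq p₀.A * n.be,
    n.al - (2 * n.be) • p₀.A + (2 * n.k) • p₀.b, n.be, n.k⟩

/-- the polynomial of the test `τ`, read at the time `θ`, in parent coordinates -/
noncomputable def RtTest.par (τ : RtTest) (θ : ℝ) : RtPoly :=
  (rtChTr (-θ)).pol (RtPoly.unc ⟨τ.As, τ.bs, τ.ys⟩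
    ⟨τ.n.c * (τ.l * τ.r), τ.n.d * τ.r, τ.n.al, τ.n.be / τ.r, τ.n.k / (τ.l * τ.r)⟩)

/-- the row in position units `δ` -/
noncomputable def rtLfSc (δ : ℝ) (p : RtRow) : RtRow := ⟨p.A, δ⁻¹ • p.b, p.y / δ⟩

theorem rt_lf_eqns_cite : True := by
  have := @rtFl.eq_1
  have := @cySh.eq_1
  have := @cyNear.eq_1
  have := @cyBd.eq_1
  have := @rtLfSm.eq_1
  have := @rtLfRaw.eq_1
  have := @RtPoly.sc.eq_1
  have := @rtLfPol.eq_1
  have := @rtLfCy.eq_1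
  have := @RtPoly.unc.eq_1
  have := @RtTest.par.eq_1
  have := @rtLfSc.eq_1
  trivial

/-! ## 1. The full hyperquadric of a cylinder test (exact) -/

theorem rt_lf_raw_F {fs : ℝ} (hfs : fs ≠ 0) (Q : CyT) (p : RtRow) :
    (rtLfRaw fs Q).F 0 p.b p.y = fs * cyPos Q (rtFl fs p) + fs * Q.K * p.b.2 ^ 2 := by
  simp only [rtLfRaw, RtPoly.F, cyPos, rtFl, rtIp, rtSq]
  field_simp
  ring

theorem rt_lf_raw_G {fs : ℝ} (hfs : fs ≠ 0) (Q : CyT) (p : RtRow) :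
    (rtLfRaw fs Q).G 0 p.b p.y p.A
      = fs * cyVel Q (rtFl fs p) + 2 * fs * Q.K * p.A.2 * p.b.2 - fs * Q.be * p.A.2 ^ 2 := by
  simp only [rtLfRaw, RtPoly.G, cyVel, rtFl, rtIp, rtSq, Prod.fst_sub, Prod.snd_sub, Prod.smul_fst, Prod.smul_snd, smul_eq_mul]
  field_simp
  ring

theorem rt_lf_raw_disc (fs : ℝ) (Q : CyT) :
    (rtLfRaw fs Q).disc = 1 + fs ^ 2 * (Q.al ^ 2 - 4 * Q.be * Q.c + 4 * Q.K * Q.d) := by
  simp only [rtLfRaw, RtPoly.disc, rtSq]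
  ring

theorem rt_lf_sc_F (a : ℝ) (n : RtPoly) (u : ℝ) (x : ℝ × ℝ) (z : ℝ) : (n.sc a).F u x z = a * n.F u x z := by
  simp only [RtPoly.sc, RtPoly.F, rtIp, Prod.smul_fst, Prod.smul_snd, smul_eq_mul]
  ring

theorem rt_lf_sc_G (a : ℝ) (n : RtPoly) (u : ℝ) (x : ℝ × ℝ) (z : ℝ) (V : ℝ × ℝ) : (n.sc a).G u x z V = a * n.G u x z V := by
  simp only [RtPoly.sc, RtPoly.G, rtIp, Prod.smul_fst, Prod.smul_snd, Prod.fst_sub, Prod.snd_sub, smul_eq_mul]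
  ring

theorem rt_lf_sc_disc (a : ℝ) (n : RtPoly) : (n.sc a).disc = a ^ 2 * n.disc := by
  simp only [RtPoly.sc, RtPoly.disc, rtSq, Prod.smul_fst, Prod.smul_snd, smul_eq_mul]
  ring

/-! ## 2. The cylinder test of a polynomial close to `b₂` (exact) -/

theorem rt_lf_cy_pos {fs : ℝ} (hfs : fs ≠ 0) (m : RtPoly) (h2 : m.al.2 ≠ 0) (x b y r f : ℝ) (p : RtRow) :
    fs * cyPos (rtLfCy fs m x b y r f) (rtFl fs p) = m.F 0 p.b p.y / m.al.2 + m.k / m.al.2 * p.b.2 ^ 2 := by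
  simp only [rtLfCy, RtPoly.F, cyPos, rtFl, rtIp, rtSq]
  field_simp
  ring

theorem rt_lf_cy_vel {fs : ℝ} (hfs : fs ≠ 0) (m : RtPoly) (h2 : m.al.2 ≠ 0) (x b y r f : ℝ) (p : RtRow) :
    fs * cyVel (rtLfCy fs m x b y r f) (rtFl fs p)
      = m.G 0 p.b p.y p.A / m.al.2 + (2 * m.k * p.A.2 * p.b.2 - m.be * p.A.2 ^ 2) / m.al.2 := by
  simp only [rtLfCy, RtPoly.G, cyVel, rtFl, rtIp, rtSq, Prod.fst_sub, Prod.snd_sub, Prod.smul_fst, Prod.smul_snd, smul_eq_mul]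
  field_simp
  ring

/-! ## 3. The coefficient map of a flattening chart is onto -/

theorem rt_lf_cen_unc (p₀ : RtRow) (n : RtPoly) : (n.unc p₀).cen p₀ = n := by
  ext <;> simp only [RtPoly.cen, RtPoly.unc, RtPoly.F, RtPoly.G, RtPoly.g, rtIp, rtSq, Prod.fst_add, Prod.snd_add, Prod.fst_sub,
    Prod.snd_sub, Prod.smul_fst, Prod.smul_snd, smul_eq_mul] <;> ring

theorem rt_lf_rot_inv (e : ℝ × ℝ) (he : rtSq e = 1) (n : RtPoly) :
    (RtPoly.rot e ⟨n.c, n.d, (e.2 * n.al.1 + e.1 * n.al.2, -(e.1 * n.al.1) + e.2 * n.al.2), n.be, n.k⟩) = n := by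
  unfold rtSq at he
  ext
  · rfl
  · rfl
  · simp only [RtPoly.rot, rtRot]
    linear_combination n.al.1 * he
  · simp only [RtPoly.rot, rtRot]
    linear_combination n.al.2 * he
  · rfl
  · rfl

theorem rt_lf_db_inv (β : ℝ) (n : RtPoly) : (n.db (-β)).db β = n := by
  ext <;> simp only [RtPoly.db] <;> ring

theorem rt_lf_cf_inv (v : RtEv) (n : RtPoly) : (n.cf v.neg).cf v = n := by
  ext <;> simp only [RtPoly.cf, RtEv.neg, RtEv.q, rtQ, rtIp, rtSq, Prod.fst_add, Prod.snd_add, Prod.smul_fst, Prod.smul_snd,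
    Prod.fst_neg, Prod.snd_neg, smul_eq_mul] <;> ring

theorem rt_lf_chart_pol (p₀ : RtRow) (n m : RtPoly) :
    (rtChart p₀ n).pol m = (((m.cen p₀).rot (n.g 0 p₀.b p₀.A)).db n.be).cf ⟨0, (0, n.k), 0⟩ := rfl

/-- the normal of a flattening chart is a unit vector -/
theorem rt_lf_unit {P : ℝ} {n : RtPoly} {p₀ : RtRow} (h : RtChartOk P n p₀) : rtSq (n.g 0 p₀.b p₀.A) = 1 := by
  have h1 := h.ex.disc (RtPoly.unc p₀ ⟨0, 0, (1, 0), 0, 0⟩)
  have h2 : (RtPoly.unc p₀ ⟨0, 0, (1, 0), 0, 0⟩).disc = 1 := by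
    rw [← rt_cf_disc_cen _ p₀, rt_lf_cen_unc]
    simp [RtPoly.disc, rtSq]
  rw [rt_lf_chart_pol, rt_cf_disc, rt_cf_disc_db, rt_lf_cen_unc, h2] at h1
  simpa [RtPoly.rot, RtPoly.disc, rtRot, rtSq, add_comm] using h1

/-- **the coefficient map is onto** -/
theorem rt_lf_surj {P : ℝ} {n : RtPoly} {p₀ : RtRow} (h : RtChartOk P n p₀) (n' : RtPoly) :
    ∃ m : RtPoly, (rtChart p₀ n).pol m = n' := by
  have he := rt_lf_unit h
  set e := n.g 0 p₀.b p₀.A with hedef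
  set n1 := n'.cf (RtEv.neg ⟨0, (0, n.k), 0⟩) with hn1
  set n2 := n1.db (-n.be) with hn2
  refine ⟨RtPoly.unc p₀ ⟨n2.c, n2.d, (e.2 * n2.al.1 + e.1 * n2.al.2, -(e.1 * n2.al.1) + e.2 * n2.al.2), n2.be, n2.k⟩, ?_⟩
  rw [rt_lf_chart_pol, rt_lf_cen_unc, ← hedef, rt_lf_rot_inv e he, hn2, rt_lf_db_inv, hn1, rt_lf_cf_inv]

/-! ## 4. The parent polynomial of a test (exact) -/

theorem rt_lf_par_F (τ : RtTest) (hl : τ.l ≠ 0) (hr : τ.r ≠ 0) (θ : ℝ) (p : RtRow) :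
    (τ.par θ).Fe (p.ev θ) = τ.l * τ.r * τ.Fv (p.flow θ) := by
  simp only [RtTest.par, rtChTr, RtPoly.unc, RtPoly.Fe, RtRow.ev, RtPoly.F, RtTest.Fv, RtTest.x, RtTest.z, RtRow.flow, rtIp, rtSq,
    Prod.fst_add, Prod.snd_add, Prod.fst_sub, Prod.snd_sub, Prod.smul_fst, Prod.smul_snd, smul_eq_mul]
  field_simp
  ring

theorem rt_lf_par_G (τ : RtTest) (hl : τ.l ≠ 0) (hr : τ.r ≠ 0) (θ : ℝ) (p : RtRow) :
    (τ.par θ).G 0 p.b p.y p.A = τ.r * τ.Gv (p.flow θ) := by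
  simp only [RtTest.par, rtChTr, RtPoly.unc, RtPoly.G, RtTest.Gv, RtTest.x, RtTest.z, RtTest.V, RtRow.flow, rtIp, rtSq,
    Prod.fst_add, Prod.snd_add, Prod.fst_sub, Prod.snd_sub, Prod.smul_fst, Prod.smul_snd, smul_eq_mul]
  field_simp
  ring

theorem rt_lf_par_disc (τ : RtTest) (hl : τ.l ≠ 0) (hr : τ.r ≠ 0) (θ : ℝ) : (τ.par θ).disc = τ.n.disc := by
  simp only [RtTest.par, rtChTr, RtPoly.unc, RtPoly.disc, rtIp, rtSq,
    Prod.fst_add, Prod.snd_add, Prod.fst_sub, Prod.snd_sub, Prod.smul_fst, Prod.smul_snd, smul_eq_mul]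
  field_simp
  ring

/-! ## 5. The two-ray invariant under time translation and position scaling (exact) -/

theorem rt_lf_K_flow (p p₀ : RtRow) (θ s s₀ : ℝ) : rtK (p.flow θ) s (p₀.flow θ) s₀ = rtK p (θ + s) p₀ (θ + s₀) := by
  simp only [rtK, RtEv.q, RtEv.sub, RtRow.ev, RtRow.flow, rtQ, rtSq, Prod.fst_add, Prod.snd_add, Prod.fst_sub, Prod.snd_sub,
    Prod.smul_fst, Prod.smul_snd, smul_eq_mul]
  ring

theorem rt_lf_K_sc {δ : ℝ} (hδ : δ ≠ 0) (p p₀ : RtRow) (s s₀ : ℝ) :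
    rtK (rtLfSc δ p) s (rtLfSc δ p₀) s₀ = rtK p (δ * s) p₀ (δ * s₀) / δ ^ 2 := by
  simp only [rtK, RtEv.q, RtEv.sub, RtRow.ev, rtLfSc, rtQ, rtSq, Prod.fst_add, Prod.snd_add, Prod.fst_sub, Prod.snd_sub,
    Prod.smul_fst, Prod.smul_snd, smul_eq_mul]
  field_simp

end Claimed.Agent.R256
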