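import Claimed.Agent.R256.Rt.LiftDefs

/-!
# Row 256, folder Rt, file LiftContract: CONTRACT of (lift) = first half of Lemma rt:weight-comparison (07 l.881-925)      (architect helper144; chief Rt: helper216)

CONTRACT FILE: every `sorry` is a LEAF (subtask target `row256`, names `L-256-RT-LF-*`).   Prove IN PLACE, statement verbatim, auxiliary lemmas directly above, prefix `rt_lf_<leaf>_`.
Elementary real algebra and inequalities; no analysis, no measure, no paper needed: the complete proof is in each docstring.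
SETTING.  `Φ = rtChart p₀ n` flattening chart, `U = rtBx p₀ 1 (rtChRho P)` its patch (`RtChartOk P n p₀`), `θ` = transformed input time (`-1` in the paper; here `|θ| ≤ 8`), `p'' = (Φ.row p).flow θ`.
`Q : CyT` ideal input cylinder test, widths `R = Q.r`, `F₀ = Q.f`, shear `≤ Λ`; `fs = f_*`; thinness `fs Λ^40 ≤ R² F₀` (= (rt:very-thin) with `Z` large w.r.t. the precision `L₀`).
EXIT  **`rt_lift`** : `{p ∈ U | cyIn Q 1 (rtFl fs p'')}` is covered by admissible round/hyperquadric tests of length `1`, uncertainty `≥ fs F₀`, total weight `≤ M^C fs^(1-η) R^(3+η) F₀^(1-η)`, `C` independent of `Λ`.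
      **`rt_lift_near`** : the same with comparison errors (`cyNear`);      `rt_lf_len` (length `l ≥ 1` of the cylinder root), `rt_lf_cover_frame` (parent frame of length `l₀`, width `r₀`).
CHAIN.  SECOND (`|A₂|, |b₂| ≲ Λ fs`) → SUB (sublevels of the full hyperquadric `≤ 2 fs F₀`) → NORM (discriminant one) → BOX (round box of width `R`) → TR (pull back through `Tr_θ ∘ Φ`: `rt_ch_box_inv`, `rt_ch_sub_inv`, `rt_lf_surj`, `pol_bd_inv`)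
        → COVER (centre at a witness, shrink by `R`, divide by `R`; `rt_G1` with relative thickness `fs F₀ / R`).
-/

set_option autoImplicit false

namespace Claimed.Agent.R256

/-- the flattening chart followed by the translation of the transformed time by `θ` -/
noncomputable def rtLfTr (p₀ : RtRow) (n : RtPoly) (θ : ℝ) : RtCh := (rtChTr θ).comp (rtChart p₀ n)

/-- the rows of the patch whose transformed row at the time `θ` lies in the cylinder test -/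
def rtLfIn (P fs θ : ℝ) (n : RtPoly) (p₀ : RtRow) (Q : CyT) : Set RtRow :=
  {p | p ∈ rtBx p₀ 1 (rtChRho P) ∧ cyIn Q 1 (rtFl fs (((rtChart p₀ n).row p).flow θ))}

/-- the same with comparison errors -/
def rtLfInN (P fs θ eb en : ℝ) (n : RtPoly) (p₀ : RtRow) (Q : CyT) : Set RtRow :=
  {p | p ∈ rtBx p₀ 1 (rtChRho P) ∧ ∃ z : Cy5, cyNear 1 eb en z (rtFl fs (((rtChart p₀ n).row p).flow θ)) ∧ cyIn Q 1 z}

/-- normalisation of a row by a parent frame (length `l`, width `r`, centre `c`) -/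
noncomputable def rtLfNrm (l r : ℝ) (c p : RtRow) : RtRow :=
  ⟨r⁻¹ • (p.A - c.A), (l * r)⁻¹ • (p.b - c.b), (p.y - c.y - 2 * rtIp c.A (p.b - c.b)) / (l * r ^ 2)⟩

theorem rt_lf_contract_eqns_cite : True := by
  have := @rtLfTr.eq_1
  have := @rtLfIn.eq_1
  have := @rtLfInN.eq_1
  have := @rtLfNrm.eq_1
  trivial

/-! ## Leaves -/

/-- LEAF `L-256-RT-LF-IMG`.   `h.img`: `|A'| ≤ 6 P ρ = 6/(1000 P) ≤ .006`, `|b'| ≤ .004`, `|y'| ≤ .003`; the flow adds `θ A'` (`≤ .048`) and `θ |A'|²`. -/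
theorem rt_lf_img {P : ℝ} (hP : 1 ≤ P) {n : RtPoly} {p₀ : RtRow} (h : RtChartOk P n p₀) {p : RtRow}
    (hp : p ∈ rtBx p₀ 1 (rtChRho P)) {θ : ℝ} (hθ : |θ| ≤ 8) : rtLfSm (((rtChart p₀ n).row p).flow θ) := by
  obtain ⟨hA, hb, hy⟩ := h.img p hp
  obtain ⟨q, hq⟩ : ∃ q, q = (rtChart p₀ n).row p := ⟨_, rfl⟩
  rw [← hq] at hA hb hy ⊢
  have hP0 : 0 < P := by linarith
  have hρ0 : 0 < rtChRho P := by
    unfold rtChRho
    positivity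
  have hρ1 : rtChRho P ≤ 1 / 1000 := by
    unfold rtChRho
    rw [div_le_div_iff₀ (by positivity) (by norm_num)]
    nlinarith
  have hs1 : P * rtChRho P ≤ 1 / 1000 := by
    unfold rtChRho
    rw [mul_one_div, div_le_div_iff₀ (by positivity) (by norm_num)]
    nlinarith
  have hs0 : 0 ≤ P * rtChRho P := by positivity
  have hs2 : (P * rtChRho P) ^ 2 ≤ 1 / 1000000 := by nlinarith
  have hA' : rtSq q.A ≤ 36 / 1000000 := by
    have : (6 * P * rtChRho P) ^ 2 = 36 * (P * rtChRho P) ^ 2 := by ring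
    linarith
  have hb' : rtSq q.b ≤ 16 / 1000000 := by
    have : (4 * P * rtChRho P) ^ 2 = 16 * (P * rtChRho P) ^ 2 := by ring
    linarith
  have hθ2 : θ ^ 2 ≤ 64 := by
    have := abs_le.1 hθ
    nlinarith [this.1, this.2]
  have hA0 : 0 ≤ rtSq q.A := by
    unfold rtSq
    positivity
  refine ⟨?_, ?_, ?_⟩
  · show rtSq q.A ≤ 1
    linarith
  · show rtSq (q.b + θ • q.A) ≤ 1
    have e : rtSq (q.b + θ • q.A) ≤ 2 * rtSq q.b + 2 * (θ ^ 2 * rtSq q.A) := by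
      simp only [rtSq, Prod.fst_add, Prod.snd_add, Prod.smul_fst, Prod.smul_snd, smul_eq_mul]
      nlinarith [sq_nonneg (q.b.1 - θ * q.A.1), sq_nonneg (q.b.2 - θ * q.A.2)]
    have e2 : θ ^ 2 * rtSq q.A ≤ 64 * rtSq q.A := mul_le_mul_of_nonneg_right hθ2 hA0
    linarith
  · show |q.y + θ * rtSq q.A| ≤ 1
    have e1 : |θ * rtSq q.A| ≤ 8 * rtSq q.A := by
      rw [abs_mul, abs_of_nonneg hA0]
      exact mul_le_mul_of_nonneg_right hθ hA0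
    have := abs_add_le q.y (θ * rtSq q.A)
    linarith

/-- LEAF `L-256-RT-LF-LEN`.   Unfold `cyIn`; `l r² ≤ (l r)²` because `1 ≤ l`. -/
theorem rt_lf_len (Q : CyT) {l : ℝ} (hl : 1 ≤ l) (hr : 0 ≤ Q.r) (hf : 0 ≤ Q.f) {z : Cy5} (h : cyIn Q l z) :
    cyIn { Q with r := l * Q.r, f := l * Q.f } 1 z := by
  obtain ⟨h1, h2, h3, h4, h5⟩ := h
  refine ⟨?_, ?_, ?_, ?_, ?_⟩
  · show |z.X - Q.x| ≤ l * Q.r
    nlinarith
  · show |z.B - Q.b| ≤ 1 * (l * Q.r)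
    linarith
  · show |cyTilt Q z| ≤ 1 * (l * Q.r) ^ 2
    have : l * Q.r ^ 2 ≤ 1 * (l * Q.r) ^ 2 := by
      have h0 : 0 ≤ Q.r ^ 2 := sq_nonneg _
      nlinarith
    linarith
  · show |cyVel Q z| ≤ l * Q.f
    nlinarith
  · show |cyPos Q z| ≤ 1 * (l * Q.f)
    linarith

theorem rt_lf_stab_m2 {x y X Y : ℝ} (hx : |x| ≤ X) (hy : |y| ≤ Y) : |x * y| ≤ X * Y := by
  rw [abs_mul]
  exact mul_le_mul hx hy (abs_nonneg _) ((abs_nonneg _).trans hx)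

/-- LEAF `L-256-RT-LF-STAB` (stability of a cylinder test under comparison errors).
`|X'²-X²| ≤ 2W eb`, `|X'B'-XB| ≤ 2W eb`, so `|Δ cyVel| ≤ en + Λ eb (2 + 6W) ≤ en + 8ΛW eb`;   `|Δ cyPos| ≤ l (en + Λ eb (2 + 2W))`;
`|Δ cyTilt| ≤ l eb (1 + 2|x|)` and `|x| ≤ |X| + r ≤ W + r`. -/
theorem rt_lf_stab {Q : CyT} {l eb en Λ W r' f' : ℝ} {z z' : Cy5} (hl0 : 0 ≤ l) (hl : l ≤ 1) (heb : 0 ≤ eb) (hen : 0 ≤ en)
    (hΛ : 0 ≤ Λ) (hW : 1 ≤ W) (hr : 0 ≤ Q.r) (hsh : cySh Q Λ) (hz : cyBd W z) (hz' : cyBd W z') (hn : cyNear l eb en z z')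
    (hin : cyIn Q l z) (hr' : Q.r + eb ≤ r') (hr2 : Q.r ^ 2 + (1 + 2 * (W + Q.r)) * eb ≤ r' ^ 2)
    (hf' : Q.f + en + 8 * Λ * W * eb ≤ f') : cyIn { Q with r := r', f := f' } l z' := by
  obtain ⟨i1, i2, i3, i4, i5⟩ := hin
  obtain ⟨n1, n2, n3, n4, n5⟩ := hn
  obtain ⟨-, -, sal, sbe, sK⟩ := hsh
  obtain ⟨zX, zB, zY⟩ := hz
  obtain ⟨zX', zB', zY'⟩ := hz'
  have hleb : l * eb ≤ eb := by nlinarith
  have hleb0 : 0 ≤ l * eb := mul_nonneg hl0 heb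
  have hΛeb : 0 ≤ Λ * eb := mul_nonneg hΛ heb
  have hW0 : 0 ≤ W := by linarith
  have hΛWeb : Λ * eb ≤ Λ * W * eb := by nlinarith
  refine ⟨?_, ?_, ?_, ?_, ?_⟩
  · show |z'.X - Q.x| ≤ r'
    have e : z'.X - Q.x = (z'.X - z.X) + (z.X - Q.x) := by ring
    rw [e]
    exact (abs_add_le _ _).trans (by linarith)
  · show |z'.B - Q.b| ≤ l * r'
    have e : z'.B - Q.b = (z'.B - z.B) + (z.B - Q.b) := by ring
    rw [e]
    refine (abs_add_le _ _).trans ?_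
    have : l * (Q.r + eb) ≤ l * r' := mul_le_mul_of_nonneg_left hr' hl0
    linarith
  · show |cyTilt Q z'| ≤ l * r' ^ 2
    have hx : |Q.x| ≤ W + Q.r := by
      have e : Q.x = z.X + -(z.X - Q.x) := by ring
      rw [e]
      refine (abs_add_le _ _).trans ?_
      rw [abs_neg]
      linarith
    have e : cyTilt Q z' = cyTilt Q z + (z'.Y - z.Y) + -(2 * (Q.x * (z'.B - z.B))) := by
      unfold cyTilt
      ring
    have t1 := rt_lf_stab_m2 hx n2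
    rw [e]
    refine (abs_add_le _ _).trans ?_
    have t2 := abs_add_le (cyTilt Q z) (z'.Y - z.Y)
    rw [abs_neg, abs_mul, abs_two]
    have : l * (Q.r ^ 2 + (1 + 2 * (W + Q.r)) * eb) ≤ l * r' ^ 2 := mul_le_mul_of_nonneg_left hr2 hl0
    linarith
  · show |cyVel Q z'| ≤ f'
    have e : cyVel Q z' = cyVel Q z + (z'.N - z.N) - Q.al * (z'.X - z.X) - Q.be * ((z'.X - z.X) * (z'.X + z.X)) - Q.K * (z'.Y - z.Y)
        + 2 * (Q.K * (z'.X * (z'.B - z.B))) + 2 * (Q.K * ((z'.X - z.X) * z.B)) := by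
      unfold cyVel
      ring
    have hXX : |z'.X + z.X| ≤ 2 * W := (abs_add_le _ _).trans (by linarith)
    have t1 := abs_le.1 (rt_lf_stab_m2 sal n1)
    have t2 := abs_le.1 (rt_lf_stab_m2 sbe (rt_lf_stab_m2 n1 hXX))
    have t3 := abs_le.1 (rt_lf_stab_m2 sK n3)
    have t4 := abs_le.1 (rt_lf_stab_m2 sK (rt_lf_stab_m2 zX' n2))
    have t5 := abs_le.1 (rt_lf_stab_m2 sK (rt_lf_stab_m2 n1 zB))
    have u3 : Λ * (l * eb) ≤ Λ * eb := mul_le_mul_of_nonneg_left hleb hΛ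
    have u4 : Λ * (W * (l * eb)) ≤ Λ * W * eb := by
      have : W * (l * eb) ≤ W * eb := mul_le_mul_of_nonneg_left hleb hW0
      nlinarith
    have i4' := abs_le.1 i4
    have n4' := abs_le.1 n4
    rw [e, abs_le]
    constructor <;> linarith [t1.1, t1.2, t2.1, t2.2, t3.1, t3.2, t4.1, t4.2, t5.1, t5.2, i4'.1, i4'.2, n4'.1, n4'.2]
  · show |cyPos Q z'| ≤ l * f'
    have e : cyPos Q z' = cyPos Q z + (z'.D - z.D) - Q.al * (z'.B - z.B) - Q.be * (z'.Y - z.Y) + Q.K * ((z'.B - z.B) * (z'.B + z.B)) := by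
      unfold cyPos
      ring
    have hBB : |z'.B + z.B| ≤ 2 * W := (abs_add_le _ _).trans (by linarith)
    have t1 := abs_le.1 (rt_lf_stab_m2 sal n2)
    have t2 := abs_le.1 (rt_lf_stab_m2 sbe n3)
    have t3 := abs_le.1 (rt_lf_stab_m2 sK (rt_lf_stab_m2 n2 hBB))
    have i5' := abs_le.1 i5
    have n5' := abs_le.1 n5
    have hfin : l * (Q.f + en + 8 * Λ * W * eb) ≤ l * f' := mul_le_mul_of_nonneg_left hf' hl0
    have hl1 : l * (Λ * eb) ≤ l * (Λ * W * eb) := mul_le_mul_of_nonneg_left hΛWeb hl0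
    have hl2 : 0 ≤ l * (Λ * W * eb) := by positivity
    rw [e, abs_le]
    constructor <;> linarith [t1.1, t1.2, t2.1, t2.2, t3.1, t3.2, i5'.1, i5'.2, n5'.1, n5'.2]

theorem rt_lf_second_c1 {u : ℝ × ℝ} (h : rtSq u ≤ 1) : |u.1| ≤ 1 := by
  unfold rtSq at h
  rw [abs_le]
  constructor <;> nlinarith [sq_nonneg u.2, sq_nonneg (u.1 - 1), sq_nonneg (u.1 + 1)]

/-- LEAF `L-256-RT-LF-SECOND`.   `N = cyVel + c + α X + β X² + K (Y - 2XB)`, `|X|,|B|,|Y| ≤ 1`: `|N| ≤ f + 6Λ ≤ 7Λ`;   `D = cyPos + d + α B + β Y - K B²`: `|D| ≤ f + 4Λ ≤ 5Λ`;   `A₂ = fs N`, `b₂ = fs D`. -/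
theorem rt_lf_second {fs Λ : ℝ} {Q : CyT} {p : RtRow} (hfs : 0 < fs) (hΛ : 1 ≤ Λ) (hsh : cySh Q Λ) (hf : Q.f ≤ Λ)
    (hsm : rtLfSm p) (hin : cyIn Q 1 (rtFl fs p)) : |p.A.2| ≤ 7 * Λ * fs ∧ |p.b.2| ≤ 5 * Λ * fs := by
  obtain ⟨-, -, -, i4, i5⟩ := hin
  obtain ⟨sc, sd, sal, sbe, sK⟩ := hsh
  obtain ⟨mA, mb, my⟩ := hsm
  have hX := rt_lf_second_c1 mA
  have hB := rt_lf_second_c1 mb
  have eN : p.A.2 = fs * (cyVel Q (rtFl fs p) + Q.c + Q.al * p.A.1 + Q.be * (p.A.1 * p.A.1) + Q.K * p.y - 2 * (Q.K * (p.A.1 * p.b.1))) := by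
    simp only [cyVel, rtFl]
    field_simp
    ring
  have eD : p.b.2 = fs * (cyPos Q (rtFl fs p) + Q.d + Q.al * p.b.1 + Q.be * p.y - Q.K * (p.b.1 * p.b.1)) := by
    simp only [cyPos, rtFl]
    field_simp
    ring
  constructor
  · rw [eN, abs_mul, abs_of_pos hfs]
    have t1 := abs_le.1 (rt_lf_stab_m2 sal hX)
    have t2 := abs_le.1 (rt_lf_stab_m2 sbe (rt_lf_stab_m2 hX hX))
    have t3 := abs_le.1 (rt_lf_stab_m2 sK my)
    have t4 := abs_le.1 (rt_lf_stab_m2 sK (rt_lf_stab_m2 hX hB))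
    have i4' := abs_le.1 i4
    have sc' := abs_le.1 sc
    have : |cyVel Q (rtFl fs p) + Q.c + Q.al * p.A.1 + Q.be * (p.A.1 * p.A.1) + Q.K * p.y - 2 * (Q.K * (p.A.1 * p.b.1))| ≤ 7 * Λ := by
      rw [abs_le]
      constructor <;> linarith [t1.1, t1.2, t2.1, t2.2, t3.1, t3.2, t4.1, t4.2, i4'.1, i4'.2, sc'.1, sc'.2]
    calc fs * _ ≤ fs * (7 * Λ) := mul_le_mul_of_nonneg_left this hfs.le
      _ = 7 * Λ * fs := by ring
  · rw [eD, abs_mul, abs_of_pos hfs]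
    have t1 := abs_le.1 (rt_lf_stab_m2 sal hB)
    have t2 := abs_le.1 (rt_lf_stab_m2 sbe my)
    have t3 := abs_le.1 (rt_lf_stab_m2 sK (rt_lf_stab_m2 hB hB))
    have i5' := abs_le.1 i5
    have sd' := abs_le.1 sd
    have : |cyPos Q (rtFl fs p) + Q.d + Q.al * p.b.1 + Q.be * p.y - Q.K * (p.b.1 * p.b.1)| ≤ 5 * Λ := by
      rw [abs_le]
      constructor <;> linarith [t1.1, t1.2, t2.1, t2.2, t3.1, t3.2, i5'.1, i5'.2, sd'.1, sd'.2]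
    calc fs * _ ≤ fs * (5 * Λ) := mul_le_mul_of_nonneg_left this hfs.le
      _ = 5 * Λ * fs := by ring

/-- LEAF `L-256-RT-LF-SUB`.   `rt_lf_raw_F`, `rt_lf_raw_G`, SECOND: the extra terms are `≤ fs Λ (5Λfs)²` and `≤ fs Λ (2·35 + 49) Λ² fs²`. -/
theorem rt_lf_sub {fs Λ : ℝ} {Q : CyT} {p : RtRow} (hfs : 0 < fs) (hΛ : 1 ≤ Λ) (hsh : cySh Q Λ) (hf : Q.f ≤ Λ)
    (hsm : rtLfSm p) (hthin : 119 * fs ^ 2 * Λ ^ 3 ≤ Q.f) (hin : cyIn Q 1 (rtFl fs p)) :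
    |(rtLfRaw fs Q).F 0 p.b p.y| ≤ 2 * (fs * Q.f) ∧ |(rtLfRaw fs Q).G 0 p.b p.y p.A| ≤ 2 * (fs * Q.f) := by
  obtain ⟨hA2, hb2⟩ := rt_lf_second hfs hΛ hsh hf hsm hin
  obtain ⟨-, -, -, i4, i5⟩ := hin
  obtain ⟨-, -, -, sbe, sK⟩ := hsh
  have hth : fs * (119 * fs ^ 2 * Λ ^ 3) ≤ fs * Q.f := mul_le_mul_of_nonneg_left hthin hfs.le
  have hΛ0 : 0 < Λ := by linarith
  have h3 : 0 ≤ fs ^ 3 * Λ ^ 3 := by positivity
  constructor
  · rw [rt_lf_raw_F hfs.ne']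
    have t1 := abs_le.1 (rt_lf_stab_m2 sK (rt_lf_stab_m2 hb2 hb2))
    have i5' := abs_le.1 i5
    have e : fs * cyPos Q (rtFl fs p) + fs * Q.K * p.b.2 ^ 2 = fs * cyPos Q (rtFl fs p) + fs * (Q.K * (p.b.2 * p.b.2)) := by ring
    have u1 : fs * cyPos Q (rtFl fs p) ≤ fs * (1 * Q.f) := mul_le_mul_of_nonneg_left i5'.2 hfs.le
    have u2 : fs * -(1 * Q.f) ≤ fs * cyPos Q (rtFl fs p) := mul_le_mul_of_nonneg_left i5'.1 hfs.le
    have u3 : fs * (Q.K * (p.b.2 * p.b.2)) ≤ fs * (Λ * (5 * Λ * fs * (5 * Λ * fs))) := mul_le_mul_of_nonneg_left t1.2 hfs.le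
    have u4 : fs * -(Λ * (5 * Λ * fs * (5 * Λ * fs))) ≤ fs * (Q.K * (p.b.2 * p.b.2)) := mul_le_mul_of_nonneg_left t1.1 hfs.le
    rw [e, abs_le]
    constructor <;> nlinarith
  · rw [rt_lf_raw_G hfs.ne']
    have t1 := abs_le.1 (rt_lf_stab_m2 sK (rt_lf_stab_m2 hA2 hb2))
    have t2 := abs_le.1 (rt_lf_stab_m2 sbe (rt_lf_stab_m2 hA2 hA2))
    have i4' := abs_le.1 i4
    have e : fs * cyVel Q (rtFl fs p) + 2 * fs * Q.K * p.A.2 * p.b.2 - fs * Q.be * p.A.2 ^ 2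
        = fs * cyVel Q (rtFl fs p) + 2 * (fs * (Q.K * (p.A.2 * p.b.2))) - fs * (Q.be * (p.A.2 * p.A.2)) := by ring
    have u1 : fs * cyVel Q (rtFl fs p) ≤ fs * Q.f := mul_le_mul_of_nonneg_left i4'.2 hfs.le
    have u2 : fs * -Q.f ≤ fs * cyVel Q (rtFl fs p) := mul_le_mul_of_nonneg_left i4'.1 hfs.le
    have u3 := mul_le_mul_of_nonneg_left t1.2 hfs.le
    have u4 := mul_le_mul_of_nonneg_left t1.1 hfs.le
    have u5 := mul_le_mul_of_nonneg_left t2.2 hfs.le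
    have u6 := mul_le_mul_of_nonneg_left t2.1 hfs.le
    rw [e, abs_le]
    constructor <;> nlinarith

/-- LEAF `L-256-RT-LF-NORM`.   `rt_lf_raw_disc`: `|disc - 1| ≤ 9 fs² Λ² ≤ 1/2`; `a = 1/sqrt disc ∈ (0, 2]`, `a² disc = 1` (`rt_lf_sc_disc`); `rt_lf_sc_F`, `rt_lf_sc_G`;
coefficients: `a fs Λ ≤ 2 · (1/4)`, `|a α|² = a² (fs² α² + 1) ≤ 2 (1/18 + 1) ≤ 4`. -/
theorem rt_lf_norm {fs Λ : ℝ} {Q : CyT} (hfs : 0 ≤ fs) (hΛ : 0 ≤ Λ) (hsh : cySh Q Λ) (hthin : 18 * fs ^ 2 * Λ ^ 2 ≤ 1) :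
    (rtLfPol fs Q).disc = 1 ∧ (rtLfPol fs Q).Bd 2 ∧
      ∀ p : RtRow, |(rtLfPol fs Q).F 0 p.b p.y| ≤ 2 * |(rtLfRaw fs Q).F 0 p.b p.y| ∧
        |(rtLfPol fs Q).G 0 p.b p.y p.A| ≤ 2 * |(rtLfRaw fs Q).G 0 p.b p.y p.A| := by
  obtain ⟨sc, sd, sal, sbe, sK⟩ := hsh
  obtain ⟨Dc, hDc⟩ : ∃ Dc, Dc = (rtLfRaw fs Q).disc := ⟨_, rfl⟩
  have hfs2 : 0 ≤ fs ^ 2 := sq_nonneg _
  have t1 := abs_le.1 (rt_lf_stab_m2 sal sal)
  have t2 := abs_le.1 (rt_lf_stab_m2 sbe sc)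
  have t3 := abs_le.1 (rt_lf_stab_m2 sK sd)
  have hin : |Q.al ^ 2 - 4 * Q.be * Q.c + 4 * Q.K * Q.d| ≤ 9 * Λ ^ 2 := by
    rw [abs_le]
    constructor <;> nlinarith [t1.1, t1.2, t2.1, t2.2, t3.1, t3.2]
  have hD : |Dc - 1| ≤ 1 / 2 := by
    rw [hDc, rt_lf_raw_disc]
    have e : 1 + fs ^ 2 * (Q.al ^ 2 - 4 * Q.be * Q.c + 4 * Q.K * Q.d) - 1 = fs ^ 2 * (Q.al ^ 2 - 4 * Q.be * Q.c + 4 * Q.K * Q.d) := by ring
    rw [e, abs_mul, abs_of_nonneg hfs2]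
    have := mul_le_mul_of_nonneg_left hin hfs2
    nlinarith
  have hD' := abs_le.1 hD
  have hD0 : 0 < Dc := by linarith [hD'.1]
  obtain ⟨a, ha⟩ : ∃ a, a = (Real.sqrt Dc)⁻¹ := ⟨_, rfl⟩
  have hs0 : 0 < Real.sqrt Dc := Real.sqrt_pos.2 hD0
  have ha0 : 0 < a := by rw [ha]; positivity
  have ha2 : a ^ 2 * Dc = 1 := by
    rw [ha, inv_pow, Real.sq_sqrt hD0.le]
    field_simp
  have ha2le : a ^ 2 ≤ 2 := by nlinarith [hD'.1, sq_nonneg a]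
  have hale : a ≤ 2 := by nlinarith
  have hpol : rtLfPol fs Q = (rtLfRaw fs Q).sc a := by
    unfold rtLfPol
    rw [← hDc, ← ha]
  have hfΛ : fs * Λ ≤ 1 / 4 := by
    have h0 : 0 ≤ fs * Λ := mul_nonneg hfs hΛ
    nlinarith
  have hco : ∀ x : ℝ, |x| ≤ Λ → |a * -(fs * x)| ≤ 2 := by
    intro x hx
    rw [abs_mul, abs_neg, abs_mul, abs_of_pos ha0, abs_of_nonneg hfs]
    have h1 : fs * |x| ≤ fs * Λ := mul_le_mul_of_nonneg_left hx hfs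
    have h2 : 0 ≤ fs * |x| := mul_nonneg hfs (abs_nonneg _)
    nlinarith
  refine ⟨?_, ⟨?_, ?_, ?_, ?_, ?_⟩, ?_⟩
  · rw [hpol, rt_lf_sc_disc, ← hDc]
    exact ha2
  · rw [hpol]
    exact hco _ sd
  · rw [hpol]
    exact hco _ sc
  · rw [hpol]
    show rtSq (a • ((-(fs * Q.al), 1) : ℝ × ℝ)) ≤ 2 ^ 2
    simp only [rtSq, Prod.smul_fst, Prod.smul_snd, smul_eq_mul]
    have h1 : (fs * Q.al) ^ 2 ≤ 1 / 16 := by
      have h2 : |fs * Q.al| ≤ 1 / 4 := by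
        rw [abs_mul, abs_of_nonneg hfs]
        exact (mul_le_mul_of_nonneg_left sal hfs).trans hfΛ
      have := abs_le.1 h2
      nlinarith [this.1, this.2]
    have e : (a * -(fs * Q.al)) ^ 2 + (a * 1) ^ 2 = a ^ 2 * ((fs * Q.al) ^ 2 + 1) := by ring
    rw [e]
    nlinarith [sq_nonneg a, sq_nonneg (fs * Q.al)]
  · rw [hpol]
    exact hco _ sbe
  · rw [hpol]
    exact hco _ sK
  · intro p
    rw [hpol, rt_lf_sc_F, rt_lf_sc_G, abs_mul, abs_mul, abs_of_pos ha0]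
    exact ⟨mul_le_mul_of_nonneg_right hale (abs_nonneg _), mul_le_mul_of_nonneg_right hale (abs_nonneg _)⟩

/-- LEAF `L-256-RT-LF-BOX`.   First coordinates: `|ΔX|, |ΔB| ≤ 2R`; second coordinates `≤ 2e ≤ R`: `|ΔA|², |Δb|² ≤ 5R²`.
`Δy - 2 A_w·Δb = (tilt p - tilt w) - 2 (X_w - x) ΔB - 2 A_{w,2} Δb₂`, `≤ 2R² + 4R² + 4e² ≤ 7R²`. -/
theorem rt_lf_box {fs e : ℝ} {Q : CyT} {p w : RtRow} (hr : 0 < Q.r) (he : 0 ≤ e) (he2 : 2 * e ≤ Q.r)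
    (hp : cyIn Q 1 (rtFl fs p)) (hw : cyIn Q 1 (rtFl fs w)) (hpA : |p.A.2| ≤ e) (hpb : |p.b.2| ≤ e) (hwA : |w.A.2| ≤ e)
    (hwb : |w.b.2| ≤ e) : p ∈ rtBx w Q.r 7 := by
  obtain ⟨p1, p2, p3, -, -⟩ := hp
  obtain ⟨w1, w2, w3, -, -⟩ := hw
  have p1' : |p.A.1 - Q.x| ≤ Q.r := p1
  have w1' : |w.A.1 - Q.x| ≤ Q.r := w1
  have p2' : |p.b.1 - Q.b| ≤ 1 * Q.r := p2
  have w2' : |w.b.1 - Q.b| ≤ 1 * Q.r := w2
  have dX : |p.A.1 - w.A.1| ≤ 2 * Q.r := by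
    rw [abs_le] at p1' w1' ⊢
    constructor <;> linarith [p1'.1, p1'.2, w1'.1, w1'.2]
  have dB : |p.b.1 - w.b.1| ≤ 2 * Q.r := by
    rw [abs_le] at p2' w2' ⊢
    constructor <;> linarith [p2'.1, p2'.2, w2'.1, w2'.2]
  have dA2 : |p.A.2 - w.A.2| ≤ 2 * e := by
    rw [abs_le] at hpA hwA ⊢
    constructor <;> linarith [hpA.1, hpA.2, hwA.1, hwA.2]
  have db2 : |p.b.2 - w.b.2| ≤ 2 * e := by
    rw [abs_le] at hpb hwb ⊢
    constructor <;> linarith [hpb.1, hpb.2, hwb.1, hwb.2]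
  have sq_le : ∀ {x X : ℝ}, |x| ≤ X → x ^ 2 ≤ X ^ 2 := by
    intro x X h
    rw [← sq_abs x]
    exact pow_le_pow_left₀ (abs_nonneg _) h 2
  have he4 : (2 * e) ^ 2 ≤ Q.r ^ 2 := pow_le_pow_left₀ (by positivity) he2 2
  refine ⟨?_, ?_, ?_⟩
  · simp only [rtSq, Prod.fst_sub, Prod.snd_sub]
    have a1 := sq_le dB
    have a2 := sq_le db2
    nlinarith
  · have et : p.y - w.y - 2 * rtIp w.A (p.b - w.b) = cyTilt Q (rtFl fs p) - cyTilt Q (rtFl fs w) - 2 * ((w.A.1 - Q.x) * (p.b.1 - w.b.1))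
        - 2 * (w.A.2 * (p.b.2 - w.b.2)) := by
      simp only [cyTilt, rtFl, rtIp, Prod.fst_sub, Prod.snd_sub]
      ring
    have t1 := abs_le.1 (rt_lf_stab_m2 w1' dB)
    have t2 := abs_le.1 (rt_lf_stab_m2 hwA db2)
    have p3' := abs_le.1 p3
    have w3' := abs_le.1 w3
    rw [et, abs_le]
    constructor <;> nlinarith [t1.1, t1.2, t2.1, t2.2, p3'.1, p3'.2, w3'.1, w3'.2]
  · simp only [rtSq, Prod.fst_sub, Prod.snd_sub]
    have a1 := sq_le dX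
    have a2 := sq_le dA2
    nlinarith

theorem rt_lf_tr_ex_mono {Φ : RtCh} {S S' : Set RtRow} (h : Φ.Ex S) (hS : S' ⊆ S) : Φ.Ex S' :=
  ⟨fun p hp => h.den_ray p (hS hp), fun p hp => h.ray p (hS hp), h.two, h.pol, h.disc⟩

/-- LEAF `L-256-RT-LF-TR` (1/3).   `(rt_ch_tr_ex θ).comp h.ex` + the set `{p | p ∈ S ∧ _ ∈ univ}` is `S` (prove `Ex` is monotone in the set, or rebuild the five fields). -/
theorem rt_lf_tr_ex {P : ℝ} {n : RtPoly} {p₀ : RtRow} (h : RtChartOk P n p₀) (θ : ℝ) : (rtLfTr p₀ n θ).Ex (rtChartDom p₀ n) :=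
  rt_lf_tr_ex_mono ((rt_ch_tr_ex θ).comp h.ex) (fun _ hp => ⟨hp, Set.mem_univ _⟩)


theorem rt_lf_tr_fwd0 (θ : ℝ) (hθ : |θ| ≤ 8) (q : RtRow) : (rtChTr θ).Fwd q 3 11 1 := by
  intro t ht
  refine ⟨by simp [rtChTr], by simp [rtChTr], ?_⟩
  have : (rtChTr θ).tm q t = t - θ := by
    simp [rtChTr, RtCh.tm, RtCh.dn]
    ring
  rw [this]
  calc |t - θ| ≤ |t| + |θ| := abs_sub _ _
    _ ≤ 11 := by linarith

/-- LEAF `L-256-RT-LF-TR` (2/3).   `RtCh.Fwd.comp h.ex (h.dom p hp) (h.fwd p hp)` with `(rtChTr θ).Fwd _ 3 11 1` (`den = 1`, `tm = t - θ`). -/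
theorem rt_lf_tr_fwd {P : ℝ} {n : RtPoly} {p₀ : RtRow} (h : RtChartOk P n p₀) {p : RtRow} (hp : p ∈ rtBx p₀ 1 (rtChRho P))
    {θ : ℝ} (hθ : |θ| ≤ 8) : (rtLfTr p₀ n θ).Fwd p 2 11 2 := by
  have := RtCh.Fwd.comp (Φ := rtChTr θ) h.ex (h.dom p hp) (h.fwd p hp) (rt_lf_tr_fwd0 θ hθ _)
  rwa [one_mul] at this


/-- LEAF `L-256-RT-LF-TR` (3/3).   `n₀ = (rtChTr (-θ)).pol n' = (c - dθ, d, α, β - kθ, k)` has `Bd (9B)` and `(rtChTr θ).pol n₀ = n'`; `m` from `rt_lf_surj h n₀`; `h.pol_bd_inv m (9B)`; `disc` by `(rt_lf_tr_ex h θ).disc`. -/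
theorem rt_lf_tr_surj {P : ℝ} {n : RtPoly} {p₀ : RtRow} (h : RtChartOk P n p₀) {θ : ℝ} (hθ : |θ| ≤ 8) (n' : RtPoly) {B : ℝ}
    (hB : 0 ≤ B) (hn' : n'.Bd B) : ∃ m : RtPoly, (rtLfTr p₀ n θ).pol m = n' ∧ m.disc = n'.disc ∧ m.Bd (2700 * P ^ 6 * B) := by
  obtain ⟨m, hm⟩ := rt_lf_surj h ((rtChTr (-θ)).pol n')
  have e : (rtLfTr p₀ n θ).pol m = n' := by
    show (rtChTr θ).pol ((rtChart p₀ n).pol m) = n'
    rw [hm]
    ext <;> simp [rtChTr]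
  refine ⟨m, e, ?_, ?_⟩
  · rw [← e]
    exact ((rt_lf_tr_ex h θ).disc m).symm
  · have hb : ((rtChart p₀ n).pol m).Bd (9 * B) := by
      rw [hm]
      obtain ⟨a1, a2, a3, a4, a5⟩ := hn'
      have k : ∀ x y : ℝ, |x| ≤ B → |y| ≤ B → |x + y * -θ| ≤ 9 * B := by
        intro x y hx hy
        calc |x + y * -θ| ≤ |x| + |y * -θ| := abs_add_le _ _
          _ = |x| + |y| * |θ| := by rw [abs_mul, abs_neg]
          _ ≤ B + B * 8 := add_le_add hx (mul_le_mul hy hθ (abs_nonneg _) hB)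
          _ = 9 * B := by ring
      refine ⟨k _ _ a1 a2, a2.trans (by linarith), a3.trans (pow_le_pow_left₀ hB (by linarith) 2), k _ _ a4 a5,
        a5.trans (by linarith)⟩
    have := h.pol_bd_inv m (9 * B) (by positivity) hb
    have e2 : 300 * P ^ 6 * (9 * B) = 2700 * P ^ 6 * B := by ring
    rwa [e2] at this


theorem rt_lf_cover_sq_smul (a : ℝ) (u : ℝ × ℝ) : rtSq (a • u) = a ^ 2 * rtSq u := by
  simp only [rtSq, Prod.smul_fst, Prod.smul_snd, smul_eq_mul]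
  ring

/-- LEAF `L-256-RT-LF-COVER` (chart free; 07 l.916-922).   Rows in a box of width `R` about a witness `w`, on which a discriminant-one polynomial and its null derivative are `≤ M φ`.
`τ₀ = ⟨1, 1, φ/R, 0, 0, 0, m⟩` (so `τ₀.x p = p.b`, `τ₀.z p = p.y`, `τ₀.V p = p.A`), `τ = τ₀.g1re w R (φ/R)` (`Rt/G1Frame.lean`, `Rt/G1Main.lean`: `rt_g1_re_adm`, `rt_g1_re_Fv`, `rt_g1_re_Gv`, `rt_g1_sub_x/_z/_V`).
`τ.Adm (M²)`: `|F(w)|, |G(w)| ≤ M φ ≤ 100 M² R`; `|g(w)|² = 1 + 4βG - 4kF ≤ 1 + 8 M² φ ≤ (100 M²)²` (`rt_disc_identity`); `R|β|, R|k| ≤ M²`.   `S ⊆ τ.set (M²)`.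
`rt_G1` at `M²`: `RtCover (τ.set (M²)) 1 (R · φ/R) η ((M²)^C₁ R⁴ (φ/R)^(1-η))`; `C = 2 C₁`. -/
theorem rt_lf_cover (η : ℝ) (h0 : 0 < η) (h1 : η < 1) :
    ∃ C : ℝ, 0 < C ∧ ∀ (M R φ : ℝ) (m : RtPoly) (w : RtRow) (S : Set RtRow), 2 ≤ M → 0 < R → R ≤ M → 0 < φ → φ ≤ R →
      m.disc = 1 → m.Bd M → w ∈ S →
      (∀ p ∈ S, p ∈ rtBx w R M ∧ |m.F 0 p.b p.y| ≤ M * φ ∧ |m.G 0 p.b p.y p.A| ≤ M * φ) →
      RtCover S 1 φ η (M ^ C * (R ^ 4 * (φ / R) ^ (1 - η))) := by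
  obtain ⟨C₁, hC₁, hG1⟩ := rt_G1 η h0 h1
  refine ⟨2 * C₁, by positivity, ?_⟩
  intro M R φ m w S hM hR0 hR hφ0 hφ hd hb hw hS
  have hM0 : 0 < M := by linarith
  have hM1 : 1 ≤ M := by linarith
  have hMM : M ≤ M ^ 2 := by nlinarith
  obtain ⟨τ₀, hτ₀⟩ : ∃ τ₀ : RtTest, τ₀ = ⟨1, 1, φ / R, 0, 0, 0, m⟩ := ⟨_, rfl⟩
  have x0 : ∀ p, τ₀.x p = p.b := by
    intro p
    rw [hτ₀]
    simp [RtTest.x]
  have z0 : ∀ p, τ₀.z p = p.y := by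
    intro p
    rw [hτ₀]
    simp [RtTest.z, rtIp]
  have V0 : ∀ p, τ₀.V p = p.A := by
    intro p
    rw [hτ₀]
    simp [RtTest.V]
  have hn : τ₀.n = m := by rw [hτ₀]
  have hl : τ₀.l = 1 := by rw [hτ₀]
  have hr : τ₀.r = 1 := by rw [hτ₀]
  have F0 : ∀ p, τ₀.Fv p = m.F 0 p.b p.y := by
    intro p
    rw [RtTest.Fv, x0, z0, hn]
  have G0 : ∀ p, τ₀.Gv p = m.G 0 p.b p.y p.A := by
    intro p
    rw [RtTest.Gv, x0, z0, V0, hn]
  have hf0 : 0 < φ / R := div_pos hφ0 hR0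
  have hf1 : φ / R ≤ 1 := (div_le_one hR0).2 hφ
  obtain ⟨-, wF, wG⟩ := hS w hw
  have hMφ : M * φ ≤ 100 * M ^ 2 * R := by
    calc M * φ ≤ M ^ 2 * R := mul_le_mul hMM hφ hφ0.le (by positivity)
      _ ≤ 100 * M ^ 2 * R := by nlinarith [mul_pos (pow_pos hM0 2) hR0]
  obtain ⟨b1, b2, b3, b4, b5⟩ := hb
  have hadm : (τ₀.g1re w R (φ / R)).Adm (M ^ 2) := by
    refine rt_g1_re_adm τ₀ (by rw [hl]; norm_num) (by rw [hr]; norm_num) (by rw [hn]; exact hd) w hR0 hf0 hf1 ?_ ?_ ?_ ?_ ?_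
    · rw [F0]; exact wF.trans hMφ
    · rw [G0]; exact wG.trans hMφ
    · rw [x0, V0, hn, rt_disc_identity m 0 w.b w.y w.A, hd]
      have e1 : |4 * (m.be + m.k * 0) * m.G 0 w.b w.y w.A| ≤ 4 * M * (M * φ) := by
        rw [mul_zero, add_zero, abs_mul, abs_mul, abs_of_pos (by norm_num : (0 : ℝ) < 4)]
        exact mul_le_mul (by linarith) wG (abs_nonneg _) (by positivity)
      have e2 : |4 * m.k * m.F 0 w.b w.y| ≤ 4 * M * (M * φ) := by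
        rw [abs_mul, abs_mul, abs_of_pos (by norm_num : (0 : ℝ) < 4)]
        exact mul_le_mul (by linarith) wF (abs_nonneg _) (by positivity)
      have e3 : M * (M * φ) ≤ M ^ 4 := by
        calc M * (M * φ) ≤ M * (M * M) := by
              refine mul_le_mul_of_nonneg_left (mul_le_mul_of_nonneg_left (hφ.trans hR) hM0.le) hM0.le
          _ = M ^ 3 * 1 := by ring
          _ ≤ M ^ 3 * M := mul_le_mul_of_nonneg_left hM1 (by positivity)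
          _ = M ^ 4 := by ring
      have e4 : (1 : ℝ) ≤ M ^ 4 := one_le_pow₀ hM1
      have := (abs_le.1 e1).2
      have := (abs_le.1 e2).1
      nlinarith
    · rw [hn, abs_mul, abs_of_pos hR0]
      calc R * |m.be| ≤ M * M := mul_le_mul hR b4 (abs_nonneg _) hM0.le
        _ ≤ 100 * M ^ 2 := by nlinarith
    · rw [hn, abs_mul, abs_of_pos hR0]
      calc R * |m.k| ≤ M * M := mul_le_mul hR b5 (abs_nonneg _) hM0.le
        _ ≤ 100 * M ^ 2 := by nlinarith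
  have hl0 : τ₀.l ≠ 0 := by rw [hl]; norm_num
  have hr0 : τ₀.r ≠ 0 := by rw [hr]; norm_num
  have hsq : M ^ 2 ≤ (M ^ 2) ^ 2 := by nlinarith [one_le_pow₀ hM1 (n := 2)]
  have hsub : S ⊆ (τ₀.g1re w R (φ / R)).set (M ^ 2) := by
    intro p hp
    obtain ⟨⟨c1, c2, c3⟩, pF, pG⟩ := hS p hp
    have hR2 : 0 < R ^ 2 := by positivity
    refine ⟨⟨?_, ?_, ?_⟩, ?_, ?_⟩
    · show rtSq ((τ₀.g1sub w R (φ / R) _).x p) ≤ _
      rw [rt_g1_sub_x, x0, x0, rt_lf_cover_sq_smul]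
      calc R⁻¹ ^ 2 * rtSq (p.b - w.b) ≤ R⁻¹ ^ 2 * (M * R) ^ 2 := mul_le_mul_of_nonneg_left c1 (by positivity)
        _ = M ^ 2 := by field_simp
        _ ≤ _ := hsq
    · show |(τ₀.g1sub w R (φ / R) _).z p| ≤ _
      rw [rt_g1_sub_z τ₀ hl0 hr0, z0, z0, V0, x0, x0, abs_div, abs_of_pos hR2, div_le_iff₀ hR2]
      exact c2.trans (mul_le_mul_of_nonneg_right hMM hR2.le)
    · show rtSq ((τ₀.g1sub w R (φ / R) _).V p) ≤ _
      rw [rt_g1_sub_V, V0, V0, rt_lf_cover_sq_smul]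
      calc R⁻¹ ^ 2 * rtSq (p.A - w.A) ≤ R⁻¹ ^ 2 * (M * R) ^ 2 := mul_le_mul_of_nonneg_left c3 (by positivity)
        _ = M ^ 2 := by field_simp
        _ ≤ _ := hsq
    · rw [rt_g1_re_Fv τ₀ hl0 hr0 w p hR0.ne', F0, abs_div, abs_of_pos hR0, div_le_iff₀ hR0]
      show _ ≤ M ^ 2 * (φ / R) * R
      have : M ^ 2 * (φ / R) * R = M ^ 2 * φ := by field_simp
      rw [this]
      exact pF.trans (mul_le_mul_of_nonneg_right hMM hφ0.le)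
    · rw [rt_g1_re_Gv τ₀ hl0 hr0 w p hR0.ne', G0, abs_div, abs_of_pos hR0, div_le_iff₀ hR0]
      show _ ≤ M ^ 2 * (φ / R) * R
      have : M ^ 2 * (φ / R) * R = M ^ 2 * φ := by field_simp
      rw [this]
      exact pG.trans (mul_le_mul_of_nonneg_right hMM hφ0.le)
  have key := hG1 (M ^ 2) (τ₀.g1re w R (φ / R)) (by nlinarith) hadm
  have el : (τ₀.g1re w R (φ / R)).l = 1 := hl
  have eu : (τ₀.g1re w R (φ / R)).unc = φ := by
    show R * τ₀.r * (φ / R) = φ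
    rw [hr]
    field_simp
  have ew : (τ₀.g1re w R (φ / R)).w η = R ^ 4 * (φ / R) ^ (1 - η) := by
    show (R * τ₀.r) ^ 4 * (φ / R) ^ (1 - η) = _
    rw [hr, mul_one]
  have eM : (M ^ 2) ^ C₁ = M ^ (2 * C₁) := by
    rw [← Real.rpow_natCast, ← Real.rpow_mul hM0.le]
    norm_num
  rw [el, eu, ew, eM] at key
  exact key.mono hsub le_rfl le_rfl


/-- the pull back of a test of length `1` by a parent frame -/
def rtLfPb (l r : ℝ) (c : RtRow) (σ : RtTest) : RtTest :=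
  ⟨l, r * σ.r, σ.f, c.A + r • σ.As, c.b + (l * r) • σ.bs, c.y + l * r ^ 2 * σ.ys + 2 * rtIp c.A ((l * r) • σ.bs), σ.n⟩

theorem rt_lf_frame_eqns_cite : True := by
  have := @rtLfPb.eq_1
  trivial

theorem rt_lf_frame_x {l r : ℝ} (hl : l ≠ 0) (hr : r ≠ 0) (c : RtRow) (σ : RtTest) (h1 : σ.l = 1) (p : RtRow) :
    (rtLfPb l r c σ).x p = σ.x (rtLfNrm l r c p) := by
  ext <;>
  · simp only [RtTest.x, rtLfPb, rtLfNrm, h1, Prod.smul_fst, Prod.smul_snd, Prod.fst_sub, Prod.snd_sub, Prod.fst_add,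
      Prod.snd_add, smul_eq_mul, mul_inv, one_mul]
    field_simp
    ring

theorem rt_lf_frame_V {l r : ℝ} (hr : r ≠ 0) (c : RtRow) (σ : RtTest) (p : RtRow) :
    (rtLfPb l r c σ).V p = σ.V (rtLfNrm l r c p) := by
  ext <;>
  · simp only [RtTest.V, rtLfPb, rtLfNrm, Prod.smul_fst, Prod.smul_snd, Prod.fst_sub, Prod.snd_sub, Prod.fst_add,
      Prod.snd_add, smul_eq_mul, mul_inv]
    field_simp
    ring

theorem rt_lf_frame_z {l r : ℝ} (hl : l ≠ 0) (hr : r ≠ 0) (c : RtRow) (σ : RtTest) (h1 : σ.l = 1) (hσ : σ.r ≠ 0) (p : RtRow) :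
    (rtLfPb l r c σ).z p = σ.z (rtLfNrm l r c p) := by
  simp only [RtTest.z, rtLfPb, rtLfNrm, h1, rtIp, Prod.smul_fst, Prod.smul_snd, Prod.fst_sub, Prod.snd_sub, Prod.fst_add,
    Prod.snd_add, smul_eq_mul, one_mul]
  field_simp
  ring

theorem rt_lf_frame_set {l r : ℝ} (hl : l ≠ 0) (hr : r ≠ 0) (c : RtRow) (σ : RtTest) (h1 : σ.l = 1) (hσ : σ.r ≠ 0) (p : RtRow)
    (hp : rtLfNrm l r c p ∈ σ.set 1) : p ∈ (rtLfPb l r c σ).set 1 := by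
  obtain ⟨⟨a1, a2, a3⟩, a4, a5⟩ := hp
  have ex := rt_lf_frame_x hl hr c σ h1 p
  have eV := rt_lf_frame_V (l := l) hr c σ p
  have ez := rt_lf_frame_z hl hr c σ h1 hσ p
  refine ⟨⟨?_, ?_, ?_⟩, ?_, ?_⟩
  · rw [ex]; exact a1
  · rw [ez]; exact a2
  · rw [eV]; exact a3
  · rw [RtTest.Fv, ex, ez]; exact a4
  · rw [RtTest.Gv, ex, ez, eV]; exact a5

/-- LEAF `L-256-RT-LF-FRAME` (parabolic covariance of coverings).   A test `σ` of length `1` in normalised rows pulls back to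
`⟨l, r σ.r, σ.f, c.A + r σ.As, c.b + (l r) σ.bs, c.y + l r² σ.ys + 2 c.A·((l r) σ.bs), σ.n⟩`, with THE SAME normalised coordinates `x, z, V` (field_simp, ring), hence the same `set 1`; weight `r⁴ σ.w`, uncertainty `r σ.unc`. -/
theorem rt_lf_cover_frame {S : Set RtRow} {u η W l r : ℝ} (hl : 0 < l) (hr : 0 < r) (c : RtRow) (h : RtCover S 1 u η W) :
    RtCover {p | rtLfNrm l r c p ∈ S} l (r * u) η (r ^ 4 * W) := by
  obtain ⟨m, σ, h1, h2, h3⟩ := h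
  refine ⟨m, fun i => rtLfPb l r c (σ i), ?_, ?_, ?_⟩
  · intro i
    obtain ⟨a, b, d⟩ := h1 i
    refine ⟨⟨hl, mul_pos hr a.r_pos, a.f_pos, a.f_le, a.disc, a.bd⟩, rfl, ?_⟩
    show r * u ≤ r * (σ i).r * (σ i).f
    rw [mul_assoc]
    exact mul_le_mul_of_nonneg_left d hr.le
  · intro p hp
    obtain ⟨i, hi⟩ := Set.mem_iUnion.1 (h2 hp)
    exact Set.mem_iUnion.2 ⟨i, rt_lf_frame_set hl.ne' hr.ne' c (σ i) (h1 i).2.1 (h1 i).1.r_pos.ne' p hi⟩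
  · have e : ∀ i, (rtLfPb l r c (σ i)).w η = r ^ 4 * (σ i).w η := by
      intro i
      show (r * (σ i).r) ^ 4 * (σ i).f ^ (1 - η) = r ^ 4 * ((σ i).r ^ 4 * (σ i).f ^ (1 - η))
      ring
    simp only [e]
    rw [← Finset.mul_sum]
    exact mul_le_mul_of_nonneg_left h3 (by positivity)

/-! ## Assembly (proved) -/

theorem rt_lf_bd_mono {n : RtPoly} {B B' : ℝ} (hB : 0 ≤ B) (h : B ≤ B') (hn : n.Bd B) : n.Bd B' :=
  ⟨hn.1.trans h, hn.2.1.trans h, hn.2.2.1.trans (pow_le_pow_left₀ hB h 2), hn.2.2.2.1.trans h, hn.2.2.2.2.trans h⟩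

theorem rt_lf_bx_mono {w p : RtRow} {R M M' : ℝ} (hR : 0 ≤ R) (hM : 0 ≤ M) (h : M ≤ M') (hp : p ∈ rtBx w R M) : p ∈ rtBx w R M' := by
  have h1 : (M * R) ^ 2 ≤ (M' * R) ^ 2 := pow_le_pow_left₀ (by positivity) (mul_le_mul_of_nonneg_right h hR) 2
  exact ⟨hp.1.trans h1, hp.2.1.trans (mul_le_mul_of_nonneg_right h (by positivity)), hp.2.2.trans h1⟩

/-- the numerical consequences of thinness -/
theorem rt_lf_num {M Λ fs R F : ℝ} (hM : 2 ≤ M) (hΛ : M ≤ Λ) (hfs : 0 < fs) (hR0 : 0 < R) (hR : R ≤ M) (hF0 : 0 < F) (hF : F ≤ M)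
    (hthin : fs * Λ ^ 40 ≤ R ^ 2 * F) :
    119 * fs ^ 2 * Λ ^ 3 ≤ F ∧ 18 * fs ^ 2 * Λ ^ 2 ≤ 1 ∧ 2 * (7 * Λ * fs) ≤ R ∧ fs * F ≤ R := by
  have hΛ2 : 2 ≤ Λ := hM.trans hΛ
  have hΛ0 : 0 < Λ := by linarith
  have hRΛ : R ≤ Λ := hR.trans hΛ
  have hFΛ : F ≤ Λ := hF.trans hΛ
  have a1 : fs * Λ ^ 38 ≤ F := by
    have : fs * Λ ^ 40 ≤ Λ ^ 2 * F := hthin.trans (mul_le_mul_of_nonneg_right (pow_le_pow_left₀ hR0.le hRΛ 2) hF0.le)
    have e : fs * Λ ^ 40 = Λ ^ 2 * (fs * Λ ^ 38) := by ring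
    rw [e] at this
    exact le_of_mul_le_mul_left this (by positivity)
  have a2 : fs * Λ ^ 38 ≤ R := by
    have : fs * Λ ^ 40 ≤ Λ ^ 2 * R := by
      calc fs * Λ ^ 40 ≤ R ^ 2 * F := hthin
        _ = R * F * R := by ring
        _ ≤ Λ * Λ * R := mul_le_mul_of_nonneg_right (mul_le_mul hRΛ hFΛ hF0.le hΛ0.le) hR0.le
        _ = Λ ^ 2 * R := by ring
    have e : fs * Λ ^ 40 = Λ ^ 2 * (fs * Λ ^ 38) := by ring
    rw [e] at this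
    exact le_of_mul_le_mul_left this (by positivity)
  have a3 : fs * Λ ^ 37 ≤ 1 := by
    have : Λ * (fs * Λ ^ 37) ≤ Λ * 1 := by
      calc Λ * (fs * Λ ^ 37) = fs * Λ ^ 38 := by ring
        _ ≤ R := a2
        _ ≤ Λ * 1 := by linarith
    exact le_of_mul_le_mul_left this hΛ0
  have p1 : ∀ k : ℕ, (1 : ℝ) ≤ Λ ^ k := fun k => one_le_pow₀ (by linarith)
  have p7 : (128 : ℝ) ≤ Λ ^ 7 := by
    calc (128 : ℝ) = 2 ^ 7 := by norm_num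
      _ ≤ Λ ^ 7 := pow_le_pow_left₀ (by norm_num) hΛ2 7
  have hfs1 : fs ≤ 1 := by
    calc fs = fs * 1 := by ring
      _ ≤ fs * Λ ^ 37 := mul_le_mul_of_nonneg_left (p1 37) hfs.le
      _ ≤ 1 := a3
  refine ⟨?_, ?_, ?_, ?_⟩
  · calc 119 * fs ^ 2 * Λ ^ 3 = fs * (fs * (119 * Λ ^ 3)) := by ring
      _ ≤ 1 * (fs * (Λ ^ 7 * Λ ^ 3 * Λ ^ 28)) := by
          refine mul_le_mul hfs1 (mul_le_mul_of_nonneg_left ?_ hfs.le) (by positivity) (by norm_num)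
          calc 119 * Λ ^ 3 ≤ Λ ^ 7 * Λ ^ 3 := mul_le_mul_of_nonneg_right (by linarith) (by positivity)
            _ = Λ ^ 7 * Λ ^ 3 * 1 := by ring
            _ ≤ Λ ^ 7 * Λ ^ 3 * Λ ^ 28 := mul_le_mul_of_nonneg_left (p1 28) (by positivity)
      _ = fs * Λ ^ 38 := by ring
      _ ≤ F := a1
  · calc 18 * fs ^ 2 * Λ ^ 2 = fs * (fs * (18 * Λ ^ 2)) := by ring
      _ ≤ 1 * (fs * (Λ ^ 7 * Λ ^ 2 * Λ ^ 28)) := by
          refine mul_le_mul hfs1 (mul_le_mul_of_nonneg_left ?_ hfs.le) (by positivity) (by norm_num)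
          calc 18 * Λ ^ 2 ≤ Λ ^ 7 * Λ ^ 2 := mul_le_mul_of_nonneg_right (by linarith) (by positivity)
            _ = Λ ^ 7 * Λ ^ 2 * 1 := by ring
            _ ≤ Λ ^ 7 * Λ ^ 2 * Λ ^ 28 := mul_le_mul_of_nonneg_left (p1 28) (by positivity)
      _ = fs * Λ ^ 37 := by ring
      _ ≤ 1 := a3
  · calc 2 * (7 * Λ * fs) = fs * (14 * Λ) := by ring
      _ ≤ fs * (Λ ^ 7 * Λ * Λ ^ 30) := by
          refine mul_le_mul_of_nonneg_left ?_ hfs.le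
          calc 14 * Λ ≤ Λ ^ 7 * Λ := mul_le_mul_of_nonneg_right (by linarith) hΛ0.le
            _ = Λ ^ 7 * Λ * 1 := by ring
            _ ≤ Λ ^ 7 * Λ * Λ ^ 30 := mul_le_mul_of_nonneg_left (p1 30) (by positivity)
      _ = fs * Λ ^ 38 := by ring
      _ ≤ R := a2
  · calc fs * F ≤ fs * (Λ * Λ ^ 37) := by
          refine mul_le_mul_of_nonneg_left ?_ hfs.le
          calc F ≤ Λ := hFΛ
            _ = Λ * 1 := by ring
            _ ≤ Λ * Λ ^ 37 := mul_le_mul_of_nonneg_left (p1 37) hΛ0.le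
      _ = fs * Λ ^ 38 := by ring
      _ ≤ R := a2

/-- the weight of the lifted test is the cylinder weight -/
theorem rt_lf_weight {η fs R F : ℝ} (hfs : 0 < fs) (hR : 0 < R) (hF : 0 < F) :
    R ^ 4 * (fs * F / R) ^ (1 - η) = fs ^ (1 - η) * (R ^ (3 + η) * F ^ (1 - η)) := by
  rw [Real.div_rpow (by positivity) hR.le, Real.mul_rpow hfs.le hF.le]
  have e : R ^ 4 = R ^ (3 + η) * R ^ (1 - η) := by
    rw [← Real.rpow_add hR, ← Real.rpow_natCast]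
    congr 1
    push_cast
    ring
  rw [e]
  have : R ^ (1 - η) ≠ 0 := (Real.rpow_pos_of_pos hR _).ne'
  field_simp

/-- everything about one row of `rtLfIn`, relative to a witness -/
theorem rt_lf_row {M Λ P fs θ : ℝ} {n : RtPoly} {p₀ : RtRow} {Q : CyT} (hM : 2 ≤ M) (hΛ : M ≤ Λ) (hP : 1 ≤ P)
    (h : RtChartOk P n p₀) (hθ : |θ| ≤ 8) (hfs : 0 < fs) (hR0 : 0 < Q.r) (hR : Q.r ≤ M) (hF0 : 0 < Q.f) (hF : Q.f ≤ M)
    (hsh : cySh Q Λ) (hthin : fs * Λ ^ 40 ≤ Q.r ^ 2 * Q.f) {m : RtPoly} (hm : (rtLfTr p₀ n θ).pol m = rtLfPol fs Q)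
    {p w : RtRow} (hp : p ∈ rtLfIn P fs θ n p₀ Q) (hw : w ∈ rtLfIn P fs θ n p₀ Q) :
    p ∈ rtBx w Q.r 66248 ∧ |m.F 0 p.b p.y| ≤ 192 * (fs * Q.f) ∧ |m.G 0 p.b p.y p.A| ≤ 192 * (fs * Q.f) := by
  obtain ⟨n1, n2, n3, n4⟩ := rt_lf_num hM hΛ hfs hR0 hR hF0 hF hthin
  have hΛ1 : 1 ≤ Λ := by linarith
  have hFΛ : Q.f ≤ Λ := hF.trans hΛ
  have sp := rt_lf_img hP h hp.1 hθ
  have sw := rt_lf_img hP h hw.1 hθ
  have cp := rt_lf_second hfs hΛ1 hsh hFΛ sp hp.2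
  have cw := rt_lf_second hfs hΛ1 hsh hFΛ sw hw.2
  have hΛfs : 0 ≤ Λ * fs := by positivity
  have hbox := rt_lf_box (e := 7 * Λ * fs) hR0 (by positivity) n3 hp.2 hw.2 cp.1 (cp.2.trans (by linarith)) cw.1
    (cw.2.trans (by linarith))
  have hex := rt_lf_tr_ex h θ
  have fp := rt_lf_tr_fwd h hp.1 hθ
  have fw := rt_lf_tr_fwd h hw.1 hθ
  have b1 := rt_ch_box_inv hex (h.dom p hp.1) (h.dom w hw.1) (by norm_num : (1 : ℝ) ≤ 2) (by norm_num : (1 : ℝ) ≤ 2)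
    (by norm_num : (1 : ℝ) ≤ 7) hR0.le fp fw hbox
  have e : 2 * ((2 : ℝ) * ((11 + 2) * 7)) ^ 2 = 66248 := by norm_num
  rw [e] at b1
  have s1 := rt_lf_sub hfs hΛ1 hsh hFΛ sp n1 hp.2
  obtain ⟨-, -, s2⟩ := rt_lf_norm hfs.le (by linarith) hsh n2
  have s3 := s2 (((rtChart p₀ n).row p).flow θ)
  have s4 := rt_ch_sub_inv hex (h.dom p hp.1) (by norm_num : (1 : ℝ) ≤ 2) fp m
  rw [hm] at s4
  have r1 : (rtLfTr p₀ n θ).row p = ((rtChart p₀ n).row p).flow θ := rfl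
  rw [r1] at s4
  have hφ : 0 ≤ fs * Q.f := by positivity
  refine ⟨b1, ?_, ?_⟩
  · linarith [s4.1, s3.1, s3.2, s1.1, s1.2]
  · linarith [s4.2, s3.1, s3.2, s1.1, s1.2]

/-- **(lift)**, exact rows -/
theorem rt_lift (η : ℝ) (h0 : 0 < η) (h1 : η < 1) :
    ∃ C : ℝ, 0 < C ∧ ∀ (M Λ P fs θ : ℝ) (n : RtPoly) (p₀ : RtRow) (Q : CyT), 2 ≤ M → M ≤ Λ → 1 ≤ P → P ≤ M →
      RtChartOk P n p₀ → |θ| ≤ 8 → 0 < fs → 0 < Q.r → Q.r ≤ M → 0 < Q.f → Q.f ≤ M → cySh Q Λ →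
      fs * Λ ^ 40 ≤ Q.r ^ 2 * Q.f →
      RtCover (rtLfIn P fs θ n p₀ Q) 1 (fs * Q.f) η (M ^ C * (fs ^ (1 - η) * cyWt η Q)) := by
  obtain ⟨C₁, hC₁, hcov⟩ := rt_lf_cover η h0 h1
  refine ⟨22 * C₁, by positivity, ?_⟩
  intro M Λ P fs θ n p₀ Q hM hΛ hP hPM h hθ hfs hR0 hR hF0 hF hsh hthin
  have hM0 : 0 < M := by linarith
  have hM1 : 1 ≤ M := by linarith
  by_cases hne : (rtLfIn P fs θ n p₀ Q).Nonempty
  swap
  · rw [Set.not_nonempty_iff_eq_empty] at hne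
    rw [hne]
    refine (RtCover.empty 1 (fs * Q.f) η).mono le_rfl le_rfl ?_
    unfold cyWt
    positivity
  obtain ⟨w, hw⟩ := hne
  obtain ⟨n1, n2, n3, n4⟩ := rt_lf_num hM hΛ hfs hR0 hR hF0 hF hthin
  obtain ⟨d1, d2, -⟩ := rt_lf_norm hfs.le (by linarith : (0 : ℝ) ≤ Λ) hsh n2
  obtain ⟨m, hm, hmd, hmb⟩ := rt_lf_tr_surj h hθ (rtLfPol fs Q) (by norm_num : (0 : ℝ) ≤ 2) d2
  have pw : ∀ k : ℕ, (2 : ℝ) ^ k ≤ M ^ k := fun k => pow_le_pow_left₀ (by norm_num) hM k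
  have pm : ∀ {a b : ℕ}, a ≤ b → M ^ a ≤ M ^ b := fun hab => pow_le_pow_right₀ hM1 hab
  have k15 : (66248 : ℝ) ≤ M ^ 22 := by
    calc (66248 : ℝ) ≤ 2 ^ 17 := by norm_num
      _ ≤ M ^ 17 := pw 17
      _ ≤ M ^ 22 := pm (by norm_num)
  have kb : 2700 * P ^ 6 * 2 ≤ M ^ 22 := by
    calc 2700 * P ^ 6 * 2 = 5400 * P ^ 6 := by ring
      _ ≤ 2 ^ 13 * M ^ 6 := mul_le_mul (by norm_num) (pow_le_pow_left₀ (by linarith) hPM 6) (by positivity) (by positivity)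
      _ ≤ M ^ 13 * M ^ 6 := mul_le_mul_of_nonneg_right (pw 13) (by positivity)
      _ = M ^ 19 := by ring
      _ ≤ M ^ 22 := pm (by norm_num)
  have hφ : 0 < fs * Q.f := by positivity
  have key := hcov (M ^ 22) Q.r (fs * Q.f) m w (rtLfIn P fs θ n p₀ Q) (by linarith) hR0
    (hR.trans (by calc M = M ^ 1 := by ring
                    _ ≤ M ^ 22 := pm (by norm_num))) hφ n4 (hmd.trans d1)
    (rt_lf_bd_mono (by positivity) kb hmb) hw (by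
      intro p hp
      obtain ⟨a1, a2, a3⟩ := rt_lf_row hM hΛ hP h hθ hfs hR0 hR hF0 hF hsh hthin hm hp hw
      refine ⟨rt_lf_bx_mono hR0.le (by norm_num) k15 a1, a2.trans ?_, a3.trans ?_⟩ <;>
      exact mul_le_mul_of_nonneg_right (by linarith) hφ.le)
  have e1 : (M ^ 22) ^ C₁ = M ^ (22 * C₁) := by
    rw [← Real.rpow_natCast, ← Real.rpow_mul hM0.le]
    norm_num
  rw [e1, rt_lf_weight hfs hR0 hF0] at key
  exact key

end Claimed.Agent.R256
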