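import Claimed.Agent.R256.Rt.Wv1
import Claimed.Agent.R256.Rt.Geo
import Claimed.Agent.R256.Gen.BasB

/-!
# Row 256, folder Rt, unit KER : (cone-kernel) AND THE OPERATOR BOUND OFF THE CORRESPONDENCE      (architect helper282, chief Rt helper216; prefix `rt_k_`, defs `rtK*`)

Source: 07-round-transfer.tex l.106-155 (Lemma rt:packet-locality, first half); reports 854 b, 877 L1, 889 (SUP NORMALISATION `1/(q_ℓ² H)`).   Objects: `Base/RndWav.lean`, `Rt/Wv1.lean` (unit W1, black box), `Rt/Geo.lean` (`RtNear`), `Gen/Hyp.lean` (`CutLe`, target `Mdl.Loc.ker`).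
EXITS: `rt_k_sup` (= `rt_sup_wv`), `rt_k_main` = the field `ker` of `Mdl.Loc (rndWav η)` with `cn p Λ T k T' k' x x' = RtNear Λ d_{ℓ'} q_ℓ H ((co x).flow (T'-T)) (co x')`, `Cl = 1/2`.
NOTATION.  `ℓ = 2^-k ≥ ℓ' = 2^-k'`, `u = T' - T ∈ [0, ℓ]`, `d = rdD H k = √(H/ℓ)`, `d' = rdD H k'`, `Q = rdQ H k = √(Hℓ)`;   `Q d = H`, `H/Q = d`, `Q² = Hℓ`, `d/d' = √(ℓ'/ℓ) ≤ 1`.
MATHEMATICS.
(1) kernel `rtKK x' x = ∫ pk' x' q conj (pk x q) dq = (2π)^{-3} ∫ e^{i(ξ·Δb - ρΔy - u|ξ|²/4ρ)} χ_{b'}χ_b(Hρ) ψ((ξ/2ρ-A')/d') ψ((ξ/2ρ-A)/d)`.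
(2) substitution `ρ = σ/H`, `ξ = ζ/Q + 2ρA` (`rt_k_cov_i`, Jacobian `1/(Q²H)`): `(ξ/2ρ-A)/d = ζ/2σ`, `(ξ/2ρ-A')/d' = (d/d') ζ/2σ - (A'-A)/d'`,
    phase `= ζ·X - σY - (u/ℓ)|ζ|²/4σ`, `X = (Δb - uA)/Q`, `Y = (Δy - u|A|² - 2A·(Δb - uA))/H`.       So `rtKK = (2π)^{-3} (Q²H)^{-1} rtKI b b' a λ τ X Y`   (`rt_k_scale`).
(3) the model amplitude `rtKB` is jointly smooth in `(ζ, σ; a, λ, τ)`, supported in a fixed compact set, and vanishes unless `|a|² < 8`: uniform decay `rt_k_decay` (`Top/Tools.lean ls_unif_decay2`, sorry-free).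
(4) majorant `rtKM`; Schur sums: `(b,y) ↦ (X,Y)` is affine with Jacobian `1/(Q²H)` (`rt_k_cov_l`), `∫ 1[|A'-A|² ≤ 8d'²] dA ≤ 32 d'²`, row measures `ℓ/H`, `ℓ'/H`:   `sup_{x'} ∫ M d rw_k ≤ C 2^{k'-k}`,  `sup_x ∫ M d rw_{k'} ≤ C`.
(5) off the correspondence with `Λ² ≥ 8`: `|X| > Λ` or `|Y| > Λ`, `M_{N+4} ≤ Λ^-N M_4` (`rt_k_gain`).   `Λ² < 8`: contraction (`rt_w1_contr`), `C_N ≥ 8^{N/2}`.
(6) for INTEGRABLE `F ∈ L²(rw k)`: `An^* F = ∫ conj (pk x ·) F x d rw_k` a.e. (`rt_k_syn`), `An' An^* F = ∫ rtKK · x F x d rw_k` a.e. (`rt_k_rep`); Schur (`rt_k_schur`); density of integrable functions (`rt_k_approx`) + contraction.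
LEAVES: every `sorry` below; names `L-256-RT-K-*` in the docstrings.   EDIT IN PLACE, splice only your theorems, helpers directly above (prefix `rt_k_`); long proofs may go to an own file `Rt/Ker<Leaf>.lean` ONLY IF they do not need later statements of this file.
-/

set_option autoImplicit false

namespace Claimed.Agent.R256

open MeasureTheory
open scoped ENNReal ComplexConjugate

/-- the kernel of `An(T',k',b') An(T,k,b)^*` against the row measure `rw k` -/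
noncomputable def rtKK (p : RdWvPar) (T : ℝ) (k b : ℕ) (T' : ℝ) (k' b' : ℕ) (x' x : RdWvPar.Ph) : ℂ :=
  ∫ q, p.pk T' k' b' x' q * conj (p.pk T k b x q)

/-- the model amplitude in the variables `w = (ζ, σ)`, parameters `a = (A'-A)/d'`, `lam = d/d'`, `tau = u/ℓ` -/
noncomputable def rtKB (b b' : ℕ) (a : ℝ × ℝ) (lam tau : ℝ) (w : (ℝ × ℝ) × ℝ) : ℂ :=
  ((rdChi b' w.2 * rdChi b w.2 * rdPsi ((2 * w.2)⁻¹ • w.1) * rdPsi ((lam * (2 * w.2)⁻¹) • w.1 - a) : ℝ) : ℂ)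
    * Complex.exp (Complex.I * ((-(tau * rtSq w.1 / (4 * w.2)) : ℝ) : ℂ))

/-- the model integral -/
noncomputable def rtKI (b b' : ℕ) (a : ℝ × ℝ) (lam tau : ℝ) (X : ℝ × ℝ) (Y : ℝ) : ℂ :=
  ∫ w : (ℝ × ℝ) × ℝ, Complex.exp (Complex.I * ((rtIp w.1 X - w.2 * Y : ℝ) : ℂ)) * rtKB b b' a lam tau w

/-- `X = (b' - b - uA)/Q` -/
noncomputable def rtKX (H : ℝ) (k : ℕ) (u : ℝ) (x' x : RdWvPar.Ph) : ℝ × ℝ := (rdQ H k)⁻¹ • (x'.2.1 - x.2.1 - u • x.1)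

/-- `Y = (y' - y - u|A|² - 2A·(b' - b - uA))/H` -/
noncomputable def rtKY (H : ℝ) (u : ℝ) (x' x : RdWvPar.Ph) : ℝ :=
  (x'.2.2 - x.2.2 - u * rtSq x.1 - 2 * rtIp x.1 (x'.2.1 - x.2.1 - u • x.1)) / H

/-- the weight `(1 + |X| + |Y|)^-N` -/
noncomputable def rtKW (N : ℕ) (w : (ℝ × ℝ) × ℝ) : ℝ := ((1 + Real.sqrt (rtSq w.1) + |w.2|) ^ N)⁻¹

/-- the majorant of (cone-kernel), with its sup normalisation and its angular support -/
noncomputable def rtKM (H : ℝ) (k k' : ℕ) (u : ℝ) (N : ℕ) (x' x : RdWvPar.Ph) : ℝ :=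
  open Classical in
  if rtSq (x'.1 - x.1) ≤ 8 * rdD H k' ^ 2 then (rdQ H k ^ 2 * H)⁻¹ * rtKW N (rtKX H k u x' x, rtKY H u x' x) else 0

theorem rt_k_eqns_cite : True := by
  have := @rtKK.eq_1
  have := @rtKB.eq_1
  have := @rtKI.eq_1
  have := @rtKX.eq_1
  have := @rtKY.eq_1
  have := @rtKW.eq_1
  have := @rtKM.eq_1
  trivial

/-! ## paper-free tools -/

/-- Cauchy-Schwarz, squared form -/
theorem rt_k_cs {α : Type*} [MeasurableSpace α] (μ : Measure α) {f g : α → ℝ≥0∞} (hf : AEMeasurable f μ) (hg : AEMeasurable g μ) :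
    (∫⁻ a, f a * g a ∂μ) ^ 2 ≤ (∫⁻ a, f a ^ 2 ∂μ) * ∫⁻ a, g a ^ 2 ∂μ := by
  have h := ENNReal.lintegral_mul_le_Lp_mul_Lq μ Real.HolderConjugate.two_two hf hg
  have h2 : (∫⁻ a, f a * g a ∂μ) ^ 2 ≤ ((∫⁻ a, f a ^ (2 : ℝ) ∂μ) ^ (1 / (2 : ℝ)) * (∫⁻ a, g a ^ (2 : ℝ) ∂μ) ^ (1 / (2 : ℝ))) ^ 2 :=
    pow_le_pow_left₀ zero_le h 2
  refine h2.trans (le_of_eq ?_)
  rw [mul_pow, ← ENNReal.rpow_natCast, ← ENNReal.rpow_mul, ← ENNReal.rpow_natCast, ← ENNReal.rpow_mul]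
  norm_num

theorem rt_k_sqrt_sq (t : ℝ≥0∞) : (t ^ (1 / 2 : ℝ)) ^ 2 = t := by
  rw [← ENNReal.rpow_natCast, ← ENNReal.rpow_mul]
  norm_num

/-- LEAF L-256-RT-K-SCH.  **Schur test for a nonnegative kernel**, `lintegral` form.
`(∫ K f)² ≤ (∫ K)(∫ K f²)` (`ENNReal.lintegral_mul_le_Lp_mul_Lq`, `p = q = 2`, factors `K^(1/2)`, `K^(1/2) f`), then Tonelli (`lintegral_lintegral_swap`).  ~120 l. -/
theorem rt_k_schur {X Y : Type} [MeasurableSpace X] [MeasurableSpace Y] (μ : Measure X) (ν : Measure Y) [SFinite μ] [SFinite ν]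
    (K : X → Y → ℝ≥0∞) (hK : Measurable (Function.uncurry K)) (A B : ℝ≥0∞) (hA : ∀ x, ∫⁻ y, K x y ∂ν ≤ A) (hB : ∀ y, ∫⁻ x, K x y ∂μ ≤ B)
    (f : Y → ℝ≥0∞) (hf : AEMeasurable f ν) :
    ∫⁻ x, (∫⁻ y, K x y * f y ∂ν) ^ 2 ∂μ ≤ A * B * ∫⁻ y, f y ^ 2 ∂ν := by
  have hpt : ∀ x, (∫⁻ y, K x y * f y ∂ν) ^ 2 ≤ A * ∫⁻ y, K x y * f y ^ 2 ∂ν := by
    intro x
    have hKx : Measurable fun y => K x y := hK.of_uncurry_left
    have h1 := rt_k_cs ν (f := fun y => K x y ^ (1 / 2 : ℝ)) (g := fun y => K x y ^ (1 / 2 : ℝ) * f y)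
      (hKx.pow_const _).aemeasurable ((hKx.pow_const _).aemeasurable.mul hf)
    have e1 : ∀ y, K x y ^ (1 / 2 : ℝ) * (K x y ^ (1 / 2 : ℝ) * f y) = K x y * f y := by
      intro y
      rw [← mul_assoc, ← sq, rt_k_sqrt_sq]
    have e2 : ∀ y, (K x y ^ (1 / 2 : ℝ) * f y) ^ 2 = K x y * f y ^ 2 := by
      intro y
      rw [mul_pow, rt_k_sqrt_sq]
    simp only [e1, e2, rt_k_sqrt_sq] at h1
    exact h1.trans (mul_le_mul_left (hA x) _)
  have hm : AEMeasurable (Function.uncurry fun x y => K x y * f y ^ 2) (μ.prod ν) :=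
    hK.aemeasurable.mul ((hf.pow_const 2).comp_snd)
  have hmI : AEMeasurable (fun x => ∫⁻ y, K x y * f y ^ 2 ∂ν) μ := hm.lintegral_prod_right'
  calc ∫⁻ x, (∫⁻ y, K x y * f y ∂ν) ^ 2 ∂μ ≤ ∫⁻ x, A * ∫⁻ y, K x y * f y ^ 2 ∂ν ∂μ := lintegral_mono hpt
    _ = A * ∫⁻ x, ∫⁻ y, K x y * f y ^ 2 ∂ν ∂μ := lintegral_const_mul'' _ hmI
    _ = A * ∫⁻ y, ∫⁻ x, K x y * f y ^ 2 ∂μ ∂ν := by rw [lintegral_lintegral_swap hm]
    _ = A * ∫⁻ y, (∫⁻ x, K x y ∂μ) * f y ^ 2 ∂ν := by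
        congr 1
        refine lintegral_congr fun y => ?_
        exact lintegral_mul_const _ hK.of_uncurry_right
    _ ≤ A * ∫⁻ y, B * f y ^ 2 ∂ν := by
        gcongr with y
        exact hB y
    _ ≤ A * (B * ∫⁻ y, f y ^ 2 ∂ν) := by
        gcongr
        exact le_of_eq (lintegral_const_mul'' _ (hf.pow_const 2))
    _ = _ := by rw [mul_assoc]

/-- one-dimensional affine substitution -/
theorem rt_k_cov1 (g : ℝ → ℝ≥0∞) {c : ℝ} (hc : 0 < c) (t : ℝ) : ∫⁻ y : ℝ, g ((y - t) / c) = ENNReal.ofReal c * ∫⁻ y, g y := by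
  have e1 := lintegral_sub_right_eq_self (μ := (volume : Measure ℝ)) (fun y => g (y / c)) t
  have e2 := rt_w1_scale (volume : Measure ℝ) g (r := c⁻¹) (inv_ne_zero hc.ne')
  rw [e1]
  simp only [smul_eq_mul, Module.finrank_self, pow_one, inv_inv, abs_of_pos hc] at e2
  rw [← e2]
  refine lintegral_congr fun y => ?_
  rw [div_eq_inv_mul]

/-- two-dimensional affine substitution -/
theorem rt_k_cov2 (g : ℝ × ℝ → ℝ≥0∞) {a : ℝ} (ha : 0 < a) (t : ℝ × ℝ) : ∫⁻ x : ℝ × ℝ, g (a⁻¹ • (x - t)) = ENNReal.ofReal (a ^ 2) * ∫⁻ x, g x := by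
  have e1 := lintegral_sub_right_eq_self (μ := (volume : Measure (ℝ × ℝ))) (fun x => g (a⁻¹ • x)) t
  have e2 := rt_w1_scale (volume : Measure (ℝ × ℝ)) g (r := a⁻¹) (inv_ne_zero ha.ne')
  rw [e1, e2]
  have hfr : Module.finrank ℝ (ℝ × ℝ) = 2 := by simp
  rw [hfr, inv_pow, inv_inv, abs_of_pos (by positivity)]

/-- LEAF L-256-RT-K-COV.  shear + dilations on `(ℝ × ℝ) × ℝ`, `lintegral` form.
(translation invariance; `MeasurePreserving.skew_product` for the shear, after `Prod.swap`; `Measure.map_addHaar_smul` / `lintegral_comp_smul`-type for the dilations; `volume = volume.prod volume`.)  ~200 l. with `rt_k_cov_i`. -/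
theorem rt_k_cov_l (f : (ℝ × ℝ) × ℝ → ℝ≥0∞) (hf : Measurable f) {a c : ℝ} (ha : 0 < a) (hc : 0 < c) (v : ℝ × ℝ) (z0 : (ℝ × ℝ) × ℝ) :
    ∫⁻ z : (ℝ × ℝ) × ℝ, f (a⁻¹ • (z.1 - z0.1), (z.2 - z0.2 - rtIp v (z.1 - z0.1)) / c) = ENNReal.ofReal (a ^ 2 * c) * ∫⁻ w, f w := by
  have hm : Measurable fun z : (ℝ × ℝ) × ℝ => f (a⁻¹ • (z.1 - z0.1), (z.2 - z0.2 - rtIp v (z.1 - z0.1)) / c) := by
    apply hf.comp
    unfold rtIp
    fun_prop
  rw [Measure.volume_eq_prod, lintegral_prod _ hm.aemeasurable, lintegral_prod _ hf.aemeasurable]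
  have hin : ∀ x : ℝ × ℝ, ∫⁻ y : ℝ, f (a⁻¹ • (x - z0.1), (y - z0.2 - rtIp v (x - z0.1)) / c)
      = ENNReal.ofReal c * ∫⁻ y : ℝ, f (a⁻¹ • (x - z0.1), y) := by
    intro x
    rw [← rt_k_cov1 (fun y => f (a⁻¹ • (x - z0.1), y)) hc (z0.2 + rtIp v (x - z0.1))]
    refine lintegral_congr fun y => ?_
    rw [sub_sub]
  simp only [hin]
  have hG : Measurable fun u : ℝ × ℝ => ∫⁻ y : ℝ, f (u, y) := hf.lintegral_prod_right'
  have hG' : Measurable fun x : ℝ × ℝ => ∫⁻ y : ℝ, f (a⁻¹ • (x - z0.1), y) :=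
    hG.comp (f := fun x : ℝ × ℝ => a⁻¹ • (x - z0.1)) (by fun_prop)
  rw [lintegral_const_mul _ hG', rt_k_cov2 (fun u => ∫⁻ y : ℝ, f (u, y)) ha z0.1, ← mul_assoc,
    ← ENNReal.ofReal_mul hc.le, mul_comm c]

/-- the `lintegral` form of the substitution of `rt_k_cov_i` -/
theorem rt_k_cov_l2 (g : (ℝ × ℝ) × ℝ → ℝ≥0∞) (hg : Measurable g) {a c : ℝ} (ha : 0 < a) (hc : 0 < c) (v : ℝ × ℝ) :
    ∫⁻ w : (ℝ × ℝ) × ℝ, g (a⁻¹ • w.1 + (w.2 / c) • v, w.2 / c) = ENNReal.ofReal (a ^ 2 * c) * ∫⁻ q, g q := by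
  have hm : Measurable fun w : (ℝ × ℝ) × ℝ => g (a⁻¹ • w.1 + (w.2 / c) • v, w.2 / c) := by
    apply hg.comp
    fun_prop
  rw [Measure.volume_eq_prod, lintegral_prod_symm _ hm.aemeasurable, lintegral_prod_symm _ hg.aemeasurable]
  have hin : ∀ y : ℝ, ∫⁻ x : ℝ × ℝ, g (a⁻¹ • x + (y / c) • v, y / c) = ENNReal.ofReal (a ^ 2) * ∫⁻ x : ℝ × ℝ, g (x, y / c) := by
    intro y
    rw [← rt_k_cov2 (fun x => g (x, y / c)) ha (-(a • (y / c) • v))]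
    refine lintegral_congr fun x => ?_
    rw [sub_neg_eq_add, smul_add, smul_smul a⁻¹ a, inv_mul_cancel₀ ha.ne', one_smul]
  simp only [hin]
  have hG : Measurable fun t : ℝ => ∫⁻ x : ℝ × ℝ, g (x, t) := hg.lintegral_prod_left'
  have hG' : Measurable fun y : ℝ => ∫⁻ x : ℝ × ℝ, g (x, y / c) :=
    hG.comp (f := fun y : ℝ => y / c) (by fun_prop)
  rw [lintegral_const_mul _ hG']
  have e := rt_k_cov1 (fun t => ∫⁻ x : ℝ × ℝ, g (x, t)) hc 0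
  simp only [sub_zero] at e
  rw [e, ← mul_assoc, ← ENNReal.ofReal_mul (by positivity)]

/-- LEAF L-256-RT-K-COV.  the same for Bochner integrals, inverse direction (no integrability hypothesis: the map is a measurable equivalence which scales the volume) -/
theorem rt_k_cov_i (f : (ℝ × ℝ) × ℝ → ℂ) {a c : ℝ} (ha : 0 < a) (hc : 0 < c) (v : ℝ × ℝ) :
    ∫ q : (ℝ × ℝ) × ℝ, f q = (((a ^ 2 * c)⁻¹ : ℝ) : ℂ) * ∫ w : (ℝ × ℝ) × ℝ, f (a⁻¹ • w.1 + (w.2 / c) • v, w.2 / c) := by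
  let Φ : (ℝ × ℝ) × ℝ ≃ᵐ (ℝ × ℝ) × ℝ :=
    { toFun := fun w => (a⁻¹ • w.1 + (w.2 / c) • v, w.2 / c)
      invFun := fun q => (a • (q.1 - q.2 • v), c * q.2)
      left_inv := by
        intro w
        ext <;> simp <;> field_simp
      right_inv := by
        intro q
        ext <;> simp <;> field_simp <;> ring
      measurable_toFun := by
        show Measurable fun w : (ℝ × ℝ) × ℝ => (a⁻¹ • w.1 + (w.2 / c) • v, w.2 / c)
        fun_prop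
      measurable_invFun := by
        show Measurable fun q : (ℝ × ℝ) × ℝ => (a • (q.1 - q.2 • v), c * q.2)
        fun_prop }
  have hmap : Measure.map Φ (volume : Measure ((ℝ × ℝ) × ℝ)) = ENNReal.ofReal (a ^ 2 * c) • volume := by
    refine Measure.ext fun s hs => ?_
    rw [Measure.map_apply Φ.measurable hs, Measure.smul_apply, smul_eq_mul, ← lintegral_indicator_one (Φ.measurable hs),
      ← lintegral_indicator_one hs, ← rt_k_cov_l2 (s.indicator 1) (measurable_one.indicator hs) ha hc v]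
    rfl
  have e := Φ.measurableEmbedding.integral_map (μ := (volume : Measure ((ℝ × ℝ) × ℝ))) f
  rw [hmap, integral_smul_measure] at e
  have hpos : 0 < a ^ 2 * c := by positivity
  have e' : ∫ w : (ℝ × ℝ) × ℝ, f (a⁻¹ • w.1 + (w.2 / c) • v, w.2 / c) = (a ^ 2 * c) • ∫ q, f q := by
    rw [← ENNReal.toReal_ofReal hpos.le]
    exact e.symm
  rw [e', Complex.real_smul, ← mul_assoc, ← Complex.ofReal_mul, inv_mul_cancel₀ hpos.ne', Complex.ofReal_one, one_mul]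

/-- LEAF L-256-RT-K-APX.  integrable functions are dense in `L²`, with control of the support and of the norm.
(`F' = 1_{B_n} F`, `B_n = spanningSets μ n`: `MemLp.indicator`, `L²` on a set of finite measure is `L¹`; `‖F - F'‖² = ∫_{B_nᶜ} ‖F‖² → 0`: `tendsto_setLIntegral_zero`-type / dominated convergence.)  ~150 l. -/
theorem rt_k_approx {X : Type} [MeasurableSpace X] (μ : Measure X) [SigmaFinite μ] (F : Lp ℂ 2 μ) {ε : ℝ} (hε : 0 < ε) :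
    ∃ F' : Lp ℂ 2 μ, Integrable (F' : X → ℂ) μ ∧ (∀ᵐ x ∂μ, (F : X → ℂ) x = 0 → (F' : X → ℂ) x = 0) ∧ ‖F'‖ ≤ ‖F‖ ∧ ‖F - F'‖ ≤ ε := by
  obtain ⟨s, hs, hμs, hlt⟩ := (Lp.memLp F).exists_eLpNorm_indicator_compl_lt (by norm_num) (ε := ENNReal.ofReal ε)
    (by simpa using hε)
  have hmem : MemLp (s.indicator (F : X → ℂ)) 2 μ := (Lp.memLp F).indicator hs
  have hco : (hmem.toLp _ : X → ℂ) =ᵐ[μ] s.indicator (F : X → ℂ) := hmem.coeFn_toLp
  refine ⟨hmem.toLp _, ?_, ?_, ?_, ?_⟩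
  · refine Integrable.congr ?_ hco.symm
    rw [integrable_indicator_iff hs]
    have : IsFiniteMeasure (μ.restrict s) := ⟨by rw [Measure.restrict_apply_univ]; exact hμs⟩
    have h2 : MemLp (F : X → ℂ) 2 (μ.restrict s) := (Lp.memLp F).restrict s
    exact memLp_one_iff_integrable.1 (h2.mono_exponent (by norm_num))
  · filter_upwards [hco] with x hx h0
    rw [hx]
    by_cases hxs : x ∈ s
    · rw [Set.indicator_of_mem hxs, h0]
    · rw [Set.indicator_of_notMem hxs]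
  · apply Lp.norm_le_norm_of_ae_le
    filter_upwards [hco] with x hx
    rw [hx]
    exact norm_indicator_le_norm_self _ _
  · rw [Lp.norm_def]
    have e : eLpNorm ((F - hmem.toLp _ : Lp ℂ 2 μ) : X → ℂ) 2 μ = eLpNorm (sᶜ.indicator (F : X → ℂ)) 2 μ := by
      apply eLpNorm_congr_ae
      filter_upwards [hco, Lp.coeFn_sub F (hmem.toLp _)] with x hx h2
      rw [h2, Pi.sub_apply, hx]
      by_cases hxs : x ∈ s
      · rw [Set.indicator_of_mem hxs, Set.indicator_of_notMem (by simpa using hxs), sub_self]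
      · rw [Set.indicator_of_notMem hxs, Set.indicator_of_mem (by simpa using hxs), sub_zero]
    rw [e]
    exact ENNReal.toReal_le_of_le_ofReal hε.le hlt.le

/-- LEAF L-256-RT-K-W.  (`√(rtSq X) + |Y| ≥ ‖(X, Y)‖` (sup norm), `integrable_one_add_norm` with `finrank ℝ ((ℝ × ℝ) × ℝ) = 3 < 4`)  ~80 l. -/
theorem rt_k_w_int : ∫⁻ w : (ℝ × ℝ) × ℝ, ENNReal.ofReal (rtKW 4 w) ≠ ∞ := by
  have hfr : Module.finrank ℝ ((ℝ × ℝ) × ℝ) = 3 := by simp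
  have hH : (volume : Measure ((ℝ × ℝ) × ℝ)).IsAddHaarMeasure :=
    inferInstanceAs ((volume : Measure (ℝ × ℝ)).prod (volume : Measure ℝ)).IsAddHaarMeasure
  have hint : Integrable (fun w : (ℝ × ℝ) × ℝ => (1 + ‖w‖) ^ (-(4 : ℝ))) := by
    apply integrable_one_add_norm
    rw [hfr]
    norm_num
  have hle : ∀ w : (ℝ × ℝ) × ℝ, rtKW 4 w ≤ (1 + ‖w‖) ^ (-(4 : ℝ)) := by
    intro w
    have h1 : ‖w‖ ≤ Real.sqrt (rtSq w.1) + |w.2| := by
      have hs := Real.sqrt_nonneg (rtSq w.1)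
      have a1 : |w.1.1| ≤ Real.sqrt (rtSq w.1) := by
        apply Real.abs_le_sqrt
        unfold rtSq
        nlinarith [sq_nonneg w.1.2]
      have a2 : |w.1.2| ≤ Real.sqrt (rtSq w.1) := by
        apply Real.abs_le_sqrt
        unfold rtSq
        nlinarith [sq_nonneg w.1.1]
      rw [Prod.norm_def, Prod.norm_def, Real.norm_eq_abs, Real.norm_eq_abs, Real.norm_eq_abs]
      refine max_le (max_le ?_ ?_) ?_ <;> linarith [abs_nonneg w.2]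
    unfold rtKW
    rw [Real.rpow_neg (by positivity), show (4 : ℝ) = ((4 : ℕ) : ℝ) by norm_num, Real.rpow_natCast]
    apply inv_anti₀ (by positivity)
    exact pow_le_pow_left₀ (by positivity) (by linarith) 4
  have h2 : ∫⁻ w : (ℝ × ℝ) × ℝ, ENNReal.ofReal (rtKW 4 w) ≤ ∫⁻ w : (ℝ × ℝ) × ℝ, ENNReal.ofReal ((1 + ‖w‖) ^ (-(4 : ℝ))) :=
    lintegral_mono fun w => ENNReal.ofReal_le_ofReal (hle w)
  rw [← ofReal_integral_eq_lintegral_ofReal hint (Filter.Eventually.of_forall fun w => by positivity)] at h2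
  exact (h2.trans_lt ENNReal.ofReal_lt_top).ne

/-- LEAF L-256-RT-K-W. -/
theorem rt_k_w_meas (N : ℕ) : Measurable (rtKW N) := by
  unfold rtKW rtSq
  fun_prop

/-! ## the model integral -/

/-- LEAF L-256-RT-K-B1.  support of the model amplitude (`rd_chi_supp`, `rd_psi_supp`; `|a| ≤ |λζ/2σ - a| + λ|ζ/2σ| < 2√2`)  ~120 l. -/
theorem rt_k_b_supp {b b' : ℕ} {a : ℝ × ℝ} {lam tau : ℝ} (h0 : 0 ≤ lam) (h1 : lam ≤ 1) {w : (ℝ × ℝ) × ℝ} (h : rtKB b b' a lam tau w ≠ 0) :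
    rtSq a ≤ 8 ∧ (2 : ℝ)⁻¹ ^ (b + 5) < w.2 ∧ w.2 < 2 ^ (b + 5) ∧ rtSq w.1 ≤ 8 * w.2 ^ 2 := by
  unfold rtKB at h
  obtain ⟨h2, -⟩ := mul_ne_zero_iff.1 h
  have h3 : rdChi b' w.2 * rdChi b w.2 * rdPsi ((2 * w.2)⁻¹ • w.1) * rdPsi ((lam * (2 * w.2)⁻¹) • w.1 - a) ≠ 0 := fun h0 => h2 (by rw [h0]; simp)
  obtain ⟨h4, n4⟩ := mul_ne_zero_iff.1 h3
  obtain ⟨h5, n3⟩ := mul_ne_zero_iff.1 h4
  obtain ⟨-, n2⟩ := mul_ne_zero_iff.1 h5
  obtain ⟨c1, c2⟩ := rd_chi_supp n2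
  have c3 := rd_psi_supp n3
  have c4 := rd_psi_supp n4
  have hw : 0 < w.2 := lt_trans (by positivity) c1
  unfold rtSq at c3 c4 ⊢
  simp only [Prod.smul_fst, Prod.smul_snd, Prod.fst_sub, Prod.snd_sub, smul_eq_mul] at c3 c4
  set v1 := (2 * w.2)⁻¹ * w.1.1 with hv1
  set v2 := (2 * w.2)⁻¹ * w.1.2 with hv2
  have e1 : w.1.1 = 2 * w.2 * v1 := by rw [hv1]; field_simp
  have e2 : w.1.2 = 2 * w.2 * v2 := by rw [hv2]; field_simp
  have e3 : lam * (2 * w.2)⁻¹ * w.1.1 = lam * v1 := by rw [hv1]; ring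
  have e4 : lam * (2 * w.2)⁻¹ * w.1.2 = lam * v2 := by rw [hv2]; ring
  rw [e3, e4] at c4
  refine ⟨?_, c1, c2, ?_⟩
  · have l2 : lam ^ 2 ≤ 1 := pow_le_one₀ h0 h1
    have t1 : (lam * v1) ^ 2 + (lam * v2) ^ 2 ≤ 2 := by
      have : (lam * v1) ^ 2 + (lam * v2) ^ 2 = lam ^ 2 * (v1 ^ 2 + v2 ^ 2) := by ring
      rw [this]
      nlinarith [sq_nonneg v1, sq_nonneg v2]
    nlinarith [sq_nonneg (lam * v1 + (lam * v1 - a.1)), sq_nonneg (lam * v2 + (lam * v2 - a.2))]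
  · rw [e1, e2]
    have : (2 * w.2 * v1) ^ 2 + (2 * w.2 * v2) ^ 2 = 4 * w.2 ^ 2 * (v1 ^ 2 + v2 ^ 2) := by ring
    rw [this]
    nlinarith [sq_nonneg w.2]

/-- LEAF L-256-RT-K-B2.  **joint smoothness of the model amplitude** on `((E2 × ℝ) × ((ℝ × ℝ) × ℝ × ℝ))`.
(`R255/Pk/Nsp.lean pk_nsp_glue`: `f = χ_b(σ)` smooth with `tsupport ⊆ {σ ≥ 2^-(b+5)} ⊆ Ω = {σ > 0}`, the other factors are `ContDiffOn` on `Ω` (`ContDiffOn.inv`, `rd_psi_contDiff`, `rd_chi_contDiff`, `Complex.contDiff_exp`).)  ~200 l. -/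
theorem rt_k_b_smooth (b b' : ℕ) :
    ContDiff ℝ (⊤ : ℕ∞) fun z : (Claimed.Agent.R255.BR.E2 × ℝ) × ((ℝ × ℝ) × ℝ × ℝ) =>
      rtKB b b' z.2.1 z.2.2.1 z.2.2.2 ((z.1.1 0, z.1.1 1), z.1.2) := by
  rw [contDiff_iff_contDiffAt]
  intro z
  have hs : ContDiff ℝ (⊤ : ℕ∞) fun z : (Claimed.Agent.R255.BR.E2 × ℝ) × ((ℝ × ℝ) × ℝ × ℝ) => z.1.2 := contDiff_snd.comp contDiff_fst
  by_cases hz : 0 < z.1.2
  · have h0 : ContDiff ℝ (⊤ : ℕ∞) fun z : (Claimed.Agent.R255.BR.E2 × ℝ) × ((ℝ × ℝ) × ℝ × ℝ) => z.1.1 0 :=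
      (EuclideanSpace.proj (0 : Fin 2) : Claimed.Agent.R255.BR.E2 →L[ℝ] ℝ).contDiff.comp (contDiff_fst.comp contDiff_fst)
    have h1 : ContDiff ℝ (⊤ : ℕ∞) fun z : (Claimed.Agent.R255.BR.E2 × ℝ) × ((ℝ × ℝ) × ℝ × ℝ) => z.1.1 1 :=
      (EuclideanSpace.proj (1 : Fin 2) : Claimed.Agent.R255.BR.E2 →L[ℝ] ℝ).contDiff.comp (contDiff_fst.comp contDiff_fst)
    have hζ : ContDiff ℝ (⊤ : ℕ∞) fun z : (Claimed.Agent.R255.BR.E2 × ℝ) × ((ℝ × ℝ) × ℝ × ℝ) => ((z.1.1 0, z.1.1 1) : ℝ × ℝ) := h0.prodMk h1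
    have ha : ContDiff ℝ (⊤ : ℕ∞) fun z : (Claimed.Agent.R255.BR.E2 × ℝ) × ((ℝ × ℝ) × ℝ × ℝ) => z.2.1 := contDiff_fst.comp contDiff_snd
    have hl : ContDiff ℝ (⊤ : ℕ∞) fun z : (Claimed.Agent.R255.BR.E2 × ℝ) × ((ℝ × ℝ) × ℝ × ℝ) => z.2.2.1 :=
      contDiff_fst.comp (contDiff_snd.comp contDiff_snd)
    have ht : ContDiff ℝ (⊤ : ℕ∞) fun z : (Claimed.Agent.R255.BR.E2 × ℝ) × ((ℝ × ℝ) × ℝ × ℝ) => z.2.2.2 :=
      contDiff_snd.comp (contDiff_snd.comp contDiff_snd)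
    have hi : ContDiffAt ℝ (⊤ : ℕ∞) (fun z : (Claimed.Agent.R255.BR.E2 × ℝ) × ((ℝ × ℝ) × ℝ × ℝ) => (2 * z.1.2)⁻¹) z :=
      (contDiff_const.mul hs).contDiffAt.inv (by positivity)
    have hχ' : ContDiffAt ℝ (⊤ : ℕ∞) (fun z : (Claimed.Agent.R255.BR.E2 × ℝ) × ((ℝ × ℝ) × ℝ × ℝ) => rdChi b' z.1.2) z :=
      ((rd_chi_contDiff b').comp hs).contDiffAt
    have hχ : ContDiffAt ℝ (⊤ : ℕ∞) (fun z : (Claimed.Agent.R255.BR.E2 × ℝ) × ((ℝ × ℝ) × ℝ × ℝ) => rdChi b z.1.2) z :=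
      ((rd_chi_contDiff b).comp hs).contDiffAt
    have hψ1 : ContDiffAt ℝ (⊤ : ℕ∞) (fun z : (Claimed.Agent.R255.BR.E2 × ℝ) × ((ℝ × ℝ) × ℝ × ℝ) =>
        rdPsi ((2 * z.1.2)⁻¹ • ((z.1.1 0, z.1.1 1) : ℝ × ℝ))) z :=
      rd_psi_contDiff.contDiffAt.comp z (hi.smul hζ.contDiffAt)
    have hψ2 : ContDiffAt ℝ (⊤ : ℕ∞) (fun z : (Claimed.Agent.R255.BR.E2 × ℝ) × ((ℝ × ℝ) × ℝ × ℝ) =>
        rdPsi ((z.2.2.1 * (2 * z.1.2)⁻¹) • ((z.1.1 0, z.1.1 1) : ℝ × ℝ) - z.2.1)) z :=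
      rd_psi_contDiff.contDiffAt.comp z (((hl.contDiffAt.mul hi).smul hζ.contDiffAt).sub ha.contDiffAt)
    have hq : ContDiffAt ℝ (⊤ : ℕ∞) (fun z : (Claimed.Agent.R255.BR.E2 × ℝ) × ((ℝ × ℝ) × ℝ × ℝ) =>
        -(z.2.2.2 * rtSq ((z.1.1 0, z.1.1 1) : ℝ × ℝ) / (4 * z.1.2))) z := by
      unfold rtSq
      exact ((ht.mul ((h0.pow 2).add (h1.pow 2))).contDiffAt.div (contDiff_const.mul hs).contDiffAt (by positivity)).neg
    unfold rtKB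
    exact (Complex.ofRealCLM.contDiff.contDiffAt.comp z (((hχ'.mul hχ).mul hψ1).mul hψ2)).mul
      (Complex.contDiff_exp.contDiffAt.comp z (contDiffAt_const.mul (Complex.ofRealCLM.contDiff.contDiffAt.comp z hq)))
  · have hpos : (0 : ℝ) < (2 : ℝ)⁻¹ ^ (b + 5) := by positivity
    have hU : {y : (Claimed.Agent.R255.BR.E2 × ℝ) × ((ℝ × ℝ) × ℝ × ℝ) | y.1.2 < (2 : ℝ)⁻¹ ^ (b + 5)} ∈ nhds z :=
      (isOpen_lt hs.continuous continuous_const).mem_nhds (lt_of_le_of_lt (not_lt.1 hz) hpos)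
    have h3 : (fun z : (Claimed.Agent.R255.BR.E2 × ℝ) × ((ℝ × ℝ) × ℝ × ℝ) => rtKB b b' z.2.1 z.2.2.1 z.2.2.2 ((z.1.1 0, z.1.1 1), z.1.2))
        =ᶠ[nhds z] fun _ => 0 := by
      filter_upwards [hU] with y hy
      have h0 : rdChi b y.1.2 = 0 := by
        by_contra hne
        exact absurd (rd_chi_supp hne).1 (not_lt.2 (le_of_lt hy))
      unfold rtKB
      simp only
      rw [h0]
      simp
    exact contDiffAt_const.congr_of_eventuallyEq h3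

open Claimed.Agent.R255.BR in
theorem rt_k_V_norm (X : ℝ × ℝ) : ‖rtW1cV X‖ = Real.sqrt (rtSq X) := by
  obtain ⟨a0, a1⟩ := rt_w1c_V_apply X
  rw [EuclideanSpace.norm_eq, Fin.sum_univ_two, a0, a1, Real.norm_eq_abs, Real.norm_eq_abs, sq_abs, sq_abs]
  rfl

open Claimed.Agent.R255.BR in
theorem rt_k_V_inner (X X' : ℝ × ℝ) : inner ℝ (rtW1cV X) (rtW1cV X') = rtIp X X' := by
  obtain ⟨a0, a1⟩ := rt_w1c_V_apply X
  obtain ⟨b0, b1⟩ := rt_w1c_V_apply X'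
  simp only [PiLp.inner_apply, Fin.sum_univ_two, a0, a1, b0, b1, rtIp, RCLike.inner_apply, conj_trivial]
  ring

open Claimed.Agent.R255.BR in
/-- the model integral in the normal form of `ls_unif_decay2` -/
theorem rt_k_I_eq (b b' : ℕ) (a : ℝ × ℝ) (lam tau : ℝ) (X : ℝ × ℝ) (Y : ℝ) :
    rtKI b b' a lam tau X Y = ∫ w : E2 × ℝ, ee (inner ℝ w.1 ((2 * Real.pi)⁻¹ • rtW1cV X) + w.2 * (-((2 * Real.pi)⁻¹ * Y)))
      * rtKB b b' a lam tau ((w.1 0, w.1 1), w.2) := by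
  have mp : MeasurePreserving (rtW1cV.prodCongr (MeasurableEquiv.refl ℝ)) (volume : Measure ((ℝ × ℝ) × ℝ)) (volume : Measure (E2 × ℝ)) :=
    rt_w1c_V_mp.prod (MeasurePreserving.id volume)
  rw [← mp.integral_comp (rtW1cV.prodCongr (MeasurableEquiv.refl ℝ)).measurableEmbedding]
  unfold rtKI
  refine integral_congr_ae (Filter.Eventually.of_forall fun w => ?_)
  have e : (rtW1cV.prodCongr (MeasurableEquiv.refl ℝ)) w = (rtW1cV w.1, w.2) := rfl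
  obtain ⟨a0, a1⟩ := rt_w1c_V_apply w.1
  simp only [e, a0, a1, Prod.mk.eta]
  rw [inner_smul_right, rt_k_V_inner, rt_w1c_exp_ee]
  congr 2
  ring

open Claimed.Agent.R255.BR in
theorem rt_k_decay_one (b b' N : ℕ) : ∃ C : ℝ, 0 ≤ C ∧ ∀ (a : ℝ × ℝ) (lam tau : ℝ), 0 ≤ lam → lam ≤ 1 → 0 ≤ tau → tau ≤ 1 →
    ∀ (X : ℝ × ℝ) (Y : ℝ), ‖rtKI b b' a lam tau X Y‖ ≤ C * rtKW N (X, Y) := by
  set R : ℝ := 3 * 2 ^ (b + 5) with hR
  have hR0 : 0 < R := by positivity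
  obtain ⟨C, hC0, hC⟩ := ls_unif_decay2 (P := (ℝ × ℝ) × ℝ × ℝ)
    (fun z => rtKB b b' z.2.1 z.2.2.1 z.2.2.2 ((z.1.1 0, z.1.1 1), z.1.2)) (rt_k_b_smooth b b')
    (KW := Metric.closedBall (0 : E2) R ×ˢ Set.Icc (0 : ℝ) R) ((isCompact_closedBall _ _).prod isCompact_Icc)
    (KP := Metric.closedBall (0 : ℝ × ℝ) 3 ×ˢ (Set.Icc (0 : ℝ) 1 ×ˢ Set.Icc (0 : ℝ) 1))
    ((isCompact_closedBall _ _).prod (isCompact_Icc.prod isCompact_Icc))
    (by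
      intro w p hp hw
      by_contra hne
      apply hw
      obtain ⟨-, hl, -⟩ := hp
      obtain ⟨-, c1, c2, c3⟩ := rt_k_b_supp hl.1 hl.2 hne
      simp only at c1 c2 c3
      have hw0 : 0 < w.2 := lt_trans (by positivity) c1
      refine ⟨?_, hw0.le, ?_⟩
      · rw [mem_closedBall_zero_iff, EuclideanSpace.norm_eq, Fin.sum_univ_two, Real.norm_eq_abs, Real.norm_eq_abs, sq_abs, sq_abs]
        unfold rtSq at c3
        simp only at c3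
        apply Real.sqrt_le_iff.2 ⟨hR0.le, ?_⟩
        have : w.2 ^ 2 ≤ (2 ^ (b + 5)) ^ 2 := pow_le_pow_left₀ hw0.le c2.le 2
        rw [hR]
        nlinarith
      · rw [hR]
        have : (0 : ℝ) < 2 ^ (b + 5) := by positivity
        linarith) N
  have hπ : (1 : ℝ) ≤ 2 * Real.pi := by linarith [Real.pi_gt_three]
  refine ⟨(2 * Real.pi) ^ N * C, by positivity, fun a lam tau l0 l1 t0 t1 X Y => ?_⟩
  by_cases ha : rtSq a ≤ 8
  · have hp : (a, lam, tau) ∈ Metric.closedBall (0 : ℝ × ℝ) 3 ×ˢ (Set.Icc (0 : ℝ) 1 ×ˢ Set.Icc (0 : ℝ) 1) := by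
      refine ⟨?_, ⟨l0, l1⟩, ⟨t0, t1⟩⟩
      rw [mem_closedBall_zero_iff, Prod.norm_def, Real.norm_eq_abs, Real.norm_eq_abs]
      unfold rtSq at ha
      refine max_le ?_ ?_
      · exact abs_le_of_sq_le_sq (by nlinarith [sq_nonneg a.2]) (by norm_num)
      · exact abs_le_of_sq_le_sq (by nlinarith [sq_nonneg a.1]) (by norm_num)
    have h := hC (a, lam, tau) hp ((2 * Real.pi)⁻¹ • rtW1cV X) (-((2 * Real.pi)⁻¹ * Y))
    simp only at h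
    rw [← rt_k_I_eq, norm_smul, rt_k_V_norm, abs_neg, abs_mul, Real.norm_eq_abs, abs_of_pos (by positivity : (0 : ℝ) < (2 * Real.pi)⁻¹)] at h
    unfold rtKW
    simp only
    set s := Real.sqrt (rtSq X) with hs
    have hs0 : 0 ≤ s := Real.sqrt_nonneg _
    have hpos : 0 < (1 + s + |Y|) ^ N := by positivity
    rw [← div_eq_mul_inv, le_div_iff₀ hpos]
    have h1 : 1 + s + |Y| ≤ (2 * Real.pi) * (1 + (2 * Real.pi)⁻¹ * s + (2 * Real.pi)⁻¹ * |Y|) := by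
      have : (2 * Real.pi) * (1 + (2 * Real.pi)⁻¹ * s + (2 * Real.pi)⁻¹ * |Y|) = 2 * Real.pi + s + |Y| := by
        field_simp
      rw [this]
      linarith
    calc ‖rtKI b b' a lam tau X Y‖ * (1 + s + |Y|) ^ N
        ≤ ‖rtKI b b' a lam tau X Y‖ * ((2 * Real.pi) * (1 + (2 * Real.pi)⁻¹ * s + (2 * Real.pi)⁻¹ * |Y|)) ^ N :=
          mul_le_mul_of_nonneg_left (pow_le_pow_left₀ (by positivity) h1 N) (norm_nonneg _)
      _ = (2 * Real.pi) ^ N * ((1 + (2 * Real.pi)⁻¹ * s + (2 * Real.pi)⁻¹ * |Y|) ^ N * ‖rtKI b b' a lam tau X Y‖) := by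
          rw [mul_pow]; ring
      _ ≤ (2 * Real.pi) ^ N * C := mul_le_mul_of_nonneg_left h (by positivity)
  · have h0 : rtKI b b' a lam tau X Y = 0 := by
      unfold rtKI
      refine integral_eq_zero_of_ae (Filter.Eventually.of_forall fun w => ?_)
      have : rtKB b b' a lam tau w = 0 := by
        by_contra hne
        exact ha (rt_k_b_supp l0 l1 hne).1
      simp only [this, mul_zero, Pi.zero_apply]
    rw [h0, norm_zero]
    unfold rtKW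
    positivity

/-- LEAF L-256-RT-K-DEC.  **uniform decay of the model integral.**
PLAN: `rtSq a > 8`: the amplitude vanishes (`rt_k_b_supp`).   Otherwise `ls_unif_decay2` with `𝔟` of `rt_k_b_smooth`, `KP = closedBall 0 3 ×ˢ Icc 0 1 ×ˢ Icc 0 1`, `KW` = closed ball of radius `2^(bm+8)`, `L = N`;
`∫_{(ℝ×ℝ)×ℝ} = ∫_{E2×ℝ}` (`volume_preserving_finTwoArrow`, `PiLp.volume_preserving_toLp`), `e^{i(ζ·X - σY)} = ee (⟪ζ, X/2π⟫ + σ (-Y/2π))`, `1 + |X| + |Y| ≤ 2π (1 + |X|/2π + |Y|/2π)`;   maximum over the finitely many `b, b' ≤ bm`.  ~250 l. -/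
theorem rt_k_decay (bm N : ℕ) : ∃ C : ℝ, 0 ≤ C ∧ ∀ (b b' : ℕ), b ≤ bm → b' ≤ bm → ∀ (a : ℝ × ℝ) (lam tau : ℝ), 0 ≤ lam → lam ≤ 1 → 0 ≤ tau → tau ≤ 1 →
    ∀ (X : ℝ × ℝ) (Y : ℝ), ‖rtKI b b' a lam tau X Y‖ ≤ C * rtKW N (X, Y) := by
  choose C hC0 hC using fun bb : ℕ × ℕ => rt_k_decay_one bb.1 bb.2 N
  refine ⟨∑ bb ∈ Finset.range (bm + 1) ×ˢ Finset.range (bm + 1), C bb, Finset.sum_nonneg fun bb _ => hC0 bb,
    fun b b' hb hb' a lam tau l0 l1 t0 t1 X Y => ?_⟩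
  refine (hC (b, b') a lam tau l0 l1 t0 t1 X Y).trans (mul_le_mul_of_nonneg_right ?_ ?_)
  · exact Finset.single_le_sum (f := C) (fun bb _ => hC0 bb)
      (Finset.mem_product.2 ⟨Finset.mem_range.2 (Nat.lt_succ_of_le hb), Finset.mem_range.2 (Nat.lt_succ_of_le hb')⟩)
  · unfold rtKW
    positivity

/-! ## the kernel -/

/-- product of two packets -/
theorem rt_k_pk_mul (p : RdWvPar) (T : ℝ) (k b : ℕ) (T' : ℝ) (k' b' : ℕ) (x' x : RdWvPar.Ph) (q : RdWvPar.Mo) :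
    p.pk T' k' b' x' q * conj (p.pk T k b x q)
      = ((((2 * Real.pi) ^ (-(3 / 2) : ℝ)) ^ 2 * (rdChi b' (p.H * q.2) * rdChi b (p.H * q.2) * rdPsi ((rdD p.H k)⁻¹ • ((2 * q.2)⁻¹ • q.1 - x.1))
          * rdPsi ((rdD p.H k')⁻¹ • ((2 * q.2)⁻¹ • q.1 - x'.1))) : ℝ) : ℂ)
        * Complex.exp (Complex.I * ((rtIp q.1 (x'.2.1 - x.2.1) - q.2 * (x'.2.2 - x.2.2) - (T' - T) * rtSq q.1 / (4 * q.2) : ℝ) : ℂ)) := by
  unfold RdWvPar.pk
  rw [map_mul, Complex.conj_ofReal, ← Complex.exp_conj, map_mul, Complex.conj_I, Complex.conj_ofReal]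
  have e : Complex.exp (Complex.I * ((rtIp q.1 (x'.2.1 - x.2.1) - q.2 * (x'.2.2 - x.2.2) - (T' - T) * rtSq q.1 / (4 * q.2) : ℝ) : ℂ))
      = Complex.exp (Complex.I * ((rtIp q.1 x'.2.1 - q.2 * x'.2.2 - T' * rtSq q.1 / (4 * q.2) : ℝ) : ℂ))
        * Complex.exp (-Complex.I * ((rtIp q.1 x.2.1 - q.2 * x.2.2 - T * rtSq q.1 / (4 * q.2) : ℝ) : ℂ)) := by
    rw [← Complex.exp_add]
    congr 1
    unfold rtIp
    simp only [Prod.fst_sub, Prod.snd_sub]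
    push_cast
    ring
  rw [e]
  push_cast
  ring

/-- LEAF L-256-RT-K-SC.  **the scaling identity** (2) of the header.   `rt_k_cov_i` with `a = Q`, `c = H`, `v = 2 • A`; then the integrands agree POINTWISE (case `σ = 0`: `rdChi b 0 = 0`).
Algebra: `rdQ H k * rdD H k = H`, `rdQ H k ^ 2 = H * rdLen k`; `Complex.exp_add`, `Complex.exp_conj`; `((2π)^(-3/2))² = ((2π)³)⁻¹`.  ~250 l. -/
theorem rt_k_scale (p : RdWvPar) (T : ℝ) (k b : ℕ) (T' : ℝ) (k' b' : ℕ) (x' x : RdWvPar.Ph) :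
    rtKK p T k b T' k' b' x' x = ((((2 * Real.pi) ^ 3 * (rdQ p.H k ^ 2 * p.H))⁻¹ : ℝ) : ℂ) *
      rtKI b b' ((rdD p.H k')⁻¹ • (x'.1 - x.1)) (rdD p.H k / rdD p.H k') ((T' - T) / rdLen k)
        (rtKX p.H k (T' - T) x' x) (rtKY p.H (T' - T) x' x) := by
  have hH := p.H_pos
  have hℓ := rdLen_pos k
  have hQ : 0 < rdQ p.H k := Real.sqrt_pos.2 (mul_pos hH hℓ)
  have hQ2 : rdQ p.H k ^ 2 = p.H * rdLen k := Real.sq_sqrt (mul_pos hH hℓ).le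
  have hd : 0 < rdD p.H k := Real.sqrt_pos.2 (div_pos hH hℓ)
  have hd2 : rdD p.H k ^ 2 = p.H / rdLen k := Real.sq_sqrt (div_pos hH hℓ).le
  have hd' : 0 < rdD p.H k' := Real.sqrt_pos.2 (div_pos hH (rdLen_pos k'))
  have hQd : rdD p.H k = p.H / rdQ p.H k := by
    rw [eq_div_iff hQ.ne']
    have h1 : (rdD p.H k * rdQ p.H k) ^ 2 = p.H ^ 2 := by
      rw [mul_pow, hd2, hQ2]
      field_simp
    exact (pow_left_inj₀ (by positivity) hH.le (by norm_num)).1 h1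
  have hℓQ : rdLen k = rdQ p.H k ^ 2 / p.H := by rw [hQ2]; field_simp
  unfold rtKK
  rw [rt_k_cov_i _ hQ hH (2 • x.1)]
  unfold rtKI
  have hc : ((((2 * Real.pi) ^ 3 * (rdQ p.H k ^ 2 * p.H))⁻¹ : ℝ) : ℂ) = (((rdQ p.H k ^ 2 * p.H)⁻¹ : ℝ) : ℂ) * ((((2 * Real.pi) ^ 3)⁻¹ : ℝ) : ℂ) := by
    rw [← Complex.ofReal_mul, mul_inv]
    congr 1
    ring
  rw [hc, mul_assoc]
  congr 1
  rw [← integral_const_mul]
  refine integral_congr_ae (Filter.Eventually.of_forall fun w => ?_)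
  simp only
  rw [rt_k_pk_mul]
  simp only
  have hHσ : p.H * (w.2 / p.H) = w.2 := by field_simp
  rw [hHσ]
  unfold rtKB
  by_cases hσ : w.2 = 0
  · have h0 : rdChi b w.2 = 0 := by
      by_contra hne
      have := (rd_chi_supp hne).1
      rw [hσ] at this
      exact absurd this (not_lt.2 (by positivity))
    rw [h0]
    simp
  · set Q := rdQ p.H k with hQdef
    set d' := rdD p.H k' with hd'def
    have a1 : (rdD p.H k)⁻¹ • ((2 * (w.2 / p.H))⁻¹ • (Q⁻¹ • w.1 + (w.2 / p.H) • (2 • x.1)) - x.1) = (2 * w.2)⁻¹ • w.1 := by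
      rw [hQd]
      ext
      · simp only [Prod.smul_fst, Prod.fst_sub, Prod.fst_add, smul_eq_mul]
        field_simp
        ring
      · simp only [Prod.smul_snd, Prod.snd_sub, Prod.snd_add, smul_eq_mul]
        field_simp
        ring
    have a2 : d'⁻¹ • ((2 * (w.2 / p.H))⁻¹ • (Q⁻¹ • w.1 + (w.2 / p.H) • (2 • x.1)) - x'.1)
        = (rdD p.H k / d' * (2 * w.2)⁻¹) • w.1 - d'⁻¹ • (x'.1 - x.1) := by
      rw [hQd]
      ext
      · simp only [Prod.smul_fst, Prod.fst_sub, Prod.fst_add, smul_eq_mul]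
        field_simp
        ring
      · simp only [Prod.smul_snd, Prod.snd_sub, Prod.snd_add, smul_eq_mul]
        field_simp
        ring
    have a3 : rtIp (Q⁻¹ • w.1 + (w.2 / p.H) • (2 • x.1)) (x'.2.1 - x.2.1) - w.2 / p.H * (x'.2.2 - x.2.2)
          - (T' - T) * rtSq (Q⁻¹ • w.1 + (w.2 / p.H) • (2 • x.1)) / (4 * (w.2 / p.H))
        = (rtIp w.1 (rtKX p.H k (T' - T) x' x) - w.2 * rtKY p.H (T' - T) x' x) + -((T' - T) / rdLen k * rtSq w.1 / (4 * w.2)) := by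
      rw [hℓQ]
      unfold rtKX rtKY rtIp rtSq
      rw [← hQdef]
      simp only [Prod.smul_fst, Prod.smul_snd, Prod.fst_sub, Prod.snd_sub, Prod.fst_add, Prod.snd_add, smul_eq_mul]
      field_simp
      ring
    rw [a1, a2, a3, Complex.ofReal_add, mul_add, Complex.exp_add]
    have hc3 : ((2 * Real.pi) ^ (-(3 / 2) : ℝ)) ^ 2 = ((2 * Real.pi) ^ 3)⁻¹ := by
      exact eq_inv_of_mul_eq_one_right rt_w1c_const
    rw [hc3]
    push_cast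
    ring

/-- LEAF L-256-RT-K-BD.  **(cone-kernel)**   (`rt_k_scale`, `rt_k_decay`, `rt_k_b_supp`: `rtSq ((d')⁻¹ • (A'-A)) > 8` makes the amplitude vanish; `0 < d/d' ≤ 1` from `k ≤ k'`, `0 ≤ u/ℓ ≤ 1` from `CutLe`)  ~150 l. -/
theorem rt_k_bound (bm N : ℕ) : ∃ C : ℝ, 0 ≤ C ∧ ∀ (p : RdWvPar) (T : ℝ) (k : ℕ) (T' : ℝ) (k' b b' : ℕ), CutLe T k T' k' → b ≤ bm → b' ≤ bm →
    ∀ x' x : RdWvPar.Ph, ‖rtKK p T k b T' k' b' x' x‖ ≤ C * rtKM p.H k k' (T' - T) N x' x := by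
  obtain ⟨C, hC, hdec⟩ := rt_k_decay bm N
  have hπ : (0 : ℝ) < (2 * Real.pi) ^ 3 := by positivity
  refine ⟨((2 * Real.pi) ^ 3)⁻¹ * C, by positivity, fun p T k T' k' b b' hcut hb hb' x' x => ?_⟩
  obtain ⟨hkk, hT1, hT2⟩ := hcut
  have hH := p.H_pos
  have hl := rdLen_pos k
  have hl' := rdLen_pos k'
  have hD : 0 < rdD p.H k := Real.sqrt_pos.2 (div_pos hH hl)
  have hD' : 0 < rdD p.H k' := Real.sqrt_pos.2 (div_pos hH hl')
  have hQ : 0 < rdQ p.H k := Real.sqrt_pos.2 (mul_pos hH hl)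
  have hll : rdLen k' ≤ rdLen k := by
    unfold rdLen
    exact pow_le_pow_of_le_one (by norm_num) (by norm_num) hkk
  have hDD : rdD p.H k ≤ rdD p.H k' := by
    unfold rdD
    exact Real.sqrt_le_sqrt (div_le_div_of_nonneg_left hH.le hl' hll)
  have l0 : 0 ≤ rdD p.H k / rdD p.H k' := by positivity
  have l1 : rdD p.H k / rdD p.H k' ≤ 1 := (div_le_one hD').2 hDD
  have t0 : 0 ≤ (T' - T) / rdLen k := div_nonneg (by linarith) hl.le
  have t1 : (T' - T) / rdLen k ≤ 1 := by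
    rw [div_le_one hl]
    unfold rdLen
    linarith
  have hpos : 0 < (2 * Real.pi) ^ 3 * (rdQ p.H k ^ 2 * p.H) := by positivity
  rw [rt_k_scale, norm_mul, Complex.norm_real, Real.norm_eq_abs, abs_of_pos (inv_pos.2 hpos)]
  unfold rtKM
  split_ifs with hA
  · have h := hdec b b' hb hb' ((rdD p.H k')⁻¹ • (x'.1 - x.1)) _ _ l0 l1 t0 t1 (rtKX p.H k (T' - T) x' x) (rtKY p.H (T' - T) x' x)
    calc ((2 * Real.pi) ^ 3 * (rdQ p.H k ^ 2 * p.H))⁻¹ * ‖rtKI b b' ((rdD p.H k')⁻¹ • (x'.1 - x.1)) (rdD p.H k / rdD p.H k') ((T' - T) / rdLen k)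
          (rtKX p.H k (T' - T) x' x) (rtKY p.H (T' - T) x' x)‖
        ≤ ((2 * Real.pi) ^ 3 * (rdQ p.H k ^ 2 * p.H))⁻¹ * (C * rtKW N (rtKX p.H k (T' - T) x' x, rtKY p.H (T' - T) x' x)) :=
          mul_le_mul_of_nonneg_left h (inv_pos.2 hpos).le
      _ = _ := by
          rw [mul_inv]
          ring
  · have h0 : rtKI b b' ((rdD p.H k')⁻¹ • (x'.1 - x.1)) (rdD p.H k / rdD p.H k') ((T' - T) / rdLen k)
        (rtKX p.H k (T' - T) x' x) (rtKY p.H (T' - T) x' x) = 0 := by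
      unfold rtKI
      refine integral_eq_zero_of_ae (Filter.Eventually.of_forall fun w => ?_)
      have : rtKB b b' ((rdD p.H k')⁻¹ • (x'.1 - x.1)) (rdD p.H k / rdD p.H k') ((T' - T) / rdLen k) w = 0 := by
        by_contra hne
        apply hA
        have h8 := (rt_k_b_supp l0 l1 hne).1
        have e : rtSq ((rdD p.H k')⁻¹ • (x'.1 - x.1)) = ((rdD p.H k') ^ 2)⁻¹ * rtSq (x'.1 - x.1) := by
          simp only [rtSq, Prod.smul_fst, Prod.smul_snd, smul_eq_mul]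
          rw [← inv_pow]
          ring
        rw [e, inv_mul_le_iff₀ (by positivity)] at h8
        linarith
      simp only [this, mul_zero, Pi.zero_apply]
    rw [h0, norm_zero, mul_zero, mul_zero]

/-! ## the majorant -/

theorem rt_k_q_pos {H : ℝ} (hH : 0 < H) (k : ℕ) : 0 < rdQ H k ∧ rdQ H k ^ 2 = H * rdLen k := by
  have h : 0 < H * rdLen k := mul_pos hH (rdLen_pos k)
  exact ⟨Real.sqrt_pos.2 h, Real.sq_sqrt h.le⟩

theorem rt_k_d_pos {H : ℝ} (hH : 0 < H) (k : ℕ) : 0 < rdD H k ∧ rdD H k ^ 2 = H / rdLen k := by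
  have h : 0 < H / rdLen k := div_pos hH (rdLen_pos k)
  exact ⟨Real.sqrt_pos.2 h, Real.sq_sqrt h.le⟩

theorem rt_k_sq_smul (c : ℝ) (v : ℝ × ℝ) : rtSq (c • v) = c ^ 2 * rtSq v := by
  unfold rtSq
  simp only [Prod.smul_fst, Prod.smul_snd, smul_eq_mul]
  ring

theorem rt_k_xy_meas (H : ℝ) (k : ℕ) (u : ℝ) : Measurable fun z : RdWvPar.Ph × RdWvPar.Ph => (rtKX H k u z.1 z.2, rtKY H u z.1 z.2) := by
  unfold rtKX rtKY rtSq rtIp
  fun_prop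

/-- LEAF L-256-RT-K-M. -/
theorem rt_k_m_meas (H : ℝ) (k k' : ℕ) (u : ℝ) (N : ℕ) : Measurable fun z : RdWvPar.Ph × RdWvPar.Ph => rtKM H k k' u N z.1 z.2 := by
  unfold rtKM
  refine Measurable.ite (measurableSet_le ?_ measurable_const) ?_ measurable_const
  · unfold rtSq
    fun_prop
  · exact ((rt_k_w_meas N).comp (rt_k_xy_meas H k u)).const_mul _

theorem rt_k_w_nonneg (N : ℕ) (w : (ℝ × ℝ) × ℝ) : 0 ≤ rtKW N w := by
  unfold rtKW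
  have := Real.sqrt_nonneg (rtSq w.1)
  positivity

/-- LEAF L-256-RT-K-M. -/
theorem rt_k_m_nonneg {H : ℝ} (hH : 0 < H) (k k' : ℕ) (u : ℝ) (N : ℕ) (x' x : RdWvPar.Ph) : 0 ≤ rtKM H k k' u N x' x := by
  unfold rtKM
  split_ifs
  · exact mul_nonneg (inv_nonneg.2 (by positivity)) (rt_k_w_nonneg _ _)
  · exact le_refl 0

/-- LEAF L-256-RT-K-M.  **gain off the correspondence** ((5) of the header)  ~120 l. -/
theorem rt_k_gain {H : ℝ} (hH : 0 < H) (k k' : ℕ) (u T T' : ℝ) (N : ℕ) {Λ : ℝ} (h0 : 0 < Λ) (h8 : 8 ≤ Λ ^ 2) (x' x : RdWvPar.Ph)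
    (hn : ¬ RtNear Λ (rdD H k') (rdQ H k) H ((RdWvPar.co T x).flow u) (RdWvPar.co T' x')) :
    rtKM H k k' u (N + 4) x' x ≤ Λ ^ (-(N : ℝ)) * rtKM H k k' u 4 x' x := by
  obtain ⟨hQ, -⟩ := rt_k_q_pos hH k
  unfold rtKM
  by_cases hA : rtSq (x'.1 - x.1) ≤ 8 * rdD H k' ^ 2
  · rw [if_pos hA, if_pos hA]
    have hA' : rtSq (x'.1 - x.1) ≤ (Λ * rdD H k') ^ 2 := by
      rw [mul_pow]
      exact hA.trans (mul_le_mul_of_nonneg_right h8 (sq_nonneg _))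
    have hs0 := Real.sqrt_nonneg (rtSq (rtKX H k u x' x))
    have hbig : Λ ≤ 1 + Real.sqrt (rtSq (rtKX H k u x' x)) + |rtKY H u x' x| := by
      by_contra hlt
      push Not at hlt
      apply hn
      have hX : Real.sqrt (rtSq (rtKX H k u x' x)) ≤ Λ := by linarith [abs_nonneg (rtKY H u x' x)]
      have hY : |rtKY H u x' x| ≤ Λ := by linarith
      refine ⟨hA', ?_, ?_⟩
      · show rtSq (x'.2.1 - (x.2.1 + u • x.1)) ≤ (Λ * rdQ H k) ^ 2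
        have h1 : rtSq (rtKX H k u x' x) ≤ Λ ^ 2 := (Real.sqrt_le_left h0.le).1 hX
        unfold rtKX at h1
        rw [rt_k_sq_smul, inv_pow, inv_mul_le_iff₀ (by positivity)] at h1
        rw [← sub_sub, mul_pow, mul_comm]
        exact h1
      · show |x'.2.2 - (x.2.2 + u * rtSq x.1) - 2 * rtIp x.1 (x'.2.1 - (x.2.1 + u • x.1))| ≤ Λ * H
        unfold rtKY at hY
        rw [abs_div, abs_of_pos hH, div_le_iff₀ hH] at hY
        rw [← sub_sub, ← sub_sub]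
        exact hY
    unfold rtKW
    set s : ℝ := 1 + Real.sqrt (rtSq (rtKX H k u x' x)) + |rtKY H u x' x| with hs
    have hspos : 0 < s := lt_of_lt_of_le h0 hbig
    rw [Real.rpow_neg h0.le, Real.rpow_natCast, mul_left_comm]
    apply mul_le_mul_of_nonneg_left _ (by positivity)
    show (s ^ (N + 4))⁻¹ ≤ (Λ ^ N)⁻¹ * (s ^ 4)⁻¹
    rw [pow_add, mul_inv]
    apply mul_le_mul_of_nonneg_right _ (by positivity)
    exact inv_anti₀ (by positivity) (pow_le_pow_left₀ h0.le hbig N)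
  · rw [if_neg hA, if_neg hA, mul_zero]

theorem rt_k_w_even (N : ℕ) (X : ℝ × ℝ) (Y : ℝ) : rtKW N (-X, -Y) = rtKW N (X, Y) := by
  unfold rtKW rtSq
  simp

theorem rt_k_disc (c : ℝ × ℝ) {d : ℝ} (hd : 0 ≤ d) : volume {w : ℝ × ℝ | rtSq (w - c) ≤ 8 * d ^ 2} ≤ ENNReal.ofReal (32 * d ^ 2) := by
  set r : ℝ := Real.sqrt 8 * d with hr
  have hr0 : 0 ≤ r := by positivity
  have hr2 : r ^ 2 = 8 * d ^ 2 := by
    rw [hr, mul_pow, Real.sq_sqrt (by norm_num)]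
  have hsub : {w : ℝ × ℝ | rtSq (w - c) ≤ 8 * d ^ 2} ⊆ Set.Icc (c.1 - r) (c.1 + r) ×ˢ Set.Icc (c.2 - r) (c.2 + r) := by
    intro w hw
    have hw' : (w.1 - c.1) ^ 2 + (w.2 - c.2) ^ 2 ≤ r ^ 2 := by
      rw [hr2]
      exact hw
    have h1 : |w.1 - c.1| ≤ r := abs_le_of_sq_le_sq (by nlinarith [sq_nonneg (w.2 - c.2)]) hr0
    have h2 : |w.2 - c.2| ≤ r := abs_le_of_sq_le_sq (by nlinarith [sq_nonneg (w.1 - c.1)]) hr0
    rw [abs_le] at h1 h2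
    refine ⟨⟨?_, ?_⟩, ⟨?_, ?_⟩⟩ <;> linarith [h1.1, h1.2, h2.1, h2.2]
  refine (measure_mono hsub).trans (le_of_eq ?_)
  rw [Measure.volume_eq_prod, Measure.prod_prod, Real.volume_Icc, Real.volume_Icc, ← ENNReal.ofReal_mul (by linarith)]
  congr 1
  nlinarith [hr2]

theorem rt_k_ip_two (A v : ℝ × ℝ) : rtIp ((2 : ℝ) • A) v = 2 * rtIp A v := by
  unfold rtIp
  simp only [Prod.smul_fst, Prod.smul_snd, smul_eq_mul]
  ring

theorem rt_k_norm_w {H : ℝ} (hH : 0 < H) (k : ℕ) :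
    ENNReal.ofReal (rdQ H k ^ 2 * H) * ∫⁻ w : (ℝ × ℝ) × ℝ, ENNReal.ofReal ((rdQ H k ^ 2 * H)⁻¹ * rtKW 4 w) = ∫⁻ w : (ℝ × ℝ) × ℝ, ENNReal.ofReal (rtKW 4 w) := by
  obtain ⟨hQ, -⟩ := rt_k_q_pos hH k
  have hpos : 0 < rdQ H k ^ 2 * H := by positivity
  rw [← lintegral_const_mul _ (((rt_k_w_meas 4).const_mul _).ennreal_ofReal)]
  refine lintegral_congr fun w => ?_
  rw [← ENNReal.ofReal_mul hpos.le, ← mul_assoc, mul_inv_cancel₀ hpos.ne', one_mul]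

/-- the `(b', y')` integral of the majorant -/
theorem rt_k_inner' {H : ℝ} (hH : 0 < H) (k : ℕ) (u : ℝ) (x : RdWvPar.Ph) (A' : ℝ × ℝ) :
    ∫⁻ z : (ℝ × ℝ) × ℝ, ENNReal.ofReal ((rdQ H k ^ 2 * H)⁻¹ * rtKW 4 (rtKX H k u (A', z) x, rtKY H u (A', z) x))
      = ∫⁻ w : (ℝ × ℝ) × ℝ, ENNReal.ofReal (rtKW 4 w) := by
  obtain ⟨hQ, -⟩ := rt_k_q_pos hH k
  have e := rt_k_cov_l (fun w => ENNReal.ofReal ((rdQ H k ^ 2 * H)⁻¹ * rtKW 4 w)) (((rt_k_w_meas 4).const_mul _).ennreal_ofReal) hQ hH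
    ((2 : ℝ) • x.1) (x.2.1 + u • x.1, x.2.2 + u * rtSq x.1)
  rw [rt_k_norm_w hH k] at e
  rw [← e]
  refine lintegral_congr fun z => ?_
  unfold rtKX rtKY
  simp only [rt_k_ip_two, sub_sub]

/-- the `(b, y)` integral of the majorant -/
theorem rt_k_inner {H : ℝ} (hH : 0 < H) (k : ℕ) (u : ℝ) (x' : RdWvPar.Ph) (A : ℝ × ℝ) :
    ∫⁻ z : (ℝ × ℝ) × ℝ, ENNReal.ofReal ((rdQ H k ^ 2 * H)⁻¹ * rtKW 4 (rtKX H k u x' (A, z), rtKY H u x' (A, z)))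
      = ∫⁻ w : (ℝ × ℝ) × ℝ, ENNReal.ofReal (rtKW 4 w) := by
  obtain ⟨hQ, -⟩ := rt_k_q_pos hH k
  have e := rt_k_cov_l (fun w => ENNReal.ofReal ((rdQ H k ^ 2 * H)⁻¹ * rtKW 4 w)) (((rt_k_w_meas 4).const_mul _).ennreal_ofReal) hQ hH
    ((2 : ℝ) • A) (x'.2.1 - u • A, x'.2.2 - u * rtSq A)
  rw [rt_k_norm_w hH k] at e
  rw [← e]
  refine lintegral_congr fun z => ?_
  rw [← rt_k_w_even]
  unfold rtKX rtKY
  simp only [rt_k_ip_two]
  congr 4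
  · rw [← smul_neg]
    congr 1
    abel
  · have h1 : x'.2.1 - z.1 - u • A = -(z.1 - (x'.2.1 - u • A)) := by abel
    have h2 : ∀ v : ℝ × ℝ, rtIp A (-v) = -rtIp A v := by
      intro v
      unfold rtIp
      simp only [Prod.fst_neg, Prod.snd_neg]
      ring
    rw [h1, h2]
    ring

theorem rt_k_sq_comm (a b : ℝ × ℝ) : rtSq (a - b) = rtSq (b - a) := by
  unfold rtSq
  simp only [Prod.fst_sub, Prod.snd_sub]
  ring

theorem rt_k_disc_meas (c : ℝ × ℝ) (r : ℝ) : MeasurableSet {w : ℝ × ℝ | rtSq (w - c) ≤ r} := by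
  refine measurableSet_le ?_ measurable_const
  unfold rtSq
  fun_prop

/-- LEAF L-256-RT-K-S1.  **Schur sum over the earlier rows.**   `x = (A, (b, y))`: `lintegral_prod`; inner integral by `rt_k_cov_l` (`a = Q`, `c = H`, `v = 2 • A`, `z0 = (b' - uA, y' - u|A|²)`, `rtKW` is even);
outer: `{A | rtSq (A' - A) ≤ 8 d'²} ⊆` square of side `2 √8 d'`, volume `≤ 32 d'²`; `(ℓ/H) d'² = ℓ/ℓ' = 2^(k'-k)`.   `C0 = 32 ∫ rtKW 4`.  ~250 l. -/
theorem rt_k_sum_x : ∃ C0 : ℝ, 0 ≤ C0 ∧ ∀ (p : RdWvPar) (k k' : ℕ) (u : ℝ) (x' : RdWvPar.Ph),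
    ∫⁻ x, ENNReal.ofReal (rtKM p.H k k' u 4 x' x) ∂(p.rw k) ≤ ENNReal.ofReal (C0 * 2 ^ ((k' : ℝ) - k)) := by
  refine ⟨32 * (∫⁻ w : (ℝ × ℝ) × ℝ, ENNReal.ofReal (rtKW 4 w)).toReal, by positivity, fun p k k' u x' => ?_⟩
  obtain ⟨hd, hd2⟩ := rt_k_d_pos p.H_pos k'
  have hH := p.H_pos
  have hm : Measurable fun x : RdWvPar.Ph => ENNReal.ofReal (rtKM p.H k k' u 4 x' x) :=
    ((rt_k_m_meas p.H k k' u 4).comp (f := fun x : RdWvPar.Ph => (x', x)) (by fun_prop)).ennreal_ofReal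
  have hin : ∀ A : ℝ × ℝ, ∫⁻ z : (ℝ × ℝ) × ℝ, ENNReal.ofReal (rtKM p.H k k' u 4 x' (A, z))
      = {w : ℝ × ℝ | rtSq (w - x'.1) ≤ 8 * rdD p.H k' ^ 2}.indicator (fun _ => ∫⁻ w : (ℝ × ℝ) × ℝ, ENNReal.ofReal (rtKW 4 w)) A := by
    intro A
    unfold rtKM
    by_cases hA : rtSq (x'.1 - A) ≤ 8 * rdD p.H k' ^ 2
    · simp only [if_pos hA]
      rw [rt_k_inner hH, Set.indicator_of_mem]
      show rtSq (A - x'.1) ≤ _
      rw [rt_k_sq_comm]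
      exact hA
    · simp only [if_neg hA, ENNReal.ofReal_zero, lintegral_zero]
      rw [Set.indicator_of_notMem]
      intro h
      apply hA
      rw [rt_k_sq_comm]
      exact h
  unfold RdWvPar.rw
  rw [lintegral_smul_measure, Measure.volume_eq_prod, lintegral_prod _ hm.aemeasurable]
  simp only [hin]
  rw [lintegral_indicator_const (rt_k_disc_meas _ _), smul_eq_mul]
  have hI : (∫⁻ w : (ℝ × ℝ) × ℝ, ENNReal.ofReal (rtKW 4 w)) = ENNReal.ofReal (∫⁻ w : (ℝ × ℝ) × ℝ, ENNReal.ofReal (rtKW 4 w)).toReal :=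
    (ENNReal.ofReal_toReal rt_k_w_int).symm
  have hl := rdLen_pos k
  have hl' := rdLen_pos k'
  calc ENNReal.ofReal (rdLen k / p.H) * ((∫⁻ w : (ℝ × ℝ) × ℝ, ENNReal.ofReal (rtKW 4 w)) * volume {w : ℝ × ℝ | rtSq (w - x'.1) ≤ 8 * rdD p.H k' ^ 2})
      ≤ ENNReal.ofReal (rdLen k / p.H) * ((∫⁻ w : (ℝ × ℝ) × ℝ, ENNReal.ofReal (rtKW 4 w)) * ENNReal.ofReal (32 * rdD p.H k' ^ 2)) := by
        gcongr
        exact rt_k_disc _ hd.le
    _ = ENNReal.ofReal (32 * (∫⁻ w : (ℝ × ℝ) × ℝ, ENNReal.ofReal (rtKW 4 w)).toReal * 2 ^ ((k' : ℝ) - k)) := by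
        rw [hI, ENNReal.toReal_ofReal ENNReal.toReal_nonneg, ← ENNReal.ofReal_mul ENNReal.toReal_nonneg, ← ENNReal.ofReal_mul (by positivity)]
        congr 1
        rw [hd2, Real.rpow_sub (by norm_num), Real.rpow_natCast, Real.rpow_natCast]
        unfold rdLen
        rw [inv_pow, inv_pow]
        field_simp

/-- LEAF L-256-RT-K-S2.  **Schur sum over the later rows.**   The same with `z0 = (b + uA, y + u|A|²)`; `(ℓ'/H) d'² = 1`.  ~200 l. (share the helpers with S1) -/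
theorem rt_k_sum_x' : ∃ C0 : ℝ, 0 ≤ C0 ∧ ∀ (p : RdWvPar) (k k' : ℕ) (u : ℝ) (x : RdWvPar.Ph),
    ∫⁻ x', ENNReal.ofReal (rtKM p.H k k' u 4 x' x) ∂(p.rw k') ≤ ENNReal.ofReal C0 := by
  refine ⟨32 * (∫⁻ w : (ℝ × ℝ) × ℝ, ENNReal.ofReal (rtKW 4 w)).toReal, by positivity, fun p k k' u x => ?_⟩
  obtain ⟨hd, hd2⟩ := rt_k_d_pos p.H_pos k'
  have hH := p.H_pos
  have hm : Measurable fun x' : RdWvPar.Ph => ENNReal.ofReal (rtKM p.H k k' u 4 x' x) :=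
    ((rt_k_m_meas p.H k k' u 4).comp (f := fun x' : RdWvPar.Ph => (x', x)) (by fun_prop)).ennreal_ofReal
  have hin : ∀ A' : ℝ × ℝ, ∫⁻ z : (ℝ × ℝ) × ℝ, ENNReal.ofReal (rtKM p.H k k' u 4 (A', z) x)
      = {w : ℝ × ℝ | rtSq (w - x.1) ≤ 8 * rdD p.H k' ^ 2}.indicator (fun _ => ∫⁻ w : (ℝ × ℝ) × ℝ, ENNReal.ofReal (rtKW 4 w)) A' := by
    intro A'
    unfold rtKM
    by_cases hA : rtSq (A' - x.1) ≤ 8 * rdD p.H k' ^ 2
    · simp only [if_pos hA]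
      rw [rt_k_inner' hH, Set.indicator_of_mem]
      exact hA
    · simp only [if_neg hA, ENNReal.ofReal_zero, lintegral_zero]
      rw [Set.indicator_of_notMem]
      exact hA
  unfold RdWvPar.rw
  rw [lintegral_smul_measure, Measure.volume_eq_prod, lintegral_prod _ hm.aemeasurable]
  simp only [hin]
  rw [lintegral_indicator_const (rt_k_disc_meas _ _), smul_eq_mul]
  have hI : (∫⁻ w : (ℝ × ℝ) × ℝ, ENNReal.ofReal (rtKW 4 w)) = ENNReal.ofReal (∫⁻ w : (ℝ × ℝ) × ℝ, ENNReal.ofReal (rtKW 4 w)).toReal :=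
    (ENNReal.ofReal_toReal rt_k_w_int).symm
  have hl' := rdLen_pos k'
  calc ENNReal.ofReal (rdLen k' / p.H) * ((∫⁻ w : (ℝ × ℝ) × ℝ, ENNReal.ofReal (rtKW 4 w)) * volume {w : ℝ × ℝ | rtSq (w - x.1) ≤ 8 * rdD p.H k' ^ 2})
      ≤ ENNReal.ofReal (rdLen k' / p.H) * ((∫⁻ w : (ℝ × ℝ) × ℝ, ENNReal.ofReal (rtKW 4 w)) * ENNReal.ofReal (32 * rdD p.H k' ^ 2)) := by
        gcongr
        exact rt_k_disc _ hd.le
    _ = ENNReal.ofReal (32 * (∫⁻ w : (ℝ × ℝ) × ℝ, ENNReal.ofReal (rtKW 4 w)).toReal) := by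
        rw [hI, ENNReal.toReal_ofReal ENNReal.toReal_nonneg, ← ENNReal.ofReal_mul ENNReal.toReal_nonneg, ← ENNReal.ofReal_mul (by positivity)]
        congr 1
        rw [hd2]
        field_simp

/-! ## integral representations -/

/-- LEAF L-256-RT-K-PK.  joint measurability and the sup bound of the packets -/
theorem rt_k_pk_meas (p : RdWvPar) (T : ℝ) (k b : ℕ) : Measurable fun z : RdWvPar.Ph × RdWvPar.Mo => p.pk T k b z.1 z.2 :=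
  rt_w1c_pk_meas p T k b

/-- LEAF L-256-RT-K-PK. -/
theorem rt_k_pk_norm (p : RdWvPar) (T : ℝ) (k b : ℕ) (x : RdWvPar.Ph) (q : RdWvPar.Mo) :
    ‖p.pk T k b x q‖ = (2 * Real.pi) ^ (-(3 / 2) : ℝ) * rtW1Amp p.H k b x.1 q := by
  unfold RdWvPar.pk
  rw [norm_mul, rt_w1c_norm_exp, mul_one, Complex.norm_real, Real.norm_of_nonneg, mul_assoc]
  · rfl
  · exact mul_nonneg (mul_nonneg (by positivity) (rd_chi_nonneg _ _)) (rd_psi_nonneg _)

theorem rt_k_rw_sf (p : RdWvPar) (k : ℕ) : SigmaFinite (p.rw k) := by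
  unfold RdWvPar.rw
  exact (inferInstance : SigmaFinite ((Real.toNNReal (rdLen k / p.H)) • (volume : Measure RdWvPar.Ph)))

/-- the sup bound of the packets -/
theorem rt_k_pk_le (p : RdWvPar) (T : ℝ) (k b : ℕ) (x : RdWvPar.Ph) (q : RdWvPar.Mo) :
    ‖p.pk T k b x q‖ ≤ (2 * Real.pi) ^ (-(3 / 2) : ℝ) * rtW1C := by
  rw [rt_k_pk_norm]
  exact mul_le_mul_of_nonneg_left (rt_w1_amp_le _ _ _ _ _) (by positivity)

/-- `L²` functions are integrable on sets of finite measure -/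
theorem rt_k_l2_intOn {X : Type} [MeasurableSpace X] {μ : Measure X} (F : Lp ℂ 2 μ) {s : Set X} (hs : μ s < ∞) :
    IntegrableOn (F : X → ℂ) s μ := by
  have : IsFiniteMeasure (μ.restrict s) := ⟨by rw [Measure.restrict_apply_univ]; exact hs⟩
  have h2 : MemLp (F : X → ℂ) 2 (μ.restrict s) := (Lp.memLp F).restrict s
  exact memLp_one_iff_integrable.1 (h2.mono_exponent (by norm_num))

/-- the integrand of the synthesis formula, on the product -/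
theorem rt_k_syn_int (p : RdWvPar) (T : ℝ) (k b : ℕ) (F : Lp ℂ 2 (p.rw k)) (hF : Integrable (F : RdWvPar.Ph → ℂ) (p.rw k))
    (ν : Measure RdWvPar.Mo) [IsFiniteMeasure ν] :
    Integrable (fun z : RdWvPar.Ph × RdWvPar.Mo => conj (p.pk T k b z.1 z.2) * (F : RdWvPar.Ph → ℂ) z.1) ((p.rw k).prod ν) := by
  have := rt_k_rw_sf p k
  refine (hF.comp_fst ν).bdd_mul (c := (2 * Real.pi) ^ (-(3 / 2) : ℝ) * rtW1C) ?_ (Filter.Eventually.of_forall fun z => ?_)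
  · exact (Complex.continuous_conj.measurable.comp (rt_k_pk_meas p T k b)).aestronglyMeasurable
  · rw [RCLike.norm_conj]
    exact rt_k_pk_le p T k b z.1 z.2

theorem rt_k_syn_meas (p : RdWvPar) (T : ℝ) (k b : ℕ) (F : Lp ℂ 2 (p.rw k)) :
    StronglyMeasurable fun q : RdWvPar.Mo => ∫ x, conj (p.pk T k b x q) * (F : RdWvPar.Ph → ℂ) x ∂(p.rw k) := by
  have := rt_k_rw_sf p k
  have h : StronglyMeasurable fun z : RdWvPar.Mo × RdWvPar.Ph => conj (p.pk T k b z.2 z.1) * (F : RdWvPar.Ph → ℂ) z.2 := by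
    refine StronglyMeasurable.mul ?_ ((Lp.stronglyMeasurable F).comp_measurable measurable_snd)
    exact (Complex.continuous_conj.measurable.comp ((rt_k_pk_meas p T k b).comp measurable_swap)).stronglyMeasurable
  exact h.integral_prod_right'

/-- LEAF L-256-RT-K-SYN.  **synthesis formula** for integrable `F`.
PLAN: `W q := ∫ conj (pk x q) F x d rw_k` is bounded and measurable.  For `s` measurable of finite volume, `G = 1_s ∈ L²` (`indicatorConstLp`):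
`∫_s An^* F = ⟪G, An^* F⟫ = ⟪An G, F⟫ = ∫_x conj (∫_s pk x q dq) F x = ∫_s W` (`rt_w1_an_spec`, Fubini: `|pk| ≤ C`, `F ∈ L¹`, `vol s < ∞`);   `ae_eq_of_forall_setIntegral_eq_of_sigmaFinite`.  ~300 l. -/
theorem rt_k_syn (p : RdWvPar) (T : ℝ) (k b : ℕ) (F : Lp ℂ 2 (p.rw k)) (hF : Integrable (F : RdWvPar.Ph → ℂ) (p.rw k)) :
    (ContinuousLinearMap.adjoint (p.an T k b) F : RdWvPar.Mo → ℂ) =ᵐ[volume] fun q => ∫ x, conj (p.pk T k b x q) * (F : RdWvPar.Ph → ℂ) x ∂(p.rw k) := by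
  have hsf := rt_k_rw_sf p k
  refine ae_eq_of_forall_setIntegral_eq_of_sigmaFinite (fun s _ hμ => rt_k_l2_intOn _ hμ) (fun s hs hμ => ?_) (fun s hs hμ => ?_)
  · have : IsFiniteMeasure ((volume : Measure RdWvPar.Mo).restrict s) := ⟨by rw [Measure.restrict_apply_univ]; exact hμ⟩
    exact (rt_k_syn_int p T k b F hF (volume.restrict s)).integral_prod_right
  · have : IsFiniteMeasure ((volume : Measure RdWvPar.Mo).restrict s) := ⟨by rw [Measure.restrict_apply_univ]; exact hμ⟩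
    rw [← L2.inner_indicatorConstLp_one hs hμ.ne, ContinuousLinearMap.adjoint_inner_right, L2.inner_def]
    have hrow : ∀ x : RdWvPar.Ph, p.row T k b (indicatorConstLp 2 hs hμ.ne (1 : ℂ)) x = ∫ q in s, p.pk T k b x q := by
      intro x
      unfold RdWvPar.row
      rw [← integral_indicator hs]
      refine integral_congr_ae ?_
      filter_upwards [indicatorConstLp_coeFn (p := 2) (hs := hs) (hμs := hμ.ne) (c := (1 : ℂ))] with q hq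
      rw [hq]
      by_cases hqs : q ∈ s
      · rw [Set.indicator_of_mem hqs, Set.indicator_of_mem hqs, mul_one]
      · rw [Set.indicator_of_notMem hqs, Set.indicator_of_notMem hqs, mul_zero]
    have e1 : ∫ x, inner ℂ ((p.an T k b (indicatorConstLp 2 hs hμ.ne (1 : ℂ)) : RdWvPar.Ph → ℂ) x) ((F : RdWvPar.Ph → ℂ) x) ∂(p.rw k)
        = ∫ x, (∫ q in s, conj (p.pk T k b x q) * (F : RdWvPar.Ph → ℂ) x) ∂(p.rw k) := by
      refine integral_congr_ae ?_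
      filter_upwards [rt_w1c_an p T k b (indicatorConstLp 2 hs hμ.ne (1 : ℂ))] with x hx
      rw [hx, hrow, RCLike.inner_apply, mul_comm, ← integral_conj, integral_mul_const]
    rw [e1]
    exact integral_integral_swap (f := fun x q => conj (p.pk T k b x q) * (F : RdWvPar.Ph → ℂ) x) (rt_k_syn_int p T k b F hF (volume.restrict s))

/-- LEAF L-256-RT-K-REP.  **kernel representation** for integrable `F`   (`rt_w1_an_spec`; `row` of `An^* F` with `rt_k_syn` under the integral; Fubini: `|pk' x' q| ≤ C 1[‖q‖ ≤ R(x')]` (`rt_w1_amp_supp`), `|pk| ≤ C`, `F ∈ L¹`).  ~250 l. -/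
theorem rt_k_rep (p : RdWvPar) (T : ℝ) (k b : ℕ) (T' : ℝ) (k' b' : ℕ) (F : Lp ℂ 2 (p.rw k)) (hF : Integrable (F : RdWvPar.Ph → ℂ) (p.rw k)) :
    (p.an T' k' b' (ContinuousLinearMap.adjoint (p.an T k b) F) : RdWvPar.Ph → ℂ)
      =ᵐ[p.rw k'] fun x' => ∫ x, rtKK p T k b T' k' b' x' x * (F : RdWvPar.Ph → ℂ) x ∂(p.rw k) := by
  have hsf := rt_k_rw_sf p k
  filter_upwards [rt_w1c_an p T' k' b' (ContinuousLinearMap.adjoint (p.an T k b) F)] with x' hx'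
  rw [hx']
  unfold RdWvPar.row
  obtain ⟨R, hR⟩ := rt_w1_amp_supp p.H_pos k' b' x'.1
  set B : Set RdWvPar.Mo := Metric.closedBall 0 R with hBdef
  have hBfin : volume B < ∞ := (isCompact_closedBall (0 : RdWvPar.Mo) R).measure_lt_top
  have : IsFiniteMeasure ((volume : Measure RdWvPar.Mo).restrict B) := ⟨by rw [Measure.restrict_apply_univ]; exact hBfin⟩
  have hz : ∀ q, q ∉ B → p.pk T' k' b' x' q = 0 := by
    intro q hq
    by_contra hne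
    apply hq
    have h1 : rtW1Amp p.H k' b' x'.1 q ≠ 0 := by
      intro h0
      apply hne
      rw [← norm_eq_zero, rt_k_pk_norm, h0, mul_zero]
    rw [hBdef, mem_closedBall_zero_iff]
    exact hR q h1
  have hpm : Measurable fun z : RdWvPar.Ph × RdWvPar.Mo => p.pk T' k' b' x' z.2 :=
    (rt_k_pk_meas p T' k' b').comp (f := fun z : RdWvPar.Ph × RdWvPar.Mo => (x', z.2)) (by fun_prop)
  have hint : Integrable (fun z : RdWvPar.Ph × RdWvPar.Mo => p.pk T' k' b' x' z.2 * (conj (p.pk T k b z.1 z.2) * (F : RdWvPar.Ph → ℂ) z.1))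
      ((p.rw k).prod (volume.restrict B)) :=
    (rt_k_syn_int p T k b F hF (volume.restrict B)).bdd_mul (c := (2 * Real.pi) ^ (-(3 / 2) : ℝ) * rtW1C) hpm.aestronglyMeasurable
      (Filter.Eventually.of_forall fun z => rt_k_pk_le p T' k' b' x' z.2)
  calc ∫ q, p.pk T' k' b' x' q * (ContinuousLinearMap.adjoint (p.an T k b) F : RdWvPar.Mo → ℂ) q
      = ∫ q, p.pk T' k' b' x' q * ∫ x, conj (p.pk T k b x q) * (F : RdWvPar.Ph → ℂ) x ∂(p.rw k) := by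
        refine integral_congr_ae ?_
        filter_upwards [rt_k_syn p T k b F hF] with q hq
        rw [hq]
    _ = ∫ q in B, p.pk T' k' b' x' q * ∫ x, conj (p.pk T k b x q) * (F : RdWvPar.Ph → ℂ) x ∂(p.rw k) :=
        (setIntegral_eq_integral_of_forall_compl_eq_zero fun q hq => by rw [hz q hq, zero_mul]).symm
    _ = ∫ q in B, (∫ x, p.pk T' k' b' x' q * (conj (p.pk T k b x q) * (F : RdWvPar.Ph → ℂ) x) ∂(p.rw k)) := by
        refine integral_congr_ae (Filter.Eventually.of_forall fun q => ?_)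
        exact (integral_const_mul _ _).symm
    _ = ∫ x, (∫ q in B, p.pk T' k' b' x' q * (conj (p.pk T k b x q) * (F : RdWvPar.Ph → ℂ) x)) ∂(p.rw k) :=
        (integral_integral_swap (f := fun x q => p.pk T' k' b' x' q * (conj (p.pk T k b x q) * (F : RdWvPar.Ph → ℂ) x)) hint).symm
    _ = ∫ x, rtKK p T k b T' k' b' x' x * (F : RdWvPar.Ph → ℂ) x ∂(p.rw k) := by
        refine integral_congr_ae (Filter.Eventually.of_forall fun x => ?_)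
        show (∫ q in B, p.pk T' k' b' x' q * (conj (p.pk T k b x q) * (F : RdWvPar.Ph → ℂ) x))
          = rtKK p T k b T' k' b' x' x * (F : RdWvPar.Ph → ℂ) x
        unfold rtKK
        rw [← integral_mul_const, setIntegral_eq_integral_of_forall_compl_eq_zero fun q hq => by rw [hz q hq, zero_mul]]
        simp only [mul_assoc]

/-! ## assembly -/

/-- LEAF L-256-RT-K-A1.  **the bound for integrable `F` supported in `S`, `Λ² ≥ 8`.**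
`rt_k_rep`; `‖∫ K F‖ₑ ≤ ∫⁻ ‖K‖ₑ ‖F‖ₑ`; on `S' × S`: `‖K‖ ≤ C M_{N+4} ≤ C Λ^-N M_4` (`rt_k_bound` with `N + 4`, `rt_k_gain`); `rt_k_schur` for the kernel `ofReal (C Λ^-N M_4)`, `μ = rw k'`, `ν = rw k`, sums `rt_k_sum_x`, `rt_k_sum_x'`.  ~250 l. -/
theorem rt_k_int_bd (bm N : ℕ) : ∃ C : ℝ, 0 ≤ C ∧ ∀ (p : RdWvPar) (Λ : ℝ), 0 < Λ → 8 ≤ Λ ^ 2 → ∀ (T : ℝ) (k : ℕ) (T' : ℝ) (k' b b' : ℕ), CutLe T k T' k' → b ≤ bm → b' ≤ bm →
    ∀ (S S' : Set RdWvPar.Ph), MeasurableSet S → MeasurableSet S' →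
    (∀ x ∈ S, ∀ x' ∈ S', ¬ RtNear Λ (rdD p.H k') (rdQ p.H k) p.H ((RdWvPar.co T x).flow (T' - T)) (RdWvPar.co T' x')) →
    ∀ F : Lp ℂ 2 (p.rw k), Integrable (F : RdWvPar.Ph → ℂ) (p.rw k) → (∀ᵐ x ∂(p.rw k), x ∉ S → (F : RdWvPar.Ph → ℂ) x = 0) →
      ∫⁻ x' in S', ‖(p.an T' k' b' (ContinuousLinearMap.adjoint (p.an T k b) F) : RdWvPar.Ph → ℂ) x'‖ₑ ^ 2 ∂(p.rw k')
        ≤ ENNReal.ofReal ((C * Λ ^ (-(N : ℝ))) ^ 2 * 2 ^ ((k' : ℝ) - k)) * ∫⁻ x, ‖(F : RdWvPar.Ph → ℂ) x‖ₑ ^ 2 ∂(p.rw k) := by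
  obtain ⟨C1, hC1, hb⟩ := rt_k_bound bm (N + 4)
  obtain ⟨Cx, hCx, hx⟩ := rt_k_sum_x
  obtain ⟨Cx', hCx', hx'⟩ := rt_k_sum_x'
  refine ⟨C1 * Real.sqrt (Cx * Cx'), by positivity, ?_⟩
  intro p Λ h0 h8 T k T' k' b b' hcut hbm hbm' S S' hS hS' hfar F hF hsupp
  have hsf := rt_k_rw_sf p k
  have hsf' := rt_k_rw_sf p k'
  set c : ℝ := C1 * Λ ^ (-(N : ℝ)) with hc
  have hc0 : 0 ≤ c := by positivity
  set K : RdWvPar.Ph → RdWvPar.Ph → ℝ≥0∞ := fun x' x => ENNReal.ofReal c * ENNReal.ofReal (rtKM p.H k k' (T' - T) 4 x' x) with hK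
  have hKm : Measurable (Function.uncurry K) := (rt_k_m_meas p.H k k' (T' - T) 4).ennreal_ofReal.const_mul _
  have hm1 : ∀ x' : RdWvPar.Ph, Measurable fun x : RdWvPar.Ph => ENNReal.ofReal (rtKM p.H k k' (T' - T) 4 x' x) := fun x' =>
    ((rt_k_m_meas p.H k k' (T' - T) 4).comp (f := fun x : RdWvPar.Ph => (x', x)) (by fun_prop)).ennreal_ofReal
  have hm2 : ∀ x : RdWvPar.Ph, Measurable fun x' : RdWvPar.Ph => ENNReal.ofReal (rtKM p.H k k' (T' - T) 4 x' x) := fun x =>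
    ((rt_k_m_meas p.H k k' (T' - T) 4).comp (f := fun x' : RdWvPar.Ph => (x', x)) (by fun_prop)).ennreal_ofReal
  have hA : ∀ x', ∫⁻ x, K x' x ∂(p.rw k) ≤ ENNReal.ofReal c * ENNReal.ofReal (Cx * 2 ^ ((k' : ℝ) - k)) := by
    intro x'
    rw [hK, lintegral_const_mul _ (hm1 x')]
    gcongr
    exact hx p k k' (T' - T) x'
  have hB : ∀ x, ∫⁻ x', K x' x ∂(p.rw k') ≤ ENNReal.ofReal c * ENNReal.ofReal Cx' := by
    intro x
    rw [hK, lintegral_const_mul _ (hm2 x)]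
    gcongr
    exact hx' p k k' (T' - T) x
  have hsch := rt_k_schur (p.rw k') (p.rw k) K hKm _ _ hA hB (fun x => ‖(F : RdWvPar.Ph → ℂ) x‖ₑ)
    (Lp.stronglyMeasurable F).enorm.aemeasurable
  have hpt : ∀ᵐ x' ∂(p.rw k'), x' ∈ S' →
      ‖(p.an T' k' b' (ContinuousLinearMap.adjoint (p.an T k b) F) : RdWvPar.Ph → ℂ) x'‖ₑ ^ 2
        ≤ (∫⁻ x, K x' x * ‖(F : RdWvPar.Ph → ℂ) x‖ₑ ∂(p.rw k)) ^ 2 := by
    filter_upwards [rt_k_rep p T k b T' k' b' F hF] with x' hrep hxS'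
    rw [hrep]
    refine pow_le_pow_left₀ zero_le ((enorm_integral_le_lintegral_enorm _).trans ?_) 2
    refine lintegral_mono_ae ?_
    filter_upwards [hsupp] with x hxs
    by_cases hxS : x ∈ S
    · rw [enorm_mul]
      gcongr
      show ‖rtKK p T k b T' k' b' x' x‖ₑ ≤ ENNReal.ofReal c * ENNReal.ofReal (rtKM p.H k k' (T' - T) 4 x' x)
      rw [← ENNReal.ofReal_mul hc0, ← ofReal_norm]
      apply ENNReal.ofReal_le_ofReal
      refine (hb p T k T' k' b b' hcut hbm hbm' x' x).trans ?_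
      rw [hc, mul_assoc]
      exact mul_le_mul_of_nonneg_left (rt_k_gain p.H_pos k k' (T' - T) T T' N h0 h8 x' x (hfar x hxS x' hxS')) hC1
    · rw [hxs hxS]
      simp
  calc ∫⁻ x' in S', ‖(p.an T' k' b' (ContinuousLinearMap.adjoint (p.an T k b) F) : RdWvPar.Ph → ℂ) x'‖ₑ ^ 2 ∂(p.rw k')
      ≤ ∫⁻ x' in S', (∫⁻ x, K x' x * ‖(F : RdWvPar.Ph → ℂ) x‖ₑ ∂(p.rw k)) ^ 2 ∂(p.rw k') := setLIntegral_mono_ae' hS' hpt
    _ ≤ ∫⁻ x', (∫⁻ x, K x' x * ‖(F : RdWvPar.Ph → ℂ) x‖ₑ ∂(p.rw k)) ^ 2 ∂(p.rw k') := setLIntegral_le_lintegral _ _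
    _ ≤ _ := hsch
    _ = _ := by
      congr 1
      rw [← ENNReal.ofReal_mul hc0, ← ENNReal.ofReal_mul hc0, ← ENNReal.ofReal_mul (by positivity)]
      congr 1
      rw [mul_pow, mul_pow, Real.sq_sqrt (by positivity), hc]
      ring

theorem rt_k_adj_le (p : RdWvPar) (T : ℝ) (k b : ℕ) (F : Lp ℂ 2 (p.rw k)) : ‖ContinuousLinearMap.adjoint (p.an T k b) F‖ ≤ ‖F‖ := by
  have h1 : ‖p.an T k b‖ ≤ 1 := ContinuousLinearMap.opNorm_le_bound _ zero_le_one fun G => by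
    rw [one_mul]
    exact rt_w1c_an_le p T k b G
  have h2 : ‖ContinuousLinearMap.adjoint (p.an T k b)‖ ≤ 1 := by
    rw [LinearIsometryEquiv.norm_map]
    exact h1
  calc ‖ContinuousLinearMap.adjoint (p.an T k b) F‖ ≤ ‖ContinuousLinearMap.adjoint (p.an T k b)‖ * ‖F‖ := ContinuousLinearMap.le_opNorm _ _
    _ ≤ 1 * ‖F‖ := mul_le_mul_of_nonneg_right h2 (norm_nonneg _)
    _ = ‖F‖ := one_mul _

/-- the real set integral of the square is the square of the restricted `L²` norm -/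
theorem rt_k_set_sq {X : Type} [MeasurableSpace X] {μ : Measure X} (G : Lp ℂ 2 μ) (s : Set X) :
    ∫ x in s, ‖(G : X → ℂ) x‖ ^ 2 ∂μ = (eLpNorm (G : X → ℂ) 2 (μ.restrict s)).toReal ^ 2 := by
  have hm : MemLp (G : X → ℂ) 2 (μ.restrict s) := (Lp.memLp G).restrict s
  have h1 := rt_w1c_lint_sq hm
  rw [← rt_w1c_eLp_sq] at h1
  rw [← ENNReal.toReal_pow, h1, ENNReal.toReal_ofReal (integral_nonneg fun x => by positivity)]

/-- LEAF L-256-RT-K-A2.  **all `F ∈ L²` supported in `S`** (real form).   `rt_k_approx` (`F'` integrable, supported in `S`, `‖F'‖ ≤ ‖F‖`, `‖F - F'‖ ≤ ε`); `(∫_{S'} ‖O F‖²)^{1/2} ≤ (∫_{S'} ‖O F'‖²)^{1/2} + ‖O (F - F')‖`,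
`‖O‖ ≤ 1` (`rt_w1_contr`, `ContinuousLinearMap.adjoint.norm_map`), `ε → 0`.   Norm of the restriction: `LpToLpRestrictCLM` or Minkowski on `L²(rw k' restricted to S')`.  ~250 l. -/
theorem rt_k_l2_bd (bm N : ℕ) : ∃ C : ℝ, 0 ≤ C ∧ ∀ (p : RdWvPar) (Λ : ℝ), 0 < Λ → 8 ≤ Λ ^ 2 → ∀ (T : ℝ) (k : ℕ) (T' : ℝ) (k' b b' : ℕ), CutLe T k T' k' → b ≤ bm → b' ≤ bm →
    ∀ (S S' : Set RdWvPar.Ph), MeasurableSet S → MeasurableSet S' →
    (∀ x ∈ S, ∀ x' ∈ S', ¬ RtNear Λ (rdD p.H k') (rdQ p.H k) p.H ((RdWvPar.co T x).flow (T' - T)) (RdWvPar.co T' x')) →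
    ∀ F : Lp ℂ 2 (p.rw k), (∀ᵐ x ∂(p.rw k), x ∉ S → (F : RdWvPar.Ph → ℂ) x = 0) →
      ∫ x' in S', ‖(p.an T' k' b' (ContinuousLinearMap.adjoint (p.an T k b) F) : RdWvPar.Ph → ℂ) x'‖ ^ 2 ∂(p.rw k')
        ≤ (C * Λ ^ (-(N : ℝ))) ^ 2 * 2 ^ ((k' : ℝ) - k) * ‖F‖ ^ 2 := by
  obtain ⟨C, hC, hbd⟩ := rt_k_int_bd bm N
  refine ⟨C, hC, ?_⟩
  intro p Λ h0 h8 T k T' k' b b' hcut hbm hbm' S S' hS hS' hfar F hsupp
  have hsf := rt_k_rw_sf p k
  set D : ℝ := C * Λ ^ (-(N : ℝ)) * Real.sqrt (2 ^ ((k' : ℝ) - k)) with hD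
  have hD0 : 0 ≤ D := by positivity
  have hD2 : D ^ 2 = (C * Λ ^ (-(N : ℝ))) ^ 2 * 2 ^ ((k' : ℝ) - k) := by
    rw [hD, mul_pow, Real.sq_sqrt (by positivity)]
  set O : Lp ℂ 2 (p.rw k) → Lp ℂ 2 (p.rw k') := fun G => p.an T' k' b' (ContinuousLinearMap.adjoint (p.an T k b) G) with hO
  have hOle : ∀ G, ‖O G‖ ≤ ‖G‖ := fun G => (rt_w1c_an_le p T' k' b' _).trans (rt_k_adj_le p T k b G)
  have hOsub : ∀ G G', O G = O G' + O (G - G') := by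
    intro G G'
    simp only [hO, map_sub]
    abel
  rw [rt_k_set_sq, ← hD2, ← mul_pow]
  refine pow_le_pow_left₀ ENNReal.toReal_nonneg ?_ 2
  refine le_of_forall_pos_le_add fun ε hε => ?_
  obtain ⟨F', hF'i, hF'z, hF'n, hF'e⟩ := rt_k_approx (p.rw k) F hε
  have hsupp' : ∀ᵐ x ∂(p.rw k), x ∉ S → (F' : RdWvPar.Ph → ℂ) x = 0 := by
    filter_upwards [hsupp, hF'z] with x h1 h2 hx
    exact h2 (h1 hx)
  have h1 := hbd p Λ h0 h8 T k T' k' b b' hcut hbm hbm' S S' hS hS' hfar F' hF'i hsupp'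
  have h2 : eLpNorm (O F' : RdWvPar.Ph → ℂ) 2 ((p.rw k').restrict S') ≤ ENNReal.ofReal (D * ‖F‖) := by
    rw [← ENNReal.pow_le_pow_left_iff (n := 2) (by norm_num), rt_w1c_eLp_sq]
    refine h1.trans ?_
    have e2 : ENNReal.ofReal (D * ‖F‖) ^ 2 = ENNReal.ofReal (D ^ 2) * ENNReal.ofReal ‖F‖ ^ 2 := by
      rw [ENNReal.ofReal_mul hD0, mul_pow, ENNReal.ofReal_pow hD0]
    rw [← rt_w1c_eLp_sq, ← hD2, e2]
    gcongr
    rw [← ENNReal.ofReal_toReal (Lp.memLp F').2.ne]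
    exact ENNReal.ofReal_le_ofReal hF'n
  have h3 : eLpNorm (O (F - F') : RdWvPar.Ph → ℂ) 2 ((p.rw k').restrict S') ≤ ENNReal.ofReal ε := by
    refine (eLpNorm_mono_measure _ Measure.restrict_le_self).trans ?_
    rw [← ENNReal.ofReal_toReal (Lp.memLp (O (F - F'))).2.ne]
    exact ENNReal.ofReal_le_ofReal ((hOle _).trans hF'e)
  have h4 : eLpNorm (O F : RdWvPar.Ph → ℂ) 2 ((p.rw k').restrict S') ≤ ENNReal.ofReal (D * ‖F‖ + ε) := by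
    have e : (O F : RdWvPar.Ph → ℂ) =ᵐ[(p.rw k').restrict S'] (O F' : RdWvPar.Ph → ℂ) + (O (F - F') : RdWvPar.Ph → ℂ) := by
      apply ae_restrict_of_ae
      rw [hOsub F F']
      exact Lp.coeFn_add _ _
    rw [eLpNorm_congr_ae e, ENNReal.ofReal_add (by positivity) hε.le]
    refine (eLpNorm_add_le ((Lp.aestronglyMeasurable _).restrict) ((Lp.aestronglyMeasurable _).restrict) (by norm_num)).trans ?_
    exact add_le_add h2 h3
  exact ENNReal.toReal_le_of_le_ofReal (by positivity) h4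

/-- the masked row function is the indicator -/
theorem rt_k_mulR_coe (p : RdWvPar) (η : ℝ) (k : ℕ) (S : Set RdWvPar.Ph) (hS : MeasurableSet S) (F : Lp ℂ 2 (p.rw k)) :
    ((p.sys η).mulR k (S.indicator fun _ => 1) F : RdWvPar.Ph → ℂ) =ᵐ[p.rw k] S.indicator (F : RdWvPar.Ph → ℂ) := by
  have hpt : ∀ x : RdWvPar.Ph, (((S.indicator (fun _ => (1 : ℝ)) x : ℝ) : ℂ)) • (F : RdWvPar.Ph → ℂ) x = S.indicator (F : RdWvPar.Ph → ℂ) x := by
    intro x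
    by_cases hxS : x ∈ S
    · rw [Set.indicator_of_mem hxS, Set.indicator_of_mem hxS, Complex.ofReal_one, one_smul]
    · rw [Set.indicator_of_notMem hxS, Set.indicator_of_notMem hxS, Complex.ofReal_zero, zero_smul]
  exact (gn_mulR_coe (P := p.sys η) k (gn_mask_ind hS) F).mono fun x hx => Eq.trans hx (hpt x)

/-- LEAF L-256-RT-K-A3.  the masked row function: `mulR k 1_S F` is `1_S F` (not the junk value), supported in `S`, of norm `≤ ‖F‖` -/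
theorem rt_k_mulR (p : RdWvPar) (η : ℝ) (k : ℕ) (S : Set RdWvPar.Ph) (hS : MeasurableSet S) (F : Lp ℂ 2 (p.rw k)) :
    (∀ᵐ x ∂(p.rw k), x ∉ S → ((p.sys η).mulR k (S.indicator fun _ => 1) F : RdWvPar.Ph → ℂ) x = 0) ∧
      ‖(p.sys η).mulR k (S.indicator fun _ => 1) F‖ ≤ ‖F‖ := by
  refine ⟨?_, gn_mulR_norm_le (P := p.sys η) k (gn_mask_ind hS) F⟩
  refine (rt_k_mulR_coe p η k S hS F).mono fun x hx hxS => ?_
  exact Eq.trans hx (Set.indicator_of_notMem hxS _)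

/-- LEAF L-256-RT-K-A3.  `ms` of a set is the set integral, and is at most `‖v‖²` -/
theorem rt_k_ms (p : RdWvPar) (η : ℝ) (T : ℝ) (k b : ℕ) (S : Set RdWvPar.Ph) (hS : MeasurableSet S) (v : Lp ℂ 2 (volume : Measure RdWvPar.Mo)) :
    (p.sys η).ms T k b S v = ∫ x in S, ‖(p.an T k b v : RdWvPar.Ph → ℂ) x‖ ^ 2 ∂(p.rw k) ∧ (p.sys η).ms T k b S v ≤ ‖v‖ ^ 2 := by
  have h1 : (p.sys η).ms T k b S v = ∫ x in S, ‖(p.an T k b v : RdWvPar.Ph → ℂ) x‖ ^ 2 ∂(p.rw k) := gn_ms_eq (P := p.sys η) T k b hS v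
  refine ⟨h1, ?_⟩
  rw [h1]
  calc ∫ x in S, ‖(p.an T k b v : RdWvPar.Ph → ℂ) x‖ ^ 2 ∂(p.rw k) ≤ ∫ x, ‖(p.an T k b v : RdWvPar.Ph → ℂ) x‖ ^ 2 ∂(p.rw k) :=
        setIntegral_le_integral (gn_sq_integrable _) (Filter.Eventually.of_forall fun x => by positivity)
    _ = ‖p.an T k b v‖ ^ 2 := (gn_norm_sq _).symm
    _ ≤ ‖v‖ ^ 2 := pow_le_pow_left₀ (norm_nonneg _) (rt_w1c_an_le p T k b v) 2

/-- LEAF L-256-RT-K-A4.  **EXIT OF THE UNIT** = `Mdl.Loc.ker` for `rndWav η`, `Cl = 1/2`.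
`CN bm N = max (C of rt_k_l2_bd) (8^(N/2))`.   `Λ² ≥ 8`: `rt_k_ms`, `rt_k_l2_bd` for `mulR k 1_S F` (`rt_k_mulR`), `(2^((k'-k)/2))² = 2^(k'-k)`.   `Λ² < 8`: `ms ≤ ‖An^* ..‖² ≤ ‖F‖²` and `CN Λ^-N 2^(..) ≥ 1`.  ~150 l. -/
theorem rt_k_main : ∃ CN : ℕ → ℕ → ℝ, ∀ (η : ℝ) (p : RdWvPar) (bm N : ℕ) (Λ : ℝ), 1 ≤ Λ → ∀ (T : ℝ) (k : ℕ) (T' : ℝ) (k' b b' : ℕ), CutLe T k T' k' → b ≤ bm → b' ≤ bm →
    ∀ (S S' : Set RdWvPar.Ph), MeasurableSet S → MeasurableSet S' →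
    (∀ x ∈ S, ∀ x' ∈ S', ¬ RtNear Λ (rdD p.H k') (rdQ p.H k) p.H ((RdWvPar.co T x).flow (T' - T)) (RdWvPar.co T' x')) →
    ∀ F : Lp ℂ 2 (p.rw k),
      (p.sys η).ms T' k' b' S' (ContinuousLinearMap.adjoint ((p.sys η).An T k b) ((p.sys η).mulR k (S.indicator fun _ => 1) F))
        ≤ (CN bm N * Λ ^ (-(N : ℝ)) * 2 ^ ((1 / 2 : ℝ) * ((k' : ℝ) - k))) ^ 2 * ‖F‖ ^ 2 := by
  choose C hC hbd using rt_k_l2_bd
  refine ⟨fun bm N => max (C bm N) (Real.sqrt 8 ^ N), ?_⟩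
  intro η p bm N Λ hΛ T k T' k' b b' hcut hbm hbm' S S' hS hS' hfar F
  have h0 : 0 < Λ := by linarith
  obtain ⟨hz, hn⟩ := rt_k_mulR p η k S hS F
  set F₁ : Lp ℂ 2 (p.rw k) := (p.sys η).mulR k (S.indicator fun _ => 1) F with hF₁
  have h2pow : ((2 : ℝ) ^ ((1 / 2 : ℝ) * ((k' : ℝ) - k))) ^ 2 = 2 ^ ((k' : ℝ) - k) := by
    rw [← Real.rpow_natCast, ← Real.rpow_mul (by norm_num)]
    congr 1
    push_cast
    ring
  have hkk : (1 : ℝ) ≤ 2 ^ ((k' : ℝ) - k) := by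
    apply Real.one_le_rpow (by norm_num)
    have : (k : ℝ) ≤ k' := by exact_mod_cast hcut.1
    linarith
  have hΛN : 0 < Λ ^ (-(N : ℝ)) := by positivity
  obtain ⟨hms, hle⟩ := rt_k_ms p η T' k' b' S' hS' (ContinuousLinearMap.adjoint (p.an T k b) F₁)
  show (p.sys η).ms T' k' b' S' (ContinuousLinearMap.adjoint (p.an T k b) F₁) ≤ _
  rw [mul_pow, h2pow]
  by_cases h8 : 8 ≤ Λ ^ 2
  · rw [hms]
    refine (hbd bm N p Λ h0 h8 T k T' k' b b' hcut hbm hbm' S S' hS hS' hfar F₁ hz).trans ?_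
    have h1 : (C bm N * Λ ^ (-(N : ℝ))) ^ 2 ≤ (max (C bm N) (Real.sqrt 8 ^ N) * Λ ^ (-(N : ℝ))) ^ 2 :=
      pow_le_pow_left₀ (mul_nonneg (hC bm N) hΛN.le) (mul_le_mul_of_nonneg_right (le_max_left _ _) hΛN.le) 2
    have h2 : ‖F₁‖ ^ 2 ≤ ‖F‖ ^ 2 := pow_le_pow_left₀ (norm_nonneg _) hn 2
    gcongr
  · push Not at h8
    have hΛ8 : Λ ≤ Real.sqrt 8 := Real.le_sqrt_of_sq_le h8.le
    have h1 : (1 : ℝ) ≤ max (C bm N) (Real.sqrt 8 ^ N) * Λ ^ (-(N : ℝ)) := by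
      rw [Real.rpow_neg h0.le, Real.rpow_natCast, ← div_eq_mul_inv, le_div_iff₀ (by positivity), one_mul]
      exact (pow_le_pow_left₀ h0.le hΛ8 N).trans (le_max_right _ _)
    have h2 : (1 : ℝ) ≤ (max (C bm N) (Real.sqrt 8 ^ N) * Λ ^ (-(N : ℝ))) ^ 2 := one_le_pow₀ h1
    calc (p.sys η).ms T' k' b' S' (ContinuousLinearMap.adjoint (p.an T k b) F₁) ≤ ‖ContinuousLinearMap.adjoint (p.an T k b) F₁‖ ^ 2 := hle
      _ ≤ ‖F‖ ^ 2 := pow_le_pow_left₀ (norm_nonneg _) ((rt_k_adj_le p T k b F₁).trans hn) 2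
      _ = 1 * 1 * ‖F‖ ^ 2 := by ring
      _ ≤ _ := by gcongr

/-- the square of the `L²` norm -/
theorem rt_k_norm_sq {X : Type} [MeasurableSpace X] {μ : Measure X} (G : Lp ℂ 2 μ) :
    ‖G‖ ^ 2 = ∫ x, ‖(G : X → ℂ) x‖ ^ 2 ∂μ := by
  have h0 : 0 ≤ ∫ x, ‖(G : X → ℂ) x‖ ^ (2 : ℝ) ∂μ := integral_nonneg fun x => by positivity
  have h1 := (Lp.memLp G).eLpNorm_eq_integral_rpow_norm (by norm_num) (by norm_num)
  rw [Lp.norm_def, h1, ENNReal.toReal_ofReal (by positivity), ← Real.rpow_natCast, ← Real.rpow_mul (by simpa using h0)]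
  simp

/-- Cauchy-Schwarz on a set of finite measure -/
theorem rt_k_cs_set {X : Type} [MeasurableSpace X] {μ : Measure X} (F : Lp ℂ 2 μ) {s : Set X} (hs : μ s ≠ ∞) :
    (∫ x in s, ‖(F : X → ℂ) x‖ ∂μ) ^ 2 ≤ (μ s).toReal * ‖F‖ ^ 2 := by
  have hfin : IsFiniteMeasure (μ.restrict s) := ⟨by rw [Measure.restrict_apply_univ]; exact lt_top_iff_ne_top.2 hs⟩
  have e2 : ENNReal.ofReal 2 = 2 := by norm_num
  have hsq : Integrable (fun x => ‖(F : X → ℂ) x‖ ^ 2) μ :=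
    (memLp_two_iff_integrable_sq_norm (Lp.aestronglyMeasurable F)).1 (Lp.memLp F)
  have h := integral_mul_le_Lp_mul_Lq_of_nonneg (μ := μ.restrict s) Real.HolderConjugate.two_two
    (f := fun _ => (1 : ℝ)) (g := fun x => ‖(F : X → ℂ) x‖) (Filter.Eventually.of_forall fun _ => zero_le_one)
    (Filter.Eventually.of_forall fun _ => norm_nonneg _) (memLp_const 1) (by rw [e2]; exact ((Lp.memLp F).norm).restrict s)
  simp only [one_mul, integral_const, smul_eq_mul, Real.rpow_two, one_pow, mul_one] at h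
  have ha : (μ.restrict s).real Set.univ = (μ s).toReal := by
    rw [measureReal_def, Measure.restrict_apply_univ]
  rw [ha] at h
  have hb0 : 0 ≤ ∫ x in s, ‖(F : X → ℂ) x‖ ^ 2 ∂μ := integral_nonneg fun x => by positivity
  have hb : ∫ x in s, ‖(F : X → ℂ) x‖ ^ 2 ∂μ ≤ ‖F‖ ^ 2 := by
    rw [rt_k_norm_sq]
    exact setIntegral_le_integral hsq (Filter.Eventually.of_forall fun x => by positivity)
  have h0 : 0 ≤ ∫ x in s, ‖(F : X → ℂ) x‖ ∂μ := integral_nonneg fun x => norm_nonneg _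
  calc (∫ x in s, ‖(F : X → ℂ) x‖ ∂μ) ^ 2
      ≤ ((μ s).toReal ^ (1 / 2 : ℝ) * (∫ x in s, ‖(F : X → ℂ) x‖ ^ 2 ∂μ) ^ (1 / 2 : ℝ)) ^ 2 := pow_le_pow_left₀ h0 h 2
    _ = (μ s).toReal * ∫ x in s, ‖(F : X → ℂ) x‖ ^ 2 ∂μ := by
        rw [mul_pow, ← Real.rpow_natCast, ← Real.rpow_mul ENNReal.toReal_nonneg, ← Real.rpow_natCast, ← Real.rpow_mul hb0]
        norm_num
    _ ≤ _ := mul_le_mul_of_nonneg_left hb ENNReal.toReal_nonneg

/-- LEAF L-256-RT-K-SUP.  **EXIT X6 (`rt_sup_wv` of `Rt/Contract.lean`): the sup normalisation**, Cauchy-Schwarz form.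
`F₁ = mulR k 1_S F` is integrable (`L²` on a set of finite measure; `rt_k_mulR`), `rt_k_rep`, `‖rtKK‖ ≤ C (Q²H)⁻¹` (`rt_k_bound` with `N = 0`, `rtKW 0 = 1`, `rtKM ≤ (Q²H)⁻¹`),
`‖O F₁ x'‖ ≤ C (Q²H)⁻¹ ∫_S ‖F‖ d rw_k ≤ C (Q²H)⁻¹ (rw_k S)^{1/2} ‖F‖`; integrate over `S'` (`rt_k_ms`).   `Cs bm = C²`.  ~250 l. -/
theorem rt_k_sup : ∃ Cs : ℕ → ℝ, ∀ (η : ℝ) (p : RdWvPar) (bm : ℕ) (T : ℝ) (k : ℕ) (T' : ℝ) (k' b b' : ℕ), CutLe T k T' k' → b ≤ bm → b' ≤ bm →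
    ∀ (S S' : Set RdWvPar.Ph), MeasurableSet S → MeasurableSet S' → volume S ≠ ⊤ → volume S' ≠ ⊤ → ∀ F : Lp ℂ 2 (p.rw k),
      (p.sys η).ms T' k' b' S' (ContinuousLinearMap.adjoint ((p.sys η).An T k b) ((p.sys η).mulR k (S.indicator fun _ => 1) F))
        ≤ Cs bm * (rdQ p.H k ^ 2 * p.H)⁻¹ ^ 2 * (p.rw k' S').toReal * (p.rw k S).toReal * ‖F‖ ^ 2 := by
  choose C hC0 hC using fun bm => rt_k_bound bm 0
  refine ⟨fun bm => C bm ^ 2, fun η p bm T k T' k' b b' hcut hb hb' S S' hS hS' hvS hvS' F => ?_⟩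
  have hH := p.H_pos
  have hQ : 0 < rdQ p.H k := Real.sqrt_pos.2 (mul_pos hH (rdLen_pos k))
  obtain ⟨hsupp, hnorm⟩ := rt_k_mulR p η k S hS F
  set F₁ : Lp ℂ 2 (p.rw k) := (p.sys η).mulR k (S.indicator fun _ => 1) F with hF₁
  have hrS : p.rw k S ≠ ∞ := by
    unfold RdWvPar.rw
    rw [Measure.smul_apply, smul_eq_mul]
    exact ENNReal.mul_ne_top ENNReal.ofReal_ne_top hvS
  have hrS' : p.rw k' S' ≠ ∞ := by
    unfold RdWvPar.rw
    rw [Measure.smul_apply, smul_eq_mul]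
    exact ENNReal.mul_ne_top ENNReal.ofReal_ne_top hvS'
  have hint : Integrable (F₁ : RdWvPar.Ph → ℂ) (p.rw k) := by
    have h1 := rt_k_l2_intOn F₁ (lt_top_iff_ne_top.2 hrS)
    rw [← integrable_indicator_iff hS] at h1
    refine h1.congr ?_
    filter_upwards [hsupp] with x hx
    by_cases hxS : x ∈ S
    · rw [Set.indicator_of_mem hxS]
    · rw [Set.indicator_of_notMem hxS]
      exact (hx hxS).symm
  have hrep := rt_k_rep p T k b T' k' b' F₁ hint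
  have hms := (rt_k_ms p η T' k' b' S' hS' (ContinuousLinearMap.adjoint (p.an T k b) F₁)).1
  show (p.sys η).ms T' k' b' S' (ContinuousLinearMap.adjoint (p.an T k b) F₁) ≤ _
  rw [hms]
  set c0 : ℝ := C bm * (rdQ p.H k ^ 2 * p.H)⁻¹ with hc0
  have hc00 : 0 ≤ c0 := mul_nonneg (hC0 bm) (by positivity)
  set I1 : ℝ := ∫ x, ‖(F₁ : RdWvPar.Ph → ℂ) x‖ ∂(p.rw k) with hI1def
  have hI10 : 0 ≤ I1 := integral_nonneg fun x => norm_nonneg _
  have hI1 : I1 ^ 2 ≤ (p.rw k S).toReal * ‖F‖ ^ 2 := by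
    have e : I1 = ∫ x in S, ‖(F₁ : RdWvPar.Ph → ℂ) x‖ ∂(p.rw k) := by
      symm
      refine setIntegral_eq_integral_of_ae_compl_eq_zero ?_
      filter_upwards [hsupp] with x hx hxS
      rw [norm_eq_zero]
      exact hx hxS
    rw [e]
    exact (rt_k_cs_set F₁ hrS).trans
      (mul_le_mul_of_nonneg_left (pow_le_pow_left₀ (norm_nonneg _) hnorm 2) ENNReal.toReal_nonneg)
  have hpt : ∀ᵐ x' ∂(p.rw k'), ‖(p.an T' k' b' (ContinuousLinearMap.adjoint (p.an T k b) F₁) : RdWvPar.Ph → ℂ) x'‖ ^ 2 ≤ (c0 * I1) ^ 2 := by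
    filter_upwards [hrep] with x' hx'
    rw [hx']
    refine pow_le_pow_left₀ (norm_nonneg _) ?_ 2
    calc ‖∫ x, rtKK p T k b T' k' b' x' x * (F₁ : RdWvPar.Ph → ℂ) x ∂(p.rw k)‖
        ≤ ∫ x, c0 * ‖(F₁ : RdWvPar.Ph → ℂ) x‖ ∂(p.rw k) := by
          refine norm_integral_le_of_norm_le (hint.norm.const_mul c0) (Filter.Eventually.of_forall fun x => ?_)
          rw [norm_mul]
          refine mul_le_mul_of_nonneg_right ?_ (norm_nonneg _)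
          refine (hC bm p T k T' k' b b' hcut hb hb' x' x).trans (mul_le_mul_of_nonneg_left ?_ (hC0 bm))
          unfold rtKM rtKW
          split_ifs
          · simp
          · positivity
      _ = c0 * I1 := integral_const_mul _ _
  calc ∫ x' in S', ‖(p.an T' k' b' (ContinuousLinearMap.adjoint (p.an T k b) F₁) : RdWvPar.Ph → ℂ) x'‖ ^ 2 ∂(p.rw k')
      ≤ ∫ x' in S', (c0 * I1) ^ 2 ∂(p.rw k') :=
        integral_mono_of_nonneg (Filter.Eventually.of_forall fun _ => by positivity) (integrableOn_const hrS')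
          (ae_restrict_of_ae hpt)
    _ = (p.rw k' S').toReal * (c0 * I1) ^ 2 := by
        rw [setIntegral_const, smul_eq_mul]
        rfl
    _ = (p.rw k' S').toReal * c0 ^ 2 * I1 ^ 2 := by ring
    _ ≤ (p.rw k' S').toReal * c0 ^ 2 * ((p.rw k S).toReal * ‖F‖ ^ 2) :=
        mul_le_mul_of_nonneg_left hI1 (mul_nonneg ENNReal.toReal_nonneg (by positivity))
    _ = _ := by
        rw [hc0]
        ring

end Claimed.Agent.R256
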