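import Claimed.Agent.R256.Base.RndCut
import Claimed.Agent.R256.Top.Tools

/-!
# Row 256, folder Rt, unit W1, CORE : the analysis operator of the round wave model IS the formula, energy identity      (helper135; prefix `rt_w1c_`, defs `rtW1c*`)      SORRY-FREE

For every `p : RdWvPar`, `T k β`, `G ∈ L²(Mo)`:
* `rt_w1c_total`   : `∫⁻ ‖∫ pk x q G q dq‖ₑ² d(rw k) = ∫⁻ χ_β(Hρ)² ‖G‖ₑ²`      (Plancherel on every slice `A = const` via `ls_plancherel_inv` on `E3`, Tonelli in `(A, q)`, `∫ ψ((a - A)/d)² dA = d²`)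
* `rt_w1c_row_meas, rt_w1c_row_int, rt_w1c_row_add, rt_w1c_row_smul, rt_w1c_row_memLp, rt_w1c_row_sq, rt_w1c_row_le`
* `rt_w1c_exists`  : the formula defines a bounded operator;      `rt_w1c_an` : `an =ᵐ row`;      `rt_w1c_an_sq`, `rt_w1c_an_le` (contraction), `rt_w1c_an_iso` (isometry on `Spec β`).
-/

set_option autoImplicit false

namespace Claimed.Agent.R256

open MeasureTheory Complex Claimed.Agent.R255.BR
open scoped FourierTransform Real InnerProductSpace ENNReal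

/-- plain pairs as Euclidean vectors -/
noncomputable def rtW1cV : ℝ × ℝ ≃ᵐ E2 := (MeasurableEquiv.finTwoArrow (α := ℝ)).symm.trans (MeasurableEquiv.toLp 2 (Fin 2 → ℝ))

theorem rt_w1c_V_apply (a : ℝ × ℝ) : rtW1cV a 0 = a.1 ∧ rtW1cV a 1 = a.2 := by
  constructor <;> simp [rtW1cV, MeasurableEquiv.finTwoArrow, MeasurableEquiv.piFinTwo]

theorem rt_w1c_V_mp : MeasurePreserving rtW1cV (volume : Measure (ℝ × ℝ)) (volume : Measure E2) :=
  (PiLp.volume_preserving_toLp (Fin 2)).comp (volume_preserving_finTwoArrow ℝ).symm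

/-- momentum space as `ℝ³` -/
noncomputable def rtW1cK : RdWvPar.Mo ≃ᵐ E3 := (rtW1cV.prodCongr (MeasurableEquiv.refl ℝ)).trans Jm

theorem rt_w1c_K_eq (q : RdWvPar.Mo) : rtW1cK q = J (rtW1cV q.1, q.2) := rfl

theorem rt_w1c_K_mp : MeasurePreserving rtW1cK (volume : Measure RdWvPar.Mo) (volume : Measure E3) :=
  measurePreserving_J.comp (rt_w1c_V_mp.prod (MeasurePreserving.id volume))

theorem rt_w1c_K_inner (q q' : RdWvPar.Mo) : ⟪rtW1cK q, rtW1cK q'⟫_ℝ = rtIp q.1 q'.1 + q.2 * q'.2 := by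
  rw [rt_w1c_K_eq, rt_w1c_K_eq, inner_J]
  obtain ⟨a0, a1⟩ := rt_w1c_V_apply q.1
  obtain ⟨b0, b1⟩ := rt_w1c_V_apply q'.1
  simp only [PiLp.inner_apply, Fin.sum_univ_two, a0, a1, b0, b1, rtIp, RCLike.inner_apply, conj_trivial]
  ring

/-- the amplitude of the packet -/
noncomputable def rtW1cA (p : RdWvPar) (k β : ℕ) (A : ℝ × ℝ) (q : RdWvPar.Mo) : ℝ :=
  (2 * Real.pi) ^ (-(3 / 2) : ℝ) * rdChi β (p.H * q.2) * rdPsi ((rdD p.H k)⁻¹ • ((2 * q.2)⁻¹ • q.1 - A))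

theorem rt_w1c_eqns_cite : True := by
  have := @rtW1cV.eq_1
  have := @rtW1cK.eq_1
  have := @rtW1cA.eq_1
  trivial

/-- square integrals in the two languages -/
theorem rt_w1c_lint_sq {α : Type*} [MeasurableSpace α] {μ : Measure α} {f : α → ℂ} (hf : MemLp f 2 μ) :
    ∫⁻ x, ‖f x‖ₑ ^ 2 ∂μ = ENNReal.ofReal (∫ x, ‖f x‖ ^ 2 ∂μ) := by
  rw [ofReal_integral_eq_lintegral_ofReal ((memLp_two_iff_integrable_sq_norm hf.1).1 hf) (Filter.Eventually.of_forall fun x => by positivity)]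
  refine lintegral_congr fun x => ?_
  rw [ENNReal.ofReal_pow (norm_nonneg _), ofReal_norm]

/-- `e^{iθ}` in the normal form `ee` -/
theorem rt_w1c_exp_ee (θ : ℝ) : Complex.exp (Complex.I * (θ : ℂ)) = ee ((2 * π)⁻¹ * θ) := by
  unfold ee
  congr 1
  have : (2 * π : ℝ) ≠ 0 := by positivity
  have e : 2 * π * ((2 * π)⁻¹ * θ) = θ := by field_simp
  rw [e, mul_comm]

/-- the Fourier integral on momentum space -/
theorem rt_w1c_four (g : RdWvPar.Mo → ℂ) (X : (ℝ × ℝ) × ℝ) :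
    ∫ q : RdWvPar.Mo, Complex.exp (Complex.I * ((rtIp q.1 X.1 - q.2 * X.2 : ℝ) : ℂ)) * g q
      = 𝓕⁻ (fun v : E3 => g (rtW1cK.symm v)) ((2 * π)⁻¹ • rtW1cK (X.1, -X.2)) := by
  rw [fourierInv_ee, ← rt_w1c_K_mp.integral_comp rtW1cK.measurableEmbedding]
  refine integral_congr_ae (Filter.Eventually.of_forall fun q => ?_)
  simp only [MeasurableEquiv.symm_apply_apply]
  rw [inner_smul_right, rt_w1c_K_inner, rt_w1c_exp_ee]
  congr 2
  ring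

/-- **Plancherel on momentum space** (angular normalisation) -/
theorem rt_w1c_planch {g : RdWvPar.Mo → ℂ} (h1 : Integrable g) (h2 : MemLp g 2 volume) :
    ∫⁻ X : (ℝ × ℝ) × ℝ, ‖∫ q : RdWvPar.Mo, Complex.exp (Complex.I * ((rtIp q.1 X.1 - q.2 * X.2 : ℝ) : ℂ)) * g q‖ₑ ^ 2
      = ENNReal.ofReal ((2 * π) ^ 3) * ∫⁻ q, ‖g q‖ₑ ^ 2 := by
  have hKs : MeasurePreserving rtW1cK.symm (volume : Measure E3) (volume : Measure RdWvPar.Mo) := rt_w1c_K_mp.symm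
  have g1 : Integrable (fun v : E3 => g (rtW1cK.symm v)) := hKs.integrable_comp_of_integrable h1
  have g2 : MemLp (fun v : E3 => g (rtW1cK.symm v)) 2 volume := h2.comp_measurePreserving hKs
  obtain ⟨p1, p2⟩ := ls_plancherel_inv g1 g2
  obtain ⟨Ψ, hΨ⟩ : ∃ Ψ : E3 → ℝ≥0∞, Ψ = fun w => ‖𝓕⁻ (fun v : E3 => g (rtW1cK.symm v)) w‖ₑ ^ 2 := ⟨_, rfl⟩
  have hc : ((2 * π)⁻¹ : ℝ) ≠ 0 := by positivity
  have hrefl : MeasurePreserving (fun X : (ℝ × ℝ) × ℝ => (X.1, -X.2)) volume volume :=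
    (MeasurePreserving.id (volume : Measure (ℝ × ℝ))).prod (Measure.measurePreserving_neg (volume : Measure ℝ))
  have hemb : MeasurableEmbedding (fun X : (ℝ × ℝ) × ℝ => (X.1, -X.2)) :=
    ((MeasurableEquiv.refl (ℝ × ℝ)).prodCongr (MeasurableEquiv.neg ℝ)).measurableEmbedding
  have e1 : ∀ X : (ℝ × ℝ) × ℝ, ‖∫ q : RdWvPar.Mo, Complex.exp (Complex.I * ((rtIp q.1 X.1 - q.2 * X.2 : ℝ) : ℂ)) * g q‖ₑ ^ 2
      = (fun Y : (ℝ × ℝ) × ℝ => Ψ ((2 * π)⁻¹ • rtW1cK Y)) (X.1, -X.2) := by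
    intro X
    rw [rt_w1c_four, hΨ]
  have e2 : ∫⁻ w : E3, Ψ ((2 * π)⁻¹ • w) = ENNReal.ofReal ((2 * π) ^ 3) * ∫⁻ w, Ψ w := by
    have := (Homeomorph.smulOfNeZero ((2 * π)⁻¹ : ℝ) hc).measurableEmbedding.lintegral_map (μ := (volume : Measure E3)) Ψ
    simp only [Homeomorph.smulOfNeZero_apply] at this
    rw [← this, Measure.map_addHaar_smul _ hc, lintegral_smul_measure, finrank_euclideanSpace_fin, smul_eq_mul]
    congr 2
    rw [inv_pow, inv_inv, abs_of_pos (by positivity)]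
  rw [lintegral_congr e1, hrefl.lintegral_comp_emb hemb (fun Y : (ℝ × ℝ) × ℝ => Ψ ((2 * π)⁻¹ • rtW1cK Y)),
    rt_w1c_K_mp.lintegral_comp_emb rtW1cK.measurableEmbedding (fun w : E3 => Ψ ((2 * π)⁻¹ • w)), e2, hΨ, rt_w1c_lint_sq p1, p2,
    ← rt_w1c_lint_sq g2, hKs.lintegral_comp_emb rtW1cK.symm.measurableEmbedding (fun q => ‖g q‖ₑ ^ 2)]

theorem rt_w1c_d_pos (p : RdWvPar) (k : ℕ) : 0 < rdD p.H k ∧ rdD p.H k ^ 2 = p.H / rdLen k := by
  have h : 0 < p.H / rdLen k := div_pos p.H_pos (rdLen_pos k)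
  exact ⟨Real.sqrt_pos.2 h, Real.sq_sqrt h.le⟩

/-- the packet = plane wave times amplitude times time factor -/
theorem rt_w1c_pk (p : RdWvPar) (T : ℝ) (k β : ℕ) (x : RdWvPar.Ph) (q : RdWvPar.Mo) :
    p.pk T k β x q = Complex.exp (Complex.I * ((rtIp q.1 x.2.1 - q.2 * x.2.2 : ℝ) : ℂ)) *
      ((rtW1cA p k β x.1 q : ℂ) * Complex.exp (Complex.I * ((-(T * rtSq q.1 / (4 * q.2)) : ℝ) : ℂ))) := by
  unfold RdWvPar.pk rtW1cA
  rw [mul_left_comm, ← Complex.exp_add, ← mul_add, ← Complex.ofReal_add]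
  congr 4

theorem rt_w1c_norm_exp (θ : ℝ) : ‖Complex.exp (Complex.I * (θ : ℂ))‖ = 1 := by
  rw [mul_comm]
  exact Complex.norm_exp_ofReal_mul_I θ

theorem rt_w1c_A_nonneg (p : RdWvPar) (k β : ℕ) (A : ℝ × ℝ) (q : RdWvPar.Mo) : 0 ≤ rtW1cA p k β A q := by
  unfold rtW1cA
  exact mul_nonneg (mul_nonneg (by positivity) (rd_chi_nonneg _ _)) (rd_psi_nonneg _)

theorem rt_w1c_A_le (p : RdWvPar) (k β : ℕ) (A : ℝ × ℝ) (q : RdWvPar.Mo) :
    rtW1cA p k β A q ≤ (2 * Real.pi) ^ (-(3 / 2) : ℝ) * (1 / Real.sqrt (∫ x : ℝ × ℝ, rdPsi0 x ^ 2)) := by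
  unfold rtW1cA
  have h1 : (2 * Real.pi) ^ (-(3 / 2) : ℝ) * rdChi β (p.H * q.2) ≤ (2 * Real.pi) ^ (-(3 / 2) : ℝ) := by
    have := mul_le_mul_of_nonneg_left (rd_chi_le_one β (p.H * q.2)) (by positivity : (0 : ℝ) ≤ (2 * Real.pi) ^ (-(3 / 2) : ℝ))
    rwa [mul_one] at this
  exact mul_le_mul h1 (rd_psi_le _) (rd_psi_nonneg _) (by positivity)

/-- joint measurability of the amplitude -/
theorem rt_w1c_A_meas (p : RdWvPar) (k β : ℕ) : Measurable fun w : (ℝ × ℝ) × RdWvPar.Mo => rtW1cA p k β w.1 w.2 := by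
  unfold rtW1cA
  have h1 : Measurable fun w : (ℝ × ℝ) × RdWvPar.Mo => rdChi β (p.H * w.2.2) :=
    (rd_chi_contDiff β).continuous.measurable.comp (by fun_prop)
  have h2 : Measurable fun w : (ℝ × ℝ) × RdWvPar.Mo => rdPsi ((rdD p.H k)⁻¹ • ((2 * w.2.2)⁻¹ • w.2.1 - w.1)) :=
    rd_psi_contDiff.continuous.measurable.comp (by fun_prop)
  exact (h1.const_mul _).mul h2

theorem rt_w1c_A_meas1 (p : RdWvPar) (k β : ℕ) (A : ℝ × ℝ) : Measurable fun q : RdWvPar.Mo => rtW1cA p k β A q := by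
  unfold rtW1cA
  have h1 : Measurable fun q : RdWvPar.Mo => rdChi β (p.H * q.2) :=
    (rd_chi_contDiff β).continuous.measurable.comp (by fun_prop)
  have h2 : Measurable fun q : RdWvPar.Mo => rdPsi ((rdD p.H k)⁻¹ • ((2 * q.2)⁻¹ • q.1 - A)) :=
    rd_psi_contDiff.continuous.measurable.comp (by fun_prop)
  exact (h1.const_mul _).mul h2

/-- the support of the amplitude -/
theorem rt_w1c_A_supp (p : RdWvPar) (k β : ℕ) (A : ℝ × ℝ) (q : RdWvPar.Mo) (h : rtW1cA p k β A q ≠ 0) :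
    q ∈ Metric.closedBall (0 : RdWvPar.Mo) (2 ^ (β + 5) / p.H + 2 * (2 ^ (β + 5) / p.H) * (‖A‖ + 2 * rdD p.H k)) := by
  obtain ⟨hd, -⟩ := rt_w1c_d_pos p k
  have hH := p.H_pos
  unfold rtW1cA at h
  obtain ⟨h12, h3⟩ := mul_ne_zero_iff.1 h
  obtain ⟨-, h2⟩ := mul_ne_zero_iff.1 h12
  obtain ⟨c1, c2⟩ := rd_chi_supp h2
  have s := rd_psi_supp h3
  have hρ0 : 0 < q.2 := by
    have : 0 < p.H * q.2 := lt_trans (by positivity) c1
    exact (pos_iff_pos_of_mul_pos this).1 hH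
  have hρ1 : q.2 < 2 ^ (β + 5) / p.H := by
    rw [lt_div_iff₀ hH]; linarith
  obtain ⟨R1, hR1⟩ : ∃ R1 : ℝ, R1 = 2 ^ (β + 5) / p.H := ⟨_, rfl⟩
  rw [← hR1] at hρ1 ⊢
  have hA1 : |A.1| ≤ ‖A‖ := by
    rw [Prod.norm_def]; exact le_max_left _ _
  have hA2 : |A.2| ≤ ‖A‖ := by
    rw [Prod.norm_def]; exact le_max_right _ _
  unfold rtSq at s
  simp only [Prod.smul_fst, Prod.smul_snd, Prod.fst_sub, Prod.snd_sub, smul_eq_mul] at s
  have key : ∀ u a : ℝ, ((rdD p.H k)⁻¹ * ((2 * q.2)⁻¹ * u - a)) ^ 2 < 2 → |a| ≤ ‖A‖ → |u| ≤ 2 * R1 * (‖A‖ + 2 * rdD p.H k) := by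
    intro u a hu ha
    have h4 : |(rdD p.H k)⁻¹ * ((2 * q.2)⁻¹ * u - a)| < 2 := by
      apply abs_lt_of_sq_lt_sq _ (by norm_num)
      linarith
    rw [abs_mul, abs_of_pos (inv_pos.2 hd), inv_mul_lt_iff₀ hd] at h4
    have h5 : |(2 * q.2)⁻¹ * u| ≤ ‖A‖ + 2 * rdD p.H k := by
      have := abs_sub_abs_le_abs_sub ((2 * q.2)⁻¹ * u) a
      linarith
    rw [abs_mul, abs_of_pos (by positivity : 0 < (2 * q.2)⁻¹), inv_mul_le_iff₀ (by positivity)] at h5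
    refine h5.trans ?_
    have : 0 ≤ ‖A‖ + 2 * rdD p.H k := by positivity
    nlinarith
  have k1 := key q.1.1 A.1 (by nlinarith [sq_nonneg ((rdD p.H k)⁻¹ * ((2 * q.2)⁻¹ * q.1.2 - A.2))]) hA1
  have k2 := key q.1.2 A.2 (by nlinarith [sq_nonneg ((rdD p.H k)⁻¹ * ((2 * q.2)⁻¹ * q.1.1 - A.1))]) hA2
  have hR0 : 0 < R1 := lt_trans hρ0 hρ1
  have hB0 : 0 ≤ 2 * R1 * (‖A‖ + 2 * rdD p.H k) := by positivity
  rw [mem_closedBall_zero_iff, Prod.norm_def, Prod.norm_def, Real.norm_eq_abs, Real.norm_eq_abs, Real.norm_eq_abs, abs_of_pos hρ0]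
  refine max_le (max_le ?_ ?_) ?_ <;> linarith

/-- the multiplier of a slice -/
theorem rt_w1c_mul_meas (p : RdWvPar) (T : ℝ) (k β : ℕ) (A : ℝ × ℝ) : Measurable fun q : RdWvPar.Mo =>
    (rtW1cA p k β A q : ℂ) * Complex.exp (Complex.I * ((-(T * rtSq q.1 / (4 * q.2)) : ℝ) : ℂ)) := by
  have h1 : Measurable fun q : RdWvPar.Mo => rtW1cA p k β A q := rt_w1c_A_meas1 p k β A
  have h2 : Measurable fun q : RdWvPar.Mo => -(T * (q.1.1 ^ 2 + q.1.2 ^ 2) / (4 * q.2)) := by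
    fun_prop
  have h3 : Measurable fun q : RdWvPar.Mo => ((-(T * rtSq q.1 / (4 * q.2)) : ℝ) : ℂ) := Complex.measurable_ofReal.comp h2
  have h4 : Measurable fun q : RdWvPar.Mo => Complex.I * ((-(T * rtSq q.1 / (4 * q.2)) : ℝ) : ℂ) := h3.const_mul Complex.I
  have h5 : Measurable fun q : RdWvPar.Mo => Complex.exp (Complex.I * ((-(T * rtSq q.1 / (4 * q.2)) : ℝ) : ℂ)) :=
    Complex.measurable_exp.comp h4
  have h6 : Measurable fun q : RdWvPar.Mo => (rtW1cA p k β A q : ℂ) := Complex.measurable_ofReal.comp h1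
  exact h6.mul h5

theorem rt_w1c_mul_norm (p : RdWvPar) (T : ℝ) (k β : ℕ) (A : ℝ × ℝ) (q : RdWvPar.Mo) :
    ‖(rtW1cA p k β A q : ℂ) * Complex.exp (Complex.I * ((-(T * rtSq q.1 / (4 * q.2)) : ℝ) : ℂ))‖ = rtW1cA p k β A q := by
  rw [norm_mul, rt_w1c_norm_exp, mul_one, Complex.norm_real, Real.norm_of_nonneg (rt_w1c_A_nonneg p k β A q)]

/-- the multiplier is square integrable -/
theorem rt_w1c_mul_memLp (p : RdWvPar) (T : ℝ) (k β : ℕ) (A : ℝ × ℝ) : MemLp (fun q : RdWvPar.Mo =>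
    (rtW1cA p k β A q : ℂ) * Complex.exp (Complex.I * ((-(T * rtSq q.1 / (4 * q.2)) : ℝ) : ℂ))) 2 volume := by
  obtain ⟨S, hS⟩ : ∃ S : Set RdWvPar.Mo, S = Metric.closedBall (0 : RdWvPar.Mo)
    (2 ^ (β + 5) / p.H + 2 * (2 ^ (β + 5) / p.H) * (‖A‖ + 2 * rdD p.H k)) := ⟨_, rfl⟩
  have hSm : MeasurableSet S := by rw [hS]; exact measurableSet_closedBall
  have hSf : volume S ≠ ∞ := by rw [hS]; exact (isCompact_closedBall _ _).measure_lt_top.ne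
  have h0 := memLp_indicator_const (μ := (volume : Measure RdWvPar.Mo)) 2 hSm
    ((2 * Real.pi) ^ (-(3 / 2) : ℝ) * (1 / Real.sqrt (∫ x : ℝ × ℝ, rdPsi0 x ^ 2))) (Or.inr hSf)
  refine h0.mono (rt_w1c_mul_meas p T k β A).aestronglyMeasurable (Filter.Eventually.of_forall fun q => ?_)
  rw [rt_w1c_mul_norm]
  by_cases hq : q ∈ S
  · rw [Set.indicator_of_mem hq]
    exact (rt_w1c_A_le p k β A q).trans (le_abs_self _)
  · have : rtW1cA p k β A q = 0 := by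
      by_contra hne
      exact hq (by rw [hS]; exact rt_w1c_A_supp p k β A q hne)
    rw [this]
    exact norm_nonneg _

/-- the slice function is integrable -/
theorem rt_w1c_slice_int (p : RdWvPar) (T : ℝ) (k β : ℕ) (A : ℝ × ℝ) {G : RdWvPar.Mo → ℂ} (hG : MemLp G 2 volume) :
    Integrable fun q : RdWvPar.Mo =>
      (rtW1cA p k β A q : ℂ) * Complex.exp (Complex.I * ((-(T * rtSq q.1 / (4 * q.2)) : ℝ) : ℂ)) * G q :=
  (rt_w1c_mul_memLp p T k β A).integrable_mul hG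

/-- the slice function is square integrable -/
theorem rt_w1c_slice_memLp (p : RdWvPar) (T : ℝ) (k β : ℕ) (A : ℝ × ℝ) {G : RdWvPar.Mo → ℂ} (hG : MemLp G 2 volume) :
    MemLp (fun q : RdWvPar.Mo =>
      (rtW1cA p k β A q : ℂ) * Complex.exp (Complex.I * ((-(T * rtSq q.1 / (4 * q.2)) : ℝ) : ℂ)) * G q) 2 volume := by
  refine hG.of_le_mul (c := (2 * Real.pi) ^ (-(3 / 2) : ℝ) * (1 / Real.sqrt (∫ x : ℝ × ℝ, rdPsi0 x ^ 2)))
    ((rt_w1c_mul_meas p T k β A).aestronglyMeasurable.mul hG.1) (Filter.Eventually.of_forall fun q => ?_)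
  rw [norm_mul, rt_w1c_mul_norm]
  exact mul_le_mul_of_nonneg_right (rt_w1c_A_le p k β A q) (norm_nonneg _)

/-- the integrand of a row is integrable -/
theorem rt_w1c_row_int (p : RdWvPar) (T : ℝ) (k β : ℕ) (x : RdWvPar.Ph) {G : RdWvPar.Mo → ℂ} (hG : MemLp G 2 volume) :
    Integrable fun q : RdWvPar.Mo => p.pk T k β x q * G q := by
  have h := rt_w1c_slice_int p T k β x.1 hG
  have hm : Measurable fun q : RdWvPar.Mo => Complex.exp (Complex.I * ((rtIp q.1 x.2.1 - q.2 * x.2.2 : ℝ) : ℂ)) := by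
    have h2 : Measurable fun q : RdWvPar.Mo => q.1.1 * x.2.1.1 + q.1.2 * x.2.1.2 - q.2 * x.2.2 := by
      fun_prop
    have h3 : Measurable fun q : RdWvPar.Mo => ((rtIp q.1 x.2.1 - q.2 * x.2.2 : ℝ) : ℂ) := Complex.measurable_ofReal.comp h2
    exact Complex.measurable_exp.comp (h3.const_mul Complex.I)
  have h3 := h.bdd_mul (c := 1) hm.aestronglyMeasurable (Filter.Eventually.of_forall fun q => (rt_w1c_norm_exp _).le)
  refine h3.congr (Filter.Eventually.of_forall fun q => ?_)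
  simp only []
  rw [rt_w1c_pk]
  ring

/-- the constant -/
theorem rt_w1c_const : (2 * π) ^ 3 * ((2 * Real.pi) ^ (-(3 / 2) : ℝ)) ^ 2 = 1 := by
  have h : (0 : ℝ) < 2 * π := by positivity
  rw [← Real.rpow_natCast ((2 * Real.pi) ^ (-(3 / 2) : ℝ)), ← Real.rpow_mul h.le, ← Real.rpow_natCast (2 * π) 3, ← Real.rpow_add h]
  norm_num

/-- **Plancherel on a slice `A = const`** -/
theorem rt_w1c_slice (p : RdWvPar) (T : ℝ) (k β : ℕ) (A : ℝ × ℝ) {G : RdWvPar.Mo → ℂ} (hG : MemLp G 2 volume) :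
    ∫⁻ X : (ℝ × ℝ) × ℝ, ‖∫ q, p.pk T k β (A, X) q * G q‖ₑ ^ 2
      = ∫⁻ q : RdWvPar.Mo, ENNReal.ofReal (rdPsi ((rdD p.H k)⁻¹ • ((2 * q.2)⁻¹ • q.1 - A)) ^ 2) *
          (ENNReal.ofReal (rdChi β (p.H * q.2) ^ 2) * ‖G q‖ₑ ^ 2) := by
  have h := rt_w1c_planch (rt_w1c_slice_int p T k β A hG) (rt_w1c_slice_memLp p T k β A hG)
  have e1 : ∀ X : (ℝ × ℝ) × ℝ, ∫ q, p.pk T k β (A, X) q * G q
      = ∫ q : RdWvPar.Mo, Complex.exp (Complex.I * ((rtIp q.1 X.1 - q.2 * X.2 : ℝ) : ℂ)) *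
        ((rtW1cA p k β A q : ℂ) * Complex.exp (Complex.I * ((-(T * rtSq q.1 / (4 * q.2)) : ℝ) : ℂ)) * G q) := by
    intro X
    refine integral_congr_ae (Filter.Eventually.of_forall fun q => ?_)
    simp only []
    rw [rt_w1c_pk]
    ring
  simp_rw [e1]
  rw [h, ← lintegral_const_mul' _ _ ENNReal.ofReal_ne_top]
  refine lintegral_congr fun q => ?_
  have e2 : ‖(rtW1cA p k β A q : ℂ) * Complex.exp (Complex.I * ((-(T * rtSq q.1 / (4 * q.2)) : ℝ) : ℂ)) * G q‖ₑ ^ 2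
      = ENNReal.ofReal (rtW1cA p k β A q ^ 2) * ‖G q‖ₑ ^ 2 := by
    rw [enorm_mul, mul_pow, ← ofReal_norm, rt_w1c_mul_norm, ← ENNReal.ofReal_pow (rt_w1c_A_nonneg p k β A q)]
  rw [e2, ← mul_assoc, ← mul_assoc, ← ENNReal.ofReal_mul (by positivity), ← ENNReal.ofReal_mul (by positivity)]
  congr 2
  unfold rtW1cA
  have := rt_w1c_const
  calc (2 * π) ^ 3 * ((2 * π) ^ (-(3 / 2) : ℝ) * rdChi β (p.H * q.2) * rdPsi ((rdD p.H k)⁻¹ • ((2 * q.2)⁻¹ • q.1 - A))) ^ 2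
      = ((2 * π) ^ 3 * ((2 * Real.pi) ^ (-(3 / 2) : ℝ)) ^ 2) * (rdPsi ((rdD p.H k)⁻¹ • ((2 * q.2)⁻¹ • q.1 - A)) ^ 2 * rdChi β (p.H * q.2) ^ 2) := by ring
    _ = _ := by rw [this, one_mul]

/-- the mass of the rescaled window -/
theorem rt_w1c_win {c : ℝ} (hc : 0 < c) (a : ℝ × ℝ) :
    ∫⁻ A : ℝ × ℝ, ENNReal.ofReal (rdPsi (c⁻¹ • (a - A)) ^ 2) = ENNReal.ofReal (c ^ 2) := by
  have hm : Measurable fun x : ℝ × ℝ => ENNReal.ofReal (rdPsi x ^ 2) :=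
    ENNReal.measurable_ofReal.comp ((rd_psi_contDiff.continuous.pow 2).measurable)
  have hc' : c⁻¹ ≠ 0 := (inv_pos.2 hc).ne'
  have h1 : ∫⁻ A : ℝ × ℝ, ENNReal.ofReal (rdPsi (c⁻¹ • (a - A)) ^ 2) = ∫⁻ A : ℝ × ℝ, ENNReal.ofReal (rdPsi (c⁻¹ • A) ^ 2) :=
    (Measure.measurePreserving_sub_left (volume : Measure (ℝ × ℝ)) a).lintegral_comp (f := fun A : ℝ × ℝ => ENNReal.ofReal (rdPsi (c⁻¹ • A) ^ 2))
      (hm.comp (measurable_const_smul c⁻¹))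
  have h2 : ∫⁻ A : ℝ × ℝ, ENNReal.ofReal (rdPsi (c⁻¹ • A) ^ 2)
      = ∫⁻ x, ENNReal.ofReal (rdPsi x ^ 2) ∂(Measure.map (c⁻¹ • ·) (volume : Measure (ℝ × ℝ))) :=
    (lintegral_map hm (measurable_const_smul c⁻¹)).symm
  have hint : Integrable fun x : ℝ × ℝ => rdPsi x ^ 2 :=
    (rd_psi_contDiff.continuous.pow 2).integrable_of_hasCompactSupport (by
      refine rd_psi_compact.mono fun x hx => ?_
      simp only [Function.mem_support] at hx ⊢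
      exact fun h => hx (by
        show rdPsi x ^ 2 = 0
        rw [h]; norm_num))
  have h3 : ∫⁻ x : ℝ × ℝ, ENNReal.ofReal (rdPsi x ^ 2) = 1 := by
    rw [← ofReal_integral_eq_lintegral_ofReal hint (Filter.Eventually.of_forall fun x => by positivity), rd_psi_norm, ENNReal.ofReal_one]
  have hfr : Module.finrank ℝ (ℝ × ℝ) = 2 := by simp
  rw [h1, h2, Measure.map_addHaar_smul _ hc', lintegral_smul_measure, h3, hfr, smul_eq_mul, mul_one, inv_pow, inv_inv,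
    abs_of_pos (by positivity)]

/-- joint measurability of the packet -/
theorem rt_w1c_pk_meas (p : RdWvPar) (T : ℝ) (k β : ℕ) : Measurable fun z : RdWvPar.Ph × RdWvPar.Mo => p.pk T k β z.1 z.2 := by
  unfold RdWvPar.pk
  have h1 : Measurable fun z : RdWvPar.Ph × RdWvPar.Mo => rdChi β (p.H * z.2.2) :=
    (rd_chi_contDiff β).continuous.measurable.comp (by fun_prop)
  have h2 : Measurable fun z : RdWvPar.Ph × RdWvPar.Mo => rdPsi ((rdD p.H k)⁻¹ • ((2 * z.2.2)⁻¹ • z.2.1 - z.1.1)) :=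
    rd_psi_contDiff.continuous.measurable.comp (by fun_prop)
  have h3 : Measurable fun z : RdWvPar.Ph × RdWvPar.Mo =>
      (2 * Real.pi) ^ (-(3 / 2) : ℝ) * rdChi β (p.H * z.2.2) * rdPsi ((rdD p.H k)⁻¹ • ((2 * z.2.2)⁻¹ • z.2.1 - z.1.1)) :=
    (h1.const_mul _).mul h2
  have h4 : Measurable fun z : RdWvPar.Ph × RdWvPar.Mo =>
      z.2.1.1 * z.1.2.1.1 + z.2.1.2 * z.1.2.1.2 - z.2.2 * z.1.2.2 - T * (z.2.1.1 ^ 2 + z.2.1.2 ^ 2) / (4 * z.2.2) := by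
    fun_prop
  have h5 : Measurable fun z : RdWvPar.Ph × RdWvPar.Mo =>
      ((rtIp z.2.1 z.1.2.1 - z.2.2 * z.1.2.2 - T * rtSq z.2.1 / (4 * z.2.2) : ℝ) : ℂ) := Complex.measurable_ofReal.comp h4
  exact (Complex.measurable_ofReal.comp h3).mul (Complex.measurable_exp.comp (h5.const_mul Complex.I))

/-- rows are measurable -/
theorem rt_w1c_row_meas (p : RdWvPar) (T : ℝ) (k β : ℕ) {G : RdWvPar.Mo → ℂ} (hG : StronglyMeasurable G) :
    StronglyMeasurable fun x : RdWvPar.Ph => ∫ q, p.pk T k β x q * G q := by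
  have h : StronglyMeasurable fun z : RdWvPar.Ph × RdWvPar.Mo => p.pk T k β z.1 z.2 * G z.2 :=
    (rt_w1c_pk_meas p T k β).stronglyMeasurable.mul (hG.comp_measurable measurable_snd)
  exact h.integral_prod_right'

/-- **the energy identity** -/
theorem rt_w1c_total (p : RdWvPar) (T : ℝ) (k β : ℕ) {G : RdWvPar.Mo → ℂ} (hG : MemLp G 2 volume) (hGs : StronglyMeasurable G) :
    ∫⁻ x : RdWvPar.Ph, ‖∫ q, p.pk T k β x q * G q‖ₑ ^ 2 ∂(p.rw k)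
      = ∫⁻ q : RdWvPar.Mo, ENNReal.ofReal (rdChi β (p.H * q.2) ^ 2) * ‖G q‖ₑ ^ 2 := by
  obtain ⟨hd, hd2⟩ := rt_w1c_d_pos p k
  have hm : Measurable fun x : RdWvPar.Ph => ‖∫ q, p.pk T k β x q * G q‖ₑ ^ 2 :=
    ((rt_w1c_row_meas p T k β hGs).measurable.enorm).pow_const 2
  have hψm : Measurable fun w : (ℝ × ℝ) × RdWvPar.Mo => ENNReal.ofReal (rdPsi ((rdD p.H k)⁻¹ • ((2 * w.2.2)⁻¹ • w.2.1 - w.1)) ^ 2) := by
    have h2 : Measurable fun w : (ℝ × ℝ) × RdWvPar.Mo => rdPsi ((rdD p.H k)⁻¹ • ((2 * w.2.2)⁻¹ • w.2.1 - w.1)) :=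
      rd_psi_contDiff.continuous.measurable.comp (by fun_prop)
    exact ENNReal.measurable_ofReal.comp (h2.pow_const 2)
  have hχm : Measurable fun w : (ℝ × ℝ) × RdWvPar.Mo => ENNReal.ofReal (rdChi β (p.H * w.2.2) ^ 2) * ‖G w.2‖ₑ ^ 2 := by
    have h1 : Measurable fun w : (ℝ × ℝ) × RdWvPar.Mo => rdChi β (p.H * w.2.2) :=
      (rd_chi_contDiff β).continuous.measurable.comp (by fun_prop)
    exact (ENNReal.measurable_ofReal.comp (h1.pow_const 2)).mul (((hGs.measurable.comp measurable_snd).enorm).pow_const 2)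
  have hm2 : Measurable (Function.uncurry fun (A : ℝ × ℝ) (q : RdWvPar.Mo) =>
      ENNReal.ofReal (rdPsi ((rdD p.H k)⁻¹ • ((2 * q.2)⁻¹ • q.1 - A)) ^ 2) * (ENNReal.ofReal (rdChi β (p.H * q.2) ^ 2) * ‖G q‖ₑ ^ 2)) :=
    hψm.mul hχm
  have e : ∀ q : RdWvPar.Mo, ∫⁻ A : ℝ × ℝ,
      ENNReal.ofReal (rdPsi ((rdD p.H k)⁻¹ • ((2 * q.2)⁻¹ • q.1 - A)) ^ 2) * (ENNReal.ofReal (rdChi β (p.H * q.2) ^ 2) * ‖G q‖ₑ ^ 2)
      = ENNReal.ofReal (rdD p.H k ^ 2) * (ENNReal.ofReal (rdChi β (p.H * q.2) ^ 2) * ‖G q‖ₑ ^ 2) := by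
    intro q
    rw [lintegral_mul_const' _ _ (ENNReal.mul_ne_top ENNReal.ofReal_ne_top (by simp)), rt_w1c_win hd]
  unfold RdWvPar.rw
  rw [lintegral_smul_measure, show (volume : Measure RdWvPar.Ph) = (volume : Measure (ℝ × ℝ)).prod (volume : Measure ((ℝ × ℝ) × ℝ)) from rfl,
    lintegral_prod _ hm.aemeasurable]
  simp_rw [rt_w1c_slice p T k β _ hG]
  rw [lintegral_lintegral_swap hm2.aemeasurable]
  simp_rw [e]
  rw [lintegral_const_mul' _ _ ENNReal.ofReal_ne_top, smul_eq_mul, ← mul_assoc, ← ENNReal.ofReal_mul (div_pos (rdLen_pos k) p.H_pos).le, hd2]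
  have : rdLen k / p.H * (p.H / rdLen k) = 1 := by
    have := rdLen_pos k
    have := p.H_pos
    field_simp
  rw [this, ENNReal.ofReal_one, one_mul]

/-- the square of the `L²` seminorm -/
theorem rt_w1c_eLp_sq {α : Type*} [MeasurableSpace α] (μ : Measure α) (f : α → ℂ) : eLpNorm f 2 μ ^ 2 = ∫⁻ x, ‖f x‖ₑ ^ 2 ∂μ := by
  have h := eLpNorm_nnreal_pow_eq_lintegral (μ := μ) (f := f) (p := 2) (by norm_num)
  simpa using h

theorem rt_w1c_row_sq (p : RdWvPar) (T : ℝ) (k β : ℕ) (G : Lp ℂ 2 (volume : Measure RdWvPar.Mo)) :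
    eLpNorm (p.row T k β G) 2 (p.rw k) ^ 2 = ∫⁻ q : RdWvPar.Mo, ENNReal.ofReal (rdChi β (p.H * q.2) ^ 2) * ‖(G : RdWvPar.Mo → ℂ) q‖ₑ ^ 2 := by
  rw [rt_w1c_eLp_sq]
  exact rt_w1c_total p T k β (Lp.memLp G) (Lp.stronglyMeasurable G)

/-- contraction -/
theorem rt_w1c_row_le (p : RdWvPar) (T : ℝ) (k β : ℕ) (G : Lp ℂ 2 (volume : Measure RdWvPar.Mo)) :
    eLpNorm (p.row T k β G) 2 (p.rw k) ≤ eLpNorm (G : RdWvPar.Mo → ℂ) 2 volume := by
  rw [← ENNReal.pow_le_pow_left_iff (n := 2) (by norm_num), rt_w1c_row_sq, rt_w1c_eLp_sq]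
  refine lintegral_mono fun q => ?_
  calc ENNReal.ofReal (rdChi β (p.H * q.2) ^ 2) * ‖(G : RdWvPar.Mo → ℂ) q‖ₑ ^ 2 ≤ 1 * ‖(G : RdWvPar.Mo → ℂ) q‖ₑ ^ 2 := by
        gcongr
        rw [← ENNReal.ofReal_one]
        exact ENNReal.ofReal_le_ofReal (pow_le_one₀ (rd_chi_nonneg _ _) (rd_chi_le_one _ _))
    _ = _ := one_mul _

theorem rt_w1c_row_memLp (p : RdWvPar) (T : ℝ) (k β : ℕ) (G : Lp ℂ 2 (volume : Measure RdWvPar.Mo)) :
    MemLp (p.row T k β G) 2 (p.rw k) :=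
  ⟨(rt_w1c_row_meas p T k β (Lp.stronglyMeasurable G)).aestronglyMeasurable, (rt_w1c_row_le p T k β G).trans_lt (Lp.memLp G).2⟩

theorem rt_w1c_row_add (p : RdWvPar) (T : ℝ) (k β : ℕ) (G₁ G₂ : Lp ℂ 2 (volume : Measure RdWvPar.Mo)) :
    p.row T k β (G₁ + G₂) = p.row T k β G₁ + p.row T k β G₂ := by
  funext x
  show ∫ q, p.pk T k β x q * ((G₁ + G₂ : Lp ℂ 2 (volume : Measure RdWvPar.Mo)) : RdWvPar.Mo → ℂ) q
    = (∫ q, p.pk T k β x q * (G₁ : RdWvPar.Mo → ℂ) q) + ∫ q, p.pk T k β x q * (G₂ : RdWvPar.Mo → ℂ) q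
  rw [← integral_add (rt_w1c_row_int p T k β x (Lp.memLp G₁)) (rt_w1c_row_int p T k β x (Lp.memLp G₂))]
  refine integral_congr_ae ?_
  filter_upwards [Lp.coeFn_add G₁ G₂] with q hq
  rw [hq, Pi.add_apply, mul_add]

theorem rt_w1c_row_smul (p : RdWvPar) (T : ℝ) (k β : ℕ) (c : ℂ) (G : Lp ℂ 2 (volume : Measure RdWvPar.Mo)) :
    p.row T k β (c • G) = c • p.row T k β G := by
  funext x
  show ∫ q, p.pk T k β x q * ((c • G : Lp ℂ 2 (volume : Measure RdWvPar.Mo)) : RdWvPar.Mo → ℂ) q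
    = c • ∫ q, p.pk T k β x q * (G : RdWvPar.Mo → ℂ) q
  rw [← integral_smul]
  refine integral_congr_ae ?_
  filter_upwards [Lp.coeFn_smul c G] with q hq
  rw [hq, Pi.smul_apply, smul_eq_mul, smul_eq_mul]
  ring

/-- the formula defines a bounded operator -/
theorem rt_w1c_exists (p : RdWvPar) (T : ℝ) (k β : ℕ) :
    ∃ L : Lp ℂ 2 (volume : Measure RdWvPar.Mo) →L[ℂ] Lp ℂ 2 (p.rw k), ∀ G, (L G : RdWvPar.Ph → ℂ) =ᵐ[p.rw k] p.row T k β G := by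
  refine ⟨LinearMap.mkContinuous
    { toFun := fun G => (rt_w1c_row_memLp p T k β G).toLp (p.row T k β G)
      map_add' := fun G₁ G₂ => ?_
      map_smul' := fun c G => ?_ } 1 (fun G => ?_), fun G => ?_⟩
  · rw [← MemLp.toLp_add]
    exact MemLp.toLp_congr _ _ (by rw [rt_w1c_row_add])
  · rw [RingHom.id_apply, ← MemLp.toLp_const_smul]
    exact MemLp.toLp_congr _ _ (by rw [rt_w1c_row_smul])
  · rw [one_mul]
    show ‖(rt_w1c_row_memLp p T k β G).toLp (p.row T k β G)‖ ≤ ‖G‖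
    rw [Lp.norm_toLp, Lp.norm_def]
    exact ENNReal.toReal_mono (Lp.memLp G).2.ne (rt_w1c_row_le p T k β G)
  · exact MemLp.coeFn_toLp (rt_w1c_row_memLp p T k β G)

/-- **W1 (1): the analysis operator is given by the formula** -/
theorem rt_w1c_an (p : RdWvPar) (T : ℝ) (k β : ℕ) (G : Lp ℂ 2 (volume : Measure RdWvPar.Mo)) :
    (p.an T k β G : RdWvPar.Ph → ℂ) =ᵐ[p.rw k] p.row T k β G := by
  unfold RdWvPar.an
  rw [dif_pos (rt_w1c_exists p T k β)]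
  exact (rt_w1c_exists p T k β).choose_spec G

/-- **W1 (2): the energy identity for the analysis operator** -/
theorem rt_w1c_an_sq (p : RdWvPar) (T : ℝ) (k β : ℕ) (G : Lp ℂ 2 (volume : Measure RdWvPar.Mo)) :
    ENNReal.ofReal (‖p.an T k β G‖ ^ 2) = ∫⁻ q : RdWvPar.Mo, ENNReal.ofReal (rdChi β (p.H * q.2) ^ 2) * ‖(G : RdWvPar.Mo → ℂ) q‖ₑ ^ 2 := by
  rw [← rt_w1c_row_sq p T k β G, ← eLpNorm_congr_ae (rt_w1c_an p T k β G), Lp.norm_def, ENNReal.ofReal_pow ENNReal.toReal_nonneg,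
    ENNReal.ofReal_toReal (Lp.memLp _).2.ne]

/-- **W1 (3): contraction** -/
theorem rt_w1c_an_le (p : RdWvPar) (T : ℝ) (k β : ℕ) (G : Lp ℂ 2 (volume : Measure RdWvPar.Mo)) : ‖p.an T k β G‖ ≤ ‖G‖ := by
  rw [Lp.norm_def, Lp.norm_def, eLpNorm_congr_ae (rt_w1c_an p T k β G)]
  exact ENNReal.toReal_mono (Lp.memLp G).2.ne (rt_w1c_row_le p T k β G)

/-- **W1 (4): isometry on the plateau class** -/
theorem rt_w1c_an_iso (p : RdWvPar) (β : ℕ) (G : Lp ℂ 2 (volume : Measure RdWvPar.Mo)) (hG : p.Spec β G) (T : ℝ) (k : ℕ) :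
    ‖p.an T k β G‖ = ‖G‖ := by
  have h : eLpNorm (p.row T k β G) 2 (p.rw k) = eLpNorm (G : RdWvPar.Mo → ℂ) 2 volume := by
    have h2 : eLpNorm (p.row T k β G) 2 (p.rw k) ^ 2 = eLpNorm (G : RdWvPar.Mo → ℂ) 2 volume ^ 2 := by
      rw [rt_w1c_row_sq, rt_w1c_eLp_sq]
      refine lintegral_congr_ae ?_
      filter_upwards [hG] with q hq
      by_cases h0 : (G : RdWvPar.Mo → ℂ) q = 0
      · rw [h0]; simp
      · rw [rd_chi_one (hq h0)]; simp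
    exact (ENNReal.pow_right_strictMono (n := 2) (by norm_num)).injective h2
  rw [Lp.norm_def, Lp.norm_def, eLpNorm_congr_ae (rt_w1c_an p T k β G), h]

end Claimed.Agent.R256
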