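import Mathlib

/-!
# Row 256, folder Rt, block I1/I2 (transport of thin waves), unit XA : THE TRANSFER CALCULUS      (architect helper76; chief Rt helper216; prefix `rt_xa_`, defs `RtAsg`, `RtXf`)

Paper free, Mathlib only.   Sources: 07 l.786-826 ("Transfer of assignments"), l.828-853 (rt:capacity), l.1168-1183.   CONTRACT FILE: every `sorry` is a leaf `L-256-RT-XA-*`; prove IN PLACE, statements verbatim.

A VIEW of a state is a measure space `(Z, ζ)` (rows, or time index × rows) with an energy density `D : Z → ℝ≥0∞` (`D = ‖An v‖ₑ²`).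
* `RtAsg L θ`      a fractional assignment: `L` measurable weights with `∑_l θ l ≤ 1`.
* `RtXf ζ D ζ' D' R Z0 A ε`      TRANSFER from the view `(ζ, D)` to the view `(ζ', D')`: every assignment `θ` carried by `Z0` is replaced by an assignment `θ'` on `Z'`, `θ' l` carried by the `R`-neighbours of the carrier of `θ l`, with
        `∫ θ l D dζ ≤ A ∫ θ' l D' dζ' + e l`,      `∑_l e l ≤ ε`.
  (i) of Lemma rt:wave-transport is a transfer NEW → OLD with one label (`rt_xa_set`), (ii) is a transfer OLD → NEW.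
* transfers compose (`rt_xa_comp`): `A₁ A₂`, `ε₁ + A₁ ε₂`, relation `R₂ ∘ R₁`.
* `rt_xa_ker`      **kernel domination ⟹ transfer** (pointwise Cauchy-Schwarz + Schur; NO cells, NO overlap count): `‖u z‖ₑ ≤ ∫ (Mn + Mf) z z' ‖w z'‖ₑ dζ'` on `Z0`; Schur sums `S₁, S₂` of `Mn`, `τ₁, τ₂` of `Mf`:
        transfer with `R z z' := Mn z z' ≠ 0`, `A = 2 S₁ S₂`, `ε = 2 τ₁ τ₂ ∫ ‖w‖ₑ²`;      `θ' l z' = S₂⁻¹ ∫ θ l z Mn z z' dζ z`.
* `rt_xa_dom` (change of the state: `D ≤ A D' + E`), `rt_xa_restr` (drop the part outside `Z1`), `rt_xa_equiv` (exact relabelling), `rt_xa_mono`, `rt_xa_ext` (a kernel domination proved for integrable `F` holds on `L²`).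
-/

set_option autoImplicit false

namespace Claimed.Agent.R256

open MeasureTheory
open scoped ENNReal

/-- a fractional assignment with `L` labels -/
structure RtAsg {Z : Type} [MeasurableSpace Z] (L : ℕ) (θ : Fin L → Z → ℝ≥0∞) : Prop where
  meas : ∀ l, Measurable (θ l)
  sum_le : ∀ z, ∑ l, θ l z ≤ 1

/-- **transfer** of fractional assignments from the view `(ζ, D)` to the view `(ζ', D')` -/
def RtXf {Z Z' : Type} [MeasurableSpace Z] [MeasurableSpace Z'] (ζ : Measure Z) (D : Z → ℝ≥0∞) (ζ' : Measure Z') (D' : Z' → ℝ≥0∞)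
    (R : Z → Z' → Prop) (Z0 : Set Z) (A ε : ℝ≥0∞) : Prop :=
  ∀ (L : ℕ) (θ : Fin L → Z → ℝ≥0∞), RtAsg L θ → (∀ l z, θ l z ≠ 0 → z ∈ Z0) →
    ∃ (θ' : Fin L → Z' → ℝ≥0∞) (e : Fin L → ℝ≥0∞), RtAsg L θ' ∧ (∀ l z', θ' l z' ≠ 0 → ∃ z, θ l z ≠ 0 ∧ R z z') ∧
      (∀ l, ∫⁻ z, θ l z * D z ∂ζ ≤ A * ∫⁻ z', θ' l z' * D' z' ∂ζ' + e l) ∧ ∑ l, e l ≤ ε

theorem rt_xa_eqns_cite : True := by
  have := @RtXf.eq_1
  trivial

section

variable {Z Z' Z'' : Type} [MeasurableSpace Z] [MeasurableSpace Z'] [MeasurableSpace Z'']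

/-- LEAF `L-256-RT-XA-A` -/
theorem rt_xa_mono {ζ : Measure Z} {D : Z → ℝ≥0∞} {ζ' : Measure Z'} {D' : Z' → ℝ≥0∞} {R R' : Z → Z' → Prop} {Z0 Z1 : Set Z} {A A' ε ε' : ℝ≥0∞}
    (h : RtXf ζ D ζ' D' R Z0 A ε) (hR : ∀ z ∈ Z1, ∀ z', R z z' → R' z z') (hZ : Z1 ⊆ Z0) (hA : A ≤ A') (hε : ε ≤ ε') :
    RtXf ζ D ζ' D' R' Z1 A' ε' := by
  intro L θ hθ hc
  obtain ⟨θ', e, h1, h2, h3, h4⟩ := h L θ hθ fun l z hz => hZ (hc l z hz)
  refine ⟨θ', e, h1, fun l z' hz' => ?_, fun l => ?_, h4.trans hε⟩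
  · obtain ⟨z, hz, hr⟩ := h2 l z' hz'
    exact ⟨z, hz, hR z (hc l z hz) z' hr⟩
  · exact (h3 l).trans (add_le_add (mul_le_mul_left hA _) le_rfl)

/-- LEAF `L-256-RT-XA-A`.  **composition** -/
theorem rt_xa_comp {ζ : Measure Z} {D : Z → ℝ≥0∞} {ζ' : Measure Z'} {D' : Z' → ℝ≥0∞} {ζ'' : Measure Z''} {D'' : Z'' → ℝ≥0∞}
    {R₁ : Z → Z' → Prop} {R₂ : Z' → Z'' → Prop} {Z0 : Set Z} {Z0' : Set Z'} {A₁ A₂ ε₁ ε₂ : ℝ≥0∞}
    (h₁ : RtXf ζ D ζ' D' R₁ Z0 A₁ ε₁) (h₂ : RtXf ζ' D' ζ'' D'' R₂ Z0' A₂ ε₂) (hZ : ∀ z ∈ Z0, ∀ z', R₁ z z' → z' ∈ Z0') :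
    RtXf ζ D ζ'' D'' (fun z z'' => ∃ z', R₁ z z' ∧ R₂ z' z'') Z0 (A₁ * A₂) (ε₁ + A₁ * ε₂) := by
  intro L θ hθ hc
  obtain ⟨θ', e, a1, a2, a3, a4⟩ := h₁ L θ hθ hc
  obtain ⟨θ'', e', b1, b2, b3, b4⟩ := h₂ L θ' a1 fun l z' hz' => by
    obtain ⟨z, hz, hr⟩ := a2 l z' hz'
    exact hZ z (hc l z hz) z' hr
  refine ⟨θ'', fun l => e l + A₁ * e' l, b1, fun l z'' hz'' => ?_, fun l => ?_, ?_⟩
  · obtain ⟨z', hz', hr'⟩ := b2 l z'' hz''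
    obtain ⟨z, hz, hr⟩ := a2 l z' hz'
    exact ⟨z, hz, z', hr, hr'⟩
  · calc ∫⁻ z, θ l z * D z ∂ζ ≤ A₁ * ∫⁻ z', θ' l z' * D' z' ∂ζ' + e l := a3 l
      _ ≤ A₁ * (A₂ * ∫⁻ z'', θ'' l z'' * D'' z'' ∂ζ'' + e' l) + e l := by
          gcongr
          exact b3 l
      _ = _ := by ring
  · rw [Finset.sum_add_distrib, ← Finset.mul_sum]
    gcongr

theorem rt_xa_aem {ζ : Measure Z} {L : ℕ} {θ : Fin L → Z → ℝ≥0∞} (hθ : RtAsg L θ) {E : Z → ℝ≥0∞} (hE : AEMeasurable E ζ) (l : Fin L) :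
    AEMeasurable (fun z => θ l z * E z) ζ := (hθ.meas l).aemeasurable.mul hE

theorem rt_xa_sum_eq {ζ : Measure Z} {L : ℕ} {θ : Fin L → Z → ℝ≥0∞} (hθ : RtAsg L θ) {E : Z → ℝ≥0∞} (hE : AEMeasurable E ζ) :
    ∑ l, ∫⁻ z, θ l z * E z ∂ζ = ∫⁻ z, (∑ l, θ l z) * E z ∂ζ := by
  rw [← lintegral_finsetSum' _ fun l _ => rt_xa_aem hθ hE l]
  refine lintegral_congr fun z => ?_
  rw [← Finset.sum_mul]

theorem rt_xa_sum_le {ζ : Measure Z} {L : ℕ} {θ : Fin L → Z → ℝ≥0∞} (hθ : RtAsg L θ) {E : Z → ℝ≥0∞} (hE : AEMeasurable E ζ) :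
    ∑ l, ∫⁻ z, θ l z * E z ∂ζ ≤ ∫⁻ z, E z ∂ζ := by
  rw [rt_xa_sum_eq hθ hE]
  refine lintegral_mono fun z => ?_
  calc (∑ l, θ l z) * E z ≤ 1 * E z := by
        gcongr
        exact hθ.sum_le z
    _ = E z := one_mul _

/-- LEAF `L-256-RT-XA-A`.  change of the density (change of the state, `‖a + b‖² ≤ 2‖a‖² + 2‖b‖²`) -/
theorem rt_xa_dom {ζ : Measure Z} {D D' E : Z → ℝ≥0∞} {Z0 : Set Z} {A ε : ℝ≥0∞} (hD' : AEMeasurable D' ζ) (hE : AEMeasurable E ζ)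
    (h : ∀ᵐ z ∂ζ, z ∈ Z0 → D z ≤ A * D' z + E z) (hε : ∫⁻ z, E z ∂ζ ≤ ε) :
    RtXf ζ D ζ D' (fun z z' => z' = z) Z0 A ε := by
  intro L θ hθ hc
  refine ⟨θ, fun l => ∫⁻ z, θ l z * E z ∂ζ, hθ, fun l z' hz' => ⟨z', hz', rfl⟩, fun l => ?_, (rt_xa_sum_le hθ hE).trans hε⟩
  calc ∫⁻ z, θ l z * D z ∂ζ ≤ ∫⁻ z, (A * (θ l z * D' z) + θ l z * E z) ∂ζ := by
        refine lintegral_mono_ae ?_
        filter_upwards [h] with z hz
        by_cases h0 : θ l z = 0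
        · simp [h0]
        · calc θ l z * D z ≤ θ l z * (A * D' z + E z) := by
                gcongr
                exact hz (hc l z h0)
            _ = _ := by ring
    _ = _ := by
        rw [lintegral_add_right' _ (rt_xa_aem hθ hE l), lintegral_const_mul'' _ (rt_xa_aem hθ hD' l)]

/-- LEAF `L-256-RT-XA-A`.  restriction to a measurable set which carries almost all the energy of `Z0` -/
theorem rt_xa_restr {ζ : Measure Z} {D : Z → ℝ≥0∞} {Z0 Z1 : Set Z} {ε : ℝ≥0∞} (hZ1 : MeasurableSet Z1) (hD : AEMeasurable D ζ)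
    (Zb : Set Z) (hb : Z0 \ Z1 ⊆ Zb) (hε : ∫⁻ z in Zb, D z ∂ζ ≤ ε) :
    RtXf ζ D ζ D (fun z z' => z' = z ∧ z ∈ Z1) Z0 1 ε := by
  intro L θ hθ hc
  have hDc : AEMeasurable (Z1ᶜ.indicator D) ζ := hD.indicator hZ1.compl
  refine ⟨fun l => Z1.indicator (θ l), fun l => ∫⁻ z, θ l z * Z1ᶜ.indicator D z ∂ζ, ⟨fun l => (hθ.meas l).indicator hZ1, fun z => ?_⟩,
    fun l z' hz' => ?_, fun l => ?_, ?_⟩
  · refine le_trans (Finset.sum_le_sum fun l _ => ?_) (hθ.sum_le z)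
    exact Set.indicator_le_self _ _ _
  · have hm : z' ∈ Z1 := by
      by_contra hn
      exact hz' (Set.indicator_of_notMem hn _)
    have hz2 : θ l z' ≠ 0 := by
      intro h0
      exact hz' (by simp [Set.indicator_of_mem hm, h0])
    exact ⟨z', hz2, rfl, hm⟩
  · rw [one_mul, ← lintegral_add_right' _ (rt_xa_aem hθ hDc l)]
    refine lintegral_mono fun z => ?_
    by_cases hm : z ∈ Z1
    · simp [hm]
    · simp [hm]
  · rw [rt_xa_sum_eq hθ hDc]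
    refine le_trans (le_trans (lintegral_mono fun z => ?_) (lintegral_indicator_le D Zb)) hε
    by_cases h0 : ∑ l, θ l z = 0
    · simp [h0]
    by_cases hm : z ∈ Z1
    · simp [hm]
    obtain ⟨l, -, hl⟩ := Finset.exists_ne_zero_of_sum_ne_zero h0
    have hzb : z ∈ Zb := hb ⟨hc l z hl, hm⟩
    rw [Set.indicator_of_mem hzb, Set.indicator_of_mem (show z ∈ Z1ᶜ from hm)]
    calc (∑ l, θ l z) * D z ≤ 1 * D z := by
          gcongr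
          exact hθ.sum_le z
      _ = D z := one_mul _

/-- LEAF `L-256-RT-XA-A`.  exact relabelling -/
theorem rt_xa_equiv {ζ : Measure Z} {D : Z → ℝ≥0∞} {ζ' : Measure Z'} {D' : Z' → ℝ≥0∞} (e : Z ≃ᵐ Z')
    (h : ∀ f : Z → ℝ≥0∞, Measurable f → ∫⁻ z, f z * D z ∂ζ = ∫⁻ z', f (e.symm z') * D' z' ∂ζ') :
    RtXf ζ D ζ' D' (fun z z' => z' = e z) Set.univ 1 0 := by
  intro L θ hθ _
  refine ⟨fun l z' => θ l (e.symm z'), fun _ => 0, ⟨fun l => (hθ.meas l).comp e.symm.measurable, fun z' => hθ.sum_le _⟩,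
    fun l z' hz' => ⟨e.symm z', hz', (e.apply_symm_apply z').symm⟩, fun l => ?_, by simp⟩
  rw [one_mul, add_zero, h _ (hθ.meas l)]

/-- LEAF `L-256-RT-XA-A`.  one label: the form (i) of Lemma rt:wave-transport.   `N` = any measurable set which contains the neighbours of `S`. -/
theorem rt_xa_set {ζ : Measure Z} {D : Z → ℝ≥0∞} {ζ' : Measure Z'} {D' : Z' → ℝ≥0∞} {R : Z → Z' → Prop} {Z0 : Set Z} {A ε : ℝ≥0∞}
    (h : RtXf ζ D ζ' D' R Z0 A ε) {S : Set Z} (hS : MeasurableSet S) (hS0 : S ⊆ Z0) {N : Set Z'} (hN : ∀ z ∈ S, ∀ z', R z z' → z' ∈ N) :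
    ∫⁻ z in S, D z ∂ζ ≤ A * ∫⁻ z' in N, D' z' ∂ζ' + ε := by
  have hmem : ∀ z, S.indicator (fun _ => (1 : ℝ≥0∞)) z ≠ 0 → z ∈ S := by
    intro z hz
    by_contra hn
    exact hz (Set.indicator_of_notMem hn _)
  obtain ⟨θ', e, h1, h2, h3, h4⟩ := h 1 (fun _ => S.indicator fun _ => 1)
    ⟨fun _ => measurable_const.indicator hS, fun z => by
      simp only [Finset.univ_unique, Finset.sum_const, Finset.card_singleton, one_smul]
      exact Set.indicator_le_self' (fun _ _ => zero_le) z⟩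
    (fun _ z hz => hS0 (hmem z hz))
  have h5 := h3 0
  have e1 : ∫⁻ z, S.indicator (fun _ => (1 : ℝ≥0∞)) z * D z ∂ζ = ∫⁻ z in S, D z ∂ζ := by
    rw [← lintegral_indicator hS]
    refine lintegral_congr fun z => ?_
    by_cases hz : z ∈ S
    · simp [hz]
    · simp [hz]
  rw [e1] at h5
  refine h5.trans (add_le_add (mul_le_mul_right ?_ _) ?_)
  · refine le_trans (lintegral_mono fun z' => ?_) (lintegral_indicator_le D' N)
    by_cases h0 : θ' 0 z' = 0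
    · simp [h0]
    obtain ⟨z, hz, hr⟩ := h2 0 z' h0
    rw [Set.indicator_of_mem (hN z (hmem z hz) z' hr)]
    have h6 := h1.sum_le z'
    simp only [Finset.univ_unique, Finset.sum_singleton] at h6
    calc θ' 0 z' * D' z' ≤ 1 * D' z' := by
          gcongr
          exact h6
      _ = D' z' := one_mul _
  · refine le_trans ?_ h4
    simp

theorem rt_xa_ker_sq (x y : ℝ≥0∞) : (x + y) ^ 2 ≤ 2 * x ^ 2 + 2 * y ^ 2 := by
  induction x using ENNReal.recTopCoe with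
  | top => simp
  | coe x =>
    induction y using ENNReal.recTopCoe with
    | top => simp
    | coe y =>
      norm_cast
      rw [← NNReal.coe_le_coe]
      push_cast
      nlinarith [sq_nonneg ((x : ℝ) - y)]

/-- Cauchy-Schwarz for the measure `a dμ` -/
theorem rt_xa_ker_cs {α : Type*} [MeasurableSpace α] (μ : Measure α) (a f : α → ℝ≥0∞) (ha : AEMeasurable a μ) (hf : AEMeasurable f μ) :
    (∫⁻ x, a x * f x ∂μ) ^ 2 ≤ (∫⁻ x, a x ∂μ) * ∫⁻ x, a x * f x ^ 2 ∂μ := by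
  have h1 := ENNReal.lintegral_mul_le_Lp_mul_Lq μ Real.HolderConjugate.two_two (f := fun x => a x ^ (1 / 2 : ℝ) * f x)
    (g := fun x => a x ^ (1 / 2 : ℝ)) ((ha.pow_const _).mul hf) (ha.pow_const _)
  have e1 : ∀ x, ((fun x => a x ^ (1 / 2 : ℝ) * f x) * fun x => a x ^ (1 / 2 : ℝ)) x = a x * f x := by
    intro x
    have : a x = a x ^ (1 / 2 : ℝ) * a x ^ (1 / 2 : ℝ) := by
      rw [← ENNReal.rpow_add_of_nonneg _ _ (by positivity) (by positivity)]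
      norm_num
    simp only [Pi.mul_apply]
    conv_rhs => rw [this]
    ring
  have e2 : ∀ x, (a x ^ (1 / 2 : ℝ) * f x) ^ (2 : ℝ) = a x * f x ^ 2 := by
    intro x
    rw [ENNReal.mul_rpow_of_nonneg _ _ (by norm_num), ← ENNReal.rpow_mul, ENNReal.rpow_two]
    norm_num
  have e3 : ∀ x, (a x ^ (1 / 2 : ℝ)) ^ (2 : ℝ) = a x := by
    intro x
    rw [← ENNReal.rpow_mul]
    norm_num
  simp only [e1, e2, e3] at h1
  calc (∫⁻ x, a x * f x ∂μ) ^ 2 ≤ ((∫⁻ x, a x * f x ^ 2 ∂μ) ^ (1 / 2 : ℝ) * (∫⁻ x, a x ∂μ) ^ (1 / 2 : ℝ)) ^ 2 := by gcongr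
    _ = (∫⁻ x, a x ∂μ) * ∫⁻ x, a x * f x ^ 2 ∂μ := by
        rw [mul_pow, ← ENNReal.rpow_two, ← ENNReal.rpow_two, ← ENNReal.rpow_mul, ← ENNReal.rpow_mul, mul_comm]
        norm_num

/-- Schur step: `∫ θ (∫ M W)² ≤ S ∫ (∫ θ M) W²` -/
theorem rt_xa_ker_schur {ζ : Measure Z} {ζ' : Measure Z'} [SFinite ζ] [SFinite ζ'] (W : Z' → ℝ≥0∞) (hW : Measurable W)
    (M : Z → Z' → ℝ≥0∞) (hM : Measurable (Function.uncurry M)) (S : ℝ≥0∞) (h1 : ∀ z, ∫⁻ z', M z z' ∂ζ' ≤ S) (θ : Z → ℝ≥0∞) (hθ : Measurable θ) :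
    ∫⁻ z, θ z * (∫⁻ z', M z z' * W z' ∂ζ') ^ 2 ∂ζ ≤ S * ∫⁻ z', (∫⁻ z, θ z * M z z' ∂ζ) * W z' ^ 2 ∂ζ' := by
  have hMz : ∀ z, Measurable (M z) := fun z => hM.comp measurable_prodMk_left
  have hm : Measurable fun p : Z × Z' => θ p.1 * M p.1 p.2 * W p.2 ^ 2 :=
    ((hθ.comp measurable_fst).mul hM).mul ((hW.comp measurable_snd).pow_const 2)
  calc ∫⁻ z, θ z * (∫⁻ z', M z z' * W z' ∂ζ') ^ 2 ∂ζ
      ≤ ∫⁻ z, S * ∫⁻ z', θ z * M z z' * W z' ^ 2 ∂ζ' ∂ζ := by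
        refine lintegral_mono fun z => ?_
        have h2 := rt_xa_ker_cs ζ' (M z) W (hMz z).aemeasurable hW.aemeasurable
        have e : ∫⁻ z', θ z * M z z' * W z' ^ 2 ∂ζ' = θ z * ∫⁻ z', M z z' * W z' ^ 2 ∂ζ' := by
          have hmz : Measurable fun z' => M z z' * W z' ^ 2 := (hMz z).mul (hW.pow_const 2)
          rw [← lintegral_const_mul _ hmz]
          refine lintegral_congr fun z' => ?_
          ring
        show θ z * (∫⁻ z', M z z' * W z' ∂ζ') ^ 2 ≤ S * ∫⁻ z', θ z * M z z' * W z' ^ 2 ∂ζ'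
        rw [e]
        calc θ z * (∫⁻ z', M z z' * W z' ∂ζ') ^ 2 ≤ θ z * ((∫⁻ z', M z z' ∂ζ') * ∫⁻ z', M z z' * W z' ^ 2 ∂ζ') := by gcongr
          _ ≤ θ z * (S * ∫⁻ z', M z z' * W z' ^ 2 ∂ζ') := by
              gcongr
              exact h1 z
          _ = _ := by ring
    _ = S * ∫⁻ z, ∫⁻ z', θ z * M z z' * W z' ^ 2 ∂ζ' ∂ζ := lintegral_const_mul _ hm.lintegral_prod_right'
    _ = S * ∫⁻ z', ∫⁻ z, θ z * M z z' * W z' ^ 2 ∂ζ ∂ζ' := by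
        rw [lintegral_lintegral_swap hm.aemeasurable]
    _ = _ := by
        congr 1
        refine lintegral_congr fun z' => ?_
        have hz' : Measurable fun z => θ z * M z z' := hθ.mul (hM.comp measurable_prodMk_right)
        rw [lintegral_mul_const _ hz']

theorem rt_xa_ker_meas {ζ : Measure Z} {ζ' : Measure Z'} [SFinite ζ] [SFinite ζ'] (U : Z → ℝ≥0∞) (W : Z' → ℝ≥0∞) (hW : Measurable W)
    (Mn Mf : Z → Z' → ℝ≥0∞) (hMn : Measurable (Function.uncurry Mn)) (hMf : Measurable (Function.uncurry Mf)) (Z0 : Set Z)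
    (hdom : ∀ᵐ z ∂ζ, z ∈ Z0 → U z ≤ ∫⁻ z', (Mn z z' + Mf z z') * W z' ∂ζ')
    (S₁ S₂ τ₁ τ₂ : ℝ≥0∞) (hS₂ : S₂ ≠ ⊤) (hS₂0 : S₂ ≠ 0)
    (h1 : ∀ z, ∫⁻ z', Mn z z' ∂ζ' ≤ S₁) (h2 : ∀ z', ∫⁻ z, Mn z z' ∂ζ ≤ S₂)
    (h3 : ∀ z, ∫⁻ z', Mf z z' ∂ζ' ≤ τ₁) (h4 : ∀ z', ∫⁻ z, Mf z z' ∂ζ ≤ τ₂) :
    RtXf ζ (fun z => U z ^ 2) ζ' (fun z' => W z' ^ 2) (fun z z' => Mn z z' ≠ 0) Z0 (2 * S₁ * S₂) (2 * τ₁ * τ₂ * ∫⁻ z', W z' ^ 2 ∂ζ') := by
  intro L θ hθ hc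
  set In : Z → ℝ≥0∞ := fun z => ∫⁻ z', Mn z z' * W z' ∂ζ' with hIn
  set If : Z → ℝ≥0∞ := fun z => ∫⁻ z', Mf z z' * W z' ∂ζ' with hIf
  have hMnz : ∀ z, Measurable (Mn z) := fun z => hMn.comp measurable_prodMk_left
  have hInm : Measurable In := (hMn.mul (hW.comp measurable_snd)).lintegral_prod_right'
  have hIfm : Measurable If := (hMf.mul (hW.comp measurable_snd)).lintegral_prod_right'
  have hT : ∀ l, Measurable fun z' => ∫⁻ z, θ l z * Mn z z' ∂ζ := fun l =>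
    (((hθ.meas l).comp measurable_fst).mul hMn).lintegral_prod_left'
  have hSS : S₂ * S₂⁻¹ = 1 := ENNReal.mul_inv_cancel hS₂0 hS₂
  refine ⟨fun l z' => S₂⁻¹ * ∫⁻ z, θ l z * Mn z z' ∂ζ, fun l => 2 * ∫⁻ z, θ l z * If z ^ 2 ∂ζ, ⟨fun l => (hT l).const_mul _, fun z' => ?_⟩,
    fun l z' hz' => ?_, fun l => ?_, ?_⟩
  · rw [← Finset.mul_sum]
    have hz' : Measurable fun z => Mn z z' := hMn.comp measurable_prodMk_right
    have h5 := (rt_xa_sum_le (ζ := ζ) hθ hz'.aemeasurable).trans (h2 z')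
    calc S₂⁻¹ * ∑ l, ∫⁻ z, θ l z * Mn z z' ∂ζ ≤ S₂⁻¹ * S₂ := by gcongr
      _ = 1 := by rw [mul_comm, hSS]
  · have h5 : ∫⁻ z, θ l z * Mn z z' ∂ζ ≠ 0 := fun h0 => hz' (by simp [h0])
    by_contra hcon
    push Not at hcon
    apply h5
    have : ∀ z, θ l z * Mn z z' = 0 := by
      intro z
      by_cases h0 : θ l z = 0
      · simp [h0]
      · simp [hcon z h0]
    simp [this]
  · have hpt : ∀ᵐ z ∂ζ, θ l z * U z ^ 2 ≤ 2 * (θ l z * In z ^ 2) + 2 * (θ l z * If z ^ 2) := by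
      filter_upwards [hdom] with z hz
      by_cases h0 : θ l z = 0
      · simp [h0]
      have h5 := hz (hc l z h0)
      have e : ∫⁻ z', (Mn z z' + Mf z z') * W z' ∂ζ' = In z + If z := by
        rw [hIn, hIf]
        simp only
        have hmz : Measurable fun z' => Mn z z' * W z' := (hMnz z).mul hW
        rw [← lintegral_add_left hmz]
        refine lintegral_congr fun z' => ?_
        ring
      rw [e] at h5
      calc θ l z * U z ^ 2 ≤ θ l z * (In z + If z) ^ 2 := by gcongr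
        _ ≤ θ l z * (2 * In z ^ 2 + 2 * If z ^ 2) := by
            gcongr
            exact rt_xa_ker_sq _ _
        _ = _ := by ring
    have h6 := rt_xa_ker_schur (ζ := ζ) (ζ' := ζ') W hW Mn hMn S₁ h1 (θ l) (hθ.meas l)
    calc ∫⁻ z, θ l z * U z ^ 2 ∂ζ ≤ ∫⁻ z, (2 * (θ l z * In z ^ 2) + 2 * (θ l z * If z ^ 2)) ∂ζ := lintegral_mono_ae hpt
      _ = 2 * ∫⁻ z, θ l z * In z ^ 2 ∂ζ + 2 * ∫⁻ z, θ l z * If z ^ 2 ∂ζ := by
          have m1 : Measurable fun z => θ l z * In z ^ 2 := (hθ.meas l).mul (hInm.pow_const 2)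
          have m2 : Measurable fun z => θ l z * If z ^ 2 := (hθ.meas l).mul (hIfm.pow_const 2)
          rw [lintegral_add_left (m1.const_mul 2), lintegral_const_mul _ m1, lintegral_const_mul _ m2]
      _ ≤ 2 * (S₁ * ∫⁻ z', (∫⁻ z, θ l z * Mn z z' ∂ζ) * W z' ^ 2 ∂ζ') + 2 * ∫⁻ z, θ l z * If z ^ 2 ∂ζ := by gcongr
      _ = _ := by
          congr 1
          have e : ∫⁻ z', S₂⁻¹ * (∫⁻ z, θ l z * Mn z z' ∂ζ) * W z' ^ 2 ∂ζ' = S₂⁻¹ * ∫⁻ z', (∫⁻ z, θ l z * Mn z z' ∂ζ) * W z' ^ 2 ∂ζ' := by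
            have m3 : Measurable fun z' => (∫⁻ z, θ l z * Mn z z' ∂ζ) * W z' ^ 2 := (hT l).mul (hW.pow_const 2)
            rw [← lintegral_const_mul _ m3]
            refine lintegral_congr fun z' => ?_
            ring
          rw [e]
          calc 2 * (S₁ * ∫⁻ z', (∫⁻ z, θ l z * Mn z z' ∂ζ) * W z' ^ 2 ∂ζ')
              = 2 * S₁ * (S₂ * S₂⁻¹) * ∫⁻ z', (∫⁻ z, θ l z * Mn z z' ∂ζ) * W z' ^ 2 ∂ζ' := by rw [hSS]; ring
            _ = _ := by ring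
  · rw [← Finset.mul_sum]
    have h5 := rt_xa_sum_le (ζ := ζ) hθ (hIfm.pow_const 2).aemeasurable
    have h6 := rt_xa_ker_schur (ζ := ζ) (ζ' := ζ') W hW Mf hMf τ₁ h3 (fun _ => 1) measurable_const
    simp only [one_mul] at h6
    calc 2 * ∑ l, ∫⁻ z, θ l z * If z ^ 2 ∂ζ ≤ 2 * ∫⁻ z, If z ^ 2 ∂ζ := by gcongr
      _ ≤ 2 * (τ₁ * ∫⁻ z', (∫⁻ z, Mf z z' ∂ζ) * W z' ^ 2 ∂ζ') := by gcongr
      _ ≤ 2 * (τ₁ * ∫⁻ z', τ₂ * W z' ^ 2 ∂ζ') := by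
          gcongr with z'
          exact h4 z'
      _ = _ := by
          rw [lintegral_const_mul _ (hW.pow_const 2)]
          ring

/-- LEAF `L-256-RT-XA-K`.  **kernel domination ⟹ transfer.**
PLAN.  `θ' l z' := S₂⁻¹ * ∫⁻ z, θ l z * Mn z z' ∂ζ` (measurable: `Measurable.lintegral_prod_left'`; `∑_l θ' l ≤ S₂⁻¹ ∫ Mn ≤ 1`, `ENNReal.inv_mul_le_one`-type; `S₂ = 0` or `⊤`: separate trivial cases, or note `S₂⁻¹ * x ≤ 1` for `x ≤ S₂` always holds when `S₂ ≠ 0, ⊤`;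
for `S₂ = 0` all `∫ Mn = 0`; for `S₂ = ⊤`, `θ' = 0` and `A = ⊤` unless `S₁ = 0`: treat `A * 0`: take then `e l := ∫ θ l D`?  NO: hypotheses `hS₂ : S₂ ≠ ⊤`, `hS₂0 : S₂ ≠ 0` are given).
`e l := 2 * ∫⁻ z, θ l z * (∫⁻ z', Mf z z' * W z' ∂ζ') ^ 2 ∂ζ`, `W = ‖w‖ₑ`.
`D z = U z ^ 2 ≤ (I_n + I_f)² ≤ 2 I_n² + 2 I_f²`;  `I_n² ≤ S₁ ∫ Mn z z' W² ` (Cauchy-Schwarz `ENNReal.lintegral_mul_le_Lp_mul_Lq`, cf. `rt_k_cs`, `rt_k_schur` of `Rt/Ker.lean`: copy, do not import);  Tonelli `lintegral_lintegral_swap`;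
`∑_l e l ≤ 2 ∫ I_f² ≤ 2 τ₁ τ₂ ∫ W²` (Schur).   ~250 l. -/
theorem rt_xa_ker {ζ : Measure Z} {ζ' : Measure Z'} [SFinite ζ] [SFinite ζ'] (U : Z → ℝ≥0∞) (W : Z' → ℝ≥0∞) (hW : AEMeasurable W ζ')
    (Mn Mf : Z → Z' → ℝ≥0∞) (hMn : Measurable (Function.uncurry Mn)) (hMf : Measurable (Function.uncurry Mf)) (Z0 : Set Z)
    (hdom : ∀ᵐ z ∂ζ, z ∈ Z0 → U z ≤ ∫⁻ z', (Mn z z' + Mf z z') * W z' ∂ζ')
    (S₁ S₂ τ₁ τ₂ : ℝ≥0∞) (hS₂ : S₂ ≠ ⊤) (hS₂0 : S₂ ≠ 0)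
    (h1 : ∀ z, ∫⁻ z', Mn z z' ∂ζ' ≤ S₁) (h2 : ∀ z', ∫⁻ z, Mn z z' ∂ζ ≤ S₂)
    (h3 : ∀ z, ∫⁻ z', Mf z z' ∂ζ' ≤ τ₁) (h4 : ∀ z', ∫⁻ z, Mf z z' ∂ζ ≤ τ₂) :
    RtXf ζ (fun z => U z ^ 2) ζ' (fun z' => W z' ^ 2) (fun z z' => Mn z z' ≠ 0) Z0 (2 * S₁ * S₂) (2 * τ₁ * τ₂ * ∫⁻ z', W z' ^ 2 ∂ζ') := by
  have hae : W =ᵐ[ζ'] hW.mk W := hW.ae_eq_mk
  have hcong : ∀ f : Z' → ℝ≥0∞, ∫⁻ z', f z' * W z' ∂ζ' = ∫⁻ z', f z' * hW.mk W z' ∂ζ' := fun f =>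
    lintegral_congr_ae (by filter_upwards [hae] with z' hz'; rw [hz'])
  have hcong2 : ∀ f : Z' → ℝ≥0∞, ∫⁻ z', f z' * W z' ^ 2 ∂ζ' = ∫⁻ z', f z' * hW.mk W z' ^ 2 ∂ζ' := fun f =>
    lintegral_congr_ae (by filter_upwards [hae] with z' hz'; rw [hz'])
  have hcong3 : ∫⁻ z', W z' ^ 2 ∂ζ' = ∫⁻ z', hW.mk W z' ^ 2 ∂ζ' :=
    lintegral_congr_ae (by filter_upwards [hae] with z' hz'; rw [hz'])
  have hmain := rt_xa_ker_meas (ζ := ζ) (ζ' := ζ') U (hW.mk W) hW.measurable_mk Mn Mf hMn hMf Z0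
    (by simpa only [hcong] using hdom) S₁ S₂ τ₁ τ₂ hS₂ hS₂0 h1 h2 h3 h4
  intro L θ hθ hc
  obtain ⟨θ', e, a1, a2, a3, a4⟩ := hmain L θ hθ hc
  refine ⟨θ', e, a1, a2, fun l => ?_, ?_⟩
  · rw [hcong2]
    exact a3 l
  · rw [hcong3]
    exact a4

/-- truncation to the spanning sets converges in `L²` -/
theorem rt_xa_ext_trunc {ζ : Measure Z} [SigmaFinite ζ] (F : Lp ℂ 2 ζ) :
    Filter.Tendsto (fun n => ((Lp.memLp F).indicator (measurableSet_spanningSets ζ n)).toLp _) Filter.atTop (nhds F) := by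
  have hF : MemLp (F : Z → ℂ) 2 ζ := Lp.memLp F
  rw [Lp.tendsto_Lp_iff_tendsto_eLpNorm']
  have e1 : ∀ n, eLpNorm (⇑((hF.indicator (measurableSet_spanningSets ζ n)).toLp _) - ⇑F) 2 ζ
      = (∫⁻ z, (spanningSets ζ n)ᶜ.indicator (fun z => ‖(F : Z → ℂ) z‖ₑ ^ (2 : ℝ)) z ∂ζ) ^ (1 / 2 : ℝ) := by
    intro n
    rw [eLpNorm_eq_lintegral_rpow_enorm_toReal (by norm_num) (by norm_num)]
    simp only [ENNReal.toReal_ofNat]
    congr 1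
    refine lintegral_congr_ae ?_
    filter_upwards [(hF.indicator (measurableSet_spanningSets ζ n)).coeFn_toLp] with z hz
    simp only [Pi.sub_apply, hz]
    by_cases hm : z ∈ spanningSets ζ n
    · simp [hm]
    · simp [hm]
  simp only [e1]
  have hfin : ∫⁻ z, ‖(F : Z → ℂ) z‖ₑ ^ (2 : ℝ) ∂ζ ≠ ⊤ := by
    have h1 := hF.eLpNorm_lt_top
    rw [eLpNorm_eq_lintegral_rpow_enorm_toReal (by norm_num) (by norm_num)] at h1
    simp only [ENNReal.toReal_ofNat] at h1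
    intro htop
    rw [htop] at h1
    simp at h1
  have hm : AEMeasurable (fun z => ‖(F : Z → ℂ) z‖ₑ ^ (2 : ℝ)) ζ := hF.aestronglyMeasurable.enorm.pow_const _
  have h2 : Filter.Tendsto (fun n => ∫⁻ z, (spanningSets ζ n)ᶜ.indicator (fun z => ‖(F : Z → ℂ) z‖ₑ ^ (2 : ℝ)) z ∂ζ) Filter.atTop
      (nhds (∫⁻ _z, (0 : ℝ≥0∞) ∂ζ)) := by
    refine tendsto_lintegral_of_dominated_convergence' (fun z => ‖(F : Z → ℂ) z‖ₑ ^ (2 : ℝ))
      (fun n => hm.indicator (measurableSet_spanningSets ζ n).compl)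
      (fun n => Filter.Eventually.of_forall fun z => Set.indicator_le_self _ _ z) hfin (Filter.Eventually.of_forall fun z => ?_)
    refine tendsto_const_nhds.congr' ?_
    have hz : z ∈ ⋃ n, spanningSets ζ n := by rw [iUnion_spanningSets]; trivial
    obtain ⟨N, hN⟩ := Set.mem_iUnion.1 hz
    filter_upwards [Filter.eventually_ge_atTop N] with n hn
    have : z ∈ spanningSets ζ n := monotone_spanningSets ζ hn hN
    simp [this]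
  rw [lintegral_zero] at h2
  have h3 := (ENNReal.continuous_rpow_const (y := (1 / 2 : ℝ))).tendsto 0
  rw [ENNReal.zero_rpow_of_pos (by norm_num)] at h3
  exact h3.comp h2

/-- LEAF `L-256-RT-XA-E`.  **extension of a kernel domination from integrable functions to `L²`.**
PLAN.  `B n = spanningSets ζ n`, `F_n = 1_{B n} F` (`MemLp.indicator`, integrable: `L²` on a set of finite measure), `F_n → F` in `L²` (dominated convergence), `C F_n → C F` in `L²`, a subsequence converges a.e.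
(`tendstoInMeasure_of_tendsto_Lp`, `TendstoInMeasure.exists_seq_tendsto_ae`);   `‖C F_n z'‖ₑ ≤ ∫ M ‖F_n‖ₑ ≤ ∫ M ‖F‖ₑ`; pass to the limit (`le_of_tendsto`, continuity of `‖·‖ₑ`).   ~150 l. -/
theorem rt_xa_ext {ζ : Measure Z} {ζ' : Measure Z'} [SigmaFinite ζ] (C : Lp ℂ 2 ζ →L[ℂ] Lp ℂ 2 ζ') (M : Z' → Z → ℝ≥0∞)
    (h : ∀ F : Lp ℂ 2 ζ, Integrable (F : Z → ℂ) ζ → ∀ᵐ z' ∂ζ', ‖(C F : Z' → ℂ) z'‖ₑ ≤ ∫⁻ z, M z' z * ‖(F : Z → ℂ) z‖ₑ ∂ζ) (F : Lp ℂ 2 ζ) :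
    ∀ᵐ z' ∂ζ', ‖(C F : Z' → ℂ) z'‖ₑ ≤ ∫⁻ z, M z' z * ‖(F : Z → ℂ) z‖ₑ ∂ζ := by
  have hF : MemLp (F : Z → ℂ) 2 ζ := Lp.memLp F
  set Fn : ℕ → Lp ℂ 2 ζ := fun n => (hF.indicator (measurableSet_spanningSets ζ n)).toLp _ with hFn
  have hae : ∀ n, (Fn n : Z → ℂ) =ᵐ[ζ] (spanningSets ζ n).indicator (F : Z → ℂ) := fun n =>
    (hF.indicator (measurableSet_spanningSets ζ n)).coeFn_toLp
  have hint : ∀ n, Integrable (Fn n : Z → ℂ) ζ := by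
    intro n
    rw [integrable_congr (hae n), integrable_indicator_iff (measurableSet_spanningSets ζ n)]
    have : IsFiniteMeasure (ζ.restrict (spanningSets ζ n)) :=
      ⟨by rw [Measure.restrict_apply_univ]; exact measure_spanningSets_lt_top ζ n⟩
    exact (hF.restrict _).integrable (by norm_num)
  have hle : ∀ n z', ∫⁻ z, M z' z * ‖(Fn n : Z → ℂ) z‖ₑ ∂ζ ≤ ∫⁻ z, M z' z * ‖(F : Z → ℂ) z‖ₑ ∂ζ := by
    intro n z'
    refine lintegral_mono_ae ?_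
    filter_upwards [hae n] with z hz
    rw [hz]
    by_cases hm : z ∈ spanningSets ζ n
    · simp [hm]
    · simp [hm]
  have hlim : Filter.Tendsto (fun n => C (Fn n)) Filter.atTop (nhds (C F)) := (C.continuous.tendsto F).comp (rt_xa_ext_trunc F)
  obtain ⟨ns, -, hns⟩ := (tendstoInMeasure_of_tendsto_Lp hlim).exists_seq_tendsto_ae
  have hall : ∀ᵐ z' ∂ζ', ∀ n, ‖(C (Fn n) : Z' → ℂ) z'‖ₑ ≤ ∫⁻ z, M z' z * ‖(Fn n : Z → ℂ) z‖ₑ ∂ζ :=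
    ae_all_iff.2 fun n => h (Fn n) (hint n)
  filter_upwards [hns, hall] with z' h1 h2
  refine le_of_tendsto (continuous_enorm.tendsto _ |>.comp h1) (Filter.Eventually.of_forall fun i => ?_)
  exact (h2 (ns i)).trans (hle _ _)

end

end Claimed.Agent.R256
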