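import Claimed.Agent.R256.Base.RndCut
import Claimed.Agent.R256.Top.Tools
import Claimed.Agent.R256.Gen.Hyp
import Claimed.Agent.R256.Rt.Wv1Core

/-!
# Row 256, folder Rt, unit W1 : THE ROUND WAVE INSTANCE IS TIGHT      (architect helper282, chief Rt helper216; prefix `rt_w1_`, defs `rtW1*`)

Source: 07-round-transfer.tex l.24-55 (Def rt:model, wave half).   Objects: `Base/RndWav.lean` (`RdWvPar.pk, row, an, rw, Spec, sys`), cutoffs `Base/RndCut.lean` (sorry-free), Plancherel `Top/Tools.lean ls_plancherel_inv` (sorry-free).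
EXITS: `rt_w1_an_spec` (`an` IS the formula), `rt_w1_norm_sq` (`‖An G‖² = ∫ χ_β(Hρ)² |G|²`), `rt_w1_contr`, `rt_w1_iso`, `rt_w1_pl` (`Pl β = Spec β`), `rt_w1_syn`, `rt_w1_same`, `rt_w1_tight`.
MATHEMATICS.  Fix `A`.  `row (A, b, y) = (2π)^{-3/2} ∫ e^{i(ξ·b - ρ y)} S_A(q) dq`, `S_A = rtW1Sl = amp_A · e^{-iT|ξ|²/4ρ} · G ∈ L¹ ∩ L²` (`amp_A` bounded, measurable, bounded support).
Plancherel in `(b, y)`: `∫ |row (A, ·)|² = ∫ amp_A² |G|²`.   Tonelli in `(A, q)` and `∫ ψ((c - A)/d)² dA = d² = H/ℓ`; the row measure is `(ℓ/H) dA db dy`.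
Everything is stated with `∫⁻` and `‖·‖ₑ ^ 2` (NATURAL exponent), so no integrability side conditions in Tonelli.
LEAVES (each `sorry` = part of one leaf; EDIT IN PLACE, splice only your theorems, helper lemmas directly above with prefix `rt_w1_`):
 L-256-RT-W1-A `rt_w1_planch`;   B `rt_w1_amp_meas, _nonneg, _le, _supp`;   B2 `rt_w1_amp_int`;   C `rt_w1_sl_meas, _norm, _int, _memLp, rt_w1_pk_eq, rt_w1_pk_int, rt_w1_row_eq`;
 D `rt_w1_row_meas`;   E `rt_w1_slice, rt_w1_energy`;   F `rt_w1_row_add, _smul, rt_w1_memLp, rt_w1_exists`;   G `rt_w1_norm_sq`;   H `rt_w1_chi_eq_one, rt_w1_pl_spec`;   I `rt_w1_syn_spec`;   J `rt_w1_same`;   K `rt_w1_cell_meas`.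
-/

set_option autoImplicit false

namespace Claimed.Agent.R256

open MeasureTheory
open scoped ENNReal

/-- the amplitude `χ_β(Hρ) ψ((ξ/(2ρ) - A)/d_ℓ)` of the packet -/
noncomputable def rtW1Amp (H : ℝ) (k β : ℕ) (A : ℝ × ℝ) (q : RdWvPar.Mo) : ℝ :=
  rdChi β (H * q.2) * rdPsi ((rdD H k)⁻¹ • ((2 * q.2)⁻¹ • q.1 - A))

/-- the slice `amp_A e^{-iT|ξ|²/(4ρ)} G` -/
noncomputable def rtW1Sl (H T : ℝ) (k β : ℕ) (G : RdWvPar.Mo → ℂ) (A : ℝ × ℝ) (q : RdWvPar.Mo) : ℂ :=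
  ((rtW1Amp H k β A q : ℝ) : ℂ) * Complex.exp (Complex.I * ((-(T * rtSq q.1 / (4 * q.2)) : ℝ) : ℂ)) * G q

/-- the sup of `ψ` -/
noncomputable def rtW1C : ℝ := 1 / Real.sqrt (∫ x : ℝ × ℝ, rdPsi0 x ^ 2)

theorem rt_w1_eqns_cite : True := by
  have := @rtW1Amp.eq_1
  have := @rtW1Sl.eq_1
  have := @rtW1C.eq_1
  trivial

/-! ## A. Plancherel on the product type, paper normalisation -/

/-- `(ℝ × ℝ) × ℝ ≃ E3` -/
noncomputable def rtW1E : (ℝ × ℝ) × ℝ ≃ᵐ E3 :=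
  ((MeasurableEquiv.finTwoArrow.symm.trans (MeasurableEquiv.toLp 2 (Fin 2 → ℝ))).prodCongr (MeasurableEquiv.refl ℝ)).trans
    Claimed.Agent.R255.BR.Jm

theorem rtW1E_eqns_cite : True := by
  have := @rtW1E.eq_1
  trivial

theorem rt_w1_E_apply (q : (ℝ × ℝ) × ℝ) : rtW1E q = Claimed.Agent.R255.BR.J (WithLp.toLp 2 ![q.1.1, q.1.2], q.2) := rfl

theorem rt_w1_E_mp : MeasurePreserving rtW1E volume volume := by
  have h1 : MeasurePreserving (MeasurableEquiv.finTwoArrow.symm.trans (MeasurableEquiv.toLp 2 (Fin 2 → ℝ)) : ℝ × ℝ ≃ᵐ Claimed.Agent.R255.BR.E2)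
      volume volume :=
    ((volume_preserving_finTwoArrow ℝ).symm _).trans (PiLp.volume_preserving_toLp (Fin 2))
  exact Claimed.Agent.R255.BR.measurePreserving_J.comp (h1.prod (MeasurePreserving.id volume))

open scoped InnerProductSpace in
theorem rt_w1_E_inner (q z : (ℝ × ℝ) × ℝ) : ⟪rtW1E q, rtW1E z⟫_ℝ = rtIp q.1 z.1 + q.2 * z.2 := by
  rw [rt_w1_E_apply, rt_w1_E_apply, Claimed.Agent.R255.BR.inner_J]
  simp only [PiLp.inner_apply, Fin.sum_univ_two, rtIp]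
  simp
  ring

theorem rt_w1_lint_sq {α : Type*} [MeasurableSpace α] {μ : Measure α} {f : α → ℂ} (hf : MemLp f 2 μ) :
    ∫⁻ x, ‖f x‖ₑ ^ 2 ∂μ = ENNReal.ofReal (∫ x, ‖f x‖ ^ 2 ∂μ) := by
  rw [ofReal_integral_eq_lintegral_ofReal (hf.integrable_norm_pow (by norm_num)) (Filter.Eventually.of_forall fun x => by positivity)]
  refine lintegral_congr fun x => ?_
  rw [ENNReal.ofReal_pow (norm_nonneg _), ofReal_norm]

theorem rt_w1_scale {E : Type*} [NormedAddCommGroup E] [NormedSpace ℝ E] [MeasurableSpace E] [BorelSpace E] [FiniteDimensional ℝ E]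
    (μ : Measure E) [μ.IsAddHaarMeasure] (h : E → ℝ≥0∞) {r : ℝ} (hr : r ≠ 0) :
    ∫⁻ x, h (r • x) ∂μ = ENNReal.ofReal |(r ^ Module.finrank ℝ E)⁻¹| * ∫⁻ x, h x ∂μ := by
  have e := (Homeomorph.smulOfNeZero r hr : E ≃ₜ E).measurableEmbedding.lintegral_map (μ := μ) h
  have e2 : Measure.map (⇑(Homeomorph.smulOfNeZero r hr : E ≃ₜ E)) μ = ENNReal.ofReal |(r ^ Module.finrank ℝ E)⁻¹| • μ :=
    Measure.map_addHaar_smul μ hr
  rw [e2, lintegral_smul_measure] at e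
  exact e.symm

theorem rt_w1_refl (Φ : (ℝ × ℝ) × ℝ → ℝ≥0∞) : ∫⁻ z : (ℝ × ℝ) × ℝ, Φ (z.1, -z.2) = ∫⁻ z, Φ z := by
  have hmp : MeasurePreserving (Prod.map id Neg.neg : (ℝ × ℝ) × ℝ → (ℝ × ℝ) × ℝ) volume volume :=
    (MeasurePreserving.id volume).prod (Measure.measurePreserving_neg volume)
  have hemb : MeasurableEmbedding (Prod.map id Neg.neg : (ℝ × ℝ) × ℝ → (ℝ × ℝ) × ℝ) :=
    MeasurableEmbedding.id.prodMap (MeasurableEquiv.neg ℝ).measurableEmbedding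
  exact hmp.lintegral_comp_emb hemb Φ

open scoped FourierTransform InnerProductSpace in
theorem rt_w1_planch_aux {g : (ℝ × ℝ) × ℝ → ℂ} (h1 : Integrable g) (h2 : MemLp g 2 volume) :
    ∫⁻ z : (ℝ × ℝ) × ℝ, ‖∫ q : (ℝ × ℝ) × ℝ, Complex.exp (Complex.I * ((rtIp q.1 z.1 - q.2 * z.2 : ℝ) : ℂ)) * g q‖ₑ ^ 2
      = ENNReal.ofReal ((2 * Real.pi) ^ 3) * ∫⁻ q, ‖g q‖ₑ ^ 2 := by
  have hπ : (0 : ℝ) < 2 * Real.pi := by positivity
  set g' : E3 → ℂ := fun ξ => g (rtW1E.symm ξ) with hg'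
  have hmp' : MeasurePreserving rtW1E.symm volume volume := rt_w1_E_mp.symm
  have i1 : Integrable g' := hmp'.integrable_comp_of_integrable h1
  have i2 : MemLp g' 2 volume := h2.comp_measurePreserving hmp'
  obtain ⟨p1, p2⟩ := ls_plancherel_inv i1 i2
  have eK : ∀ z : (ℝ × ℝ) × ℝ, ∫ q : (ℝ × ℝ) × ℝ, Complex.exp (Complex.I * ((rtIp q.1 z.1 - q.2 * z.2 : ℝ) : ℂ)) * g q
      = 𝓕⁻ g' ((2 * Real.pi)⁻¹ • rtW1E (z.1, -z.2)) := by
    intro z
    rw [Claimed.Agent.R255.BR.fourierInv_ee, ← rt_w1_E_mp.integral_comp rtW1E.measurableEmbedding]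
    refine integral_congr_ae (Filter.Eventually.of_forall fun q => ?_)
    simp only [hg', MeasurableEquiv.symm_apply_apply, inner_smul_right, rt_w1_E_inner]
    congr 1
    unfold Claimed.Agent.R255.BR.ee
    congr 1
    rw [mul_comm]
    congr 1
    push_cast
    field_simp
    ring
  simp only [eK]
  rw [rt_w1_refl (fun z => ‖𝓕⁻ g' ((2 * Real.pi)⁻¹ • rtW1E z)‖ₑ ^ 2),
    rt_w1_E_mp.lintegral_comp_emb rtW1E.measurableEmbedding (fun x => ‖𝓕⁻ g' ((2 * Real.pi)⁻¹ • x)‖ₑ ^ 2),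
    rt_w1_scale volume (fun x => ‖𝓕⁻ g' x‖ₑ ^ 2) (inv_ne_zero hπ.ne'), finrank_euclideanSpace_fin, inv_pow, inv_inv,
    abs_of_pos (by positivity), rt_w1_lint_sq p1, p2, ← rt_w1_lint_sq i2]
  congr 1
  exact hmp'.lintegral_comp_emb rtW1E.symm.measurableEmbedding (fun q => ‖g q‖ₑ ^ 2)

/-- LEAF A.  **Plancherel on `(ℝ × ℝ) × ℝ`**, pairing `ξ·b - ρ y`, no `2π` in the phase.
PLAN: `e : (ℝ × ℝ) × ℝ → E3`, `e (ξ, ρ) = J (toLp ![ξ.1, ξ.2], ρ)` preserves the volume (`R255/BR/Split.lean measurePreserving_J, inner_J`; `volume_preserving_finTwoArrow`, `PiLp.volume_preserving_toLp`).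
`∫ e^{i(ξ·b - ρy)} g = 𝓕⁻ (g ∘ e⁻¹) ((2π)⁻¹ • e (b, -y))`; `ls_plancherel_inv`; `(b, y) ↦ (b, -y)` preserves the volume; dilation by `(2π)⁻¹` in dimension 3 (`Measure.lintegral_comp_smul`-type / `Measure.map_addHaar_smul`);
`∫⁻ ‖f‖ₑ^2 = ofReal ∫ ‖f‖^2` for `MemLp f 2`. -/
theorem rt_w1_planch {g : (ℝ × ℝ) × ℝ → ℂ} (h1 : Integrable g) (h2 : MemLp g 2 volume) :
    ∫⁻ z : (ℝ × ℝ) × ℝ, ‖∫ q : (ℝ × ℝ) × ℝ, Complex.exp (Complex.I * ((rtIp q.1 z.1 - q.2 * z.2 : ℝ) : ℂ)) * g q‖ₑ ^ 2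
      = ENNReal.ofReal ((2 * Real.pi) ^ 3) * ∫⁻ q, ‖g q‖ₑ ^ 2 := by
  exact rt_w1_planch_aux h1 h2

/-! ## B. the amplitude -/

/-- LEAF B. -/
theorem rt_w1_amp_meas (H : ℝ) (k β : ℕ) : Measurable fun z : (ℝ × ℝ) × RdWvPar.Mo => rtW1Amp H k β z.1 z.2 := by
  unfold rtW1Amp
  have h0 : Measurable fun z : (ℝ × ℝ) × RdWvPar.Mo => z.2.2 := measurable_snd.comp measurable_snd
  have h1 : Measurable fun z : (ℝ × ℝ) × RdWvPar.Mo => (2 * z.2.2)⁻¹ := (h0.const_mul (2 : ℝ)).inv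
  have h2 : Measurable fun z : (ℝ × ℝ) × RdWvPar.Mo => (2 * z.2.2)⁻¹ • z.2.1 - z.1 :=
    (h1.smul (measurable_fst.comp measurable_snd)).sub measurable_fst
  exact ((rd_chi_contDiff β).continuous.measurable.comp (h0.const_mul H)).mul
    (rd_psi_contDiff.continuous.measurable.comp (h2.const_smul ((rdD H k)⁻¹)))

/-- LEAF B. -/
theorem rt_w1_amp_nonneg (H : ℝ) (k β : ℕ) (A : ℝ × ℝ) (q : RdWvPar.Mo) : 0 ≤ rtW1Amp H k β A q :=
  mul_nonneg (rd_chi_nonneg _ _) (rd_psi_nonneg _)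

/-- LEAF B. -/
theorem rt_w1_amp_le (H : ℝ) (k β : ℕ) (A : ℝ × ℝ) (q : RdWvPar.Mo) : rtW1Amp H k β A q ≤ rtW1C := by
  unfold rtW1Amp rtW1C
  exact (mul_le_of_le_one_left (rd_psi_nonneg _) (rd_chi_le_one _ _)).trans (rd_psi_le _)

/-- LEAF B.  bounded support in `q` for fixed `A`: `2^-(β+5) < Hρ < 2^(β+5)` (`rd_chi_supp`), `|ξ/(2ρ) - A|² < 2 d²` (`rd_psi_supp`) -/
theorem rt_w1_amp_supp {H : ℝ} (hH : 0 < H) (k β : ℕ) (A : ℝ × ℝ) :
    ∃ R : ℝ, ∀ q : RdWvPar.Mo, rtW1Amp H k β A q ≠ 0 → ‖q‖ ≤ R := by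
  have hd : 0 < rdD H k := Real.sqrt_pos.2 (div_pos hH (rdLen_pos k))
  set ρm : ℝ := 2 ^ (β + 5) / H with hρm
  have hρm0 : 0 < ρm := by positivity
  refine ⟨2 * ρm * (‖A‖ + 2 * rdD H k) + ρm, fun q hq => ?_⟩
  unfold rtW1Amp at hq
  obtain ⟨h1, h2⟩ := mul_ne_zero_iff.1 hq
  obtain ⟨c1, c2⟩ := rd_chi_supp h1
  have hq0 : 0 < q.2 := by
    by_contra hn
    have : H * q.2 ≤ 0 := mul_nonpos_of_nonneg_of_nonpos hH.le (not_lt.1 hn)
    have : (0 : ℝ) < (2 : ℝ)⁻¹ ^ (β + 5) := by positivity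
    linarith
  have hq1 : q.2 ≤ ρm := by rw [hρm, le_div_iff₀ hH]; linarith
  have h3 := rd_psi_supp h2
  unfold rtSq at h3
  simp only [Prod.smul_fst, Prod.smul_snd, Prod.fst_sub, Prod.snd_sub, smul_eq_mul] at h3
  have hA1 : |A.1| ≤ ‖A‖ := by rw [Prod.norm_def]; exact le_max_left _ _
  have hA2 : |A.2| ≤ ‖A‖ := by rw [Prod.norm_def]; exact le_max_right _ _
  have key : ∀ a u : ℝ, |a| ≤ ‖A‖ → ((rdD H k)⁻¹ * ((2 * q.2)⁻¹ * u - a)) ^ 2 < 2 → |u| ≤ 2 * ρm * (‖A‖ + 2 * rdD H k) := by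
    intro a u ha hu
    have e1 : |(rdD H k)⁻¹ * ((2 * q.2)⁻¹ * u - a)| ≤ 2 := abs_le_of_sq_le_sq (by linarith) (by norm_num)
    rw [abs_mul, abs_inv, abs_of_pos hd, inv_mul_le_iff₀ hd] at e1
    have e2 : |(2 * q.2)⁻¹ * u| ≤ ‖A‖ + 2 * rdD H k := by
      have : (2 * q.2)⁻¹ * u = ((2 * q.2)⁻¹ * u - a) + a := by ring
      rw [this]
      exact (abs_add_le _ _).trans (by linarith)
    rw [abs_mul, abs_inv, abs_of_pos (by positivity : (0 : ℝ) < 2 * q.2), inv_mul_le_iff₀ (by positivity)] at e2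
    have e3 : 0 ≤ ‖A‖ + 2 * rdD H k := by positivity
    calc |u| ≤ 2 * q.2 * (‖A‖ + 2 * rdD H k) := e2
      _ ≤ 2 * ρm * (‖A‖ + 2 * rdD H k) := by gcongr
  have k1 := key A.1 q.1.1 hA1 (by nlinarith [sq_nonneg ((rdD H k)⁻¹ * ((2 * q.2)⁻¹ * q.1.2 - A.2))])
  have k2 := key A.2 q.1.2 hA2 (by nlinarith [sq_nonneg ((rdD H k)⁻¹ * ((2 * q.2)⁻¹ * q.1.1 - A.1))])
  have e3 : 0 ≤ 2 * ρm * (‖A‖ + 2 * rdD H k) := by positivity
  rw [Prod.norm_def, Prod.norm_def]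
  refine max_le (max_le ?_ ?_) ?_
  · rw [Real.norm_eq_abs]; linarith
  · rw [Real.norm_eq_abs]; linarith
  · rw [Real.norm_eq_abs, abs_of_pos hq0]; linarith

/-- LEAF B2.  `∫ ψ((c - A)/d)² dA = d² ∫ ψ² = H/ℓ`   (`rd_psi_norm`; translation, reflection, `Measure.integral_comp_smul` / `lintegral` version on `ℝ × ℝ`, `finrank = 2`; `rdD H k ^ 2 = H / rdLen k`) -/
theorem rt_w1_amp_int {H : ℝ} (hH : 0 < H) (k β : ℕ) (q : RdWvPar.Mo) :
    ∫⁻ A : ℝ × ℝ, ENNReal.ofReal (rtW1Amp H k β A q ^ 2) = ENNReal.ofReal (rdChi β (H * q.2) ^ 2 * (H / rdLen k)) := by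
  have hd : 0 < rdD H k := Real.sqrt_pos.2 (div_pos hH (rdLen_pos k))
  have hd2 : rdD H k ^ 2 = H / rdLen k := Real.sq_sqrt (div_pos hH (rdLen_pos k)).le
  have : (volume : Measure (ℝ × ℝ)).IsAddHaarMeasure := by
    rw [Measure.volume_eq_prod]
    infer_instance
  have hψi : Integrable fun x : ℝ × ℝ => rdPsi x ^ 2 := by
    have hc : Continuous fun x : ℝ × ℝ => rdPsi x ^ 2 := rd_psi_contDiff.continuous.pow 2
    refine hc.integrable_of_hasCompactSupport ?_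
    refine rd_psi_compact.mono fun x hx => ?_
    simp only [Function.mem_support] at hx ⊢
    exact fun h => hx (by rw [h]; norm_num)
  have e1 : ∫⁻ x : ℝ × ℝ, ENNReal.ofReal (rdPsi x ^ 2) = 1 := by
    rw [← ofReal_integral_eq_lintegral_ofReal hψi (Filter.Eventually.of_forall fun x => sq_nonneg _), rd_psi_norm, ENNReal.ofReal_one]
  have e2 : ∀ A : ℝ × ℝ, ENNReal.ofReal (rtW1Amp H k β A q ^ 2)
      = ENNReal.ofReal (rdChi β (H * q.2) ^ 2) * ENNReal.ofReal (rdPsi ((rdD H k)⁻¹ • ((2 * q.2)⁻¹ • q.1 - A)) ^ 2) := fun A => by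
    unfold rtW1Amp
    rw [mul_pow, ENNReal.ofReal_mul (sq_nonneg _)]
  simp only [e2]
  rw [lintegral_const_mul' _ _ ENNReal.ofReal_ne_top,
    lintegral_sub_left_eq_self (fun A : ℝ × ℝ => ENNReal.ofReal (rdPsi ((rdD H k)⁻¹ • A) ^ 2)) ((2 * q.2)⁻¹ • q.1),
    rt_w1_scale volume (fun x : ℝ × ℝ => ENNReal.ofReal (rdPsi x ^ 2)) (inv_ne_zero hd.ne'), e1, mul_one, Module.finrank_prod,
    Module.finrank_self, inv_pow, inv_inv, abs_of_pos (by positivity), ← ENNReal.ofReal_mul (sq_nonneg _)]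
  norm_num
  rw [hd2]

/-! ## C. the slices -/

/-- LEAF C. -/
theorem rt_w1_sl_norm (H T : ℝ) (k β : ℕ) (G : RdWvPar.Mo → ℂ) (A : ℝ × ℝ) (q : RdWvPar.Mo) :
    ‖rtW1Sl H T k β G A q‖ = rtW1Amp H k β A q * ‖G q‖ := by
  unfold rtW1Sl
  rw [norm_mul, norm_mul, Complex.norm_real, Real.norm_of_nonneg (rt_w1_amp_nonneg H k β A q), mul_comm Complex.I,
    Complex.norm_exp_ofReal_mul_I, mul_one]

theorem rt_w1_sq_meas : Measurable fun q : RdWvPar.Mo => rtSq q.1 := by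
  unfold rtSq
  exact ((measurable_fst.comp measurable_fst).pow_const 2).add ((measurable_snd.comp measurable_fst).pow_const 2)

theorem rt_w1_sl_pre_meas (H T : ℝ) (k β : ℕ) (A : ℝ × ℝ) : Measurable fun q : RdWvPar.Mo =>
    ((rtW1Amp H k β A q : ℝ) : ℂ) * Complex.exp (Complex.I * ((-(T * rtSq q.1 / (4 * q.2)) : ℝ) : ℂ)) := by
  have h1 : Measurable fun q : RdWvPar.Mo => rtW1Amp H k β A q := by
    unfold rtW1Amp
    have g0 : Measurable fun z : RdWvPar.Mo => z.2 := measurable_snd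
    have g1 : Measurable fun z : RdWvPar.Mo => (2 * z.2)⁻¹ := (g0.const_mul (2 : ℝ)).inv
    have g2 : Measurable fun z : RdWvPar.Mo => (2 * z.2)⁻¹ • z.1 - A :=
      (g1.smul measurable_fst).sub measurable_const
    exact ((rd_chi_contDiff β).continuous.measurable.comp (g0.const_mul H)).mul
      (rd_psi_contDiff.continuous.measurable.comp (g2.const_smul ((rdD H k)⁻¹)))
  have h3 : Measurable fun q : RdWvPar.Mo => 4 * q.2 := measurable_snd.const_mul (4 : ℝ)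
  have h4 : Measurable fun q : RdWvPar.Mo => T * rtSq q.1 := rt_w1_sq_meas.const_mul T
  have h2 : Measurable fun q : RdWvPar.Mo => -(T * rtSq q.1 / (4 * q.2)) := (h4.div h3).neg
  have h5 : Measurable fun q : RdWvPar.Mo => ((rtW1Amp H k β A q : ℝ) : ℂ) := Complex.measurable_ofReal.comp h1
  have h6 : Measurable fun q : RdWvPar.Mo => ((-(T * rtSq q.1 / (4 * q.2)) : ℝ) : ℂ) := Complex.measurable_ofReal.comp h2
  have h7 : Measurable fun q : RdWvPar.Mo => Complex.exp (Complex.I * ((-(T * rtSq q.1 / (4 * q.2)) : ℝ) : ℂ)) :=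
    Complex.measurable_exp.comp (h6.const_mul Complex.I)
  exact h5.mul h7

/-- LEAF C. -/
theorem rt_w1_sl_meas (H T : ℝ) (k β : ℕ) (G : Lp ℂ 2 (volume : Measure RdWvPar.Mo)) (A : ℝ × ℝ) :
    AEStronglyMeasurable (rtW1Sl H T k β (G : RdWvPar.Mo → ℂ) A) volume := by
  exact ((rt_w1_sl_pre_meas H T k β A).mul (Lp.stronglyMeasurable G).measurable).aestronglyMeasurable

/-- LEAF C.  (`‖S_A‖ ≤ C ‖G‖`) -/
theorem rt_w1_sl_memLp (H T : ℝ) (k β : ℕ) (G : Lp ℂ 2 (volume : Measure RdWvPar.Mo)) (A : ℝ × ℝ) :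
    MemLp (rtW1Sl H T k β (G : RdWvPar.Mo → ℂ) A) 2 volume := by
  refine (Lp.memLp G).of_le_mul (c := rtW1C) (rt_w1_sl_meas H T k β G A) (Filter.Eventually.of_forall fun q => ?_)
  rw [rt_w1_sl_norm]
  exact mul_le_mul_of_nonneg_right (rt_w1_amp_le H k β A q) (norm_nonneg _)

/-- LEAF C.  (`‖S_A‖ ≤ C 1_{ball} ‖G‖`, Cauchy-Schwarz: `MemLp.integrable_mul` / `L²` on a set of finite measure is `L¹`) -/
theorem rt_w1_sl_int {H : ℝ} (hH : 0 < H) (T : ℝ) (k β : ℕ) (G : Lp ℂ 2 (volume : Measure RdWvPar.Mo)) (A : ℝ × ℝ) :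
    Integrable (rtW1Sl H T k β (G : RdWvPar.Mo → ℂ) A) volume := by
  obtain ⟨R, hR⟩ := rt_w1_amp_supp hH k β A
  have hs : Function.support (rtW1Sl H T k β (G : RdWvPar.Mo → ℂ) A) ⊆ Metric.closedBall 0 R := by
    intro q hq
    rw [mem_closedBall_zero_iff]
    refine hR q fun h0 => hq ?_
    unfold rtW1Sl
    rw [h0]
    simp
  rw [← integrableOn_iff_integrable_of_support_subset hs]
  have : IsFiniteMeasure ((volume : Measure RdWvPar.Mo).restrict (Metric.closedBall 0 R)) :=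
    ⟨by rw [Measure.restrict_apply_univ]; exact (isCompact_closedBall _ _).measure_lt_top⟩
  exact ((rt_w1_sl_memLp H T k β G A).restrict _).integrable (by norm_num)

/-- LEAF C.  algebra of the packet -/
theorem rt_w1_pk_eq (p : RdWvPar) (T : ℝ) (k β : ℕ) (G : RdWvPar.Mo → ℂ) (A : ℝ × ℝ) (z : (ℝ × ℝ) × ℝ) (q : RdWvPar.Mo) :
    p.pk T k β (A, z) q * G q
      = (((2 * Real.pi) ^ (-(3 / 2) : ℝ) : ℝ) : ℂ)
        * (Complex.exp (Complex.I * ((rtIp q.1 z.1 - q.2 * z.2 : ℝ) : ℂ)) * rtW1Sl p.H T k β G A q) := by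
  unfold RdWvPar.pk rtW1Sl rtW1Amp
  have e : Complex.exp (Complex.I * ((rtIp q.1 z.1 - q.2 * z.2 - T * rtSq q.1 / (4 * q.2) : ℝ) : ℂ))
      = Complex.exp (Complex.I * ((rtIp q.1 z.1 - q.2 * z.2 : ℝ) : ℂ)) * Complex.exp (Complex.I * ((-(T * rtSq q.1 / (4 * q.2)) : ℝ) : ℂ)) := by
    rw [← Complex.exp_add, ← mul_add]
    congr 2
    push_cast
    ring
  simp only
  rw [e]
  push_cast
  ring

/-- LEAF C. -/
theorem rt_w1_pk_int (p : RdWvPar) (T : ℝ) (k β : ℕ) (G : Lp ℂ 2 (volume : Measure RdWvPar.Mo)) (x : RdWvPar.Ph) :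
    Integrable (fun q => p.pk T k β x q * (G : RdWvPar.Mo → ℂ) q) volume := by
  obtain ⟨A, z⟩ := x
  have e : (fun q => p.pk T k β (A, z) q * (G : RdWvPar.Mo → ℂ) q) = fun q => (((2 * Real.pi) ^ (-(3 / 2) : ℝ) : ℝ) : ℂ)
        * (Complex.exp (Complex.I * ((rtIp q.1 z.1 - q.2 * z.2 : ℝ) : ℂ)) * rtW1Sl p.H T k β (G : RdWvPar.Mo → ℂ) A q) :=
    funext fun q => rt_w1_pk_eq p T k β _ A z q
  rw [e]
  refine Integrable.const_mul ?_ _
  refine (rt_w1_sl_int p.H_pos T k β G A).bdd_mul (c := 1) ?_ (Filter.Eventually.of_forall fun q => ?_)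
  · have h1 : Measurable fun q : RdWvPar.Mo => rtIp q.1 z.1 - q.2 * z.2 := by
      unfold rtIp
      exact (((measurable_fst.comp measurable_fst).mul_const _).add ((measurable_snd.comp measurable_fst).mul_const _)).sub
        (measurable_snd.mul_const _)
    exact (Complex.measurable_exp.comp ((Complex.measurable_ofReal.comp h1).const_mul Complex.I)).aestronglyMeasurable
  · rw [mul_comm Complex.I, Complex.norm_exp_ofReal_mul_I]

/-- LEAF C. -/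
theorem rt_w1_row_eq (p : RdWvPar) (T : ℝ) (k β : ℕ) (G : Lp ℂ 2 (volume : Measure RdWvPar.Mo)) (A : ℝ × ℝ) (z : (ℝ × ℝ) × ℝ) :
    p.row T k β G (A, z) = (((2 * Real.pi) ^ (-(3 / 2) : ℝ) : ℝ) : ℂ)
      * ∫ q : RdWvPar.Mo, Complex.exp (Complex.I * ((rtIp q.1 z.1 - q.2 * z.2 : ℝ) : ℂ)) * rtW1Sl p.H T k β (G : RdWvPar.Mo → ℂ) A q := by
  unfold RdWvPar.row
  rw [← integral_const_mul]
  exact integral_congr_ae (Filter.Eventually.of_forall fun q => rt_w1_pk_eq p T k β _ A z q)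

/-! ## D. measurability of the rows -/

/-- LEAF D.  (`(x, q) ↦ pk x q * G q` is a.e. strongly measurable on the product: `pk` is jointly measurable (`Measurable` of `rdChi`, `rdPsi`: continuous; `⁻¹`, `cexp`), `G ∘ snd` by `AEStronglyMeasurable.comp_snd`;
then `AEStronglyMeasurable.integral_prod_right'`) -/
theorem rt_w1_row_meas (p : RdWvPar) (T : ℝ) (k β : ℕ) (G : Lp ℂ 2 (volume : Measure RdWvPar.Mo)) :
    AEStronglyMeasurable (p.row T k β G) (volume : Measure RdWvPar.Ph) := by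
  have hpk : Measurable fun w : RdWvPar.Ph × RdWvPar.Mo => p.pk T k β w.1 w.2 := by
    unfold RdWvPar.pk
    have q2 : Measurable fun w : RdWvPar.Ph × RdWvPar.Mo => w.2.2 := measurable_snd.comp measurable_snd
    have q1 : Measurable fun w : RdWvPar.Ph × RdWvPar.Mo => w.2.1 := measurable_fst.comp measurable_snd
    have a1 : Measurable fun w : RdWvPar.Ph × RdWvPar.Mo => (2 * w.2.2)⁻¹ • w.2.1 - w.1.1 :=
      (((q2.const_mul (2 : ℝ)).inv).smul q1).sub (measurable_fst.comp measurable_fst)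
    have a2 : Measurable fun w : RdWvPar.Ph × RdWvPar.Mo => rdPsi ((rdD p.H k)⁻¹ • ((2 * w.2.2)⁻¹ • w.2.1 - w.1.1)) :=
      rd_psi_contDiff.continuous.measurable.comp (a1.const_smul ((rdD p.H k)⁻¹))
    have a3 : Measurable fun w : RdWvPar.Ph × RdWvPar.Mo => rdChi β (p.H * w.2.2) :=
      (rd_chi_contDiff β).continuous.measurable.comp (q2.const_mul p.H)
    have a4 : Measurable fun w : RdWvPar.Ph × RdWvPar.Mo => rtIp w.2.1 w.1.2.1 := by
      unfold rtIp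
      exact ((measurable_fst.comp q1).mul (measurable_fst.comp (measurable_fst.comp (measurable_snd.comp measurable_fst)))).add
        ((measurable_snd.comp q1).mul (measurable_snd.comp (measurable_fst.comp (measurable_snd.comp measurable_fst))))
    have a5 : Measurable fun w : RdWvPar.Ph × RdWvPar.Mo => rtSq w.2.1 := rt_w1_sq_meas.comp measurable_snd
    have a6 : Measurable fun w : RdWvPar.Ph × RdWvPar.Mo => rtIp w.2.1 w.1.2.1 - w.2.2 * w.1.2.2 - T * rtSq w.2.1 / (4 * w.2.2) :=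
      (a4.sub (q2.mul (measurable_snd.comp (measurable_snd.comp measurable_fst)))).sub ((a5.const_mul T).div (q2.const_mul 4))
    exact (Complex.measurable_ofReal.comp ((a3.const_mul _).mul a2)).mul
      (Complex.measurable_exp.comp ((Complex.measurable_ofReal.comp a6).const_mul Complex.I))
  have hf : Measurable fun w : RdWvPar.Ph × RdWvPar.Mo => p.pk T k β w.1 w.2 * (G : RdWvPar.Mo → ℂ) w.2 :=
    hpk.mul ((Lp.stronglyMeasurable G).measurable.comp measurable_snd)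
  exact (hf.aestronglyMeasurable (μ := (volume : Measure RdWvPar.Ph).prod (volume : Measure RdWvPar.Mo))).integral_prod_right'

/-! ## E. the energy identity -/

/-- LEAF E.  (`rt_w1_row_eq`, `rt_w1_planch` with `rt_w1_sl_int`, `rt_w1_sl_memLp`; `((2π)^{-3/2})² (2π)³ = 1`; `rt_w1_sl_norm`) -/
theorem rt_w1_slice (p : RdWvPar) (T : ℝ) (k β : ℕ) (G : Lp ℂ 2 (volume : Measure RdWvPar.Mo)) (A : ℝ × ℝ) :
    ∫⁻ z : (ℝ × ℝ) × ℝ, ‖p.row T k β G (A, z)‖ₑ ^ 2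
      = ∫⁻ q : RdWvPar.Mo, ENNReal.ofReal (rtW1Amp p.H k β A q ^ 2) * ‖(G : RdWvPar.Mo → ℂ) q‖ₑ ^ 2 := by
  have hπ : (0 : ℝ) < 2 * Real.pi := by positivity
  simp only [rt_w1_row_eq, enorm_mul, mul_pow]
  rw [lintegral_const_mul' _ _ (by finiteness), rt_w1_planch (rt_w1_sl_int p.H_pos T k β G A) (rt_w1_sl_memLp p.H T k β G A), ← mul_assoc]
  have e1 : ‖(((2 * Real.pi) ^ (-(3 / 2) : ℝ) : ℝ) : ℂ)‖ₑ ^ 2 * ENNReal.ofReal ((2 * Real.pi) ^ 3) = 1 := by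
    rw [← ofReal_norm, Complex.norm_real, Real.norm_of_nonneg (by positivity), ← ENNReal.ofReal_pow (by positivity),
      ← ENNReal.ofReal_mul (by positivity), ← Real.rpow_natCast, ← Real.rpow_mul hπ.le, ← Real.rpow_natCast (2 * Real.pi) 3,
      ← Real.rpow_add hπ]
    norm_num
  rw [e1, one_mul]
  refine lintegral_congr fun q => ?_
  rw [← ofReal_norm, rt_w1_sl_norm, ENNReal.ofReal_mul (rt_w1_amp_nonneg _ _ _ _ _), mul_pow, ofReal_norm,
    ENNReal.ofReal_pow (rt_w1_amp_nonneg _ _ _ _ _)]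

/-- LEAF E.  **the energy identity**   (`rw k = ofReal (ℓ/H) • volume`, `volume = volume.prod volume`, `lintegral_prod` with `rt_w1_row_meas`, `rt_w1_slice`, `lintegral_lintegral_swap` with `rt_w1_amp_meas`,
`lintegral_mul_const''`, `rt_w1_amp_int`, `(ℓ/H)(H/ℓ) = 1`) -/
theorem rt_w1_energy (p : RdWvPar) (T : ℝ) (k β : ℕ) (G : Lp ℂ 2 (volume : Measure RdWvPar.Mo)) :
    ∫⁻ x, ‖p.row T k β G x‖ₑ ^ 2 ∂(p.rw k)
      = ∫⁻ q : RdWvPar.Mo, ENNReal.ofReal (rdChi β (p.H * q.2) ^ 2) * ‖(G : RdWvPar.Mo → ℂ) q‖ₑ ^ 2 := by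
  have hG : Measurable fun q : RdWvPar.Mo => ‖(G : RdWvPar.Mo → ℂ) q‖ₑ ^ 2 := ((Lp.stronglyMeasurable G).measurable.enorm).pow_const 2
  have hl := rdLen_pos k
  have hH := p.H_pos
  unfold RdWvPar.rw
  rw [lintegral_smul_measure, show (volume : Measure RdWvPar.Ph) = (volume : Measure (ℝ × ℝ)).prod (volume : Measure ((ℝ × ℝ) × ℝ)) from rfl,
    lintegral_prod _ (((rt_w1_row_meas p T k β G).enorm).pow_const 2)]
  simp only [rt_w1_slice]
  have hm : Measurable (Function.uncurry fun (A : ℝ × ℝ) (q : RdWvPar.Mo) =>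
      ENNReal.ofReal (rtW1Amp p.H k β A q ^ 2) * ‖(G : RdWvPar.Mo → ℂ) q‖ₑ ^ 2) :=
    (ENNReal.measurable_ofReal.comp ((rt_w1_amp_meas p.H k β).pow_const 2)).mul (hG.comp measurable_snd)
  rw [lintegral_lintegral_swap hm.aemeasurable]
  have e1 : ∀ q : RdWvPar.Mo, ∫⁻ A : ℝ × ℝ, ENNReal.ofReal (rtW1Amp p.H k β A q ^ 2) * ‖(G : RdWvPar.Mo → ℂ) q‖ₑ ^ 2
      = ENNReal.ofReal (rdChi β (p.H * q.2) ^ 2 * (p.H / rdLen k)) * ‖(G : RdWvPar.Mo → ℂ) q‖ₑ ^ 2 := fun q => by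
    rw [lintegral_mul_const' _ _ (by finiteness), rt_w1_amp_int hH]
  simp only [e1, smul_eq_mul]
  rw [← lintegral_const_mul' _ _ ENNReal.ofReal_ne_top]
  refine lintegral_congr fun q => ?_
  rw [← mul_assoc, ← ENNReal.ofReal_mul (by positivity)]
  congr 2
  field_simp

/-! ## F. the operator -/

/-- LEAF F.  (`Lp.coeFn_add`, `integral_add` with `rt_w1_pk_int`) -/
theorem rt_w1_row_add (p : RdWvPar) (T : ℝ) (k β : ℕ) (G G' : Lp ℂ 2 (volume : Measure RdWvPar.Mo)) (x : RdWvPar.Ph) :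
    p.row T k β (G + G') x = p.row T k β G x + p.row T k β G' x :=
  congrFun (rt_w1c_row_add p T k β G G') x

/-- LEAF F. -/
theorem rt_w1_row_smul (p : RdWvPar) (T : ℝ) (k β : ℕ) (c : ℂ) (G : Lp ℂ 2 (volume : Measure RdWvPar.Mo)) (x : RdWvPar.Ph) :
    p.row T k β (c • G) x = c * p.row T k β G x :=
  congrFun (rt_w1c_row_smul p T k β c G) x

/-- LEAF F.  (`rt_w1_row_meas` (absolutely continuous: `rw k ≪ volume`), `rt_w1_energy`, `χ² ≤ 1`, `Lp.memLp G`) -/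
theorem rt_w1_memLp (p : RdWvPar) (T : ℝ) (k β : ℕ) (G : Lp ℂ 2 (volume : Measure RdWvPar.Mo)) :
    MemLp (p.row T k β G) 2 (p.rw k) :=
  rt_w1c_row_memLp p T k β G

/-- LEAF F.  the formula defines a bounded operator  (`LinearMap.mkContinuous` of `G ↦ (rt_w1_memLp ..).toLp`, bound `1` from `rt_w1_energy`) -/
theorem rt_w1_exists (p : RdWvPar) (T : ℝ) (k β : ℕ) :
    ∃ L : Lp ℂ 2 (volume : Measure RdWvPar.Mo) →L[ℂ] Lp ℂ 2 (p.rw k), ∀ G, (L G : RdWvPar.Ph → ℂ) =ᵐ[p.rw k] p.row T k β G :=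
  rt_w1c_exists p T k β

/-- **EXIT**: `an` is the formula -/
theorem rt_w1_an_spec (p : RdWvPar) (T : ℝ) (k β : ℕ) (G : Lp ℂ 2 (volume : Measure RdWvPar.Mo)) :
    (p.an T k β G : RdWvPar.Ph → ℂ) =ᵐ[p.rw k] p.row T k β G := by
  have h := rt_w1_exists p T k β
  unfold RdWvPar.an
  rw [dif_pos h]
  exact h.choose_spec G

/-- integrability of the weighted square -/
theorem rt_w1_chi_sq_int (p : RdWvPar) (β : ℕ) (G : Lp ℂ 2 (volume : Measure RdWvPar.Mo)) :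
    Integrable fun q : RdWvPar.Mo => rdChi β (p.H * q.2) ^ 2 * ‖(G : RdWvPar.Mo → ℂ) q‖ ^ 2 := by
  have h1 : Integrable fun q : RdWvPar.Mo => ‖(G : RdWvPar.Mo → ℂ) q‖ ^ 2 := (Lp.memLp G).integrable_norm_pow (by norm_num)
  have hm : Measurable fun q : RdWvPar.Mo => rdChi β (p.H * q.2) ^ 2 :=
    ((rd_chi_contDiff β).continuous.measurable.comp (by fun_prop)).pow_const 2
  refine h1.bdd_mul (c := 1) hm.aestronglyMeasurable (Filter.Eventually.of_forall fun q => ?_)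
  rw [Real.norm_of_nonneg (by positivity)]
  exact pow_le_one₀ (rd_chi_nonneg _ _) (rd_chi_le_one _ _)

/-- LEAF G.  **EXIT**   (`ls_pl_norm_sq`, `rt_w1_an_spec`, `rt_w1_energy`; `∫⁻ ‖f‖ₑ^2 = ofReal ∫ ‖f‖^2`; integrability of `χ² ‖G‖²` from `Lp.memLp G`) -/
theorem rt_w1_norm_sq (p : RdWvPar) (T : ℝ) (k β : ℕ) (G : Lp ℂ 2 (volume : Measure RdWvPar.Mo)) :
    ‖p.an T k β G‖ ^ 2 = ∫ q : RdWvPar.Mo, rdChi β (p.H * q.2) ^ 2 * ‖(G : RdWvPar.Mo → ℂ) q‖ ^ 2 := by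
  have h := rt_w1c_an_sq p T k β G
  have e : ∫⁻ q : RdWvPar.Mo, ENNReal.ofReal (rdChi β (p.H * q.2) ^ 2) * ‖(G : RdWvPar.Mo → ℂ) q‖ₑ ^ 2
      = ENNReal.ofReal (∫ q : RdWvPar.Mo, rdChi β (p.H * q.2) ^ 2 * ‖(G : RdWvPar.Mo → ℂ) q‖ ^ 2) := by
    rw [ofReal_integral_eq_lintegral_ofReal (rt_w1_chi_sq_int p β G) (Filter.Eventually.of_forall fun q => by positivity)]
    refine lintegral_congr fun q => ?_
    rw [ENNReal.ofReal_mul (by positivity), ENNReal.ofReal_pow (norm_nonneg _), ofReal_norm]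
  rw [e] at h
  exact (ENNReal.ofReal_eq_ofReal_iff (by positivity) (integral_nonneg fun q => by positivity)).1 h

/-! ## G. plateau classes -/

/-- LEAF H.  `χ_β = 1` exactly on the plateau   (`Real.smoothTransition` is `< 1` on `(-∞, 1)`: `Real.smoothTransition.lt_one_of_lt_one`) -/
theorem rt_w1_chi_eq_one {β : ℕ} {t : ℝ} (h : rdChi β t = 1) : t ∈ rdPlat β := by
  unfold rdChi at h
  have a0 := Real.smoothTransition.nonneg (2 ^ (β + 5) * t - 1)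
  have a1 := Real.smoothTransition.le_one (2 ^ (β + 5) * t - 1)
  have b0 := Real.smoothTransition.nonneg (2 - t / 2 ^ (β + 4))
  have b1 := Real.smoothTransition.le_one (2 - t / 2 ^ (β + 4))
  have hb : (0 : ℝ) < 2 ^ (β + 4) := by positivity
  have ha : 1 ≤ 2 ^ (β + 5) * t - 1 := by
    by_contra hc
    have := Real.smoothTransition.lt_one_of_lt_one (not_le.1 hc)
    nlinarith
  have hb' : 1 ≤ 2 - t / 2 ^ (β + 4) := by
    by_contra hc
    have := Real.smoothTransition.lt_one_of_lt_one (not_le.1 hc)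
    nlinarith
  constructor
  · rw [inv_pow, inv_le_iff_one_le_mul₀ hb]
    rw [show β + 5 = (β + 4) + 1 from rfl, pow_succ] at ha
    linarith
  · have : t / 2 ^ (β + 4) ≤ 1 := by linarith
    rwa [div_le_one hb] at this

/-- LEAF H.  `‖An G‖ = ‖G‖` for one `(T, k)` iff the spectrum lies in the plateau   (`rt_w1_norm_sq`, `ls_pl_norm_sq`: `∫ (1 - χ²) ‖G‖² = 0`, `integral_eq_zero_iff_of_nonneg`, `rd_chi_one`, `rt_w1_chi_eq_one`) -/
theorem rt_w1_pl_spec (p : RdWvPar) (T : ℝ) (k β : ℕ) (G : Lp ℂ 2 (volume : Measure RdWvPar.Mo)) :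
    ‖p.an T k β G‖ = ‖G‖ ↔ p.Spec β G := by
  refine ⟨fun h => ?_, fun h => rt_w1c_an_iso p β G h T k⟩
  have h1 := rt_w1_norm_sq p T k β G
  have h2 := ls_pl_norm_sq G
  rw [h, h2] at h1
  have i1 : Integrable fun q : RdWvPar.Mo => ‖(G : RdWvPar.Mo → ℂ) q‖ ^ 2 := (Lp.memLp G).integrable_norm_pow (by norm_num)
  have i2 := rt_w1_chi_sq_int p β G
  have h3 : ∫ q : RdWvPar.Mo, (‖(G : RdWvPar.Mo → ℂ) q‖ ^ 2 - rdChi β (p.H * q.2) ^ 2 * ‖(G : RdWvPar.Mo → ℂ) q‖ ^ 2) = 0 := by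
    rw [integral_sub i1 i2, h1, sub_self]
  have hnn : ∀ q : RdWvPar.Mo, 0 ≤ ‖(G : RdWvPar.Mo → ℂ) q‖ ^ 2 - rdChi β (p.H * q.2) ^ 2 * ‖(G : RdWvPar.Mo → ℂ) q‖ ^ 2 := by
    intro q
    have a1 : rdChi β (p.H * q.2) ^ 2 ≤ 1 := pow_le_one₀ (rd_chi_nonneg _ _) (rd_chi_le_one _ _)
    have := mul_le_of_le_one_left (by positivity : 0 ≤ ‖(G : RdWvPar.Mo → ℂ) q‖ ^ 2) a1
    linarith
  rw [integral_eq_zero_iff_of_nonneg hnn (i1.sub i2)] at h3
  filter_upwards [h3] with q hq hne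
  apply rt_w1_chi_eq_one
  have hq' : ‖(G : RdWvPar.Mo → ℂ) q‖ ^ 2 - rdChi β (p.H * q.2) ^ 2 * ‖(G : RdWvPar.Mo → ℂ) q‖ ^ 2 = 0 := hq
  have hpos : 0 < ‖(G : RdWvPar.Mo → ℂ) q‖ ^ 2 := by
    have := norm_pos_iff.2 hne
    positivity
  have h4 : rdChi β (p.H * q.2) ^ 2 = 1 := by
    have : (1 - rdChi β (p.H * q.2) ^ 2) * ‖(G : RdWvPar.Mo → ℂ) q‖ ^ 2 = 0 := by linarith
    rcases mul_eq_zero.1 this with h5 | h5
    · linarith
    · exact absurd h5 hpos.ne'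
  have := rd_chi_nonneg β (p.H * q.2)
  nlinarith [rd_chi_le_one β (p.H * q.2)]

open scoped InnerProductSpace in
/-- LEAF I.  **synthesis lands in the support of `χ_β`**.
PLAN: `V = An^* F`, `B = {q | rdChi β (H q.2) = 0}` (measurable), `W = 1_B V ∈ L²` (`MemLp.indicator`, `toLp`).  `‖An W‖² = ∫ χ² 1_B ‖V‖² = 0` (`rt_w1_norm_sq`), so
`∫_B ‖V‖² = ⟪V, W⟫ = ⟪F, An W⟫ = 0` (`ContinuousLinearMap.adjoint_inner_left`, `L2.inner_def`), hence `V = 0` a.e. on `B`;  off `B`: `rd_chi_supp_plat`. -/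
theorem rt_w1_syn_spec (p : RdWvPar) (T : ℝ) (k β : ℕ) (F : Lp ℂ 2 (p.rw k)) :
    p.Spec (β + 1) (ContinuousLinearMap.adjoint (p.an T k β) F) := by
  obtain ⟨V, hV⟩ : ∃ V : Lp ℂ 2 (volume : Measure RdWvPar.Mo), V = ContinuousLinearMap.adjoint (p.an T k β) F := ⟨_, rfl⟩
  rw [← hV]
  obtain ⟨B, hB⟩ : ∃ B : Set RdWvPar.Mo, B = {q | rdChi β (p.H * q.2) = 0} := ⟨_, rfl⟩
  have hBm : MeasurableSet B := by
    rw [hB]
    have hc : Continuous fun q : RdWvPar.Mo => rdChi β (p.H * q.2) := (rd_chi_contDiff β).continuous.comp (by fun_prop)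
    exact (isClosed_eq hc continuous_const).measurableSet
  obtain ⟨W, hW⟩ : ∃ W : Lp ℂ 2 (volume : Measure RdWvPar.Mo), (W : RdWvPar.Mo → ℂ) =ᵐ[volume] B.indicator (V : RdWvPar.Mo → ℂ) :=
    ⟨((Lp.memLp V).indicator hBm).toLp _, MemLp.coeFn_toLp _⟩
  -- the analysis of `W` vanishes
  have h1 : p.an T k β W = 0 := by
    have h2 := rt_w1c_an_sq p T k β W
    have h3 : ∫⁻ q : RdWvPar.Mo, ENNReal.ofReal (rdChi β (p.H * q.2) ^ 2) * ‖(W : RdWvPar.Mo → ℂ) q‖ₑ ^ 2 = 0 := by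
      rw [lintegral_eq_zero_iff' ?_]
      · filter_upwards [hW] with q hq
        by_cases hqB : q ∈ B
        · have : rdChi β (p.H * q.2) = 0 := by rw [hB] at hqB; exact hqB
          simp [this]
        · rw [hq, Set.indicator_of_notMem hqB]
          simp
      · have hm : Measurable fun q : RdWvPar.Mo => ENNReal.ofReal (rdChi β (p.H * q.2) ^ 2) :=
          ENNReal.measurable_ofReal.comp (((rd_chi_contDiff β).continuous.measurable.comp (by fun_prop)).pow_const 2)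
        exact hm.aemeasurable.mul ((Lp.aestronglyMeasurable W).enorm.pow_const 2)
    rw [h3, ENNReal.ofReal_eq_zero] at h2
    have h4 : ‖p.an T k β W‖ ^ 2 = 0 := le_antisymm h2 (by positivity)
    exact norm_eq_zero.1 (pow_eq_zero_iff (by norm_num) |>.1 h4)
  have h5 : ⟪V, W⟫_ℂ = 0 := by
    rw [hV, ContinuousLinearMap.adjoint_inner_left, h1, inner_zero_right]
  have h6 : ⟪W, W⟫_ℂ = ⟪V, W⟫_ℂ := by
    rw [L2.inner_def, L2.inner_def]
    refine integral_congr_ae ?_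
    filter_upwards [hW] with q hq
    by_cases hqB : q ∈ B
    · rw [hq, Set.indicator_of_mem hqB]
    · rw [hq, Set.indicator_of_notMem hqB, inner_zero_right, inner_zero_right]
  have h7 : W = 0 := by
    rw [h5] at h6
    exact inner_self_eq_zero.1 h6
  rw [h7] at hW
  filter_upwards [hW, Lp.coeFn_zero ℂ 2 (volume : Measure RdWvPar.Mo)] with q hq hz hne
  apply rd_chi_supp_plat
  intro hχ
  have hqB : q ∈ B := by rw [hB]; exact hχ
  rw [Set.indicator_of_mem hqB, hz] at hq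
  exact hne hq.symm

/-- LEAF J.  (`Lp.ext`, `rt_w1_an_spec` twice; the rows agree POINTWISE: `integral_congr_ae`, a.e. `G q = 0` or `χ_β = χ_β' = 1`: `rd_chi_one`, `rd_plat_mono`) -/
theorem rt_w1_same (p : RdWvPar) (T : ℝ) (k β β' : ℕ) (G : Lp ℂ 2 (volume : Measure RdWvPar.Mo)) (hG : p.Spec β G) (hb : β ≤ β') :
    p.an T k β' G = p.an T k β G := by
  have hrow : p.row T k β' G = p.row T k β G := by
    funext x
    unfold RdWvPar.row
    refine integral_congr_ae ?_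
    filter_upwards [hG] with q hq
    by_cases h0 : (G : RdWvPar.Mo → ℂ) q = 0
    · rw [h0, mul_zero, mul_zero]
    · have h1 := hq h0
      unfold RdWvPar.pk
      rw [rd_chi_one h1, rd_chi_one (rd_plat_mono hb h1)]
  refine Lp.ext ?_
  have h1 := rt_w1c_an p T k β' G
  have h2 := rt_w1c_an p T k β G
  rw [hrow] at h1
  exact h1.trans h2.symm

/-- LEAF K.  (finitely many closed conditions: `measurableSet_le`, all coordinates are continuous / measurable functions of `x`; unfold `RdTst.rows, RtTest.set, box, x, z, V, Fv, Gv, RtPoly.F, RtPoly.G`) -/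
theorem rt_w1_cell_meas (Q : RdTst) (T : ℝ) (k : ℕ) : MeasurableSet {x : RdWvPar.Ph | RdWvPar.co T x ∈ Q.rows k} := by
  obtain ⟨τ, hτ⟩ : ∃ τ : RtTest, τ = Q.toT k := ⟨_, rfl⟩
  have cx : Continuous fun p : RdWvPar.Ph => τ.x (RdWvPar.co T p) := by
    unfold RtTest.x RdWvPar.co
    fun_prop
  have cz : Continuous fun p : RdWvPar.Ph => τ.z (RdWvPar.co T p) := by
    unfold RtTest.z RdWvPar.co rtIp
    fun_prop
  have cV : Continuous fun p : RdWvPar.Ph => τ.V (RdWvPar.co T p) := by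
    unfold RtTest.V RdWvPar.co
    fun_prop
  have cF : Continuous fun p : RdWvPar.Ph => τ.Fv (RdWvPar.co T p) := by
    unfold RtTest.Fv RtPoly.F rtIp rtSq
    fun_prop
  have cG : Continuous fun p : RdWvPar.Ph => τ.Gv (RdWvPar.co T p) := by
    unfold RtTest.Gv RtPoly.G rtIp rtSq
    fun_prop
  have cs : Continuous rtSq := by
    unfold rtSq
    fun_prop
  have e : {x : RdWvPar.Ph | RdWvPar.co T x ∈ Q.rows k} = {p | rtSq (τ.x (RdWvPar.co T p)) ≤ 1 ^ 2} ∩ {p | |τ.z (RdWvPar.co T p)| ≤ 1} ∩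
      {p | rtSq (τ.V (RdWvPar.co T p)) ≤ 1 ^ 2} ∩ {p | |τ.Fv (RdWvPar.co T p)| ≤ 1 * τ.f} ∩ {p | |τ.Gv (RdWvPar.co T p)| ≤ 1 * τ.f} := by
    ext p
    simp only [RdTst.rows, ← hτ, RtTest.set, RtTest.box, Set.mem_ofPred_eq, Set.mem_inter_iff]
    tauto
  rw [e]
  exact (((((isClosed_le (cs.comp cx) continuous_const).inter (isClosed_le cz.abs continuous_const)).inter
    (isClosed_le (cs.comp cV) continuous_const)).inter (isClosed_le cF.abs continuous_const)).inter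
    (isClosed_le cG.abs continuous_const)).measurableSet

/-! ## exits -/

theorem rt_w1_contr (p : RdWvPar) (T : ℝ) (k β : ℕ) (G : Lp ℂ 2 (volume : Measure RdWvPar.Mo)) : ‖p.an T k β G‖ ≤ ‖G‖ := by
  have h1 := rt_w1_norm_sq p T k β G
  have h2 := ls_pl_norm_sq G
  have h3 : ∫ q : RdWvPar.Mo, rdChi β (p.H * q.2) ^ 2 * ‖(G : RdWvPar.Mo → ℂ) q‖ ^ 2 ≤ ∫ q : RdWvPar.Mo, ‖(G : RdWvPar.Mo → ℂ) q‖ ^ 2 := by
    refine integral_mono_of_nonneg (Filter.Eventually.of_forall fun q => by positivity) ((Lp.memLp G).integrable_norm_pow (by norm_num))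
      (Filter.Eventually.of_forall fun q => ?_)
    have a1 : rdChi β (p.H * q.2) ^ 2 ≤ 1 := pow_le_one₀ (rd_chi_nonneg _ _) (rd_chi_le_one _ _)
    exact mul_le_of_le_one_left (by positivity) a1
  have h4 : ‖p.an T k β G‖ ^ 2 ≤ ‖G‖ ^ 2 := by rw [h1, h2]; exact h3
  exact le_of_sq_le_sq h4 (norm_nonneg _)

theorem rt_w1_iso (p : RdWvPar) (T : ℝ) (k β : ℕ) (G : Lp ℂ 2 (volume : Measure RdWvPar.Mo)) (hG : p.Spec β G) : ‖p.an T k β G‖ = ‖G‖ :=
  (rt_w1_pl_spec p T k β G).2 hG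

/-- the plateau class of the system is the spectral class -/
theorem rt_w1_pl (p : RdWvPar) (η : ℝ) (β : ℕ) (G : Lp ℂ 2 (volume : Measure RdWvPar.Mo)) : G ∈ (p.sys η).Pl β ↔ p.Spec β G :=
  ⟨fun h => (rt_w1_pl_spec p 0 0 β G).1 (h 0 0), fun h T k => rt_w1_iso p T k β G h⟩

theorem rt_w1_spec_mono (p : RdWvPar) {β β' : ℕ} (hb : β ≤ β') {G : Lp ℂ 2 (volume : Measure RdWvPar.Mo)} (hG : p.Spec β G) : p.Spec β' G := by
  filter_upwards [hG] with z hz h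
  exact rd_plat_mono hb (hz h)

/-- **EXIT OF THE UNIT** -/
theorem rt_w1_tight (p : RdWvPar) (η : ℝ) : (p.sys η).Tight where
  contr := fun T k b v => rt_w1_contr p T k b v
  mono := fun b v hv => (rt_w1_pl p η (b + 1) v).2 (rt_w1_spec_mono p (Nat.le_succ b) ((rt_w1_pl p η b v).1 hv))
  syn := fun T k b F => (rt_w1_pl p η (b + 1) _).2 (rt_w1_syn_spec p T k b F)
  same := fun T k b b' v hv hb => rt_w1_same p T k b b' v ((rt_w1_pl p η b v).1 hv) hb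
  sfin := fun k => by
    show SigmaFinite (ENNReal.ofReal (rdLen k / p.H) • (volume : Measure RdWvPar.Ph))
    exact (inferInstance : SigmaFinite ((Real.toNNReal (rdLen k / p.H)) • (volume : Measure RdWvPar.Ph)))
  cellM := fun Q T k => rt_w1_cell_meas Q T k
  wt_pos := fun Q k h => by
    have h1 := h.1.r_pos
    have h2 := h.1.f_pos
    show 0 < Q.r ^ 4 * Q.f ^ (1 - η)
    exact mul_pos (pow_pos h1 4) (Real.rpow_pos_of_pos h2 _)
  ok_mono := fun Q k k' hk h => by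
    refine ⟨⟨rdLen_pos k, h.1.r_pos, h.1.f_pos, h.1.f_le, h.1.disc, h.1.bd⟩, le_trans ?_ h.2⟩
    unfold rdD
    refine Real.sqrt_le_sqrt (div_le_div_of_nonneg_left p.H_pos.le (rdLen_pos k') ?_)
    unfold rdLen
    exact pow_le_pow_of_le_one (by norm_num) (by norm_num) hk

end Claimed.Agent.R256
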