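import Mathlib

/-!
# Row 256, folder Rt, file Cap: allocation from cell capacities and the TWO-ANALYSES lemma      (helper76)

Paper free, Mathlib only.   Sources: 07 l.828-853 (Lemma rt:capacity), l.786-826, l.1085-1100, l.1168-1183; reports 877, 889 (unit T10).

* `rt_cap_alloc` : Lemma rt:capacity.  Target cells `i` with energies `x i`, source cells `j` with energies `y j`, `x i ≤ A ∑_{j ∈ Nb i} y j + ε i`, every `j` lies in at most `D` sets `Nb i`.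
  Assignments `m l i` (`∑_l m l i ≤ x i`) are reduced to `m' l i` (removed mass `≤ ε i` in the cell `i`) and transferred: `a l i j ≥ 0`, carried by `j ∈ Nb i`, `∑_{l,i} a l i j ≤ y j`, `∑_j a l i j = m' l i / (A D)` EXACTLY.
* `rt_cap_label` : the same aggregated into the labels: `∑_i m l i ≤ A D ∑_j a l j + e l`, `∑_l e l ≤ ∑_i ε i`; no loss from the number of cells.
* `rt_cap_two` : TWO ANALYSES.  `u = E g`, `v = I g` are two analysed forms of one state, `C` a contraction with `‖C v - u‖ ≤ η`; cell restrictions `P i` (contractions), `Q j` (orthogonal family);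
  locality `‖P i (C (v - ∑_{j ∈ Nb i} Q j v))‖ ≤ τ`.  Then `‖P i u‖² ≤ 2 ∑_{j ∈ Nb i} ‖Q j v‖² + 2 (τ + η)²`: the hypothesis of `rt_cap_alloc` with `A = 2`.
-/

set_option autoImplicit false

namespace Claimed.Agent.R256

open Finset
open scoped BigOperators

/-- the reduction factor of a target cell: total assigned mass `S`, neighbouring capacity `Y`, constant `A` -/
noncomputable def rtCapTh (S Y A : ℝ) : ℝ := if S ≤ A * Y then 1 else A * Y / S

theorem rtCapTh_eqns_cite (S Y A : ℝ) : rtCapTh S Y A = if S ≤ A * Y then 1 else A * Y / S := rfl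

theorem rt_cap_th_nonneg {S Y A : ℝ} (hS : 0 ≤ S) (hY : 0 ≤ Y) (hA : 0 ≤ A) : 0 ≤ rtCapTh S Y A := by
  unfold rtCapTh
  split_ifs
  · exact zero_le_one
  · exact div_nonneg (mul_nonneg hA hY) hS

theorem rt_cap_th_le_one {S Y A : ℝ} (hY : 0 ≤ Y) (hA : 0 ≤ A) : rtCapTh S Y A ≤ 1 := by
  unfold rtCapTh
  split_ifs with h
  · exact le_refl _
  · have h1 : A * Y < S := not_le.1 h
    have h2 : 0 < S := lt_of_le_of_lt (mul_nonneg hA hY) h1
    rw [div_le_one h2]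
    exact h1.le

theorem rt_cap_th_mul_le {S Y A : ℝ} (hY : 0 ≤ Y) (hA : 0 ≤ A) : rtCapTh S Y A * S ≤ A * Y := by
  unfold rtCapTh
  split_ifs with h
  · rw [one_mul]
    exact h
  · have h1 : A * Y < S := not_le.1 h
    have h2 : 0 < S := lt_of_le_of_lt (mul_nonneg hA hY) h1
    rw [div_mul_cancel₀ _ h2.ne']

theorem rt_cap_th_removed {S Y A ε : ℝ} (hY : 0 ≤ Y) (hA : 0 ≤ A) (hε : 0 ≤ ε) (h : S ≤ A * Y + ε) :
    S - rtCapTh S Y A * S ≤ ε := by
  unfold rtCapTh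
  split_ifs with h0
  · rw [one_mul, sub_self]
    exact hε
  · have h1 : A * Y < S := not_le.1 h0
    have h2 : 0 < S := lt_of_le_of_lt (mul_nonneg hA hY) h1
    rw [div_mul_cancel₀ _ h2.ne']
    linarith

section alloc

variable {ι κ Λ : Type*} [Fintype ι] [Fintype κ] [Fintype Λ] [DecidableEq κ]

/-- **Lemma rt:capacity** (allocation from cell capacities). -/
theorem rt_cap_alloc (x ε : ι → ℝ) (y : κ → ℝ) (Nb : ι → Finset κ) (A D : ℝ) (hA : 1 ≤ A) (hD : 1 ≤ D)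
    (hy : ∀ j, 0 ≤ y j) (hε : ∀ i, 0 ≤ ε i) (hx : ∀ i, x i ≤ A * ∑ j ∈ Nb i, y j + ε i)
    (hdeg : ∀ j, ((univ.filter fun i => j ∈ Nb i).card : ℝ) ≤ D)
    (m : Λ → ι → ℝ) (hm0 : ∀ l i, 0 ≤ m l i) (hm : ∀ i, ∑ l, m l i ≤ x i) :
    ∃ (m' : Λ → ι → ℝ) (a : Λ → ι → κ → ℝ),
      (∀ l i, 0 ≤ m' l i ∧ m' l i ≤ m l i) ∧
      (∀ i, ∑ l, (m l i - m' l i) ≤ ε i) ∧
      (∀ l i j, 0 ≤ a l i j) ∧
      (∀ l i j, j ∉ Nb i → a l i j = 0) ∧
      (∀ j, ∑ l, ∑ i, a l i j ≤ y j) ∧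
      (∀ l i, ∑ j, a l i j = m' l i / (A * D)) := by
  classical
  have hA0 : 0 ≤ A := zero_le_one.trans hA
  have hApos : 0 < A := zero_lt_one.trans_le hA
  have hDpos : 0 < D := zero_lt_one.trans_le hD
  set Y : ι → ℝ := fun i => ∑ j ∈ Nb i, y j with hYdef
  set S : ι → ℝ := fun i => ∑ l, m l i with hSdef
  have hY0 : ∀ i, 0 ≤ Y i := fun i => sum_nonneg fun j _ => hy j
  have hS0 : ∀ i, 0 ≤ S i := fun i => sum_nonneg fun l _ => hm0 l i
  set θ : ι → ℝ := fun i => rtCapTh (S i) (Y i) A with hθdef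
  have hθ0 : ∀ i, 0 ≤ θ i := fun i => rt_cap_th_nonneg (hS0 i) (hY0 i) hA0
  have hθ1 : ∀ i, θ i ≤ 1 := fun i => rt_cap_th_le_one (hY0 i) hA0
  have hθS : ∀ i, θ i * S i ≤ A * Y i := fun i => rt_cap_th_mul_le (hY0 i) hA0
  have hm'0 : ∀ l i, 0 ≤ θ i * m l i := fun l i => mul_nonneg (hθ0 i) (hm0 l i)
  have hsum' : ∀ i, ∑ l, θ i * m l i = θ i * S i := fun i => (mul_sum _ _ _).symm
  refine ⟨fun l i => θ i * m l i, fun l i j => if j ∈ Nb i then θ i * m l i * y j / (A * D * Y i) else 0,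
    fun l i => ⟨hm'0 l i, ?_⟩, fun i => ?_, fun l i j => ?_, fun l i j hj => if_neg hj, fun j => ?_, fun l i => ?_⟩
  · exact mul_le_of_le_one_left (hm0 l i) (hθ1 i)
  · rw [sum_sub_distrib, hsum']
    exact rt_cap_th_removed (hY0 i) hA0 (hε i) ((hm i).trans (hx i))
  · show 0 ≤ (if j ∈ Nb i then θ i * m l i * y j / (A * D * Y i) else 0)
    split_ifs
    · exact div_nonneg (mul_nonneg (hm'0 l i) (hy j)) (mul_nonneg (mul_nonneg hA0 hDpos.le) (hY0 i))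
    · exact le_refl _
  · show ∑ l, ∑ i, (if j ∈ Nb i then θ i * m l i * y j / (A * D * Y i) else 0) ≤ y j
    rw [sum_comm]
    have h1 : ∀ i, ∑ l, (if j ∈ Nb i then θ i * m l i * y j / (A * D * Y i) else 0) ≤
        if j ∈ Nb i then y j / D else 0 := by
      intro i
      by_cases hj : j ∈ Nb i
      · simp only [if_pos hj]
        rw [← sum_div, ← sum_mul, hsum']
        rcases (hY0 i).eq_or_lt with h0 | h0
        · rw [← h0, mul_zero, div_zero]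
          exact div_nonneg (hy j) hDpos.le
        · rw [div_le_div_iff₀ (mul_pos (mul_pos hApos hDpos) h0) hDpos]
          calc θ i * S i * y j * D ≤ A * Y i * y j * D :=
                mul_le_mul_of_nonneg_right (mul_le_mul_of_nonneg_right (hθS i) (hy j)) hDpos.le
            _ = y j * (A * D * Y i) := by ring
      · simp only [if_neg hj, sum_const_zero, le_refl]
    calc ∑ i, ∑ l, (if j ∈ Nb i then θ i * m l i * y j / (A * D * Y i) else 0)
        ≤ ∑ i, (if j ∈ Nb i then y j / D else 0) := sum_le_sum fun i _ => h1 i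
      _ = ((univ.filter fun i => j ∈ Nb i).card : ℝ) * (y j / D) := by
          rw [← sum_filter, sum_const, nsmul_eq_mul]
      _ ≤ D * (y j / D) := mul_le_mul_of_nonneg_right (hdeg j) (div_nonneg (hy j) hDpos.le)
      _ = y j := mul_div_cancel₀ _ hDpos.ne'
  · show ∑ j, (if j ∈ Nb i then θ i * m l i * y j / (A * D * Y i) else 0) = θ i * m l i / (A * D)
    rw [← sum_filter, filter_mem_eq_inter, univ_inter, ← sum_div, ← mul_sum]
    show θ i * m l i * Y i / (A * D * Y i) = _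
    rcases (hY0 i).eq_or_lt with h0 | h0
    · have h2 : θ i * m l i ≤ 0 := by
        have h3 : θ i * m l i ≤ ∑ l, θ i * m l i := single_le_sum (fun l _ => hm'0 l i) (mem_univ l)
        have h4 := hθS i
        rw [← h0, mul_zero] at h4
        rw [hsum'] at h3
        exact h3.trans h4
      have h5 : θ i * m l i = 0 := le_antisymm h2 (hm'0 l i)
      rw [h5, zero_mul, zero_div, zero_div]
    · rw [mul_div_mul_right _ _ h0.ne']

/-- **Lemma rt:capacity**, aggregated into the labels ("contributions from different cells may be aggregated back into the same label without an additional factor"). -/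
theorem rt_cap_label (x ε : ι → ℝ) (y : κ → ℝ) (Nb : ι → Finset κ) (A D : ℝ) (hA : 1 ≤ A) (hD : 1 ≤ D)
    (hy : ∀ j, 0 ≤ y j) (hε : ∀ i, 0 ≤ ε i) (hx : ∀ i, x i ≤ A * ∑ j ∈ Nb i, y j + ε i)
    (hdeg : ∀ j, ((univ.filter fun i => j ∈ Nb i).card : ℝ) ≤ D)
    (m : Λ → ι → ℝ) (hm0 : ∀ l i, 0 ≤ m l i) (hm : ∀ i, ∑ l, m l i ≤ x i) :
    ∃ (a : Λ → κ → ℝ) (e : Λ → ℝ),
      (∀ l j, 0 ≤ a l j) ∧ (∀ j, ∑ l, a l j ≤ y j) ∧ (∀ l, 0 ≤ e l) ∧ ∑ l, e l ≤ ∑ i, ε i ∧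
      (∀ l, ∑ i, m l i = A * D * ∑ j, a l j + e l) ∧
      (∀ l j, a l j ≠ 0 → ∃ i, m l i ≠ 0 ∧ j ∈ Nb i) := by
  classical
  obtain ⟨m', a, h1, h2, h3, h4, h5, h6⟩ := rt_cap_alloc x ε y Nb A D hA hD hy hε hx hdeg m hm0 hm
  have hAD : A * D ≠ 0 := (mul_pos (zero_lt_one.trans_le hA) (zero_lt_one.trans_le hD)).ne'
  refine ⟨fun l j => ∑ i, a l i j, fun l => ∑ i, (m l i - m' l i), fun l j => sum_nonneg fun i _ => h3 l i j, h5,
    fun l => sum_nonneg fun i _ => sub_nonneg.2 (h1 l i).2, ?_, fun l => ?_, fun l j hne => ?_⟩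
  · rw [sum_comm]
    exact sum_le_sum fun i _ => h2 i
  · show ∑ i, m l i = A * D * ∑ j, ∑ i, a l i j + ∑ i, (m l i - m' l i)
    rw [sum_comm, sum_congr rfl fun i _ => h6 l i, ← sum_div, mul_div_cancel₀ _ hAD, sum_sub_distrib]
    ring
  · obtain ⟨i, -, hi⟩ := exists_ne_zero_of_sum_ne_zero hne
    refine ⟨i, fun h0 => ?_, by_contra fun hj => hi (h4 l i j hj)⟩
    have h7 : m' l i = 0 := le_antisymm (h0 ▸ (h1 l i).2) (h1 l i).1
    have h8 : ∑ j, a l i j = 0 := by rw [h6, h7, zero_div]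
    exact hi ((sum_eq_zero_iff_of_nonneg fun j _ => h3 l i j).1 h8 j (mem_univ j))

end alloc

section two

variable {𝕜 : Type*} [RCLike 𝕜] {K₁ K₂ : Type*} [NormedAddCommGroup K₁] [NormedSpace 𝕜 K₁]
  [NormedAddCommGroup K₂] [NormedSpace 𝕜 K₂] {κ : Type*}

/-- **TWO ANALYSES**, one target cell.  `u`, `v` = the two analysed forms of one state; `C` = the cross operator (a contraction, `C v ≈ u`); `P` = restriction to the target cell;
`Q j` = restrictions to the source cells (only the Pythagoras identity on the neighbours `Nb` is used); `τ` = the off-diagonal bound applied to `v`. -/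
theorem rt_cap_two (C : K₂ →L[𝕜] K₁) (hC : ‖C‖ ≤ 1) (P : K₁ →L[𝕜] K₁) (hP : ‖P‖ ≤ 1) (Q : κ → K₂ →L[𝕜] K₂)
    (Nb : Finset κ) (u : K₁) (v : K₂) (η τ : ℝ) (hu : ‖C v - u‖ ≤ η)
    (hpyth : ‖∑ j ∈ Nb, Q j v‖ ^ 2 = ∑ j ∈ Nb, ‖Q j v‖ ^ 2)
    (hloc : ‖P (C (v - ∑ j ∈ Nb, Q j v))‖ ≤ τ) :
    ‖P u‖ ^ 2 ≤ 2 * ∑ j ∈ Nb, ‖Q j v‖ ^ 2 + 2 * (τ + η) ^ 2 := by
  have hcon : ∀ w : K₁, ‖P w‖ ≤ ‖w‖ := fun w =>
    (P.le_opNorm w).trans (mul_le_of_le_one_left (norm_nonneg _) hP)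
  have hconC : ∀ w : K₂, ‖C w‖ ≤ ‖w‖ := fun w =>
    (C.le_opNorm w).trans (mul_le_of_le_one_left (norm_nonneg _) hC)
  have hdec : P u = P (C (∑ j ∈ Nb, Q j v)) + P (C (v - ∑ j ∈ Nb, Q j v)) - P (C v - u) := by
    simp only [map_sub]
    abel
  have h1 : ‖P u‖ ≤ ‖∑ j ∈ Nb, Q j v‖ + (τ + η) := by
    rw [hdec]
    calc ‖P (C (∑ j ∈ Nb, Q j v)) + P (C (v - ∑ j ∈ Nb, Q j v)) - P (C v - u)‖
        ≤ ‖P (C (∑ j ∈ Nb, Q j v))‖ + ‖P (C (v - ∑ j ∈ Nb, Q j v))‖ + ‖P (C v - u)‖ :=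
          (norm_sub_le _ _).trans (add_le_add_left (norm_add_le _ _) _)
      _ ≤ ‖∑ j ∈ Nb, Q j v‖ + τ + η :=
          add_le_add (add_le_add ((hcon _).trans (hconC _)) hloc) ((hcon _).trans hu)
      _ = _ := by ring
  have h2 : ‖P u‖ ^ 2 ≤ (‖∑ j ∈ Nb, Q j v‖ + (τ + η)) ^ 2 := pow_le_pow_left₀ (norm_nonneg _) h1 2
  rw [← hpyth]
  nlinarith [sq_nonneg (‖∑ j ∈ Nb, Q j v‖ - (τ + η))]

end two

end Claimed.Agent.R256
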