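import Claimed.Agent.R256.Rt.ChartContract
import Claimed.Agent.R256.Rt.Geo
import Claimed.Agent.R256.Cyl.Alg

/-!
# Row 256, folder Rt, file Ci: G4 = COVERING FORM OF (CI), Lemma rt:thin-overlap (07 l.542-583)      (architect + prover helper190; chief Rt: helper216; prefix `rt_ci_`)      SORRY-FREE

Model free, no measure.   FINAL EXITS at the end of the file: **`rt_CI`**, `rt_CI_not`, `rt_CI_norm` (no hypothesis).   The intermediate forms take `hI : RtCiI η` = the covering (I) of the cylinder geometry, 02 l.525-585, WITH the clause `ρ ≳ 1/M` of 07 l.571 (`rt_ci_I` = `cy_I_cover` of `Cyl/Alg.lean`, helper110):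
* **`rt_ci_frame`** / `rt_ci_frame_not` : two `P`-enlarged tests `τ, τ'` with the same frame `(l, r, f, A_*, b_*, y_*)`, `Adm P`, `|n' ∓ n| ≥ K f`  ⇒  `RtCover (τ.set P ∩ τ'.set P) τ.l τ.unc η (P^C τ.w η / K)`.      NO logarithm (the shells of (I) sum geometrically, `η > 0`), `C = C(η)` only.
* `rt_ci_norm` : the same in normalised coordinates, `rtThin n P φ = {|A|,|b|,|y| ≤ P, |F(0)|,|L_A F| ≤ φ}` (= `S_λ`, 07 l.481-484).
* `rt_ci_unit` : `RtCover (rtThin n P (P f)) 1 f η (P^C f^(1-η))` (first shell alone);   `rt_ci_cell` : a parabolic box of width `a ∈ [f,1]` around a witness, cut by the shell, costs `M^C a^(3+η) f^(1-η)`.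
* TOOLS of general use: `rt_ci_sum` (finite sums of coverings), **`rt_ci_rescale`** (a covering in the normalised coordinates `τ.nrm` of a frame pulls back: length `τ.l`, uncertainty `× τ.r`, weight `× τ.r⁴`), `RtTest.pull`, `rt_ci_pull_set`,
  `RtPB` (polynomially bounded functions of `P ≥ 2`: `rt_pb_const`, `rt_pb_pow`, `RtPB.mul`, `.rpow`, `.pow`) to absorb constants into `P^C`.
PROOF (the paper's).   `K ≤ P^30`: unit covering.   `K > P^30`: then `f < 2 P^-29`; `rt_chart_main` gives `≤ P^105` flattening patches.   On a patch (`rt_ci_patch`): image rows `q`, `|q.b₂|, |q.A₂| ≤ 24 P f` (`rt_chart_thin`), second polynomial `m = pol n'`,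
`rt_ci_flat` drops the small coordinates, `rt_ci_dich` + `pol_bd_inv` give `M = max(1,|α₁|,|β|,|k|)/f ≥ K / P^C` (`rt_ci_patch_M`), (I) gives Heisenberg cells of widths `ρ_i ∈ [1/(CM), 1]`, `Σ ρ_i^(3+η) ≤ C Λ²/M`;
two rows in one cell lie in one box (`rt_ci_heis`), boxes pull back (`rt_chart_box_inv`), `rt_ci_cell` with `a = max ρ_i f` (`f ≤ P^C ρ_i`).
-/

set_option autoImplicit false

namespace Claimed.Agent.R256

open scoped BigOperators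

/-- the bounded thin set `S_λ` of a hyperquadric (07 l.481-484) -/
def rtThin (n : RtPoly) (P φ : ℝ) : Set RtRow :=
  {p | rtSq p.A ≤ P ^ 2 ∧ rtSq p.b ≤ P ^ 2 ∧ |p.y| ≤ P ∧ |n.F 0 p.b p.y| ≤ φ ∧ |n.G 0 p.b p.y p.A| ≤ φ}

/-- the unit frame carrying the polynomial `n` -/
def rtUnit (n : RtPoly) (f : ℝ) : RtTest := ⟨1, 1, f, 0, 0, 0, n⟩

/-- the covering (I) of the cylinder geometry (02 l.525-585), with the lower bound `ρ ≳ 1/M` for the widths of the cells (07 l.571) -/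
def RtCiI (η : ℝ) : Prop :=
  ∃ C : ℝ, 0 < C ∧ ∀ (Λ a b k c' d' : ℝ), 1 ≤ Λ →
    ∃ (m : ℕ) (cx cb cy ρ : Fin m → ℝ), (∀ i, 1 / (C * max 1 (max |a| (max |b| |k|))) ≤ ρ i ∧ ρ i ≤ 1) ∧
      (∀ X B Y : ℝ, |X| ≤ 1 → |B| ≤ 1 → |Y| ≤ 1 → |a * X + b * X ^ 2 + k * (Y - 2 * X * B) + c'| ≤ Λ →
        |a * B + b * Y - k * B ^ 2 + d'| ≤ Λ →
        ∃ i, |X - cx i| ≤ ρ i ∧ |B - cb i| ≤ ρ i ∧ |Y - cy i - 2 * cx i * (B - cb i)| ≤ ρ i ^ 2) ∧
      ∑ i, ρ i ^ (3 + η) ≤ C * Λ ^ 2 / max 1 (max |a| (max |b| |k|))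

theorem rt_ci_eqns_cite : True := by
  have := @rtThin.eq_1
  have := @rtUnit.eq_1
  have := @RtCiI.eq_1
  trivial

/-! ## 0. the unit frame -/

theorem rt_ci_unit_x (n : RtPoly) (f : ℝ) (p : RtRow) : (rtUnit n f).x p = p.b := by
  ext <;> simp [rtUnit, RtTest.x]

theorem rt_ci_unit_z (n : RtPoly) (f : ℝ) (p : RtRow) : (rtUnit n f).z p = p.y := by
  simp [rtUnit, RtTest.z, rtIp]

theorem rt_ci_unit_V (n : RtPoly) (f : ℝ) (p : RtRow) : (rtUnit n f).V p = p.A := by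
  ext <;> simp [rtUnit, RtTest.V]

theorem rt_ci_unit_Fv (n : RtPoly) (f : ℝ) (p : RtRow) : (rtUnit n f).Fv p = n.F 0 p.b p.y := by
  rw [RtTest.Fv, rt_ci_unit_x, rt_ci_unit_z]; rfl

theorem rt_ci_unit_Gv (n : RtPoly) (f : ℝ) (p : RtRow) : (rtUnit n f).Gv p = n.G 0 p.b p.y p.A := by
  rw [RtTest.Gv, rt_ci_unit_x, rt_ci_unit_z, rt_ci_unit_V]; rfl

theorem rt_ci_bd_mono {n : RtPoly} {M M' : ℝ} (h0 : 0 ≤ M) (h : M ≤ M') (hn : n.Bd M) : n.Bd M' :=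
  ⟨hn.1.trans h, hn.2.1.trans h, hn.2.2.1.trans (pow_le_pow_left₀ h0 h 2), hn.2.2.2.1.trans h, hn.2.2.2.2.trans h⟩

theorem rt_ci_unit_set (n : RtPoly) (P f : ℝ) : (rtUnit n f).set P = rtThin n P (P * f) := by
  ext p
  simp only [RtTest.set, RtTest.box, rtThin, Set.mem_ofPred_eq, rt_ci_unit_x, rt_ci_unit_z, rt_ci_unit_V, rt_ci_unit_Fv, rt_ci_unit_Gv]
  have : (rtUnit n f).f = f := rfl
  rw [this]
  tauto

/-- **unit covering** (07 l.572: `K ≤ δ^-C`) -/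
theorem rt_ci_unit (η : ℝ) (h0 : 0 < η) (h1 : η < 1) :
    ∃ C : ℝ, 0 < C ∧ ∀ (P f : ℝ) (n : RtPoly), 2 ≤ P → 0 < f → f ≤ 1 → n.disc = 1 → n.Bd P →
      RtCover (rtThin n P (P * f)) 1 f η (P ^ C * f ^ (1 - η)) := by
  obtain ⟨C, hC, h⟩ := rt_G1 η h0 h1
  refine ⟨C, hC, fun P f n hP hf0 hf1 hd hn => ?_⟩
  have hadm : (rtUnit n f).Adm P :=
    ⟨one_pos, one_pos, hf0, hf1, hd, rt_ci_bd_mono (by linarith) (by linarith) hn⟩
  have := h P (rtUnit n f) hP hadm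
  rw [rt_ci_unit_set] at this
  have e1 : (rtUnit n f).l = 1 := rfl
  have e2 : (rtUnit n f).unc = f := by simp [RtTest.unc, rtUnit]
  have e3 : (rtUnit n f).w η = f ^ (1 - η) := by simp [RtTest.w, rtUnit]
  rwa [e1, e2, e3] at this

/-! ## 1. sums of coverings -/

theorem rt_ci_sum (l u η : ℝ) : ∀ (m : ℕ) (S : Fin m → Set RtRow) (W : Fin m → ℝ), (∀ i, RtCover (S i) l u η (W i)) →
    RtCover (⋃ i, S i) l u η (∑ i, W i) := by
  intro m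
  induction m with
  | zero =>
    intro S W _
    have : (⋃ i, S i) = ∅ := by simp
    rw [this]
    simpa using RtCover.empty l u η
  | succ m ih =>
    intro S W h
    have h1 := (h 0).union (ih (fun i => S i.succ) (fun i => W i.succ) fun i => h i.succ)
    rw [Fin.sum_univ_succ]
    refine h1.mono ?_ le_rfl le_rfl
    intro p hp
    obtain ⟨i, hi⟩ := Set.mem_iUnion.1 hp
    refine Fin.cases (fun h0 => Or.inl h0) (fun j hj => Or.inr (Set.mem_iUnion.2 ⟨j, hj⟩)) i hi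

theorem rt_ci_bx_mono {w : RtRow} {R R' M M' : ℝ} (hR : 0 ≤ R) (hRR : R ≤ R') (hM : 0 ≤ M) (hMM : M ≤ M') : rtBx w R M ⊆ rtBx w R' M' := by
  rintro p ⟨h1, h2, h3⟩
  have e1 : M * R ≤ M' * R' := mul_le_mul hMM hRR hR (hM.trans hMM)
  have e2 : (M * R) ^ 2 ≤ (M' * R') ^ 2 := pow_le_pow_left₀ (by positivity) e1 2
  have e3 : M * R ^ 2 ≤ M' * R' ^ 2 := mul_le_mul hMM (pow_le_pow_left₀ hR hRR 2) (by positivity) (hM.trans hMM)
  exact ⟨h1.trans e2, h2.trans e3, h3.trans e2⟩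


/-! ## 2. one cell: a parabolic box around a witness, cut by the first shell (07 l.575-578) -/

theorem rt_ci_w_eq {a f η : ℝ} (ha : 0 < a) (hf : 0 < f) : (a * 1) ^ 4 * (f / a) ^ (1 - η) = a ^ (3 + η) * f ^ (1 - η) := by
  rw [mul_one, Real.div_rpow hf.le ha.le, ← Real.rpow_natCast a 4]
  have h1 : a ^ (((4 : ℕ) : ℝ)) = a ^ (3 + η) * a ^ (1 - η) := by
    rw [← Real.rpow_add ha]
    congr 1
    push_cast
    ring
  rw [h1]
  have h2 : a ^ (1 - η) ≠ 0 := (Real.rpow_pos_of_pos ha _).ne'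
  field_simp

/-- the box `rtBx w a M` is the `M`-enlarged round box of the recentred test -/
theorem rt_ci_cell_box (n : RtPoly) (f f' : ℝ) (w p : RtRow) {a M : ℝ} (ha : 0 < a) (hp : p ∈ rtBx w a M) :
    p ∈ ((rtUnit n f).g1re w a f').box M := by
  obtain ⟨h1, h2, h3⟩ := hp
  have hsq : ∀ u : ℝ × ℝ, rtSq u ≤ (M * a) ^ 2 → rtSq (a⁻¹ • u) ≤ M ^ 2 := by
    intro u hu
    have : rtSq (a⁻¹ • u) = rtSq u / a ^ 2 := by
      simp only [rtSq, Prod.smul_fst, Prod.smul_snd, smul_eq_mul]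
      field_simp
    rw [this, div_le_iff₀ (by positivity)]
    calc rtSq u ≤ (M * a) ^ 2 := hu
      _ = M ^ 2 * a ^ 2 := by ring
  refine ⟨?_, ?_, ?_⟩
  · rw [RtTest.g1re, rt_g1_sub_x, rt_ci_unit_x, rt_ci_unit_x]
    exact hsq _ h1
  · rw [RtTest.g1re, rt_g1_sub_z _ (by simp [rtUnit]) (by simp [rtUnit]), rt_ci_unit_x, rt_ci_unit_x, rt_ci_unit_z, rt_ci_unit_z,
      rt_ci_unit_V, abs_div, abs_of_pos (by positivity : (0 : ℝ) < a ^ 2), div_le_iff₀ (by positivity)]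
    exact h2
  · rw [RtTest.g1re, rt_g1_sub_V, rt_ci_unit_V, rt_ci_unit_V]
    exact hsq _ h3

/-- **one cell** -/
theorem rt_ci_cell (η : ℝ) (h0 : 0 < η) (h1 : η < 1) :
    ∃ C : ℝ, 0 < C ∧ ∀ (P f a M : ℝ) (n : RtPoly) (w : RtRow), 2 ≤ P → P ≤ M → 0 < f → f ≤ a → a ≤ 1 → n.disc = 1 → n.Bd P →
      w ∈ rtThin n P (P * f) →
      RtCover (rtBx w a M ∩ rtThin n P (P * f)) 1 f η (M ^ C * (a ^ (3 + η) * f ^ (1 - η))) := by
  obtain ⟨C, hC, h⟩ := rt_G1 η h0 h1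
  refine ⟨C, hC, fun P f a M n w hP hPM hf0 hfa ha1 hd hn hw => ?_⟩
  have ha : 0 < a := lt_of_lt_of_le hf0 hfa
  have hP0 : 0 < P := by linarith
  have hM0 : 0 < M := by linarith
  obtain ⟨-, -, -, hwF, hwG⟩ := hw
  have hPf : P * f ≤ 100 * M * a := by
    calc P * f ≤ M * a := mul_le_mul hPM hfa hf0.le hM0.le
      _ ≤ 100 * M * a := by nlinarith [mul_pos hM0 ha]
  have hadm : ((rtUnit n f).g1re w a (f / a)).Adm M := by
    refine rt_g1_re_adm (rtUnit n f) one_pos one_pos hd w ha (by positivity) ((div_le_one ha).2 hfa) ?_ ?_ ?_ ?_ ?_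
    · rw [rt_ci_unit_Fv]; exact hwF.trans hPf
    · rw [rt_ci_unit_Gv]; exact hwG.trans hPf
    · rw [rt_ci_unit_x, rt_ci_unit_V]
      show rtSq (n.g 0 w.b w.A) ≤ _
      rw [rt_disc_identity n 0 w.b w.y w.A, hd]
      have e1 : |n.be * n.G 0 w.b w.y w.A| ≤ P * (P * f) := by
        rw [abs_mul]; exact mul_le_mul hn.2.2.2.1 hwG (abs_nonneg _) hP0.le
      have e2 : |n.k * n.F 0 w.b w.y| ≤ P * (P * f) := by
        rw [abs_mul]; exact mul_le_mul hn.2.2.2.2 hwF (abs_nonneg _) hP0.le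
      have e3 : P * (P * f) ≤ M ^ 2 := by
        have : f ≤ 1 := hfa.trans ha1
        nlinarith [mul_pos hP0 hP0]
      have e4 := abs_le.1 e1
      have e5 := abs_le.1 e2
      have e6 : 1 ≤ M ^ 2 := by nlinarith
      nlinarith
    · show |a * n.be| ≤ _
      rw [abs_mul, abs_of_pos ha]
      have := hn.2.2.2.1
      nlinarith [abs_nonneg n.be]
    · show |a * n.k| ≤ _
      rw [abs_mul, abs_of_pos ha]
      have := hn.2.2.2.2
      nlinarith [abs_nonneg n.k]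
  have hcov := h M _ (hP.trans hPM) hadm
  have e1 : ((rtUnit n f).g1re w a (f / a)).l = 1 := rfl
  have e2 : ((rtUnit n f).g1re w a (f / a)).unc = f := by
    show a * 1 * (f / a) = f
    field_simp
  have e3 : ((rtUnit n f).g1re w a (f / a)).w η = a ^ (3 + η) * f ^ (1 - η) := rt_ci_w_eq ha hf0
  rw [e1, e2, e3] at hcov
  refine hcov.mono ?_ le_rfl le_rfl
  rintro p ⟨hpb, -, -, -, hpF, hpG⟩
  have hff : ((rtUnit n f).g1re w a (f / a)).f = f / a := rfl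
  have hle : P * f / a ≤ M * (f / a) := by
    rw [mul_div_assoc]
    exact mul_le_mul_of_nonneg_right hPM (by positivity)
  refine ⟨rt_ci_cell_box n f (f / a) w p ha hpb, ?_, ?_⟩
  · rw [rt_g1_re_Fv _ (by simp [rtUnit]) (by simp [rtUnit]) w p ha.ne', rt_ci_unit_Fv, hff, abs_div, abs_of_pos ha]
    exact (div_le_div_of_nonneg_right hpF ha.le).trans hle
  · rw [rt_g1_re_Gv _ (by simp [rtUnit]) (by simp [rtUnit]) w p ha.ne', rt_ci_unit_Gv, hff, abs_div, abs_of_pos ha]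
    exact (div_le_div_of_nonneg_right hpG ha.le).trans hle


/-! ## 3. the flat picture (07 l.556-569) -/

/-- dropping the two small coordinates from the second hyperquadric -/
theorem rt_ci_flat (m : RtPoly) (Q φ : ℝ) (p : RtRow) (hQ : 1 ≤ Q) (hm : m.Bd Q) (hφ0 : 0 ≤ φ) (hφ : φ ≤ 1) (hb2 : |p.b.2| ≤ φ)
    (hA2 : |p.A.2| ≤ φ) (hF : |m.F 0 p.b p.y| ≤ φ) (hG : |m.G 0 p.b p.y p.A| ≤ φ) :
    |m.al.1 * p.A.1 + m.be * p.A.1 ^ 2 + m.k * (p.y - 2 * p.A.1 * p.b.1) + m.d| ≤ 5 * Q * φ ∧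
      |m.al.1 * p.b.1 + m.be * p.y - m.k * p.b.1 ^ 2 + m.c| ≤ 5 * Q * φ := by
  obtain ⟨-, -, hal, hbe, hk⟩ := hm
  have hQ0 : 0 ≤ Q := by linarith
  have hal2 : |m.al.2| ≤ Q := rt_g1_abs_snd hQ0 hal
  have hQφ : 0 ≤ Q * φ := by positivity
  have hφφ : φ * φ ≤ φ := by nlinarith
  -- products
  have t1 : |m.al.2 * p.b.2| ≤ Q * φ := by rw [abs_mul]; exact mul_le_mul hal2 hb2 (abs_nonneg _) hQ0
  have t2 : |m.k * p.b.2 ^ 2| ≤ Q * φ := by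
    rw [abs_mul, abs_pow, sq]
    exact mul_le_mul hk ((mul_le_mul hb2 hb2 (abs_nonneg _) hφ0).trans hφφ) (by positivity) hQ0
  have t3 : |m.al.2 * p.A.2| ≤ Q * φ := by rw [abs_mul]; exact mul_le_mul hal2 hA2 (abs_nonneg _) hQ0
  have t4 : |m.k * (p.A.2 * p.b.2)| ≤ Q * φ := by
    rw [abs_mul, abs_mul]
    exact mul_le_mul hk ((mul_le_mul hA2 hb2 (abs_nonneg _) hφ0).trans hφφ) (by positivity) hQ0
  have t5 : |m.be * p.A.2 ^ 2| ≤ Q * φ := by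
    rw [abs_mul, abs_pow, sq]
    exact mul_le_mul hbe ((mul_le_mul hA2 hA2 (abs_nonneg _) hφ0).trans hφφ) (by positivity) hQ0
  have hφQ : φ ≤ Q * φ := le_mul_of_one_le_left hφ0 hQ
  constructor
  · have e : m.al.1 * p.A.1 + m.be * p.A.1 ^ 2 + m.k * (p.y - 2 * p.A.1 * p.b.1) + m.d
        = m.G 0 p.b p.y p.A - m.al.2 * p.A.2 + 2 * (m.k * (p.A.2 * p.b.2)) - m.be * p.A.2 ^ 2 := by
      simp only [RtPoly.G, rtIp, rtSq, Prod.fst_sub, Prod.snd_sub, Prod.smul_fst, Prod.smul_snd, smul_eq_mul]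
      ring
    rw [e, abs_le]
    have a1 := abs_le.1 hG
    have a2 := abs_le.1 t3
    have a3 := abs_le.1 t4
    have a4 := abs_le.1 t5
    constructor <;> linarith [a1.1, a1.2, a2.1, a2.2, a3.1, a3.2, a4.1, a4.2]
  · have e : m.al.1 * p.b.1 + m.be * p.y - m.k * p.b.1 ^ 2 + m.c
        = m.F 0 p.b p.y - m.al.2 * p.b.2 + m.k * p.b.2 ^ 2 := by
      simp only [RtPoly.F, rtIp, rtSq]
      ring
    rw [e, abs_le]
    have a1 := abs_le.1 hF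
    have a2 := abs_le.1 t1
    have a3 := abs_le.1 t2
    constructor <;> linarith [a1.1, a1.2, a2.1, a2.2, a3.1, a3.2]

theorem rt_ci_dich_aux {x s : ℝ} (hx : 0 ≤ x) (h : (x - 1) * (x + 1) = s) : |x - 1| ≤ |s| := by
  rw [← h, abs_mul]
  have : 1 ≤ |x + 1| := by rw [abs_of_nonneg (by linarith)]; linarith
  exact le_mul_of_one_le_right (abs_nonneg _) this

theorem rt_ci_dich_cd (m : RtPoly) (ε Λ X B Y : ℝ) (hε0 : 0 ≤ ε) (hε1 : ε ≤ 1) (hΛ : 1 ≤ Λ) (hX : |X| ≤ 1) (hB : |B| ≤ 1)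
    (hY : |Y| ≤ 1) (ha : |m.al.1| ≤ ε) (hb : |m.be| ≤ ε) (hk : |m.k| ≤ ε)
    (h1 : |m.al.1 * X + m.be * X ^ 2 + m.k * (Y - 2 * X * B) + m.d| ≤ Λ * ε)
    (h2 : |m.al.1 * B + m.be * Y - m.k * B ^ 2 + m.c| ≤ Λ * ε) :
    |m.c| ≤ 6 * (Λ * ε) ∧ |m.d| ≤ 6 * (Λ * ε) ∧ |-(m.al.1 ^ 2) + 4 * m.be * m.d - 4 * m.k * m.c| ≤ 49 * (Λ * ε) := by
  have hΛε : 0 ≤ Λ * ε := by positivity
  have hεΛ : ε ≤ Λ * ε := le_mul_of_one_le_left hε0 hΛ
  have pr : ∀ u v : ℝ, |u| ≤ ε → |v| ≤ 1 → |u * v| ≤ ε := fun u v hu hv => by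
    rw [abs_mul]
    calc |u| * |v| ≤ ε * 1 := mul_le_mul hu hv (abs_nonneg _) hε0
      _ = ε := mul_one _
  have hX2 : |X ^ 2| ≤ 1 := by rw [abs_pow]; exact pow_le_one₀ (abs_nonneg _) hX
  have hB2 : |B ^ 2| ≤ 1 := by rw [abs_pow]; exact pow_le_one₀ (abs_nonneg _) hB
  have hXB : |X * B| ≤ 1 := by rw [abs_mul]; exact mul_le_one₀ hX (abs_nonneg _) hB
  have t1 := abs_le.1 (pr _ _ ha hX)
  have t2 := abs_le.1 (pr _ _ hb hX2)
  have t3 := abs_le.1 (pr _ _ hk hY)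
  have t4 := abs_le.1 (pr _ _ hk hXB)
  have t5 := abs_le.1 (pr _ _ ha hB)
  have t6 := abs_le.1 (pr _ _ hb hY)
  have t7 := abs_le.1 (pr _ _ hk hB2)
  have hdd : |m.d| ≤ 6 * (Λ * ε) := by
    have := abs_le.1 h1
    have e : m.d = (m.al.1 * X + m.be * X ^ 2 + m.k * (Y - 2 * X * B) + m.d) - m.al.1 * X - m.be * X ^ 2 - m.k * Y + 2 * (m.k * (X * B)) := by
      ring
    rw [e, abs_le]
    constructor <;> linarith [this.1, this.2, t1.1, t1.2, t2.1, t2.2, t3.1, t3.2, t4.1, t4.2]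
  have hcc : |m.c| ≤ 6 * (Λ * ε) := by
    have := abs_le.1 h2
    have e : m.c = (m.al.1 * B + m.be * Y - m.k * B ^ 2 + m.c) - m.al.1 * B - m.be * Y + m.k * B ^ 2 := by ring
    rw [e, abs_le]
    constructor <;> linarith [this.1, this.2, t5.1, t5.2, t6.1, t6.2, t7.1, t7.2]
  refine ⟨hcc, hdd, ?_⟩
  have a1 : |m.al.1 ^ 2| ≤ Λ * ε := by
    rw [abs_pow, sq]
    calc |m.al.1| * |m.al.1| ≤ ε * 1 := mul_le_mul ha (ha.trans hε1) (abs_nonneg _) hε0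
      _ ≤ Λ * ε := by linarith
  have a2 : |m.be * m.d| ≤ 6 * (Λ * ε) := by
    rw [abs_mul]
    calc |m.be| * |m.d| ≤ 1 * (6 * (Λ * ε)) := mul_le_mul (hb.trans hε1) hdd (abs_nonneg _) zero_le_one
      _ = _ := one_mul _
  have a3 : |m.k * m.c| ≤ 6 * (Λ * ε) := by
    rw [abs_mul]
    calc |m.k| * |m.c| ≤ 1 * (6 * (Λ * ε)) := mul_le_mul (hk.trans hε1) hcc (abs_nonneg _) zero_le_one
      _ = _ := one_mul _
  have b1 := abs_le.1 a1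
  have b2 := abs_le.1 a2
  have b3 := abs_le.1 a3
  have e : -(m.al.1 ^ 2) + 4 * m.be * m.d - 4 * m.k * m.c = -(m.al.1 ^ 2) + 4 * (m.be * m.d) - 4 * (m.k * m.c) := by ring
  rw [e, abs_le]
  constructor <;> linarith [b1.1, b1.2, b2.1, b2.2, b3.1, b3.2]

theorem rt_ci_dich_bd (m : RtPoly) (s T : ℝ) (hc : |m.c| ≤ T) (hd : |m.d| ≤ T) (hal : m.al.1 ^ 2 + (m.al.2 + s) ^ 2 ≤ T ^ 2) (hb : |m.be| ≤ T)
    (hk : |m.k| ≤ T) : (RtPoly.comb 1 m s rtFlat).Bd T := by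
  refine ⟨?_, ?_, ?_, ?_, ?_⟩
  · show |1 * m.c + s * 0| ≤ T
    rwa [one_mul, mul_zero, add_zero]
  · show |1 * m.d + s * 0| ≤ T
    rwa [one_mul, mul_zero, add_zero]
  · show ((1 : ℝ) • m.al + s • ((0, 1) : ℝ × ℝ)).1 ^ 2 + ((1 : ℝ) • m.al + s • ((0, 1) : ℝ × ℝ)).2 ^ 2 ≤ T ^ 2
    simpa using hal
  · show |1 * m.be + s * 0| ≤ T
    rwa [one_mul, mul_zero, add_zero]
  · show |1 * m.k + s * 0| ≤ T
    rwa [one_mul, mul_zero, add_zero]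

/-- **coefficient dichotomy** (07 l.563-569): if the three coefficients `α₁, β, k` are `≤ ε` and the two flat conditions have a common point, the polynomial is `± b₂` up to `50 Λ ε` -/
theorem rt_ci_dich (m : RtPoly) (hd : m.disc = 1) (ε Λ X B Y : ℝ) (hε0 : 0 ≤ ε) (hε1 : ε ≤ 1) (hΛ : 1 ≤ Λ) (hX : |X| ≤ 1) (hB : |B| ≤ 1)
    (hY : |Y| ≤ 1) (ha : |m.al.1| ≤ ε) (hb : |m.be| ≤ ε) (hk : |m.k| ≤ ε)
    (h1 : |m.al.1 * X + m.be * X ^ 2 + m.k * (Y - 2 * X * B) + m.d| ≤ Λ * ε)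
    (h2 : |m.al.1 * B + m.be * Y - m.k * B ^ 2 + m.c| ≤ Λ * ε) :
    (RtPoly.comb 1 m (-1) rtFlat).Bd (50 * Λ * ε) ∨ (RtPoly.comb 1 m 1 rtFlat).Bd (50 * Λ * ε) := by
  obtain ⟨hcc, hdd, hs⟩ := rt_ci_dich_cd m ε Λ X B Y hε0 hε1 hΛ hX hB hY ha hb hk h1 h2
  have hΛε : 0 ≤ Λ * ε := by positivity
  have hεΛ : ε ≤ Λ * ε := le_mul_of_one_le_left hε0 hΛ
  have hdisc : m.al.1 ^ 2 + m.al.2 ^ 2 - 4 * m.be * m.d + 4 * m.k * m.c = 1 := hd
  have hfin : ∀ v : ℝ, |v| ≤ 49 * (Λ * ε) → m.al.1 ^ 2 + v ^ 2 ≤ (50 * Λ * ε) ^ 2 := by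
    intro v hv
    have c1 : m.al.1 ^ 2 ≤ (Λ * ε) ^ 2 := sq_le_sq' (by linarith [(abs_le.1 ha).1]) (by linarith [(abs_le.1 ha).2])
    have c2 : v ^ 2 ≤ (49 * (Λ * ε)) ^ 2 := sq_le_sq' (abs_le.1 hv).1 (abs_le.1 hv).2
    have c3 : (50 * Λ * ε) ^ 2 = 2500 * (Λ * ε) ^ 2 := by ring
    have c4 : (49 * (Λ * ε)) ^ 2 = 2401 * (Λ * ε) ^ 2 := by ring
    have c5 : 0 ≤ (Λ * ε) ^ 2 := by positivity
    linarith
  have h50 : 6 * (Λ * ε) ≤ 50 * Λ * ε := by linarith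
  have h50' : ε ≤ 50 * Λ * ε := by linarith
  rcases le_total 0 m.al.2 with hpos | hneg
  · left
    have hv : |m.al.2 + -1| ≤ 49 * (Λ * ε) := by
      rw [← sub_eq_add_neg]
      exact (rt_ci_dich_aux hpos (by linarith)).trans hs
    exact rt_ci_dich_bd m (-1) _ (hcc.trans h50) (hdd.trans h50) (hfin _ hv) (hb.trans h50') (hk.trans h50')
  · right
    have hv : |m.al.2 + 1| ≤ 49 * (Λ * ε) := by
      have := rt_ci_dich_aux (x := -m.al.2) (by linarith) (s := -(m.al.1 ^ 2) + 4 * m.be * m.d - 4 * m.k * m.c) (by linarith)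
      have e : |m.al.2 + 1| = |-m.al.2 - 1| := by rw [← abs_neg]; congr 1; ring
      rw [e]
      exact this.trans hs
    exact rt_ci_dich_bd m 1 _ (hcc.trans h50) (hdd.trans h50) (hfin _ hv) (hb.trans h50') (hk.trans h50')

/-- two rows of the thin flat set in one Heisenberg cell lie in one parabolic box -/
theorem rt_ci_heis (p w : RtRow) (cx cb cy ρ φ M : ℝ) (hρ : 0 < ρ) (hM : 1 ≤ M) (hφρ : φ ≤ M * ρ)
    (hpb : |p.b.2| ≤ φ) (hpA : |p.A.2| ≤ φ) (hwb : |w.b.2| ≤ φ) (hwA : |w.A.2| ≤ φ)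
    (hp : |p.A.1 - cx| ≤ ρ ∧ |p.b.1 - cb| ≤ ρ ∧ |p.y - cy - 2 * cx * (p.b.1 - cb)| ≤ ρ ^ 2)
    (hw : |w.A.1 - cx| ≤ ρ ∧ |w.b.1 - cb| ≤ ρ ∧ |w.y - cy - 2 * cx * (w.b.1 - cb)| ≤ ρ ^ 2) :
    p ∈ rtBx w ρ (10 * M ^ 2) := by
  obtain ⟨p1, p2, p3⟩ := hp
  obtain ⟨w1, w2, w3⟩ := hw
  have hMρ : 0 < M * ρ := by positivity
  have hρM : ρ ≤ M * ρ := le_mul_of_one_le_left hρ.le hM
  have hM2 : M ≤ M ^ 2 := by nlinarith
  have key : ∀ u v u' v' c : ℝ, |u - c| ≤ ρ → |u' - c| ≤ ρ → |v| ≤ φ → |v'| ≤ φ → (u - u') ^ 2 + (v - v') ^ 2 ≤ (10 * M ^ 2 * ρ) ^ 2 := by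
    intro u v u' v' c h1 h2 h3 h4
    have a1 : |u - u'| ≤ 2 * (M * ρ) := by
      have := abs_le.1 h1; have := abs_le.1 h2
      rw [abs_le]; constructor <;> linarith
    have a2 : |v - v'| ≤ 2 * (M * ρ) := by
      have := abs_le.1 h3; have := abs_le.1 h4
      rw [abs_le]; constructor <;> linarith
    have b1 : (u - u') ^ 2 ≤ (2 * (M * ρ)) ^ 2 := sq_le_sq' (abs_le.1 a1).1 (abs_le.1 a1).2
    have b2 : (v - v') ^ 2 ≤ (2 * (M * ρ)) ^ 2 := sq_le_sq' (abs_le.1 a2).1 (abs_le.1 a2).2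
    have b3 : M * ρ ≤ M ^ 2 * ρ := mul_le_mul_of_nonneg_right hM2 hρ.le
    have b4 : (M * ρ) ^ 2 ≤ (M ^ 2 * ρ) ^ 2 := pow_le_pow_left₀ hMρ.le b3 2
    nlinarith
  refine ⟨?_, ?_, ?_⟩
  · simpa [rtSq] using key p.b.1 p.b.2 w.b.1 w.b.2 cb p2 w2 hpb hwb
  · have e : p.y - w.y - 2 * rtIp w.A (p.b - w.b)
        = (p.y - cy - 2 * cx * (p.b.1 - cb)) - (w.y - cy - 2 * cx * (w.b.1 - cb)) - 2 * ((w.A.1 - cx) * (p.b.1 - w.b.1))
          - 2 * (w.A.2 * (p.b.2 - w.b.2)) := by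
      simp only [rtIp, Prod.fst_sub, Prod.snd_sub]
      ring
    have a1 : |(w.A.1 - cx) * (p.b.1 - w.b.1)| ≤ ρ * (2 * ρ) := by
      rw [abs_mul]
      refine mul_le_mul w1 ?_ (abs_nonneg _) hρ.le
      have := abs_le.1 p2; have := abs_le.1 w2
      rw [abs_le]; constructor <;> linarith
    have a2 : |w.A.2 * (p.b.2 - w.b.2)| ≤ (M * ρ) * (2 * (M * ρ)) := by
      rw [abs_mul]
      refine mul_le_mul (hwA.trans hφρ) ?_ (abs_nonneg _) hMρ.le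
      have := abs_le.1 hpb; have := abs_le.1 hwb
      rw [abs_le]; constructor <;> linarith
    have b1 := abs_le.1 a1
    have b2 := abs_le.1 a2
    have b3 := abs_le.1 p3
    have b4 := abs_le.1 w3
    have hM1 : 1 ≤ M ^ 2 := by nlinarith
    have c1 : ρ ^ 2 ≤ M ^ 2 * ρ ^ 2 := le_mul_of_one_le_left (by positivity) hM1
    rw [e, abs_le]
    constructor <;> nlinarith [b1.1, b1.2, b2.1, b2.2, b3.1, b3.2, b4.1, b4.2]
  · simpa [rtSq] using key p.A.1 p.A.2 w.A.1 w.A.2 cx p1 w1 hpA hwA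

/-! ## 4. one patch -/

/-- the thin coordinates of the image row -/
theorem rt_ci_pt_thin {P φ : ℝ} {n : RtPoly} {p₀ p : RtRow} (h : RtChartOk P n p₀) (hp : p ∈ rtBx p₀ 1 (rtChRho P))
    (hpn : p ∈ rtThin n P φ) : |((rtChart p₀ n).row p).b.2| ≤ 24 * φ ∧ |((rtChart p₀ n).row p).A.2| ≤ 24 * φ := by
  obtain ⟨-, -, -, hF, hG⟩ := hpn
  have := rt_chart_thin h hp
  have h0 : 0 ≤ φ := (abs_nonneg _).trans hF
  constructor
  · linarith [this.1]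
  · linarith [this.2]

/-- the image row is bounded by one -/
theorem rt_ci_pt_bd {P : ℝ} {n : RtPoly} {p₀ p : RtRow} (hP : 2 ≤ P) (h : RtChartOk P n p₀) (hp : p ∈ rtBx p₀ 1 (rtChRho P)) :
    |((rtChart p₀ n).row p).A.1| ≤ 1 ∧ |((rtChart p₀ n).row p).b.1| ≤ 1 ∧ |((rtChart p₀ n).row p).y| ≤ 1 := by
  obtain ⟨h1, h2, h3⟩ := h.img p hp
  have hP0 : 0 < P := by linarith
  have hρ : P * rtChRho P ≤ 1 / 1000 := by
    unfold rtChRho
    rw [mul_one_div, div_le_div_iff₀ (by positivity) (by norm_num)]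
    nlinarith
  have hρ0 : 0 < rtChRho P := by unfold rtChRho; positivity
  have hρ1 : rtChRho P ≤ 1 / 1000 := by nlinarith
  refine ⟨(rt_g1_abs_fst (by positivity) h1).trans (by linarith), (rt_g1_abs_fst (by positivity) h2).trans (by linarith), h3.trans (by linarith)⟩

/-- the two flat conditions on the second hyperquadric -/
theorem rt_ci_pt_flat {P f : ℝ} {n n' : RtPoly} {p₀ p : RtRow} (hP : 2 ≤ P) (hf0 : 0 < f) (hsm : 24 * (P * f) ≤ 1) (hn' : n'.Bd P)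
    (h : RtChartOk P n p₀) (hp : p ∈ rtBx p₀ 1 (rtChRho P)) (hpn : p ∈ rtThin n P (P * f)) (hpn' : p ∈ rtThin n' P (P * f)) :
    |((rtChart p₀ n).pol n').al.1 * ((rtChart p₀ n).row p).A.1 + ((rtChart p₀ n).pol n').be * ((rtChart p₀ n).row p).A.1 ^ 2
        + ((rtChart p₀ n).pol n').k * (((rtChart p₀ n).row p).y - 2 * ((rtChart p₀ n).row p).A.1 * ((rtChart p₀ n).row p).b.1)
        + ((rtChart p₀ n).pol n').d| ≤ 5 * (200 * P ^ 6 * P) * (24 * (P * f)) ∧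
      |((rtChart p₀ n).pol n').al.1 * ((rtChart p₀ n).row p).b.1 + ((rtChart p₀ n).pol n').be * ((rtChart p₀ n).row p).y
        - ((rtChart p₀ n).pol n').k * ((rtChart p₀ n).row p).b.1 ^ 2 + ((rtChart p₀ n).pol n').c|
        ≤ 5 * (200 * P ^ 6 * P) * (24 * (P * f)) := by
  have hP0 : 0 < P := by linarith
  obtain ⟨t1, t2⟩ := rt_ci_pt_thin h hp hpn
  obtain ⟨-, -, -, hF, hG⟩ := hpn'
  have hs := rt_chart_sub h hp n'
  have hφ0 : 0 ≤ P * f := by positivity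
  have hQ : 1 ≤ 200 * P ^ 6 * P := by
    have : 1 ≤ P ^ 6 := one_le_pow₀ (by linarith)
    nlinarith
  exact rt_ci_flat _ _ _ _ hQ (h.pol_bd n' P hP0.le hn') (by positivity) hsm t1 t2 (by linarith [hs.1]) (by linarith [hs.2])

theorem rt_ci_sub_bd {n n' : RtPoly} {P : ℝ} (hn : n.Bd P) (hn' : n'.Bd P) : (RtPoly.comb 1 n' (-1) n).Bd (2 * P) := by
  obtain ⟨a1, a2, a3, a4, a5⟩ := hn
  obtain ⟨b1, b2, b3, b4, b5⟩ := hn'
  have tri : ∀ u v : ℝ, |u| ≤ P → |v| ≤ P → |1 * u + -1 * v| ≤ 2 * P := by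
    intro u v hu hv
    have := abs_le.1 hu; have := abs_le.1 hv
    rw [abs_le]; constructor <;> linarith
  refine ⟨tri _ _ b1 a1, tri _ _ b2 a2, ?_, tri _ _ b4 a4, tri _ _ b5 a5⟩
  show ((1 : ℝ) • n'.al + (-1 : ℝ) • n.al).1 ^ 2 + ((1 : ℝ) • n'.al + (-1 : ℝ) • n.al).2 ^ 2 ≤ (2 * P) ^ 2
  simp only [rtSq] at a3 b3
  simp only [Prod.fst_add, Prod.snd_add, Prod.smul_fst, Prod.smul_snd, smul_eq_mul]
  nlinarith [sq_nonneg (n'.al.1 + n.al.1), sq_nonneg (n'.al.2 + n.al.2)]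

/-- **lower bound for `M`** (07 l.563-569) -/
theorem rt_ci_patch_M {P f K Λ M X B Y : ℝ} {n n' : RtPoly} {p₀ : RtRow} (hP : 2 ≤ P) (hf0 : 0 < f) (hn : n.Bd P) (hn' : n'.Bd P)
    (hd' : n'.disc = 1) (h : RtChartOk P n p₀)
    (hK : ∀ T, 0 ≤ T → ((RtPoly.comb 1 n' (-1) n).Bd T ∨ (RtPoly.comb 1 n' 1 n).Bd T) → K * f ≤ T) (hΛ : 1 ≤ Λ)
    (hX : |X| ≤ 1) (hB : |B| ≤ 1) (hY : |Y| ≤ 1)
    (h1 : |((rtChart p₀ n).pol n').al.1 * X + ((rtChart p₀ n).pol n').be * X ^ 2 + ((rtChart p₀ n).pol n').k * (Y - 2 * X * B)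
      + ((rtChart p₀ n).pol n').d| ≤ Λ * f)
    (h2 : |((rtChart p₀ n).pol n').al.1 * B + ((rtChart p₀ n).pol n').be * Y - ((rtChart p₀ n).pol n').k * B ^ 2
      + ((rtChart p₀ n).pol n').c| ≤ Λ * f)
    (hM1 : 1 ≤ M) (ha : |((rtChart p₀ n).pol n').al.1| ≤ M * f) (hb : |((rtChart p₀ n).pol n').be| ≤ M * f)
    (hk : |((rtChart p₀ n).pol n').k| ≤ M * f) : K ≤ 300 * P ^ 6 * (50 * Λ) * M := by
  have hP0 : 0 < P := by linarith
  have hM0 : 0 < M := by linarith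
  have hP6 : 1 ≤ P ^ 6 := one_le_pow₀ (by linarith)
  have hε0 : 0 ≤ M * f := by positivity
  have hfε : Λ * f ≤ Λ * (M * f) := mul_le_mul_of_nonneg_left (le_mul_of_one_le_left hf0.le hM1) (by linarith)
  rcases le_or_gt (M * f) 1 with hε1 | hε1
  · have hdm : ((rtChart p₀ n).pol n').disc = 1 := (h.ex.disc n').trans hd'
    have hT0 : 0 ≤ 50 * Λ * (M * f) := by positivity
    have key : K * f ≤ 300 * P ^ 6 * (50 * Λ * (M * f)) := by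
      rcases rt_ci_dich _ hdm (M * f) Λ X B Y hε0 hε1 hΛ hX hB hY ha hb hk (h1.trans hfε) (h2.trans hfε) with hh | hh
      · refine hK _ (by positivity) (Or.inl (h.pol_bd_inv _ _ hT0 ?_))
        rw [h.lin, h.flat]
        exact hh
      · refine hK _ (by positivity) (Or.inr (h.pol_bd_inv _ _ hT0 ?_))
        rw [h.lin, h.flat]
        exact hh
    have : K * f ≤ (300 * P ^ 6 * (50 * Λ) * M) * f := by linarith
    exact le_of_mul_le_mul_right this hf0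
  · have h2P : K * f ≤ 2 * P := hK _ (by positivity) (Or.inl (rt_ci_sub_bd hn hn'))
    have h3 : 2 * P ≤ 2 * P * (M * f) := le_mul_of_one_le_right (by positivity) hε1.le
    have h4 : K * f ≤ (2 * P * M) * f := by linarith
    have h5 : K ≤ 2 * P * M := le_of_mul_le_mul_right h4 hf0
    have h6 : 2 * P ≤ 300 * P ^ 6 * (50 * Λ) := by
      have e1 : P ≤ P ^ 6 := by
        calc P = P ^ 1 := (pow_one P).symm
          _ ≤ P ^ 6 := pow_le_pow_right₀ (by linarith) (by norm_num)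
      have e2 : P ^ 6 ≤ P ^ 6 * Λ := le_mul_of_one_le_right (by positivity) hΛ
      nlinarith
    exact h5.trans (mul_le_mul_of_nonneg_right h6 hM0.le)

/-- **one Heisenberg cell of the flat picture, pulled back** (07 l.573-581) -/
theorem rt_ci_patch_cell (η : ℝ) (h0 : 0 < η) (h1 : η < 1) :
    ∃ C : ℝ, 0 < C ∧ ∀ (P f ρ Mh cx cb cy : ℝ) (n : RtPoly) (p₀ : RtRow), 2 ≤ P → 0 < f → f ≤ 1 → n.disc = 1 → n.Bd P →
      RtChartOk P n p₀ → 0 < ρ → ρ ≤ 1 → P ≤ Mh → 24 * (P * f) ≤ Mh * ρ →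
      RtCover {p | p ∈ rtBx p₀ 1 (rtChRho P) ∧ p ∈ rtThin n P (P * f) ∧
          |((rtChart p₀ n).row p).A.1 - cx| ≤ ρ ∧ |((rtChart p₀ n).row p).b.1 - cb| ≤ ρ ∧
          |((rtChart p₀ n).row p).y - cy - 2 * cx * (((rtChart p₀ n).row p).b.1 - cb)| ≤ ρ ^ 2} 1 f η
        ((200 * (10 * Mh ^ 2) ^ 2) ^ C * ((max ρ f) ^ (3 + η) * f ^ (1 - η))) := by
  obtain ⟨C, hC, hcell⟩ := rt_ci_cell η h0 h1
  refine ⟨C, hC, fun P f ρ Mh cx cb cy n p₀ hP hf0 hf1 hd hn h hρ0 hρ1 hPM hφ => ?_⟩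
  have hMh : 1 ≤ Mh := by linarith
  have hMh2 : 1 ≤ Mh ^ 2 := one_le_pow₀ hMh
  have hMM : Mh ≤ Mh ^ 2 := by nlinarith
  have hMc : P ≤ 200 * (10 * Mh ^ 2) ^ 2 := by nlinarith
  by_cases hne : ∃ w, w ∈ {p | p ∈ rtBx p₀ 1 (rtChRho P) ∧ p ∈ rtThin n P (P * f) ∧
          |((rtChart p₀ n).row p).A.1 - cx| ≤ ρ ∧ |((rtChart p₀ n).row p).b.1 - cb| ≤ ρ ∧
          |((rtChart p₀ n).row p).y - cy - 2 * cx * (((rtChart p₀ n).row p).b.1 - cb)| ≤ ρ ^ 2}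
  · obtain ⟨w, hw1, hw2, hw3⟩ := hne
    refine (hcell P f (max ρ f) _ n w hP hMc hf0 (le_max_right _ _) (max_le hρ1 hf1) hd hn hw2).mono ?_ le_rfl le_rfl
    rintro p ⟨hp1, hp2, hp3⟩
    refine ⟨?_, hp2⟩
    obtain ⟨tp1, tp2⟩ := rt_ci_pt_thin h hp1 hp2
    obtain ⟨tw1, tw2⟩ := rt_ci_pt_thin h hw1 hw2
    have hb := rt_ci_heis _ _ cx cb cy ρ (24 * (P * f)) Mh hρ0 hMh hφ tp1 tp2 tw1 tw2 hp3 hw3
    have := rt_chart_box_inv h hp1 hw1 (by nlinarith : (1 : ℝ) ≤ 10 * Mh ^ 2) hρ0.le hb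
    exact rt_ci_bx_mono hρ0.le (le_max_left _ _) (by positivity) le_rfl this
  · have he : {p | p ∈ rtBx p₀ 1 (rtChRho P) ∧ p ∈ rtThin n P (P * f) ∧
          |((rtChart p₀ n).row p).A.1 - cx| ≤ ρ ∧ |((rtChart p₀ n).row p).b.1 - cb| ≤ ρ ∧
          |((rtChart p₀ n).row p).y - cy - 2 * cx * (((rtChart p₀ n).row p).b.1 - cb)| ≤ ρ ^ 2} = ∅ :=
      Set.eq_empty_iff_forall_notMem.2 fun w hw => hne ⟨w, hw⟩
    rw [he]
    refine (RtCover.empty 1 f η).mono le_rfl le_rfl ?_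
    have : 0 < max ρ f := lt_max_of_lt_left hρ0
    positivity

/-! ## 5. polynomial bounds -/

/-- polynomially bounded functions of `P ≥ 2` -/
def RtPB (g : ℝ → ℝ) : Prop := ∃ C : ℝ, 0 < C ∧ ∀ P, 2 ≤ P → 0 ≤ g P ∧ g P ≤ P ^ C

theorem rt_pb_const {A : ℝ} (hA : 0 ≤ A) : RtPB fun _ => A := by
  refine ⟨(⌈A⌉₊ : ℝ) + 1, by positivity, fun P hP => ⟨hA, ?_⟩⟩
  have h1 : A ≤ (⌈A⌉₊ : ℝ) := Nat.le_ceil A
  have h2 : ((⌈A⌉₊ : ℕ) : ℝ) ≤ (2 : ℝ) ^ ⌈A⌉₊ := by exact_mod_cast (Nat.lt_two_pow_self (n := ⌈A⌉₊)).le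
  have h3 : (2 : ℝ) ^ ⌈A⌉₊ ≤ P ^ ⌈A⌉₊ := pow_le_pow_left₀ (by norm_num) hP _
  have h4 : P ^ ⌈A⌉₊ ≤ P ^ ((⌈A⌉₊ : ℝ) + 1) := by
    rw [← Real.rpow_natCast]
    exact Real.rpow_le_rpow_of_exponent_le (by linarith) (by linarith)
  linarith

theorem rt_pb_pow (N : ℕ) : RtPB fun P => P ^ N := by
  refine ⟨(N : ℝ) + 1, by positivity, fun P hP => ⟨by positivity, ?_⟩⟩
  show P ^ N ≤ P ^ ((N : ℝ) + 1)
  rw [← Real.rpow_natCast]
  exact Real.rpow_le_rpow_of_exponent_le (by linarith) (by linarith)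

theorem RtPB.mul {g h : ℝ → ℝ} (hg : RtPB g) (hh : RtPB h) : RtPB fun P => g P * h P := by
  obtain ⟨C, hC, h1⟩ := hg
  obtain ⟨C', hC', h2⟩ := hh
  refine ⟨C + C', by positivity, fun P hP => ⟨mul_nonneg (h1 P hP).1 (h2 P hP).1, ?_⟩⟩
  rw [Real.rpow_add (by linarith)]
  exact mul_le_mul (h1 P hP).2 (h2 P hP).2 (h2 P hP).1 (Real.rpow_nonneg (by linarith) _)

theorem RtPB.rpow {g : ℝ → ℝ} (hg : RtPB g) {c : ℝ} (hc : 0 ≤ c) : RtPB fun P => g P ^ c := by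
  obtain ⟨C, hC, h1⟩ := hg
  refine ⟨C * c + 1, by positivity, fun P hP => ⟨Real.rpow_nonneg (h1 P hP).1 _, ?_⟩⟩
  calc g P ^ c ≤ (P ^ C) ^ c := Real.rpow_le_rpow (h1 P hP).1 (h1 P hP).2 hc
    _ = P ^ (C * c) := (Real.rpow_mul (by linarith) _ _).symm
    _ ≤ P ^ (C * c + 1) := Real.rpow_le_rpow_of_exponent_le (by linarith) (by linarith)

theorem RtPB.pow {g : ℝ → ℝ} (hg : RtPB g) (N : ℕ) : RtPB fun P => g P ^ N := by
  have := hg.rpow (Nat.cast_nonneg N)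
  simpa [Real.rpow_natCast] using this

theorem rt_ci_patch_num {mm : ℕ} (ρ : Fin mm → ℝ) {f η A q L M T K G : ℝ} (hf : 0 < f) (hη : 0 < η) (hA : 0 ≤ A) (hq : 1 ≤ q)
    (hρ0 : ∀ i, 0 < ρ i) (hfρ : ∀ i, f ≤ q * ρ i) (hsum : ∑ i, ρ i ^ (3 + η) ≤ L / M) (hM : 0 < M) (hK : 0 < K) (hKM : K ≤ T * M)
    (hL : 0 ≤ L) (hG : A * (q ^ (3 + η) * (L * T)) ≤ G) :
    ∑ i, A * ((max (ρ i) f) ^ (3 + η) * f ^ (1 - η)) ≤ G * f ^ (1 - η) / K := by
  have hq0 : 0 < q := by linarith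
  have hF : 0 < f ^ (1 - η) := Real.rpow_pos_of_pos hf _
  have hqe : 0 < q ^ (3 + η) := Real.rpow_pos_of_pos hq0 _
  have h1 : ∀ i, (max (ρ i) f) ^ (3 + η) ≤ q ^ (3 + η) * ρ i ^ (3 + η) := by
    intro i
    rw [← Real.mul_rpow hq0.le (hρ0 i).le]
    refine Real.rpow_le_rpow (le_max_of_le_right hf.le) (max_le ?_ (hfρ i)) (by linarith)
    exact le_mul_of_one_le_left (hρ0 i).le hq
  have hT : 0 < T := by
    by_contra h
    rw [not_lt] at h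
    have : T * M ≤ 0 := mul_nonpos_of_nonpos_of_nonneg h hM.le
    linarith
  have h2 : L / M ≤ L * T / K := by
    rw [div_le_div_iff₀ hM hK]
    calc L * K ≤ L * (T * M) := mul_le_mul_of_nonneg_left hKM hL
      _ = L * T * M := by ring
  calc ∑ i, A * ((max (ρ i) f) ^ (3 + η) * f ^ (1 - η))
      ≤ ∑ i, A * (q ^ (3 + η) * f ^ (1 - η)) * ρ i ^ (3 + η) := by
        refine Finset.sum_le_sum fun i _ => ?_
        calc A * ((max (ρ i) f) ^ (3 + η) * f ^ (1 - η)) ≤ A * ((q ^ (3 + η) * ρ i ^ (3 + η)) * f ^ (1 - η)) :=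
              mul_le_mul_of_nonneg_left (mul_le_mul_of_nonneg_right (h1 i) hF.le) hA
          _ = _ := by ring
    _ = A * (q ^ (3 + η) * f ^ (1 - η)) * ∑ i, ρ i ^ (3 + η) := by rw [Finset.mul_sum]
    _ ≤ A * (q ^ (3 + η) * f ^ (1 - η)) * (L * T / K) := mul_le_mul_of_nonneg_left (hsum.trans h2) (by positivity)
    _ = A * (q ^ (3 + η) * (L * T)) * f ^ (1 - η) / K := by ring
    _ ≤ G * f ^ (1 - η) / K := by
        apply div_le_div_of_nonneg_right _ hK.le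
        exact mul_le_mul_of_nonneg_right hG hF.le


/-- **(CI) on one chart patch** -/
theorem rt_ci_patch (η : ℝ) (h0 : 0 < η) (h1 : η < 1) (hI : RtCiI η) :
    ∃ C : ℝ, 0 < C ∧ ∀ (P f K : ℝ) (n n' : RtPoly) (p₀ : RtRow), 2 ≤ P → 0 < f → f ≤ 1 → 24 * (P * f) ≤ 1 → 0 < K → n.disc = 1 →
      n'.disc = 1 → n.Bd P → n'.Bd P → RtChartOk P n p₀ →
      (∀ T, 0 ≤ T → ((RtPoly.comb 1 n' (-1) n).Bd T ∨ (RtPoly.comb 1 n' 1 n).Bd T) → K * f ≤ T) →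
      RtCover (rtBx p₀ 1 (rtChRho P) ∩ (rtThin n P (P * f) ∩ rtThin n' P (P * f))) 1 f η (P ^ C * f ^ (1 - η) / K) := by
  obtain ⟨CI, hCI0, hI⟩ := hI
  obtain ⟨Cc, hCc, hcell⟩ := rt_ci_patch_cell η h0 h1
  have hc1 : (0 : ℝ) ≤ max CI 1 := le_max_of_le_right zero_le_one
  -- the polynomial constant
  have hQ : RtPB fun P : ℝ => max CI 1 * (200 * P ^ 6 * P) :=
    (rt_pb_const hc1).mul (((rt_pb_const (by norm_num : (0 : ℝ) ≤ 200)).mul (rt_pb_pow 6)).mul (by simpa using rt_pb_pow 1))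
  have hΛ : RtPB fun P : ℝ => 5 * (200 * P ^ 6 * P) * (24 * P) :=
    ((rt_pb_const (by norm_num : (0 : ℝ) ≤ 5)).mul (((rt_pb_const (by norm_num : (0 : ℝ) ≤ 200)).mul (rt_pb_pow 6)).mul
      (by simpa using rt_pb_pow 1))).mul ((rt_pb_const (by norm_num : (0 : ℝ) ≤ 24)).mul (by simpa using rt_pb_pow 1))
  have hMh : RtPB fun P : ℝ => 24 * P * (max CI 1 * (200 * P ^ 6 * P)) :=
    ((rt_pb_const (by norm_num : (0 : ℝ) ≤ 24)).mul (by simpa using rt_pb_pow 1)).mul hQ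
  have hMc : RtPB fun P : ℝ => 200 * (10 * (24 * P * (max CI 1 * (200 * P ^ 6 * P))) ^ 2) ^ 2 :=
    (rt_pb_const (by norm_num : (0 : ℝ) ≤ 200)).mul (((rt_pb_const (by norm_num : (0 : ℝ) ≤ 10)).mul (hMh.pow 2)).pow 2)
  have hT : RtPB fun P : ℝ => 300 * P ^ 6 * (50 * (5 * (200 * P ^ 6 * P) * (24 * P))) :=
    ((rt_pb_const (by norm_num : (0 : ℝ) ≤ 300)).mul (rt_pb_pow 6)).mul ((rt_pb_const (by norm_num : (0 : ℝ) ≤ 50)).mul hΛ)
  have hg : RtPB fun P : ℝ => (200 * (10 * (24 * P * (max CI 1 * (200 * P ^ 6 * P))) ^ 2) ^ 2) ^ Cc *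
      ((max CI 1 * (200 * P ^ 6 * P)) ^ (3 + η) * (CI * (5 * (200 * P ^ 6 * P) * (24 * P)) ^ 2 *
        (300 * P ^ 6 * (50 * (5 * (200 * P ^ 6 * P) * (24 * P)))))) :=
    (hMc.rpow hCc.le).mul ((hQ.rpow (by linarith)).mul (((rt_pb_const hCI0.le).mul (hΛ.pow 2)).mul hT))
  obtain ⟨C, hC, hgP⟩ := hg
  refine ⟨C, hC, fun P f K n n' p₀ hP hf0 hf1 hsm hK0 hd hd' hn hn' h hK => ?_⟩
  have hG := (hgP P hP).2
  beta_reduce at hG
  clear hgP hQ hΛ hMh hMc hT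
  have hP0 : 0 < P := by linarith
  have hP6 : 1 ≤ P ^ 6 := one_le_pow₀ (by linarith)
  generalize hQdef : 200 * P ^ 6 * P = Q at hG
  have hQ1 : 1 ≤ Q := by rw [← hQdef]; nlinarith
  generalize hΛdef : 5 * Q * (24 * P) = Λ at hG
  have hΛ1 : 1 ≤ Λ := by rw [← hΛdef]; nlinarith
  generalize hqdef : max CI 1 * Q = q at hG
  have hq1 : 1 ≤ q := by
    rw [← hqdef]
    have : (1 : ℝ) ≤ max CI 1 := le_max_right _ _
    nlinarith
  have hCIq : CI * Q ≤ q := by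
    rw [← hqdef]
    exact mul_le_mul_of_nonneg_right (le_max_left _ _) (by linarith)
  by_cases hne : (rtBx p₀ 1 (rtChRho P) ∩ (rtThin n P (P * f) ∩ rtThin n' P (P * f))).Nonempty
  swap
  · rw [Set.not_nonempty_iff_eq_empty.1 hne]
    refine (RtCover.empty 1 f η).mono le_rfl le_rfl ?_
    positivity
  obtain ⟨w₀, hw1, hw2, hw3⟩ := hne
  -- the flat polynomial
  have hmQ : ((rtChart p₀ n).pol n').Bd Q := by rw [← hQdef]; exact h.pol_bd n' P hP0.le hn'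
  have hflat : ∀ p, p ∈ rtBx p₀ 1 (rtChRho P) → p ∈ rtThin n P (P * f) → p ∈ rtThin n' P (P * f) → _ :=
    fun p hp1 hp2 hp3 => rt_ci_pt_flat hP hf0 hsm hn' h hp1 hp2 hp3
  rw [hQdef, show 5 * Q * (24 * (P * f)) = Λ * f by rw [← hΛdef]; ring] at hflat
  have hKM := fun (M X B Y : ℝ) => rt_ci_patch_M (M := M) (X := X) (B := B) (Y := Y) hP hf0 hn hn' hd' h hK hΛ1
  generalize (rtChart p₀ n).pol n' = m at hmQ hflat hKM
  obtain ⟨mm, cx, cb, cy, ρ, hρ, hcov, hsum⟩ := hI Λ (m.al.1 / f) (m.be / f) (m.k / f) (m.d / f) (m.c / f) hΛ1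
  generalize hMdef : max 1 (max |m.al.1 / f| (max |m.be / f| |m.k / f|)) = M at hρ hsum
  have hM1 : 1 ≤ M := by rw [← hMdef]; exact le_max_left _ _
  have hM0 : 0 < M := by linarith
  have hdiv : ∀ u : ℝ, |u / f| ≤ M → |u| ≤ M * f := fun u hu => by
    rwa [abs_div, abs_of_pos hf0, div_le_iff₀ hf0] at hu
  have hMa : |m.al.1| ≤ M * f := hdiv _ (by rw [← hMdef]; exact le_max_of_le_right (le_max_left _ _))
  have hMb : |m.be| ≤ M * f := hdiv _ (by rw [← hMdef]; exact le_max_of_le_right (le_max_of_le_right (le_max_left _ _)))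
  have hMk : |m.k| ≤ M * f := hdiv _ (by rw [← hMdef]; exact le_max_of_le_right (le_max_of_le_right (le_max_right _ _)))
  have hMQ : M * f ≤ Q := by
    have hd2 : ∀ u : ℝ, |u| ≤ Q → |u / f| * f ≤ Q := fun u hu => by
      rw [abs_div, abs_of_pos hf0, div_mul_cancel₀ _ hf0.ne']; exact hu
    rw [← hMdef, max_mul_of_nonneg _ _ hf0.le, max_mul_of_nonneg _ _ hf0.le, max_mul_of_nonneg _ _ hf0.le]
    refine max_le (by linarith) (max_le (hd2 _ (rt_g1_abs_fst (by linarith) hmQ.2.2.1)) (max_le (hd2 _ hmQ.2.2.2.1) (hd2 _ hmQ.2.2.2.2)))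
  -- lower bound for `M`
  obtain ⟨bw1, bw2, bw3⟩ := rt_ci_pt_bd hP h hw1
  have hKM' : K ≤ 300 * P ^ 6 * (50 * Λ) * M :=
    hKM M _ _ _ bw1 bw2 bw3 (hflat w₀ hw1 hw2 hw3).1 (hflat w₀ hw1 hw2 hw3).2 hM1 hMa hMb hMk
  -- widths of the cells
  have hρ0 : ∀ i, 0 < ρ i := fun i => lt_of_lt_of_le (by positivity) (hρ i).1
  have hfρ : ∀ i, f ≤ q * ρ i := fun i => by
    have e1 : 1 ≤ ρ i * (CI * M) := by
      have := (hρ i).1
      rwa [div_le_iff₀ (by positivity)] at this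
    have e2 : f ≤ ρ i * (CI * (M * f)) := by
      calc f = 1 * f := (one_mul f).symm
        _ ≤ ρ i * (CI * M) * f := mul_le_mul_of_nonneg_right e1 hf0.le
        _ = ρ i * (CI * (M * f)) := by ring
    calc f ≤ ρ i * (CI * (M * f)) := e2
      _ ≤ ρ i * (CI * Q) := mul_le_mul_of_nonneg_left (mul_le_mul_of_nonneg_left hMQ hCI0.le) (hρ0 i).le
      _ ≤ ρ i * q := mul_le_mul_of_nonneg_left hCIq (hρ0 i).le
      _ = q * ρ i := mul_comm _ _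
  have hcells := fun i => hcell P f (ρ i) (24 * P * q) (cx i) (cb i) (cy i) n p₀ hP hf0 hf1 hd hn h (hρ0 i) (hρ i).2
    (by nlinarith) (by
      calc 24 * (P * f) = 24 * P * f := by ring
        _ ≤ 24 * P * (q * ρ i) := mul_le_mul_of_nonneg_left (hfρ i) (by positivity)
        _ = 24 * P * q * ρ i := by ring)
  refine (rt_ci_sum 1 f η mm _ _ hcells).mono ?_ le_rfl ?_
  · rintro p ⟨hp1, hp2, hp3⟩
    obtain ⟨b1, b2, b3⟩ := rt_ci_pt_bd hP h hp1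
    have hdv : ∀ u : ℝ, |u| ≤ Λ * f → |u / f| ≤ Λ := fun u hu => by
      rwa [abs_div, abs_of_pos hf0, div_le_iff₀ hf0]
    obtain ⟨i, hi⟩ := hcov _ _ _ b1 b2 b3
      (by
        have := hdv _ (hflat p hp1 hp2 hp3).1
        convert this using 2
        ring)
      (by
        have := hdv _ (hflat p hp1 hp2 hp3).2
        convert this using 2
        ring)
    exact Set.mem_iUnion.2 ⟨i, hp1, hp2, hi⟩
  · exact rt_ci_patch_num ρ hf0 h0 (Real.rpow_nonneg (by positivity) _) hq1 hρ0 hfρ hsum hM0 hK0 hKM' (by positivity) hG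


/-! ## 6. (CI), normalised form -/

theorem rt_ci_small {P f K : ℝ} (hP : 2 ≤ P) (hf0 : 0 < f) (hK : P ^ 30 < K) (hKf : K * f ≤ 2 * P) :
    P * f ≤ 1 / (100000 * P ^ 3) ∧ 24 * (P * f) ≤ 1 := by
  have hP0 : 0 < P := by linarith
  have h1 : P ^ 30 * f < 2 * P := lt_of_lt_of_le (mul_lt_mul_of_pos_right hK hf0) hKf
  have h2 : P ^ 29 * f < 2 := by
    have : P * (P ^ 29 * f) < P * 2 := by
      calc P * (P ^ 29 * f) = P ^ 30 * f := by ring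
        _ < 2 * P := h1
        _ = P * 2 := by ring
    exact lt_of_mul_lt_mul_left this hP0.le
  have h3 : (200000 : ℝ) ≤ P ^ 25 := by
    calc (200000 : ℝ) ≤ 2 ^ 25 := by norm_num
      _ ≤ P ^ 25 := pow_le_pow_left₀ (by norm_num) hP 25
  have h4 : 200000 * (P ^ 4 * f) ≤ P ^ 29 * f := by
    calc 200000 * (P ^ 4 * f) ≤ P ^ 25 * (P ^ 4 * f) := mul_le_mul_of_nonneg_right h3 (by positivity)
      _ = P ^ 29 * f := by ring
  have h5 : P * f ≤ 1 / (100000 * P ^ 3) := by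
    rw [le_div_iff₀ (by positivity)]
    calc P * f * (100000 * P ^ 3) = 200000 * (P ^ 4 * f) / 2 := by ring
      _ ≤ 1 := by linarith
  refine ⟨h5, ?_⟩
  have h6 : 1 / (100000 * P ^ 3) ≤ 1 / 24 := by
    apply one_div_le_one_div_of_le (by norm_num)
    have : 1 ≤ P ^ 3 := one_le_pow₀ (by linarith)
    linarith
  linarith

theorem rt_ci_card {P : ℝ} (hP : 2 ≤ P) : (100000 * P ^ 4) ^ 5 ≤ P ^ 105 := by
  have h1 : (100000 : ℝ) ≤ P ^ 17 := by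
    calc (100000 : ℝ) ≤ 2 ^ 17 := by norm_num
      _ ≤ P ^ 17 := pow_le_pow_left₀ (by norm_num) hP 17
  calc (100000 * P ^ 4) ^ 5 ≤ (P ^ 17 * P ^ 4) ^ 5 :=
        pow_le_pow_left₀ (by positivity) (mul_le_mul_of_nonneg_right h1 (by positivity)) 5
    _ = P ^ 105 := by ring

open Classical in
/-- **(CI)**, Lemma rt:thin-overlap (07 l.542-583), covering form, normalised coordinates (parent length `1`, ending angular width `1`) -/
theorem rt_ci_norm (η : ℝ) (h0 : 0 < η) (h1 : η < 1) (hI : RtCiI η) :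
    ∃ C : ℝ, 0 < C ∧ ∀ (P f K : ℝ) (n n' : RtPoly), 2 ≤ P → 0 < f → f ≤ 1 → 1 ≤ K → n.disc = 1 → n'.disc = 1 → n.Bd P → n'.Bd P →
      (1 < K → ∀ T, 0 ≤ T → ((RtPoly.comb 1 n' (-1) n).Bd T ∨ (RtPoly.comb 1 n' 1 n).Bd T) → K * f ≤ T) →
      RtCover (rtThin n P (P * f) ∩ rtThin n' P (P * f)) 1 f η (P ^ C * f ^ (1 - η) / K) := by
  obtain ⟨Cu, hCu, hunit⟩ := rt_ci_unit η h0 h1
  obtain ⟨Cp, hCp, hpatch⟩ := rt_ci_patch η h0 h1 hI
  refine ⟨Cu + Cp + 105, by positivity, fun P f K n n' hP hf0 hf1 hK1 hd hd' hn hn' hK => ?_⟩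
  have hP0 : 0 < P := by linarith
  have hP1 : 1 ≤ P := by linarith
  have hK0 : 0 < K := by linarith
  have hF : 0 < f ^ (1 - η) := Real.rpow_pos_of_pos hf0 _
  rcases le_or_gt K (P ^ 30) with hKs | hKl
  · refine (hunit P f n hP hf0 hf1 hd hn).mono Set.inter_subset_left le_rfl ?_
    rw [le_div_iff₀ hK0]
    have e1 : P ^ Cu * K ≤ P ^ (Cu + Cp + 105) := by
      calc P ^ Cu * K ≤ P ^ Cu * P ^ 30 := mul_le_mul_of_nonneg_left hKs (Real.rpow_nonneg hP0.le _)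
        _ = P ^ (Cu + 30) := by rw [Real.rpow_add hP0, ← Real.rpow_natCast P 30]; norm_num
        _ ≤ P ^ (Cu + Cp + 105) := Real.rpow_le_rpow_of_exponent_le hP1 (by linarith)
    calc P ^ Cu * f ^ (1 - η) * K = P ^ Cu * K * f ^ (1 - η) := by ring
      _ ≤ P ^ (Cu + Cp + 105) * f ^ (1 - η) := mul_le_mul_of_nonneg_right e1 hF.le
  · have hK1' : 1 < K := lt_of_le_of_lt (one_le_pow₀ hP1) hKl
    have hK' := hK hK1'
    obtain ⟨hs1, hs2⟩ := rt_ci_small hP hf0 hKl (hK' _ (by positivity) (Or.inl (rt_ci_sub_bd hn hn')))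
    obtain ⟨Z, hcard, hok, hcov⟩ := rt_chart_main hP1 n hd hn
    have hex : ∀ p ∈ rtThin n P (P * f) ∩ rtThin n' P (P * f), ∃ p₀ ∈ Z, p ∈ rtBx p₀ 1 (rtChRho P / 2) := fun p hp =>
      hcov p hp.1.1 hp.1.2.1 hp.1.2.2.1 (hp.1.2.2.2.1.trans hs1) (hp.1.2.2.2.2.trans hs1)
    have hρ0 : 0 < rtChRho P := by unfold rtChRho; positivity
    have hW0 : 0 ≤ P ^ Cp * f ^ (1 - η) / K := by positivity
    have hc := rt_g1_cells (rtThin n P (P * f) ∩ rtThin n' P (P * f))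
      (fun p => if hp : p ∈ rtThin n P (P * f) ∩ rtThin n' P (P * f) then (hex p hp).choose else p) Z
      (fun p hp => by
        simp only [dif_pos hp]
        exact (hex p hp).choose_spec.1) 1 f η _ hW0
      (fun w hw => by
        simp only [dif_pos hw]
        refine (hpatch P f K n n' (hex w hw).choose hP hf0 hf1 hs2 hK0 hd hd' hn hn' (hok _ (hex w hw).choose_spec.1) hK').mono ?_
          le_rfl le_rfl
        rintro p ⟨hp, hpk⟩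
        simp only [dif_pos hp] at hpk
        refine ⟨?_, hp⟩
        rw [← hpk]
        exact rt_ci_bx_mono zero_le_one le_rfl (by positivity) (by linarith) (hex p hp).choose_spec.2)
    refine hc.mono le_rfl le_rfl ?_
    have e1 : (Z.card : ℝ) * P ^ Cp ≤ P ^ (Cu + Cp + 105) := by
      calc (Z.card : ℝ) * P ^ Cp ≤ P ^ 105 * P ^ Cp :=
            mul_le_mul_of_nonneg_right (hcard.trans (rt_ci_card hP)) (Real.rpow_nonneg hP0.le _)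
        _ = P ^ (105 + Cp) := by rw [Real.rpow_add hP0, ← Real.rpow_natCast P 105]; norm_num
        _ ≤ P ^ (Cu + Cp + 105) := Real.rpow_le_rpow_of_exponent_le hP1 (by linarith)
    calc (Z.card : ℝ) * (P ^ Cp * f ^ (1 - η) / K) = (Z.card : ℝ) * P ^ Cp * (f ^ (1 - η) / K) := by ring
      _ ≤ P ^ (Cu + Cp + 105) * (f ^ (1 - η) / K) := mul_le_mul_of_nonneg_right e1 (by positivity)
      _ = P ^ (Cu + Cp + 105) * f ^ (1 - η) / K := by ring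


/-! ## 7. rescaling of coverings, (CI) in a frame -/

/-- the normalised row of `p` in the frame `τ` -/
noncomputable def RtTest.nrm (τ : RtTest) (p : RtRow) : RtRow := ⟨τ.V p, τ.x p, τ.z p⟩

/-- the row with given normalised coordinates -/
def RtTest.unn (τ : RtTest) (q : RtRow) : RtRow :=
  ⟨τ.As + τ.r • q.A, τ.bs + (τ.l * τ.r) • q.b, τ.ys + 2 * rtIp τ.As ((τ.l * τ.r) • q.b) + τ.l * τ.r ^ 2 * q.y⟩

theorem rt_ci_frame_eqns_cite : True := by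
  have := @RtTest.nrm.eq_1
  have := @RtTest.unn.eq_1
  have := @RtPB.eq_1
  trivial

theorem rt_ci_nrm_unn (τ : RtTest) (hl : τ.l ≠ 0) (hr : τ.r ≠ 0) (q : RtRow) : τ.nrm (τ.unn q) = q := by
  ext
  · simp [RtTest.nrm, RtTest.unn, RtTest.V, hr]
  · simp [RtTest.nrm, RtTest.unn, RtTest.V, hr]
  · simp only [RtTest.nrm, RtTest.unn, RtTest.x, add_sub_cancel_left, Prod.smul_fst, smul_eq_mul]
    field_simp
  · simp only [RtTest.nrm, RtTest.unn, RtTest.x, add_sub_cancel_left, Prod.smul_snd, smul_eq_mul]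
    field_simp
  · simp only [RtTest.nrm, RtTest.unn, RtTest.z, add_sub_cancel_left]
    field_simp
    ring

/-- the pull-back of a normalised test to the frame `τ` -/
def RtTest.pull (τ σ : RtTest) : RtTest := τ.g1sub (τ.unn ⟨σ.As, σ.bs, σ.ys⟩) σ.r σ.f σ.n

theorem rt_ci_pull_set (τ σ : RtTest) (hl : τ.l ≠ 0) (hr : τ.r ≠ 0) (hσ : σ.l = 1) (M : ℝ) (p : RtRow) :
    p ∈ (τ.pull σ).set M ↔ τ.nrm p ∈ σ.set M := by
  have hw := rt_ci_nrm_unn τ hl hr ⟨σ.As, σ.bs, σ.ys⟩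
  have hwV : τ.V (τ.unn ⟨σ.As, σ.bs, σ.ys⟩) = σ.As := congrArg RtRow.A hw
  have hwx : τ.x (τ.unn ⟨σ.As, σ.bs, σ.ys⟩) = σ.bs := congrArg RtRow.b hw
  have hwz : τ.z (τ.unn ⟨σ.As, σ.bs, σ.ys⟩) = σ.ys := congrArg RtRow.y hw
  have ex : (τ.pull σ).x p = σ.x (τ.nrm p) := by
    rw [RtTest.pull, rt_g1_sub_x, hwx]
    simp [RtTest.x, RtTest.nrm, hσ]
  have eV : (τ.pull σ).V p = σ.V (τ.nrm p) := by
    rw [RtTest.pull, rt_g1_sub_V, hwV]
    simp [RtTest.V, RtTest.nrm]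
  have ez : (τ.pull σ).z p = σ.z (τ.nrm p) := by
    rw [RtTest.pull, rt_g1_sub_z τ hl hr, hwx, hwz, hwV]
    simp [RtTest.z, RtTest.nrm, hσ]
  have en : (τ.pull σ).n = σ.n := rfl
  have ef : (τ.pull σ).f = σ.f := rfl
  simp only [RtTest.set, RtTest.box, RtTest.Fv, RtTest.Gv, Set.mem_ofPred_eq, ex, eV, ez, en, ef]

/-- **rescaling of a covering** : normalised coordinates of the frame `τ` -/
theorem rt_ci_rescale (τ : RtTest) (hl : 0 < τ.l) (hr : 0 < τ.r) {S : Set RtRow} {u η W : ℝ} (h : RtCover S 1 u η W) :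
    RtCover {p | τ.nrm p ∈ S} τ.l (τ.r * u) η (τ.r ^ 4 * W) := by
  obtain ⟨m, σ, h1, h2, h3⟩ := h
  refine ⟨m, fun i => τ.pull (σ i), fun i => ⟨?_, rfl, ?_⟩, ?_, ?_⟩
  · obtain ⟨a1, a2, a3, a4, a5, a6⟩ := (h1 i).1
    exact ⟨hl, mul_pos a2 hr, a3, a4, a5, a6⟩
  · show τ.r * u ≤ (σ i).r * τ.r * (σ i).f
    calc τ.r * u ≤ τ.r * (σ i).unc := mul_le_mul_of_nonneg_left (h1 i).2.2 hr.le
      _ = (σ i).r * τ.r * (σ i).f := by unfold RtTest.unc; ring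
  · intro p hp
    obtain ⟨i, hi⟩ := Set.mem_iUnion.1 (h2 hp)
    exact Set.mem_iUnion.2 ⟨i, (rt_ci_pull_set τ (σ i) hl.ne' hr.ne' (h1 i).2.1 1 p).2 hi⟩
  · have e : ∀ i, (τ.pull (σ i)).w η = τ.r ^ 4 * (σ i).w η := fun i => by
      show ((σ i).r * τ.r) ^ 4 * (σ i).f ^ (1 - η) = τ.r ^ 4 * ((σ i).r ^ 4 * (σ i).f ^ (1 - η))
      ring
    simp only [e]
    rw [← Finset.mul_sum]
    exact mul_le_mul_of_nonneg_left h3 (by positivity)

theorem rt_ci_set_thin (τ : RtTest) {P P' : ℝ} (hP : 0 ≤ P) (hPP : P ≤ P') (hf : 0 ≤ τ.f) {p : RtRow} (hp : p ∈ τ.set P) :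
    τ.nrm p ∈ rtThin τ.n P' (P' * τ.f) := by
  obtain ⟨⟨a1, a2, a3⟩, a4, a5⟩ := hp
  have e : P ^ 2 ≤ P' ^ 2 := pow_le_pow_left₀ hP hPP 2
  have e' : P * τ.f ≤ P' * τ.f := mul_le_mul_of_nonneg_right hPP hf
  exact ⟨a3.trans e, a1.trans e, a2.trans hPP, a4.trans e', a5.trans e'⟩

/-- **(CI) in a frame** (exit wanted by the chief): two `P`-enlarged tests with the same frame and thickness -/
theorem rt_ci_frame (η : ℝ) (h0 : 0 < η) (h1 : η < 1) (hI : RtCiI η) :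
    ∃ C : ℝ, 0 < C ∧ ∀ (P K : ℝ) (τ τ' : RtTest), 2 ≤ P → 1 ≤ K → τ.Adm P → τ'.Adm P → τ'.l = τ.l → τ'.r = τ.r → τ'.f = τ.f →
      τ'.As = τ.As → τ'.bs = τ.bs → τ'.ys = τ.ys →
      (1 < K → ∀ T, 0 ≤ T → ((RtPoly.comb 1 τ'.n (-1) τ.n).Bd T ∨ (RtPoly.comb 1 τ'.n 1 τ.n).Bd T) → K * τ.f ≤ T) →
      RtCover (τ.set P ∩ τ'.set P) τ.l τ.unc η (P ^ C * τ.w η / K) := by
  obtain ⟨C, hC, h⟩ := rt_ci_norm η h0 h1 hI
  refine ⟨8 * C, by positivity, fun P K τ τ' hP hK1 ha ha' el er ef eA eb ey hK => ?_⟩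
  have hP0 : 0 < P := by linarith
  have hK0 : 0 < K := by linarith
  have hc := rt_ci_rescale τ ha.l_pos ha.r_pos
    (h (100 * P) τ.f K τ.n τ'.n (by linarith) ha.f_pos ha.f_le hK1 ha.disc ha'.disc ha.bd ha'.bd hK)
  refine hc.mono ?_ le_rfl ?_
  · rintro p ⟨hp, hp'⟩
    refine ⟨rt_ci_set_thin τ hP0.le (by linarith) ha.f_pos.le hp, ?_⟩
    have := rt_ci_set_thin τ' hP0.le (by linarith : P ≤ 100 * P) ha'.f_pos.le hp'
    have en : τ'.nrm p = τ.nrm p := by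
      simp only [RtTest.nrm, RtTest.V, RtTest.x, RtTest.z, el, er, eA, eb, ey]
    rwa [en, ef] at this
  · have e1 : (100 * P) ^ C ≤ P ^ (8 * C) := by
      have : 100 * P ≤ P ^ (8 : ℝ) := by
        have h7 : (100 : ℝ) ≤ P ^ 7 := by
          calc (100 : ℝ) ≤ 2 ^ 7 := by norm_num
            _ ≤ P ^ 7 := pow_le_pow_left₀ (by norm_num) hP 7
        calc 100 * P ≤ P ^ 7 * P := mul_le_mul_of_nonneg_right h7 hP0.le
          _ = P ^ 8 := by ring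
          _ = P ^ (8 : ℝ) := by rw [← Real.rpow_natCast]; norm_num
      calc (100 * P) ^ C ≤ (P ^ (8 : ℝ)) ^ C := Real.rpow_le_rpow (by positivity) this hC.le
        _ = P ^ (8 * C) := (Real.rpow_mul hP0.le _ _).symm
    have hF : 0 < τ.f ^ (1 - η) := Real.rpow_pos_of_pos ha.f_pos _
    have hr := ha.r_pos
    calc τ.r ^ 4 * ((100 * P) ^ C * τ.f ^ (1 - η) / K) = (100 * P) ^ C * (τ.r ^ 4 * τ.f ^ (1 - η) / K) := by ring
      _ ≤ P ^ (8 * C) * (τ.r ^ 4 * τ.f ^ (1 - η) / K) := mul_le_mul_of_nonneg_right e1 (by positivity)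
      _ = P ^ (8 * C) * τ.w η / K := by unfold RtTest.w; ring


/-- (CI) in a frame, hypothesis in the form `|n' ∓ n| > K f` -/
theorem rt_ci_frame_not (η : ℝ) (h0 : 0 < η) (h1 : η < 1) (hI : RtCiI η) :
    ∃ C : ℝ, 0 < C ∧ ∀ (P K : ℝ) (τ τ' : RtTest), 2 ≤ P → 1 ≤ K → τ.Adm P → τ'.Adm P → τ'.l = τ.l → τ'.r = τ.r → τ'.f = τ.f →
      τ'.As = τ.As → τ'.bs = τ.bs → τ'.ys = τ.ys → ¬ (RtPoly.comb 1 τ'.n (-1) τ.n).Bd (K * τ.f) →
      ¬ (RtPoly.comb 1 τ'.n 1 τ.n).Bd (K * τ.f) → RtCover (τ.set P ∩ τ'.set P) τ.l τ.unc η (P ^ C * τ.w η / K) := by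
  obtain ⟨C, hC, h⟩ := rt_ci_frame η h0 h1 hI
  refine ⟨C, hC, fun P K τ τ' hP hK1 ha ha' el er ef eA eb ey hm hp => h P K τ τ' hP hK1 ha ha' el er ef eA eb ey fun _ T hT hh => ?_⟩
  by_contra hlt
  rw [not_le] at hlt
  rcases hh with hh | hh
  · exact hm (rt_ci_bd_mono hT hlt.le hh)
  · exact hp (rt_ci_bd_mono hT hlt.le hh)


/-! ## 8. final exits -/

/-- the covering (I) (`Cyl/Alg.lean`) -/
theorem rt_ci_I {η : ℝ} (h0 : 0 < η) : RtCiI η := cy_I_cover h0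

/-- **(CI) in a frame** -/
theorem rt_CI (η : ℝ) (h0 : 0 < η) (h1 : η < 1) :
    ∃ C : ℝ, 0 < C ∧ ∀ (P K : ℝ) (τ τ' : RtTest), 2 ≤ P → 1 ≤ K → τ.Adm P → τ'.Adm P → τ'.l = τ.l → τ'.r = τ.r → τ'.f = τ.f →
      τ'.As = τ.As → τ'.bs = τ.bs → τ'.ys = τ.ys →
      (1 < K → ∀ T, 0 ≤ T → ((RtPoly.comb 1 τ'.n (-1) τ.n).Bd T ∨ (RtPoly.comb 1 τ'.n 1 τ.n).Bd T) → K * τ.f ≤ T) →
      RtCover (τ.set P ∩ τ'.set P) τ.l τ.unc η (P ^ C * τ.w η / K) :=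
  rt_ci_frame η h0 h1 (rt_ci_I h0)

theorem rt_CI_not (η : ℝ) (h0 : 0 < η) (h1 : η < 1) :
    ∃ C : ℝ, 0 < C ∧ ∀ (P K : ℝ) (τ τ' : RtTest), 2 ≤ P → 1 ≤ K → τ.Adm P → τ'.Adm P → τ'.l = τ.l → τ'.r = τ.r → τ'.f = τ.f →
      τ'.As = τ.As → τ'.bs = τ.bs → τ'.ys = τ.ys → ¬ (RtPoly.comb 1 τ'.n (-1) τ.n).Bd (K * τ.f) →
      ¬ (RtPoly.comb 1 τ'.n 1 τ.n).Bd (K * τ.f) → RtCover (τ.set P ∩ τ'.set P) τ.l τ.unc η (P ^ C * τ.w η / K) :=
  rt_ci_frame_not η h0 h1 (rt_ci_I h0)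

theorem rt_CI_norm (η : ℝ) (h0 : 0 < η) (h1 : η < 1) :
    ∃ C : ℝ, 0 < C ∧ ∀ (P f K : ℝ) (n n' : RtPoly), 2 ≤ P → 0 < f → f ≤ 1 → 1 ≤ K → n.disc = 1 → n'.disc = 1 → n.Bd P → n'.Bd P →
      (1 < K → ∀ T, 0 ≤ T → ((RtPoly.comb 1 n' (-1) n).Bd T ∨ (RtPoly.comb 1 n' 1 n).Bd T) → K * f ≤ T) →
      RtCover (rtThin n P (P * f) ∩ rtThin n' P (P * f)) 1 f η (P ^ C * f ^ (1 - η) / K) :=
  rt_ci_norm η h0 h1 (rt_ci_I h0)

end Claimed.Agent.R256
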