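import Claimed.Agent.R256.Rt.Chart

/-!
# Row 256, folder Rt, file ChartContract: CONTRACT of G3 = Lemma rt:conformal-chart (07 l.486-540)      (architect of the block: helper76; chief Rt: helper216)

CONTRACT FILE: the `sorry`s below are the LEAVES (subtask target `row256`, names `L-256-RT-CH-*`); everything else is proved.   Prove a leaf IN PLACE, statement verbatim.
All leaves are elementary real algebra / inequalities on top of `Rt/Conf.lean` (exact identities) and `Rt/Chart.lean` (generic theory); no analysis, no measure.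

Numbers.  `ρ = rtChRho P = 1/(1000 P²)`.  A PATCH is `rtBx p₀ 1 ρ` (centred coordinates `|ΔA|, |Δb|, |Δy - 2A₀·Δb| ≤ ρ`), its BUFFERED part `rtBx p₀ 1 (ρ/2)`.
* `rt_chart_ray`  (RAY)  exact ray of `{F = 0}` near a witness: move the point by `s g`, then the velocity by `σ g` (two scalar quadratics, explicit roots:
                  `N = |g|`, `r = sqrt(1+4βG)`, `s N = -2F/(N+r)`, `σ N = -2G/(r+1)`, `N - 2 k s N = r`).
* `rt_ch_db_bd`   (DB)   the dual boost on `rtBx 0 1 ρ`: `Q ∈ [.9,1.1]`, `|T0| ≤ .01`, Hit 5→4, Fwd 2→5/2, size of the image row.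
* `rt_ch_cf_bd`   (CF)   `C_(0,(0,k),0)` on the image: `D0 ∈ [.9,1.1]`, `|D1| ≤ .01`, Hit 4→3, Fwd 5/2→3, size of the image row.
* `rt_chart_hit`  (HIT)  assembly of the four factors by `RtCh.Hit.comp`, `RtCh.Fwd.comp`.
* `rt_chart_lin`, `rt_chart_pol_bd`, `rt_chart_pol_bd_inv`  (POL)  the coefficient map is linear, norm `≤ 200 P⁶`, inverse norm `≤ 300 P⁶`.
* `rt_chart_cover` (COV) `(10⁵ P⁴)⁵` buffered patches cover the bounded rays with `|F(0)|, |L_A F| ≤ 1/(10⁵ P³)`  (grid of side `1/(40000 P³)`, one witness per cell, RAY).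
PROVED HERE from the leaves: `rt_chart_ok`, **`rt_chart_main`** (= the Lemma), `rt_chart_box`, `rt_chart_box_inv`, `rt_chart_sub`, `rt_chart_sub_inv`, `rt_chart_thin` (`|b₂'|, |A₂'| ≲ |F| + |G|`).
The derivative bounds `C_j P^(Cj+C)` of the Lemma are NOT part of the contract: the wave transport goes through exact factors (route note in `Rt/TransportRoute`), CI/lift/endlift use boxes + sublevels + coefficients only.
-/

set_option autoImplicit false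

namespace Claimed.Agent.R256

/-- the radius of a chart patch -/
noncomputable def rtChRho (P : ℝ) : ℝ := 1 / (1000 * P ^ 2)

/-- the time axis -/
def rtRow0 : RtRow := ⟨0, 0, 0⟩

/-- linear combination of coefficient vectors -/
def RtPoly.comb (a : ℝ) (n : RtPoly) (b : ℝ) (n' : RtPoly) : RtPoly :=
  ⟨a * n.c + b * n'.c, a * n.d + b * n'.d, a • n.al + b • n'.al, a * n.be + b * n'.be, a * n.k + b * n'.k⟩

/-- the flat polynomial `b₂` -/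
def rtFlat : RtPoly := ⟨0, 0, (0, 1), 0, 0⟩

/-- everything a consumer needs from the flattening chart at the exact ray `p₀` -/
structure RtChartOk (P : ℝ) (n : RtPoly) (p₀ : RtRow) : Prop where
  ex : (rtChart p₀ n).Ex (rtChartDom p₀ n)
  flat : (rtChart p₀ n).pol n = rtFlat
  dom : ∀ p ∈ rtBx p₀ 1 (rtChRho P), p ∈ rtChartDom p₀ n
  hit : ∀ p ∈ rtBx p₀ 1 (rtChRho P), (rtChart p₀ n).Hit p 5 3 2
  fwd : ∀ p ∈ rtBx p₀ 1 (rtChRho P), (rtChart p₀ n).Fwd p 2 3 2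
  /-- the image rays lie in a small cone about the time axis -/
  img : ∀ p ∈ rtBx p₀ 1 (rtChRho P), rtSq ((rtChart p₀ n).row p).A ≤ (6 * P * rtChRho P) ^ 2 ∧
    rtSq ((rtChart p₀ n).row p).b ≤ (4 * P * rtChRho P) ^ 2 ∧ |((rtChart p₀ n).row p).y| ≤ 3 * rtChRho P
  /-- time increases at a rate comparable to one (`rt_ch_tm_sub`) -/
  wr : ∀ p ∈ rtBx p₀ 1 (rtChRho P), 4 / 5 ≤ (rtChart p₀ n).wr p ∧ (rtChart p₀ n).wr p ≤ 5 / 4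
  lin : ∀ (a : ℝ) (m : RtPoly) (b : ℝ) (m' : RtPoly),
    (rtChart p₀ n).pol (RtPoly.comb a m b m') = RtPoly.comb a ((rtChart p₀ n).pol m) b ((rtChart p₀ n).pol m')
  pol_bd : ∀ (m : RtPoly) (B : ℝ), 0 ≤ B → m.Bd B → ((rtChart p₀ n).pol m).Bd (200 * P ^ 6 * B)
  pol_bd_inv : ∀ (m : RtPoly) (B : ℝ), 0 ≤ B → ((rtChart p₀ n).pol m).Bd B → m.Bd (300 * P ^ 6 * B)

theorem rt_chart_contract_eqns_cite : True := by
  have := @rtChRho.eq_1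
  have := @rtRow0.eq_1
  have := @RtPoly.comb.eq_1
  have := @rtFlat.eq_1
  trivial

/-! ## Leaves -/

/-- the value of `F` after the displacement `s g` of the point -/
theorem rt_chart_ray_F (n : RtPoly) (A b : ℝ × ℝ) (y s : ℝ) :
    n.F 0 (b + s • n.g 0 b A) (y + 2 * s * rtIp A (n.g 0 b A))
      = n.F 0 b y + s * rtSq (n.g 0 b A) - n.k * s ^ 2 * rtSq (n.g 0 b A) := by
  simp only [RtPoly.g, RtPoly.F, rtSq, rtIp, Prod.fst_add, Prod.snd_add, Prod.fst_sub, Prod.snd_sub,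
    Prod.smul_fst, Prod.smul_snd, smul_eq_mul]
  ring

/-- the value of `G` after the displacements `s g` of the point and `t g` of the velocity -/
theorem rt_chart_ray_G (n : RtPoly) (A b : ℝ × ℝ) (y s t : ℝ) :
    n.G 0 (b + s • n.g 0 b A) (y + 2 * s * rtIp A (n.g 0 b A)) (A + t • n.g 0 b A)
      = n.G 0 b y A + t * (1 - 2 * n.k * s) * rtSq (n.g 0 b A) + n.be * t ^ 2 * rtSq (n.g 0 b A) := by
  simp only [RtPoly.g, RtPoly.G, rtSq, rtIp, Prod.fst_add, Prod.snd_add, Prod.fst_sub, Prod.snd_sub,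
    Prod.smul_fst, Prod.smul_snd, smul_eq_mul]
  ring

theorem rt_chart_ray_sq {a x c : ℝ} (h : a * x = -2 * c) (ha : 1 ≤ a ^ 2) : x ^ 2 ≤ (2 * |c|) ^ 2 := by
  rw [mul_pow, sq_abs]
  have h3 : a ^ 2 * x ^ 2 = 4 * c ^ 2 := by
    have : a ^ 2 * x ^ 2 = (a * x) ^ 2 := by ring
    rw [this, h]; ring
  nlinarith [sq_nonneg x]

/-- LEAF `L-256-RT-CH-RAY` -/
theorem rt_chart_ray (n : RtPoly) (hd : n.disc = 1) (p : RtRow) (h1 : |n.be * n.G 0 p.b p.y p.A| ≤ 1 / 16)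
    (h2 : |n.k * n.F 0 p.b p.y| ≤ 1 / 16) :
    ∃ p₀ : RtRow, n.F 0 p₀.b p₀.y = 0 ∧ n.G 0 p₀.b p₀.y p₀.A = 0 ∧ rtSq (p₀.b - p.b) ≤ (2 * |n.F 0 p.b p.y|) ^ 2 ∧
      p₀.y - p.y - 2 * rtIp p.A (p₀.b - p.b) = 0 ∧ rtSq (p₀.A - p.A) ≤ (2 * |n.G 0 p.b p.y p.A|) ^ 2 := by
  obtain ⟨F0, hF0⟩ : ∃ F0, F0 = n.F 0 p.b p.y := ⟨_, rfl⟩
  obtain ⟨G0, hG0⟩ : ∃ G0, G0 = n.G 0 p.b p.y p.A := ⟨_, rfl⟩
  obtain ⟨g, hg⟩ : ∃ g, g = n.g 0 p.b p.A := ⟨_, rfl⟩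
  have hid : rtSq g = 1 + 4 * n.be * G0 - 4 * n.k * F0 := by
    rw [hg, hG0, hF0, rt_disc_identity n 0 p.b p.y p.A, hd]
    ring
  rw [← hF0] at h2 ⊢
  rw [← hG0] at h1 ⊢
  have a1 := abs_le.1 h1
  have a2 := abs_le.1 h2
  obtain ⟨N, hN⟩ : ∃ N, N = Real.sqrt (rtSq g) := ⟨_, rfl⟩
  obtain ⟨r, hr⟩ : ∃ r, r = Real.sqrt (1 + 4 * n.be * G0) := ⟨_, rfl⟩
  have hN0 : 0 ≤ N := hN ▸ Real.sqrt_nonneg _
  have hr0 : 0 ≤ r := hr ▸ Real.sqrt_nonneg _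
  have hN2 : N ^ 2 = 1 + 4 * n.be * G0 - 4 * n.k * F0 := by
    rw [hN, Real.sq_sqrt (by rw [hid]; linarith), hid]
  have hr2 : r ^ 2 = 1 + 4 * n.be * G0 := by
    rw [hr, Real.sq_sqrt (by linarith)]
  have hNpos : 0 < N := by
    rcases hN0.eq_or_lt with h | h
    · rw [← h] at hN2
      linarith
    · exact h
  have hNr : 0 < N + r := by linarith
  have hr1 : 0 < r + 1 := by linarith
  obtain ⟨σ, hσ⟩ : ∃ σ, σ = -2 * F0 / (N + r) := ⟨_, rfl⟩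
  obtain ⟨ς, hς⟩ : ∃ ς, ς = -2 * G0 / (r + 1) := ⟨_, rfl⟩
  have eσ : (N + r) * σ = -2 * F0 := by rw [hσ]; field_simp
  have eς : (r + 1) * ς = -2 * G0 := by rw [hς]; field_simp
  have kσ : N - r = 2 * n.k * σ := by
    have h3 : (N - r) * (N + r) = 2 * n.k * σ * (N + r) := by
      have : 2 * n.k * σ * (N + r) = 2 * n.k * ((N + r) * σ) := by ring
      rw [this, eσ]
      linear_combination hN2 - hr2
    exact mul_right_cancel₀ hNr.ne' h3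
  have βς : 1 - r = 2 * n.be * ς := by
    have h3 : (1 - r) * (r + 1) = 2 * n.be * ς * (r + 1) := by
      have : 2 * n.be * ς * (r + 1) = 2 * n.be * ((r + 1) * ς) := by ring
      rw [this, eς]
      linear_combination -hr2
    exact mul_right_cancel₀ hr1.ne' h3
  have hgN : rtSq g = N ^ 2 := by rw [hN2, hid]
  have s1 : σ / N * N ^ 2 = σ * N := by field_simp
  have s2 : (σ / N) ^ 2 * N ^ 2 = σ ^ 2 := by field_simp
  have s3 : (ς / N) ^ 2 * N ^ 2 = ς ^ 2 := by field_simp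
  have s4 : ς / N * (1 - 2 * n.k * (σ / N)) * N ^ 2 = ς * (N - 2 * n.k * σ) := by field_simp
  have hsm : ∀ t : ℝ, rtSq (t • g) = t ^ 2 * rtSq g := by
    intro t
    simp only [rtSq, Prod.smul_fst, Prod.smul_snd, smul_eq_mul]
    ring
  have hip : ∀ t : ℝ, rtIp p.A (t • g) = t * rtIp p.A g := by
    intro t
    simp only [rtIp, Prod.smul_fst, Prod.smul_snd, smul_eq_mul]
    ring
  have evb : p.b + (σ / N) • g - p.b = (σ / N) • g := add_sub_cancel_left _ _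
  have evA : p.A + (ς / N) • g - p.A = (ς / N) • g := add_sub_cancel_left _ _
  refine ⟨⟨p.A + (ς / N) • g, p.b + (σ / N) • g, p.y + 2 * (σ / N) * rtIp p.A g⟩, ?_, ?_, ?_, ?_, ?_⟩
  · show n.F 0 (p.b + (σ / N) • g) (p.y + 2 * (σ / N) * rtIp p.A g) = 0
    have s2' : n.k * (σ / N) ^ 2 * N ^ 2 = n.k * σ ^ 2 := by rw [mul_assoc, s2]
    rw [hg, rt_chart_ray_F, ← hg, ← hF0, hgN, s1, s2']
    -- `F0 + σ N - k σ² = 0`
    linear_combination (1 / 2 : ℝ) * eσ + (σ / 2) * kσ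
  · show n.G 0 (p.b + (σ / N) • g) (p.y + 2 * (σ / N) * rtIp p.A g) (p.A + (ς / N) • g) = 0
    have s3' : n.be * (ς / N) ^ 2 * N ^ 2 = n.be * ς ^ 2 := by rw [mul_assoc, s3]
    rw [hg, rt_chart_ray_G, ← hg, ← hG0, hgN, s4, s3']
    -- `G0 + ς (N - 2 k σ) + β ς² = 0`
    linear_combination (1 / 2 : ℝ) * eς + ς * kσ - (ς / 2) * βς
  · show rtSq (p.b + (σ / N) • g - p.b) ≤ _
    rw [evb, hsm, hgN, s2]
    refine rt_chart_ray_sq eσ ?_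
    have := mul_nonneg hN0 hr0
    have e : (N + r) ^ 2 = N ^ 2 + r ^ 2 + 2 * (N * r) := by ring
    rw [e, hN2, hr2]
    linarith
  · show p.y + 2 * (σ / N) * rtIp p.A g - p.y - 2 * rtIp p.A (p.b + (σ / N) • g - p.b) = 0
    rw [evb, hip]
    ring
  · show rtSq (p.A + (ς / N) • g - p.A) ≤ _
    rw [evA, hsm, hgN, s3]
    refine rt_chart_ray_sq eς ?_
    have e : (r + 1) ^ 2 = r ^ 2 + 2 * r + 1 := by ring
    rw [e]
    have := sq_nonneg r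
    linarith

theorem rt_chp_mul {x y a b : ℝ} (hx : |x| ≤ a) (hy : |y| ≤ b) : |x * y| ≤ a * b := by
  rw [abs_mul]
  exact mul_le_mul hx hy (abs_nonneg _) ((abs_nonneg _).trans hx)

theorem rt_chp_add {x y a b : ℝ} (hx : |x| ≤ a) (hy : |y| ≤ b) : |x + y| ≤ a + b :=
  (abs_add_le _ _).trans (add_le_add hx hy)

theorem rt_chp_sub {x y a b : ℝ} (hx : |x| ≤ a) (hy : |y| ≤ b) : |x - y| ≤ a + b := by
  rw [sub_eq_add_neg]
  exact rt_chp_add hx (by rwa [abs_neg])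

theorem rt_chp_sq_add {u v : ℝ × ℝ} {a b : ℝ} (ha : 0 ≤ a) (hb : 0 ≤ b) (hu : rtSq u ≤ a ^ 2) (hv : rtSq v ≤ b ^ 2) :
    rtSq (u + v) ≤ (a + b) ^ 2 := by
  have h := rtIp_abs_le ha hb hu hv
  have e : rtSq (u + v) = rtSq u + 2 * rtIp u v + rtSq v := by
    simp only [rtSq, rtIp, Prod.fst_add, Prod.snd_add]
    ring
  rw [e]
  nlinarith [(abs_le.1 h).2]

theorem rt_chp_sq_sub {u v : ℝ × ℝ} {a b : ℝ} (ha : 0 ≤ a) (hb : 0 ≤ b) (hu : rtSq u ≤ a ^ 2) (hv : rtSq v ≤ b ^ 2) :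
    rtSq (u - v) ≤ (a + b) ^ 2 := by
  have h := rtIp_abs_le ha hb hu hv
  have e : rtSq (u - v) = rtSq u - 2 * rtIp u v + rtSq v := by
    simp only [rtSq, rtIp, Prod.fst_sub, Prod.snd_sub]
    ring
  rw [e]
  nlinarith [(abs_le.1 h).1]

theorem rt_chp_sq_smul {u : ℝ × ℝ} {c a b : ℝ} (hc : |c| ≤ b) (hu : rtSq u ≤ a ^ 2) : rtSq (c • u) ≤ (b * a) ^ 2 := by
  have e : rtSq (c • u) = c ^ 2 * rtSq u := by
    simp only [rtSq, Prod.smul_fst, Prod.smul_snd, smul_eq_mul]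
    ring
  rw [e, mul_pow]
  exact mul_le_mul (sq_le_sq' (by linarith [(abs_le.1 hc).1]) (abs_le.1 hc).2) hu (rtSq_nonneg u) (sq_nonneg b)

theorem rt_chp_fst {u : ℝ × ℝ} {a : ℝ} (ha : 0 ≤ a) (hu : rtSq u ≤ a ^ 2) : |u.1| ≤ a := by
  unfold rtSq at hu
  exact abs_le_of_sq_le_sq (by nlinarith [sq_nonneg u.2]) ha

theorem rt_chp_snd {u : ℝ × ℝ} {a : ℝ} (ha : 0 ≤ a) (hu : rtSq u ≤ a ^ 2) : |u.2| ≤ a := by
  unfold rtSq at hu
  exact abs_le_of_sq_le_sq (by nlinarith [sq_nonneg u.1]) ha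

theorem rt_chp_bd_mono {n : RtPoly} {M M' : ℝ} (h0 : 0 ≤ M) (h : M ≤ M') (hn : n.Bd M) : n.Bd M' :=
  ⟨hn.1.trans h, hn.2.1.trans h, hn.2.2.1.trans (pow_le_pow_left₀ h0 h 2), hn.2.2.2.1.trans h, hn.2.2.2.2.trans h⟩

theorem rt_chp_rho {P : ℝ} (hP : 1 ≤ P) : 0 < rtChRho P ∧ P ^ 2 * rtChRho P = 1 / 1000 ∧ P * rtChRho P ≤ 1 / 1000 ∧
    rtChRho P ≤ 1 / 1000 ∧ rtChRho P ≤ P * rtChRho P := by
  have hP0 : 0 < P := by linarith
  have h0 : 0 < rtChRho P := by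
    unfold rtChRho
    positivity
  have h1 : P ^ 2 * rtChRho P = 1 / 1000 := by
    unfold rtChRho
    field_simp
  have h4 : rtChRho P ≤ P * rtChRho P := by nlinarith
  have h2 : P * rtChRho P ≤ 1 / 1000 := by
    rw [← h1]
    nlinarith
  exact ⟨h0, h1, h2, h4.trans h2, h4⟩

theorem rt_chp_div {x a Q : ℝ} (hx : |x| ≤ a) (hQ : 99 / 100 ≤ Q) : |x / Q| ≤ 102 / 100 * a := by
  have hQ0 : 0 < Q := by linarith
  have ha : 0 ≤ a := (abs_nonneg _).trans hx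
  rw [abs_div, abs_of_pos hQ0, div_le_iff₀ hQ0]
  nlinarith

theorem rt_chp_two {x a : ℝ} (hx : |x| ≤ a) : |2 * x| ≤ 2 * a := by
  rw [abs_mul, abs_of_pos (by norm_num : (0 : ℝ) < 2)]
  linarith

theorem rt_chp_sq_mk {x y a b c : ℝ} (hx : |x| ≤ a) (hy : |y| ≤ b) (h : a ^ 2 + b ^ 2 ≤ c ^ 2) : rtSq (x, y) ≤ c ^ 2 := by
  unfold rtSq
  simp only
  have h1 := sq_le_sq' (by linarith [(abs_le.1 hx).1]) (abs_le.1 hx).2
  have h2 := sq_le_sq' (by linarith [(abs_le.1 hy).1]) (abs_le.1 hy).2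
  linarith

theorem rt_chp_pow {x a : ℝ} (hx : |x| ≤ a) : |x ^ 2| ≤ a ^ 2 := by
  rw [abs_pow]
  exact pow_le_pow_left₀ (abs_nonneg _) hx 2

/-- LEAF `L-256-RT-CH-DB` -/
theorem rt_ch_db_bd {P β : ℝ} (hP : 1 ≤ P) (hβ : |β| ≤ P) {p : RtRow} (hA : rtSq p.A ≤ rtChRho P ^ 2)
    (hb : rtSq p.b ≤ rtChRho P ^ 2) (hy : |p.y| ≤ rtChRho P) :
    rtCfQ β p ≠ 0 ∧ (rtChDb β).Hit p 5 4 1 ∧ (rtChDb β).Fwd p 2 (5 / 2) 1 ∧
      (rtSq (rtCfRowDb β p).A ≤ (2 * rtChRho P) ^ 2 ∧ rtSq (rtCfRowDb β p).b ≤ (3 * P * rtChRho P) ^ 2 ∧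
        |(rtCfRowDb β p).y| ≤ 2 * rtChRho P) ∧
      9 / 10 ≤ (rtChDb β).wr p ∧ (rtChDb β).wr p ≤ 11 / 10 := by
  obtain ⟨hr0, hr1, hr2, hr3, hr4⟩ := rt_chp_rho hP
  obtain ⟨r, hr⟩ : ∃ r, r = rtChRho P := ⟨_, rfl⟩
  rw [← hr] at hr0 hr1 hr2 hr3 hr4 hA hb hy ⊢
  have hP0 : 0 ≤ P := by linarith
  have hA1 := rt_chp_fst hr0.le hA
  have hA2 := rt_chp_snd hr0.le hA
  have hb1 := rt_chp_fst hr0.le hb
  have hb2 := rt_chp_snd hr0.le hb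
  have hS : |rtSq p.A| ≤ r ^ 2 := by rwa [abs_of_nonneg (rtSq_nonneg _)]
  have hβ2 := rt_chp_pow hβ
  have k1 : P * r ^ 2 ≤ r / 1000 := by nlinarith
  have k2 : P ^ 2 * r ^ 2 = r / 1000 := by
    calc P ^ 2 * r ^ 2 = (P ^ 2 * r) * r := by ring
      _ = r / 1000 := by rw [hr1]; ring
  have k3 : r ^ 2 ≤ r / 1000 := by nlinarith
  obtain ⟨Q, hQ⟩ : ∃ Q, Q = rtCfQ β p := ⟨_, rfl⟩
  obtain ⟨T0, hT⟩ : ∃ T0, T0 = rtCfT0 β p := ⟨_, rfl⟩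
  have q1 : |Q - 1| ≤ 3 / 1000 := by
    have e : Q - 1 = 2 * (β * p.A.2) + β ^ 2 * rtSq p.A := by
      rw [hQ]
      unfold rtCfQ
      ring
    rw [e]
    refine (rt_chp_add (rt_chp_two (rt_chp_mul hβ hA2)) (rt_chp_mul hβ2 hS)).trans ?_
    linarith
  have hQlo : 99 / 100 ≤ Q := by linarith [(abs_le.1 q1).1]
  have hQhi : Q ≤ 101 / 100 := by linarith [(abs_le.1 q1).2]
  have hQ0 : 0 < Q := by linarith
  have hQa : |Q| ≤ 101 / 100 := by rwa [abs_of_pos hQ0]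
  have t1 : |T0| ≤ 3 / 1000 := by
    have e : T0 = 2 * (β * p.b.2) + β ^ 2 * p.y := by
      rw [hT]
      unfold rtCfT0
      ring
    rw [e]
    refine (rt_chp_add (rt_chp_two (rt_chp_mul hβ hb2)) (rt_chp_mul hβ2 hy)).trans ?_
    linarith
  have c1 : |p.A.1 / Q| ≤ 102 / 100 * r := rt_chp_div hA1 hQlo
  have c2 : |(p.A.2 + β * rtSq p.A) / Q| ≤ 102 / 100 * (r + P * r ^ 2) :=
    rt_chp_div (rt_chp_add hA2 (rt_chp_mul hβ hS)) hQlo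
  have c3 : |rtSq p.A / Q| ≤ 102 / 100 * r ^ 2 := rt_chp_div hS hQlo
  refine ⟨by rw [← hQ]; exact hQ0.ne', ?_, ?_, ⟨?_, ?_, ?_⟩, ?_, ?_⟩
  · intro τ hτ
    refine ⟨(τ - T0) / Q, ?_, ?_, ?_⟩
    · refine (rt_chp_div (rt_chp_sub hτ t1) hQlo).trans ?_
      norm_num
    · show (1 : ℝ)⁻¹ ≤ |(1 : ℝ)|
      norm_num
    · show (rtCfT0 β p + (τ - T0) / Q * rtCfQ β p) / (1 + (τ - T0) / Q * 0) = τ
      rw [← hQ, ← hT, mul_zero, add_zero, div_one, div_mul_cancel₀ _ hQ0.ne']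
      ring
  · intro t ht
    refine ⟨one_ne_zero, ?_, ?_⟩
    · show |(1 : ℝ)| ≤ 1
      norm_num
    · show |(rtCfT0 β p + t * rtCfQ β p) / (1 + t * 0)| ≤ 5 / 2
      rw [← hQ, ← hT, mul_zero, add_zero, div_one]
      refine (rt_chp_add t1 (rt_chp_mul ht hQa)).trans ?_
      norm_num
  · show rtSq (p.A.1 / rtCfQ β p, (p.A.2 + β * rtSq p.A) / rtCfQ β p) ≤ _
    rw [← hQ]
    refine rt_chp_sq_mk c1 (c2.trans (show _ ≤ 103 / 100 * r by linarith)) ?_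
    nlinarith [sq_nonneg r]
  · show rtSq (p.b.1 - rtCfT0 β p * (p.A.1 / rtCfQ β p),
      p.b.2 + β * p.y - rtCfT0 β p * ((p.A.2 + β * rtSq p.A) / rtCfQ β p)) ≤ _
    rw [← hQ, ← hT]
    have d1 : |p.b.1 - T0 * (p.A.1 / Q)| ≤ 101 / 100 * (P * r) := by
      refine (rt_chp_sub hb1 (rt_chp_mul t1 c1)).trans ?_
      linarith
    have d2 : |p.b.2 + β * p.y - T0 * ((p.A.2 + β * rtSq p.A) / Q)| ≤ 201 / 100 * (P * r) := by
      refine (rt_chp_sub (rt_chp_add hb2 (rt_chp_mul hβ hy)) (rt_chp_mul t1 c2)).trans ?_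
      linarith
    refine rt_chp_sq_mk d1 d2 ?_
    nlinarith [sq_nonneg (P * r)]
  · show |p.y - rtCfT0 β p * (rtSq p.A / rtCfQ β p)| ≤ _
    rw [← hQ, ← hT]
    refine (rt_chp_sub hy (rt_chp_mul t1 c3)).trans ?_
    linarith
  · show 9 / 10 ≤ 1 * rtCfQ β p - rtCfT0 β p * 0
    rw [← hQ]
    linarith
  · show 1 * rtCfQ β p - rtCfT0 β p * 0 ≤ 11 / 10
    rw [← hQ]
    linarith

theorem rt_chp_div' {x a E c : ℝ} (hx : |x| ≤ a) (hc : 0 < c) (hE : c ≤ E) : |x / E| ≤ a / c := by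
  have hE0 : 0 < E := by linarith
  have ha : 0 ≤ a := (abs_nonneg _).trans hx
  rw [abs_div, abs_of_pos hE0]
  exact div_le_div₀ ha hx hc hE

/-- LEAF `L-256-RT-CH-CF` -/
theorem rt_ch_cf_bd {P k : ℝ} (hP : 1 ≤ P) (hk : |k| ≤ P) {p : RtRow} (hA : rtSq p.A ≤ (2 * rtChRho P) ^ 2)
    (hb : rtSq p.b ≤ (3 * P * rtChRho P) ^ 2) (hy : |p.y| ≤ 2 * rtChRho P) :
    rtCfD0 (0, k) p ≠ 0 ∧ (rtChCf (0, k) 0).Hit p 4 3 2 ∧ (rtChCf (0, k) 0).Fwd p (5 / 2) 3 2 ∧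
      (rtSq (rtCfRow (0, k) 0 p).A ≤ (6 * P * rtChRho P) ^ 2 ∧ rtSq (rtCfRow (0, k) 0 p).b ≤ (4 * P * rtChRho P) ^ 2 ∧
        |(rtCfRow (0, k) 0 p).y| ≤ 3 * rtChRho P) ∧
      9 / 10 ≤ (rtChCf (0, k) 0).wr p ∧ (rtChCf (0, k) 0).wr p ≤ 11 / 10 := by
  obtain ⟨hr0, hr1, hr2, hr3, hr4⟩ := rt_chp_rho hP
  obtain ⟨r, hr⟩ : ∃ r, r = rtChRho P := ⟨_, rfl⟩
  rw [← hr] at hr0 hr1 hr2 hr3 hr4 hA hb hy ⊢
  have hP0 : 0 ≤ P := by linarith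
  have h2r : 0 ≤ 2 * r := by linarith
  have h3r : 0 ≤ 3 * P * r := by positivity
  have hA2 := rt_chp_snd h2r hA
  have hb2 := rt_chp_snd h3r hb
  have hSb : |rtSq p.b| ≤ (3 * P * r) ^ 2 := by rwa [abs_of_nonneg (rtSq_nonneg _)]
  have hk2 := rt_chp_pow hk
  have hvb : rtSq ((0, k) : ℝ × ℝ) ≤ P ^ 2 := by
    have e : rtSq ((0, k) : ℝ × ℝ) = k ^ 2 := by
      unfold rtSq
      simp
    rw [e]
    exact (le_abs_self _).trans hk2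
  have k0 : P * (3 * P * r) = 3 / 1000 := by
    calc P * (3 * P * r) = 3 * (P ^ 2 * r) := by ring
      _ = 3 / 1000 := by rw [hr1]; norm_num
  have k1 : P ^ 2 * (3 * P * r) ^ 2 = 9 / 1000000 := by
    calc P ^ 2 * (3 * P * r) ^ 2 = 9 * (P ^ 2 * r) ^ 2 := by ring
      _ = 9 / 1000000 := by rw [hr1]; norm_num
  have k2 : P ^ 2 * r ^ 2 = r / 1000 := by
    calc P ^ 2 * r ^ 2 = (P ^ 2 * r) * r := by ring
      _ = r / 1000 := by rw [hr1]; ring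
  have k3 : P ^ 3 * r ^ 2 = P * r / 1000 := by
    calc P ^ 3 * r ^ 2 = (P ^ 2 * r) * (P * r) := by ring
      _ = P * r / 1000 := by rw [hr1]; ring
  obtain ⟨D0, hD0⟩ : ∃ D0, D0 = rtCfD0 (0, k) p := ⟨_, rfl⟩
  obtain ⟨D1, hD1⟩ : ∃ D1, D1 = rtCfD1 (0, k) 0 p := ⟨_, rfl⟩
  have eD0 : D0 = 1 - 2 * (k * p.b.2) + k ^ 2 * rtSq p.b := by
    rw [hD0]
    simp only [rtCfD0, rtIp, rtSq]
    ring
  have q1 : |D0 - 1| ≤ 7 / 1000 := by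
    have e : D0 - 1 = k ^ 2 * rtSq p.b - 2 * (k * p.b.2) := by rw [eD0]; ring
    rw [e]
    refine (rt_chp_sub (rt_chp_mul hk2 hSb) (rt_chp_two (rt_chp_mul hk hb2))).trans ?_
    rw [k0, k1]
    norm_num
  have hDlo : 99 / 100 ≤ D0 := by linarith [(abs_le.1 q1).1]
  have hDhi : D0 ≤ 1007 / 1000 := by linarith [(abs_le.1 q1).2]
  have hD00 : 0 < D0 := by linarith
  have hDa : |D0| ≤ 1007 / 1000 := by rwa [abs_of_pos hD00]
  have i1 : |rtIp p.A p.b| ≤ 2 * r * (3 * P * r) := rtIp_abs_le h2r h3r hA hb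
  have i2 : |p.y - 2 * rtIp p.A p.b| ≤ 2 * r + 2 * (2 * r * (3 * P * r)) := rt_chp_sub hy (rt_chp_two i1)
  have t1 : |D1| ≤ 7 / 1000 := by
    have e : D1 = 0 - 2 * (k * p.A.2) - k ^ 2 * (p.y - 2 * rtIp p.A p.b) := by
      rw [hD1]
      simp only [rtCfD1, rtIp, rtSq]
      ring
    rw [e, zero_sub]
    refine (rt_chp_sub (show |-(2 * (k * p.A.2))| ≤ 2 * (P * (2 * r)) by
      rw [abs_neg]
      exact rt_chp_two (rt_chp_mul hk hA2)) (rt_chp_mul hk2 i2)).trans ?_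
    have e2 : P ^ 2 * (2 * r + 2 * (2 * r * (3 * P * r))) = 2 * (P ^ 2 * r) + 12 * (P ^ 3 * r ^ 2) := by ring
    rw [e2, hr1, k3]
    linarith
  have hden : ∀ t, (rtChCf (0, k) 0).den (p.ev t) = D0 + t * D1 := by
    intro t
    rw [hD0, hD1]
    exact rt_cf_row_den (0, k) 0 p t
  have htm : ∀ t, (rtChCf (0, k) 0).tm p t = t / (D0 + t * D1) := by
    intro t
    show (0 + t * 1) / (rtCfD0 (0, k) p + t * rtCfD1 (0, k) 0 p) = _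
    rw [← hD0, ← hD1, zero_add, mul_one]
  -- the vector `c = b - |b|² vb`
  have ec : rtSq (p.b - rtSq p.b • ((0, k) : ℝ × ℝ)) = rtSq p.b * D0 := by
    rw [eD0]
    simp only [rtSq, Prod.fst_sub, Prod.snd_sub, Prod.smul_fst, Prod.smul_snd, smul_eq_mul]
    ring
  have hc : rtSq (p.b - rtSq p.b • ((0, k) : ℝ × ℝ)) ≤ (4 * P * r) ^ 2 := by
    rw [ec]
    have := rtSq_nonneg p.b
    nlinarith [sq_nonneg (P * r)]
  refine ⟨by rw [← hD0]; exact hD00.ne', ?_, ?_, ⟨?_, ?_, ?_⟩, ?_, ?_⟩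
  · intro τ hτ
    obtain ⟨E, hE⟩ : ∃ E, E = 1 - τ * D1 := ⟨_, rfl⟩
    have e1 : |τ * D1| ≤ 3 * (7 / 1000) := rt_chp_mul hτ t1
    have hElo : 979 / 1000 ≤ E := by rw [hE]; linarith [(abs_le.1 e1).2]
    have hEhi : E ≤ 1021 / 1000 := by rw [hE]; linarith [(abs_le.1 e1).1]
    have hE0 : 0 < E := by linarith
    have e2 : D0 + τ * D0 / E * D1 = D0 / E := by
      rw [eq_div_iff hE0.ne']
      field_simp
      rw [hE]
      ring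
    refine ⟨τ * D0 / E, ?_, ?_, ?_⟩
    · refine (rt_chp_div' (rt_chp_mul hτ hDa) (by norm_num : (0 : ℝ) < 979 / 1000) hElo).trans ?_
      norm_num
    · rw [hden, e2, abs_of_pos (div_pos hD00 hE0), le_div_iff₀ hE0]
      linarith
    · rw [htm, e2]
      field_simp
  · intro t ht
    have e1 : |t * D1| ≤ 5 / 2 * (7 / 1000) := rt_chp_mul ht t1
    have hlo : 97 / 100 ≤ D0 + t * D1 := by linarith [(abs_le.1 e1).1]
    have hhi : D0 + t * D1 ≤ 2 := by linarith [(abs_le.1 e1).2]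
    have h0 : 0 < D0 + t * D1 := by linarith
    refine ⟨?_, ?_, ?_⟩
    · rw [hden]
      exact h0.ne'
    · rw [hden, abs_of_pos h0]
      exact hhi
    · rw [htm]
      refine (rt_chp_div' ht (by norm_num : (0 : ℝ) < 97 / 100) hlo).trans ?_
      norm_num
  · show rtSq (p.A + (p.y - 2 * rtIp p.A p.b) • ((0, k) : ℝ × ℝ)
      - (rtCfD1 (0, k) 0 p / rtCfD0 (0, k) p) • (p.b - rtSq p.b • ((0, k) : ℝ × ℝ))) ≤ _
    rw [← hD0, ← hD1]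
    have s1 := rt_chp_sq_smul i2 hvb
    have s2 := rt_chp_sq_smul (rt_chp_div t1 hDlo) hc
    have n1 : 0 ≤ (2 * r + 2 * (2 * r * (3 * P * r))) * P := by positivity
    refine (rt_chp_sq_sub (add_nonneg h2r n1) (by positivity) (rt_chp_sq_add h2r n1 hA s1) s2).trans ?_
    refine pow_le_pow_left₀ (by positivity) ?_ 2
    have e3 : (2 * r + 2 * (2 * r * (3 * P * r))) * P = 2 * (P * r) + 12 * (P ^ 2 * r ^ 2) := by ring
    rw [e3, k2]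
    linarith
  · show rtSq ((rtCfD0 (0, k) p)⁻¹ • (p.b - rtSq p.b • ((0, k) : ℝ × ℝ))) ≤ _
    rw [← hD0]
    have e4 : rtSq (D0⁻¹ • (p.b - rtSq p.b • ((0, k) : ℝ × ℝ))) = rtSq p.b / D0 := by
      have e5 : rtSq (D0⁻¹ • (p.b - rtSq p.b • ((0, k) : ℝ × ℝ)))
          = D0⁻¹ ^ 2 * rtSq (p.b - rtSq p.b • ((0, k) : ℝ × ℝ)) := by
        simp only [rtSq, Prod.smul_fst, Prod.smul_snd, smul_eq_mul]
        ring
      rw [e5, ec]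
      field_simp
    rw [e4, div_le_iff₀ hD00]
    nlinarith [sq_nonneg (P * r)]
  · show |(p.y - rtSq p.b * 0) / rtCfD0 (0, k) p| ≤ _
    rw [← hD0, mul_zero, sub_zero]
    refine (rt_chp_div hy hDlo).trans ?_
    linarith
  · show 9 / 10 ≤ rtCfD0 (0, k) p * 1 - 0 * rtCfD1 (0, k) 0 p
    rw [← hD0]
    linarith
  · show rtCfD0 (0, k) p * 1 - 0 * rtCfD1 (0, k) 0 p ≤ 11 / 10
    rw [← hD0]
    linarith

/-- charts with trivial conformal factor and trivial change of time -/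
theorem rt_chp_triv (Φ : RtCh) (p : RtRow) (T : ℝ) (hden : ∀ x, Φ.den x = 1) (ha0 : Φ.a0 p = 0) (ha1 : Φ.a1 p = 1)
    (hd0 : Φ.d0 p = 1) (hd1 : Φ.d1 p = 0) : Φ.Hit p T T 1 ∧ Φ.Fwd p T T 1 ∧ Φ.wr p = 1 := by
  have htm : ∀ t, Φ.tm p t = t := by
    intro t
    unfold RtCh.tm RtCh.dn
    rw [ha0, ha1, hd0, hd1]
    simp
  refine ⟨?_, ?_, ?_⟩
  · intro τ hτ
    refine ⟨τ, hτ, ?_, htm τ⟩
    rw [hden]
    norm_num
  · intro t ht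
    rw [hden, htm]
    exact ⟨one_ne_zero, by norm_num, ht⟩
  · unfold RtCh.wr
    rw [ha0, ha1, hd0, hd1]
    norm_num

/-- LEAF `L-256-RT-CH-HIT` (assembly of DB, CF with the two trivial factors) -/
theorem rt_chart_hit {P : ℝ} (hP : 1 ≤ P) (n : RtPoly) (hd : n.disc = 1) (hβ : |n.be| ≤ P) (hk : |n.k| ≤ P) (p₀ : RtRow)
    (hF : n.F 0 p₀.b p₀.y = 0) (hG : n.G 0 p₀.b p₀.y p₀.A = 0) {p : RtRow} (hp : p ∈ rtBx p₀ 1 (rtChRho P)) :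
    p ∈ rtChartDom p₀ n ∧ (rtChart p₀ n).Hit p 5 3 2 ∧ (rtChart p₀ n).Fwd p 2 3 2 ∧
      (rtSq ((rtChart p₀ n).row p).A ≤ (6 * P * rtChRho P) ^ 2 ∧ rtSq ((rtChart p₀ n).row p).b ≤ (4 * P * rtChRho P) ^ 2 ∧
        |((rtChart p₀ n).row p).y| ≤ 3 * rtChRho P) ∧
      4 / 5 ≤ (rtChart p₀ n).wr p ∧ (rtChart p₀ n).wr p ≤ 5 / 4 := by
  obtain ⟨hg, -⟩ := rt_cf_normal n p₀ hd hF hG
  obtain ⟨hb, hy, hA⟩ := hp
  rw [mul_one] at hb hA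
  rw [one_pow, mul_one] at hy
  have hA2 : rtSq (((rtChRot (n.g 0 p₀.b p₀.A)).comp (rtChCen p₀)).row p).A ≤ rtChRho P ^ 2 := by
    show rtSq (rtRot (n.g 0 p₀.b p₀.A) (p.A - p₀.A)) ≤ _
    rw [rt_rot_sq, hg, one_mul]
    exact hA
  have hb2 : rtSq (((rtChRot (n.g 0 p₀.b p₀.A)).comp (rtChCen p₀)).row p).b ≤ rtChRho P ^ 2 := by
    show rtSq (rtRot (n.g 0 p₀.b p₀.A) (p.b - p₀.b)) ≤ _
    rw [rt_rot_sq, hg, one_mul]
    exact hb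
  have hy2 : |(((rtChRot (n.g 0 p₀.b p₀.A)).comp (rtChCen p₀)).row p).y| ≤ rtChRho P := hy
  obtain ⟨dQ, dHit, dFwd, ⟨dA, db, dy⟩, dw1, dw2⟩ := rt_ch_db_bd hP hβ hA2 hb2 hy2
  obtain ⟨cD, cHit, cFwd, cimg, cw1, cw2⟩ := rt_ch_cf_bd hP hk dA db dy
  have xCen := rt_ch_cen_ex p₀
  have xRot := rt_ch_rot_ex (n.g 0 p₀.b p₀.A) hg
  have xRC := xRot.comp xCen
  have xDb := rt_ch_db_ex n.be
  have xDRC := xDb.comp xRC
  have xCf := rt_ch_cf_ex (0, n.k) 0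
  have m1 : p ∈ {p | p ∈ (Set.univ : Set RtRow) ∧ (rtChCen p₀).row p ∈ (Set.univ : Set RtRow)} := ⟨trivial, trivial⟩
  have m2 : p ∈ {p | p ∈ {p | p ∈ (Set.univ : Set RtRow) ∧ (rtChCen p₀).row p ∈ (Set.univ : Set RtRow)} ∧
      ((rtChRot (n.g 0 p₀.b p₀.A)).comp (rtChCen p₀)).row p ∈ {p | rtCfQ n.be p ≠ 0}} := ⟨m1, dQ⟩
  obtain ⟨cenH5, -, cenW⟩ := rt_chp_triv (rtChCen p₀) p 5 (fun _ => rfl) rfl rfl rfl rfl
  obtain ⟨-, cenF2, -⟩ := rt_chp_triv (rtChCen p₀) p 2 (fun _ => rfl) rfl rfl rfl rfl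
  obtain ⟨rotH5, -, rotW⟩ := rt_chp_triv (rtChRot (n.g 0 p₀.b p₀.A)) ((rtChCen p₀).row p) 5 (fun _ => rfl) rfl rfl rfl rfl
  obtain ⟨-, rotF2, -⟩ := rt_chp_triv (rtChRot (n.g 0 p₀.b p₀.A)) ((rtChCen p₀).row p) 2 (fun _ => rfl) rfl rfl rfl rfl
  have H1 := RtCh.Hit.comp xRot xCen (Set.mem_univ p) (Set.mem_univ _) one_pos one_pos cenH5 rotH5
  have H2 := RtCh.Hit.comp xDb xRC m1 dQ (by norm_num) one_pos H1 dHit
  have H3 := RtCh.Hit.comp xCf xDRC m2 cD (by norm_num) two_pos H2 cHit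
  have F1 := RtCh.Fwd.comp xCen (Set.mem_univ p) cenF2 rotF2
  have F2 := RtCh.Fwd.comp xRC m1 F1 dFwd
  have F3 := RtCh.Fwd.comp xDRC m2 F2 cFwd
  have e2 : (2 : ℝ) * (1 * (1 * 1)) = 2 := by norm_num
  rw [e2] at H3 F3
  have hw : (rtChart p₀ n).wr p = (rtChCf (0, n.k) 0).wr (rtCfRowDb n.be (((rtChRot (n.g 0 p₀.b p₀.A)).comp (rtChCen p₀)).row p))
      * (rtChDb n.be).wr (((rtChRot (n.g 0 p₀.b p₀.A)).comp (rtChCen p₀)).row p) := by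
    unfold rtChart
    rw [rt_ch_comp_wr, rt_ch_comp_wr, rt_ch_comp_wr, cenW, rotW, mul_one, mul_one]
    rfl
  refine ⟨⟨m2, cD⟩, H3, F3, cimg, ?_, ?_⟩
  · rw [hw]
    nlinarith
  · rw [hw]
    nlinarith

/-- the centring on coefficients -/
theorem rt_chp_cen {P Y B : ℝ} (hP : 1 ≤ P) (hY : 0 ≤ Y) (hB : 0 ≤ B) {p₀ : RtRow} (hA : rtSq p₀.A ≤ (2 * P) ^ 2)
    (hb : rtSq p₀.b ≤ (2 * P) ^ 2) (hy : |p₀.y| ≤ Y) {m : RtPoly} (hm : m.Bd B) :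
    (m.cen p₀).Bd (B * (1 + 2 * P + 12 * P ^ 2 + Y)) := by
  obtain ⟨h1, h2, h3, h4, h5⟩ := hm
  have hP0 : 0 ≤ 2 * P := by linarith
  have hBP : 0 ≤ B * P := by positivity
  have hBP2 : 0 ≤ B * P ^ 2 := by positivity
  have hBY : 0 ≤ B * Y := by positivity
  have a1 : |rtIp m.al p₀.b| ≤ B * (2 * P) := rtIp_abs_le hB hP0 h3 hb
  have a2 : |rtSq p₀.b| ≤ (2 * P) ^ 2 := by rwa [abs_of_nonneg (rtSq_nonneg _)]
  have a3 : |rtSq p₀.A| ≤ (2 * P) ^ 2 := by rwa [abs_of_nonneg (rtSq_nonneg _)]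
  have a4 : |2 * m.k| ≤ 2 * B := by
    rw [abs_mul, abs_of_pos (by norm_num : (0 : ℝ) < 2)]
    linarith
  have a5 : |2 * (m.be + m.k * 0)| ≤ 2 * B := by
    rw [mul_zero, add_zero, abs_mul, abs_of_pos (by norm_num : (0 : ℝ) < 2)]
    linarith
  have a6 : rtSq ((2 * m.k) • p₀.b) ≤ (2 * B * (2 * P)) ^ 2 := rt_chp_sq_smul a4 hb
  have a7 : rtSq ((2 * (m.be + m.k * 0)) • p₀.A) ≤ (2 * B * (2 * P)) ^ 2 := rt_chp_sq_smul a5 hA
  have a8 : rtSq (m.al - (2 * m.k) • p₀.b) ≤ (B + 2 * B * (2 * P)) ^ 2 := rt_chp_sq_sub hB (by positivity) h3 a6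
  have a9 : |rtIp p₀.A (m.al - (2 * m.k) • p₀.b)| ≤ 2 * P * (B + 2 * B * (2 * P)) := rtIp_abs_le hP0 (by positivity) hA a8
  refine ⟨?_, ?_, ?_, ?_, ?_⟩
  · show |m.c + m.d * 0 + rtIp m.al p₀.b + m.be * p₀.y + m.k * (0 * p₀.y - rtSq p₀.b)| ≤ _
    rw [mul_zero, add_zero, zero_mul, zero_sub, mul_neg, ← sub_eq_add_neg]
    refine (rt_chp_sub (rt_chp_add (rt_chp_add h1 a1) (rt_chp_mul h4 hy)) (rt_chp_mul h5 a2)).trans ?_
    nlinarith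
  · show |m.d + m.k * p₀.y + rtIp p₀.A (m.al - (2 * m.k) • p₀.b) + rtSq p₀.A * (m.be + m.k * 0)| ≤ _
    rw [mul_zero, add_zero]
    refine (rt_chp_add (rt_chp_add (rt_chp_add h2 (rt_chp_mul h5 hy)) a9) (rt_chp_mul a3 h4)).trans ?_
    nlinarith
  · show rtSq (m.al + (2 * (m.be + m.k * 0)) • p₀.A - (2 * m.k) • p₀.b) ≤ _
    refine (rt_chp_sq_sub (by positivity) (by positivity) (rt_chp_sq_add hB (by positivity) h3 a7) a6).trans ?_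
    refine pow_le_pow_left₀ (by positivity) ?_ 2
    nlinarith
  · refine h4.trans ?_
    nlinarith
  · refine h5.trans ?_
    nlinarith

theorem rt_chp_rot {B : ℝ} {e : ℝ × ℝ} (he : rtSq e = 1) {m : RtPoly} (hm : m.Bd B) : (m.rot e).Bd B := by
  refine ⟨hm.1, hm.2.1, ?_, hm.2.2.2.1, hm.2.2.2.2⟩
  show rtSq (rtRot e m.al) ≤ _
  rw [rt_rot_sq, he, one_mul]
  exact hm.2.2.1

theorem rt_chp_db {P B β : ℝ} (hP : 1 ≤ P) (hB : 0 ≤ B) (hβ : |β| ≤ P) {m : RtPoly} (hm : m.Bd B) :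
    (m.db β).Bd (3 * P ^ 2 * B) := by
  obtain ⟨h1, h2, h3, h4, h5⟩ := hm
  have hBP : 0 ≤ B * P := by positivity
  have hBP2 : 0 ≤ B * P ^ 2 := by positivity
  have hPP : P ≤ P ^ 2 := by nlinarith
  have hBle : B ≤ 3 * P ^ 2 * B := by nlinarith
  have hBPP : B * P ≤ B * P ^ 2 := mul_le_mul_of_nonneg_left hPP hB
  have b2 : |β ^ 2| ≤ P ^ 2 := by
    rw [abs_pow]
    exact pow_le_pow_left₀ (abs_nonneg _) hβ 2
  refine ⟨h1.trans hBle, h2.trans hBle, ?_, ?_, h5.trans hBle⟩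
  · show rtSq (m.al.1, m.al.2 - 2 * β * m.d) ≤ _
    have e : ((m.al.1, m.al.2 - 2 * β * m.d) : ℝ × ℝ) = m.al - (0, 2 * β * m.d) := by
      ext <;> simp
    have a1 : rtSq ((0, 2 * β * m.d) : ℝ × ℝ) ≤ (2 * P * B) ^ 2 := by
      have : |2 * β * m.d| ≤ 2 * P * B := by
        refine rt_chp_mul ?_ h2
        rw [abs_mul, abs_of_pos (by norm_num : (0 : ℝ) < 2)]
        linarith
      unfold rtSq
      simp only
      have h0 := sq_le_sq' (by linarith [(abs_le.1 this).1]) (abs_le.1 this).2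
      nlinarith
    rw [e]
    refine (rt_chp_sq_sub hB (by positivity) h3 a1).trans ?_
    refine pow_le_pow_left₀ (by positivity) ?_ 2
    nlinarith
  · show |m.be + m.d * β ^ 2 - m.al.2 * β| ≤ _
    refine (rt_chp_sub (rt_chp_add h4 (rt_chp_mul h2 b2)) (rt_chp_mul (rt_chp_snd hB h3) hβ)).trans ?_
    nlinarith

theorem rt_chp_cf {P B k : ℝ} (hP : 1 ≤ P) (hB : 0 ≤ B) (hk : |k| ≤ P) {m : RtPoly} (hm : m.Bd B) :
    (m.cf ⟨0, (0, k), 0⟩).Bd (3 * P ^ 2 * B) := by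
  obtain ⟨h1, h2, h3, h4, h5⟩ := hm
  have hBP : 0 ≤ B * P := by positivity
  have hBP2 : 0 ≤ B * P ^ 2 := by positivity
  have hPP : P ≤ P ^ 2 := by nlinarith
  have hBle : B ≤ 3 * P ^ 2 * B := by nlinarith
  have hBPP : B * P ≤ B * P ^ 2 := mul_le_mul_of_nonneg_left hPP hB
  have b2 : |k ^ 2| ≤ P ^ 2 := by
    rw [abs_pow]
    exact pow_le_pow_left₀ (abs_nonneg _) hk 2
  refine ⟨h1.trans hBle, ?_, ?_, ?_, ?_⟩
  · show |m.d - m.c * 0| ≤ _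
    rw [mul_zero, sub_zero]
    exact h2.trans hBle
  · show rtSq (m.al + (2 * m.c) • ((0, k) : ℝ × ℝ)) ≤ _
    have a0 : rtSq ((0, k) : ℝ × ℝ) ≤ P ^ 2 := by
      unfold rtSq
      simp only
      have h0 := sq_le_sq' (by linarith [(abs_le.1 hk).1]) (abs_le.1 hk).2
      nlinarith
    have a1 : |2 * m.c| ≤ 2 * B := by
      rw [abs_mul, abs_of_pos (by norm_num : (0 : ℝ) < 2)]
      linarith
    refine (rt_chp_sq_add hB (by positivity) h3 (rt_chp_sq_smul a1 a0)).trans ?_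
    refine pow_le_pow_left₀ (by positivity) ?_ 2
    nlinarith
  · show |m.be - m.c * 0| ≤ _
    rw [mul_zero, sub_zero]
    exact h4.trans hBle
  · show |m.k + m.c * (⟨0, (0, k), 0⟩ : RtEv).q - (m.d * 0 + rtIp m.al (0, k) + m.be * 0)| ≤ _
    have e : m.k + m.c * (⟨0, (0, k), 0⟩ : RtEv).q - (m.d * 0 + rtIp m.al (0, k) + m.be * 0)
        = m.k - m.c * k ^ 2 - m.al.2 * k := by
      simp only [RtEv.q, rtQ, rtSq, rtIp]
      ring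
    rw [e]
    refine (rt_chp_sub (rt_chp_sub h5 (rt_chp_mul h1 b2)) (rt_chp_mul (rt_chp_snd hB h3) hk)).trans ?_
    nlinarith

theorem rt_chp_pol (p₀ : RtRow) (n m : RtPoly) :
    (rtChart p₀ n).pol m = (((m.cen p₀).rot (n.g 0 p₀.b p₀.A)).db n.be).cf ⟨0, (0, n.k), 0⟩ := rfl

/-- LEAF `L-256-RT-CH-POL` (1/3) -/
theorem rt_chart_lin (p₀ : RtRow) (n : RtPoly) (a : ℝ) (m : RtPoly) (b : ℝ) (m' : RtPoly) :
    (rtChart p₀ n).pol (RtPoly.comb a m b m') = RtPoly.comb a ((rtChart p₀ n).pol m) b ((rtChart p₀ n).pol m') := by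
  simp only [rt_chp_pol]
  generalize n.g 0 p₀.b p₀.A = e
  ext <;> simp only [RtPoly.comb, RtPoly.cf, RtPoly.db, RtPoly.rot, RtPoly.cen, RtPoly.F, RtPoly.G, RtPoly.g, rtRot, RtEv.q, rtQ,
    rtSq, rtIp, Prod.fst_add, Prod.snd_add, Prod.fst_sub, Prod.snd_sub, Prod.smul_fst, Prod.smul_snd, smul_eq_mul] <;> ring

/-- LEAF `L-256-RT-CH-POL` (2/3) -/
theorem rt_chart_pol_bd {P : ℝ} (hP : 1 ≤ P) (n : RtPoly) (hβ : |n.be| ≤ P) (hk : |n.k| ≤ P) (p₀ : RtRow)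
    (hg : rtSq (n.g 0 p₀.b p₀.A) = 1) (hA : rtSq p₀.A ≤ (2 * P) ^ 2) (hb : rtSq p₀.b ≤ (2 * P) ^ 2) (hy : |p₀.y| ≤ 2 * P)
    (m : RtPoly) (B : ℝ) (hB : 0 ≤ B) (hm : m.Bd B) : ((rtChart p₀ n).pol m).Bd (200 * P ^ 6 * B) := by
  rw [rt_chp_pol]
  have hP0 : 0 ≤ P := by linarith
  have h1 := rt_chp_cen hP (by linarith : (0 : ℝ) ≤ 2 * P) hB hA hb hy hm
  have h2 := rt_chp_rot hg h1
  have h3 := rt_chp_db hP (by positivity) hβ h2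
  have h4 := rt_chp_cf hP (by positivity) hk h3
  refine rt_chp_bd_mono (by positivity) ?_ h4
  have e1 : 1 + 2 * P + 12 * P ^ 2 + 2 * P ≤ 17 * P ^ 2 := by nlinarith
  have e2 : B * (1 + 2 * P + 12 * P ^ 2 + 2 * P) ≤ B * (17 * P ^ 2) := mul_le_mul_of_nonneg_left e1 hB
  calc 3 * P ^ 2 * (3 * P ^ 2 * (B * (1 + 2 * P + 12 * P ^ 2 + 2 * P)))
      ≤ 3 * P ^ 2 * (3 * P ^ 2 * (B * (17 * P ^ 2))) := by gcongr
    _ = 153 * P ^ 6 * B := by ring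
    _ ≤ 200 * P ^ 6 * B := by
        have : 0 ≤ P ^ 6 * B := by positivity
        nlinarith

theorem rt_chp_rot_inv (e : ℝ × ℝ) (he : rtSq e = 1) (m : RtPoly) : (m.rot e).rot (-e.1, e.2) = m := by
  unfold rtSq at he
  ext
  · rfl
  · rfl
  · simp only [RtPoly.rot, rtRot]
    linear_combination m.al.1 * he
  · simp only [RtPoly.rot, rtRot]
    linear_combination m.al.2 * he
  · rfl
  · rfl

theorem rt_chp_cen_inv (p₀ : RtRow) (m : RtPoly) : (m.cen p₀).cen ⟨-p₀.A, -p₀.b, 2 * rtIp p₀.A p₀.b - p₀.y⟩ = m := by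
  ext <;> simp only [RtPoly.cen, RtPoly.F, RtPoly.G, RtPoly.g, rtSq, rtIp, Prod.fst_add, Prod.snd_add, Prod.fst_sub, Prod.snd_sub,
    Prod.smul_fst, Prod.smul_snd, smul_eq_mul, Prod.fst_neg, Prod.snd_neg] <;> ring

/-- LEAF `L-256-RT-CH-POL` (3/3) -/
theorem rt_chart_pol_bd_inv {P : ℝ} (hP : 1 ≤ P) (n : RtPoly) (hβ : |n.be| ≤ P) (hk : |n.k| ≤ P) (p₀ : RtRow)
    (hg : rtSq (n.g 0 p₀.b p₀.A) = 1) (hA : rtSq p₀.A ≤ (2 * P) ^ 2) (hb : rtSq p₀.b ≤ (2 * P) ^ 2) (hy : |p₀.y| ≤ 2 * P)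
    (m : RtPoly) (B : ℝ) (hB : 0 ≤ B) (hm : ((rtChart p₀ n).pol m).Bd B) : m.Bd (300 * P ^ 6 * B) := by
  rw [rt_chp_pol] at hm
  have hP0 : 0 ≤ P := by linarith
  have h1 := rt_chp_cf hP hB (show |(-n.k)| ≤ P by rwa [abs_neg]) hm
  have e1 : (⟨0, (0, -n.k), 0⟩ : RtEv) = (⟨0, (0, n.k), 0⟩ : RtEv).neg := by
    ext <;> simp [RtEv.neg]
  rw [e1, rt_cf_poly_neg] at h1
  have h2 := rt_chp_db hP (by positivity) (show |(-n.be)| ≤ P by rwa [abs_neg]) h1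
  rw [rt_cf_poly_db_neg] at h2
  have hg' : rtSq ((-(n.g 0 p₀.b p₀.A).1, (n.g 0 p₀.b p₀.A).2) : ℝ × ℝ) = 1 := by
    rw [← hg]
    unfold rtSq
    simp only
    ring
  have h3 := rt_chp_rot hg' h2
  rw [rt_chp_rot_inv _ hg] at h3
  have hA' : rtSq (-p₀.A) ≤ (2 * P) ^ 2 := by
    refine le_trans (le_of_eq ?_) hA
    simp only [rtSq, Prod.fst_neg, Prod.snd_neg]
    ring
  have hb' : rtSq (-p₀.b) ≤ (2 * P) ^ 2 := by
    refine le_trans (le_of_eq ?_) hb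
    simp only [rtSq, Prod.fst_neg, Prod.snd_neg]
    ring
  have hy' : |2 * rtIp p₀.A p₀.b - p₀.y| ≤ 10 * P ^ 2 := by
    have a1 : |rtIp p₀.A p₀.b| ≤ 2 * P * (2 * P) := rtIp_abs_le (by linarith) (by linarith) hA hb
    have a2 : |2 * rtIp p₀.A p₀.b| ≤ 2 * (2 * P * (2 * P)) := by
      rw [abs_mul, abs_of_pos (by norm_num : (0 : ℝ) < 2)]
      linarith
    refine (rt_chp_sub a2 hy).trans ?_
    nlinarith
  have h4 := rt_chp_cen (p₀ := ⟨-p₀.A, -p₀.b, 2 * rtIp p₀.A p₀.b - p₀.y⟩) hP (by positivity : (0 : ℝ) ≤ 10 * P ^ 2)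
    (by positivity) hA' hb' hy' h3
  rw [rt_chp_cen_inv] at h4
  refine rt_chp_bd_mono (by positivity) ?_ h4
  have e2 : 1 + 2 * P + 12 * P ^ 2 + 10 * P ^ 2 ≤ 25 * P ^ 2 := by nlinarith
  calc 3 * P ^ 2 * (3 * P ^ 2 * B) * (1 + 2 * P + 12 * P ^ 2 + 10 * P ^ 2)
      ≤ 3 * P ^ 2 * (3 * P ^ 2 * B) * (25 * P ^ 2) := by gcongr
    _ = 225 * P ^ 6 * B := by ring
    _ ≤ 300 * P ^ 6 * B := by
        have : 0 ≤ P ^ 6 * B := by positivity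
        nlinarith

/-- one witness per cell of a grid of side `h` in `[-P,P]^5` -/
theorem rt_cov_grid {α β : Type} (co : α → Fin 5 → ℝ) (Good : α → Prop) {P h : ℝ} (hh : 0 < h) (K : ℕ) (hK : 2 * P / h < K)
    (hco : ∀ w, Good w → ∀ i, |co w i| ≤ P) (f : α → β) :
    ∃ Z : Finset β, Z.card ≤ K ^ 5 ∧ (∀ z ∈ Z, ∃ w, Good w ∧ z = f w) ∧
      ∀ p, Good p → ∃ w, Good w ∧ f w ∈ Z ∧ ∀ i, |co p i - co w i| ≤ h := by
  classical
  let idx : α → Fin 5 → ℕ := fun w i => ⌊(co w i + P) / h⌋₊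
  let S : Finset (Fin 5 → ℕ) := (Fintype.piFinset fun _ : Fin 5 => Finset.range K).filter fun i => ∃ w, Good w ∧ idx w = i
  have hS : ∀ i : S, ∃ w, Good w ∧ idx w = i.1 := fun i => (Finset.mem_filter.1 i.2).2
  choose pick hpick using hS
  refine ⟨S.attach.image fun i => f (pick i), ?_, ?_, ?_⟩
  · refine Finset.card_image_le.trans ?_
    rw [Finset.card_attach]
    refine (Finset.card_filter_le _ _).trans ?_
    rw [Fintype.card_piFinset]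
    simp
  · intro z hz
    obtain ⟨i, -, rfl⟩ := Finset.mem_image.1 hz
    exact ⟨pick i, (hpick i).1, rfl⟩
  · intro p hp
    have hmem : idx p ∈ S := by
      refine Finset.mem_filter.2 ⟨?_, p, hp, rfl⟩
      rw [Fintype.mem_piFinset]
      intro i
      rw [Finset.mem_range]
      have h1 := abs_le.1 (hco p hp i)
      have h2 : (co p i + P) / h ≤ 2 * P / h := div_le_div_of_nonneg_right (by linarith) hh.le
      have h3 : (⌊(co p i + P) / h⌋₊ : ℝ) ≤ (co p i + P) / h := Nat.floor_le (div_nonneg (by linarith) hh.le)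
      have h4 : ((idx p i : ℕ) : ℝ) < K := by
        show (⌊(co p i + P) / h⌋₊ : ℝ) < K
        linarith
      exact_mod_cast h4
    refine ⟨pick ⟨idx p, hmem⟩, (hpick ⟨idx p, hmem⟩).1, Finset.mem_image.2 ⟨⟨idx p, hmem⟩, Finset.mem_attach _ _, rfl⟩, fun i => ?_⟩
    have hw := hpick ⟨idx p, hmem⟩
    have e : ⌊(co (pick ⟨idx p, hmem⟩) i + P) / h⌋₊ = ⌊(co p i + P) / h⌋₊ := congrFun hw.2 i
    have a1 := abs_le.1 (hco p hp i)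
    have a2 := abs_le.1 (hco _ hw.1 i)
    have b1 : (⌊(co p i + P) / h⌋₊ : ℝ) ≤ (co p i + P) / h := Nat.floor_le (div_nonneg (by linarith) hh.le)
    have b2 : (⌊(co (pick ⟨idx p, hmem⟩) i + P) / h⌋₊ : ℝ) ≤ (co (pick ⟨idx p, hmem⟩) i + P) / h :=
      Nat.floor_le (div_nonneg (by linarith) hh.le)
    have b3 := Nat.lt_floor_add_one ((co p i + P) / h)
    have b4 := Nat.lt_floor_add_one ((co (pick ⟨idx p, hmem⟩) i + P) / h)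
    rw [e] at b2 b4
    have c1 : (co p i + P) / h - (co (pick ⟨idx p, hmem⟩) i + P) / h = (co p i - co (pick ⟨idx p, hmem⟩) i) / h := by ring
    have c2 : (co p i - co (pick ⟨idx p, hmem⟩) i) / h ≤ 1 := by rw [← c1]; linarith
    have c3 : -1 ≤ (co p i - co (pick ⟨idx p, hmem⟩) i) / h := by rw [← c1]; linarith
    rw [div_le_iff₀ hh] at c2
    rw [le_div_iff₀ hh] at c3
    exact abs_le.2 ⟨by linarith, by linarith⟩

/-- coordinates are bounded by the norm -/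
theorem rt_cov_co {u : ℝ × ℝ} {B : ℝ} (hB : 0 ≤ B) (h : rtSq u ≤ B ^ 2) : |u.1| ≤ B ∧ |u.2| ≤ B := by
  unfold rtSq at h
  constructor
  · exact abs_le_of_sq_le_sq (by linarith [sq_nonneg u.2]) hB
  · exact abs_le_of_sq_le_sq (by linarith [sq_nonneg u.1]) hB

theorem rt_cov_mul {x y a b : ℝ} (hx : |x| ≤ a) (hy : |y| ≤ b) : |x * y| ≤ a * b := by
  rw [abs_mul]
  exact mul_le_mul hx hy (abs_nonneg _) ((abs_nonneg _).trans hx)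

/-- the arithmetic of the covering, in coordinates -/
theorem rt_cov_num {P r e h wA1 wA2 qb1 qb2 qA1 qA2 dA1 dA2 db1 db2 dy : ℝ} (hP : 1 ≤ P) (hr : 0 < r) (he0 : 0 ≤ e) (hh0 : 0 ≤ h)
    (hPe : P * e = r) (hPh : P * h = 5 / 2 * r) (hr1 : r ≤ 1 / 100000)
    (w1 : |wA1| ≤ P) (w2 : |wA2| ≤ P) (b1 : |qb1| ≤ 2 * e) (b2 : |qb2| ≤ 2 * e) (a1 : |qA1| ≤ 2 * e) (a2 : |qA2| ≤ 2 * e)
    (c1 : |dA1| ≤ h) (c2 : |dA2| ≤ h) (c3 : |db1| ≤ h) (c4 : |db2| ≤ h) (c5 : |dy| ≤ h) :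
    (db1 - qb1) ^ 2 + (db2 - qb2) ^ 2 ≤ (50 * r * 1) ^ 2 ∧
      |dy - 2 * (wA1 * qb1 + wA2 * qb2) - 2 * ((wA1 + qA1) * (db1 - qb1) + (wA2 + qA2) * (db2 - qb2))| ≤ 50 * r * 1 ^ 2 ∧
      (dA1 - qA1) ^ 2 + (dA2 - qA2) ^ 2 ≤ (50 * r * 1) ^ 2 := by
  have he : e ≤ r := by nlinarith
  have hh : h ≤ 5 / 2 * r := by nlinarith
  have sub : ∀ {x y : ℝ}, |x| ≤ h → |y| ≤ 2 * e → |x - y| ≤ 9 / 2 * r := by
    intro x y hx hy
    have := abs_sub x y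
    linarith
  have sq2 : ∀ {x y : ℝ}, |x| ≤ 9 / 2 * r → |y| ≤ 9 / 2 * r → x ^ 2 + y ^ 2 ≤ (50 * r * 1) ^ 2 := by
    intro x y hx hy
    have h1 : x ^ 2 ≤ (9 / 2 * r) ^ 2 := by rw [← sq_abs]; exact pow_le_pow_left₀ (abs_nonneg _) hx 2
    have h2 : y ^ 2 ≤ (9 / 2 * r) ^ 2 := by rw [← sq_abs]; exact pow_le_pow_left₀ (abs_nonneg _) hy 2
    nlinarith
  refine ⟨sq2 (sub c3 b1) (sub c4 b2), ?_, sq2 (sub c1 a1) (sub c2 a2)⟩
  have sub' : ∀ {x y : ℝ}, |x| ≤ h → |y| ≤ 2 * e → |x - y| ≤ h + 2 * e := by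
    intro x y hx hy
    have := abs_sub x y
    linarith
  have add' : ∀ {x y : ℝ}, |x| ≤ P → |y| ≤ 2 * e → |x + y| ≤ 2 * P := by
    intro x y hx hy
    have := abs_add_le x y
    linarith
  have m1 := abs_le.1 (rt_cov_mul w1 b1)
  have m2 := abs_le.1 (rt_cov_mul w2 b2)
  have m3 := abs_le.1 (rt_cov_mul (add' w1 a1) (sub' c3 b1))
  have m4 := abs_le.1 (rt_cov_mul (add' w2 a2) (sub' c4 b2))
  have m5 := abs_le.1 c5
  have e1 : P * (2 * e) = 2 * r := by rw [← hPe]; ring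
  have e2 : 2 * P * (h + 2 * e) = 9 * r := by
    have : 2 * P * (h + 2 * e) = 2 * (P * h) + 4 * (P * e) := by ring
    rw [this, hPe, hPh]; ring
  rw [e1] at m1 m2
  rw [e2] at m3 m4
  rw [abs_le]
  constructor <;> linarith

theorem rt_cov_size {u v : ℝ × ℝ} {P e : ℝ} (hu : rtSq u ≤ P ^ 2) (hq : rtSq (v - u) ≤ (2 * e) ^ 2) (he : (2 * e) ^ 2 ≤ P ^ 2) :
    rtSq v ≤ (2 * P) ^ 2 := by
  unfold rtSq at *
  simp only [Prod.fst_sub, Prod.snd_sub] at hq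
  nlinarith [sq_nonneg (u.1 - (v.1 - u.1)), sq_nonneg (u.2 - (v.2 - u.2))]

/-- LEAF `L-256-RT-CH-COV` -/
theorem rt_chart_cover {P : ℝ} (hP : 1 ≤ P) (n : RtPoly) (hd : n.disc = 1) (hn : n.Bd P) :
    ∃ Z : Finset RtRow, (Z.card : ℝ) ≤ (100000 * P ^ 4) ^ 5 ∧
      (∀ p₀ ∈ Z, n.F 0 p₀.b p₀.y = 0 ∧ n.G 0 p₀.b p₀.y p₀.A = 0 ∧ rtSq p₀.A ≤ (2 * P) ^ 2 ∧ rtSq p₀.b ≤ (2 * P) ^ 2 ∧
        |p₀.y| ≤ 2 * P) ∧
      ∀ p : RtRow, rtSq p.A ≤ P ^ 2 → rtSq p.b ≤ P ^ 2 → |p.y| ≤ P → |n.F 0 p.b p.y| ≤ 1 / (100000 * P ^ 3) →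
        |n.G 0 p.b p.y p.A| ≤ 1 / (100000 * P ^ 3) → ∃ p₀ ∈ Z, p ∈ rtBx p₀ 1 (rtChRho P / 2) := by
  have hP0 : 0 < P := by linarith
  obtain ⟨e, hed⟩ : ∃ e : ℝ, e = 1 / (100000 * P ^ 3) := ⟨_, rfl⟩
  obtain ⟨h, hhd⟩ : ∃ h : ℝ, h = 1 / (40000 * P ^ 3) := ⟨_, rfl⟩
  obtain ⟨r, hrd⟩ : ∃ r : ℝ, r = 1 / (100000 * P ^ 2) := ⟨_, rfl⟩
  have he0 : 0 < e := by rw [hed]; positivity
  have hh0 : 0 < h := by rw [hhd]; positivity
  have hr : 0 < r := by rw [hrd]; positivity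
  have hPe : P * e = r := by rw [hed, hrd]; field_simp
  have hPh : P * h = 5 / 2 * r := by rw [hhd, hrd]; field_simp; norm_num
  have hr1 : r ≤ 1 / 100000 := by
    rw [hrd]
    apply one_div_le_one_div_of_le (by norm_num)
    nlinarith
  have hρ : rtChRho P / 2 = 50 * r := by unfold rtChRho; rw [hrd]; field_simp; norm_num
  have her : e ≤ r := by nlinarith
  have he2 : (2 * e) ^ 2 ≤ P ^ 2 := pow_le_pow_left₀ (by positivity) (by linarith) 2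
  rw [← hed, hρ]
  have hray : ∀ w : RtRow, (rtSq w.A ≤ P ^ 2 ∧ rtSq w.b ≤ P ^ 2 ∧ |w.y| ≤ P ∧ |n.F 0 w.b w.y| ≤ e ∧ |n.G 0 w.b w.y w.A| ≤ e) →
      ∃ p₀ : RtRow, n.F 0 p₀.b p₀.y = 0 ∧ n.G 0 p₀.b p₀.y p₀.A = 0 ∧ rtSq (p₀.b - w.b) ≤ (2 * e) ^ 2 ∧
        p₀.y - w.y - 2 * rtIp w.A (p₀.b - w.b) = 0 ∧ rtSq (p₀.A - w.A) ≤ (2 * e) ^ 2 := by
    rintro w ⟨-, -, -, hF, hG⟩
    have g1 : |n.be * n.G 0 w.b w.y w.A| ≤ 1 / 16 := by
      have := rt_cov_mul hn.2.2.2.1 hG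
      rw [hPe] at this
      linarith
    have g2 : |n.k * n.F 0 w.b w.y| ≤ 1 / 16 := by
      have := rt_cov_mul hn.2.2.2.2 hF
      rw [hPe] at this
      linarith
    obtain ⟨p₀, q1, q2, q3, q4, q5⟩ := rt_chart_ray n hd w g1 g2
    refine ⟨p₀, q1, q2, q3.trans ?_, q4, q5.trans ?_⟩
    · exact pow_le_pow_left₀ (by positivity) (by linarith) 2
    · exact pow_le_pow_left₀ (by positivity) (by linarith) 2
  have : Nonempty RtRow := ⟨⟨0, 0, 0⟩⟩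
  choose! f hf using hray
  have hco : ∀ w : RtRow, (rtSq w.A ≤ P ^ 2 ∧ rtSq w.b ≤ P ^ 2 ∧ |w.y| ≤ P ∧ |n.F 0 w.b w.y| ≤ e ∧ |n.G 0 w.b w.y w.A| ≤ e) →
      ∀ i : Fin 5, |(![w.A.1, w.A.2, w.b.1, w.b.2, w.y] : Fin 5 → ℝ) i| ≤ P := by
    rintro w ⟨hA, hb, hy, -, -⟩ i
    have a := rt_cov_co hP0.le hA
    have b := rt_cov_co hP0.le hb
    fin_cases i
    · exact a.1
    · exact a.2
    · exact b.1
    · exact b.2
    · exact hy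
  obtain ⟨Z, hcard, hZ, hcov⟩ := rt_cov_grid (fun w : RtRow => (![w.A.1, w.A.2, w.b.1, w.b.2, w.y] : Fin 5 → ℝ))
    (fun w => rtSq w.A ≤ P ^ 2 ∧ rtSq w.b ≤ P ^ 2 ∧ |w.y| ≤ P ∧ |n.F 0 w.b w.y| ≤ e ∧ |n.G 0 w.b w.y w.A| ≤ e) hh0
    (⌊2 * P / h⌋₊ + 1) (by push_cast; exact Nat.lt_floor_add_one _) hco f
  refine ⟨Z, ?_, ?_, ?_⟩
  · have k1 : ((⌊2 * P / h⌋₊ + 1 : ℕ) : ℝ) ≤ 100000 * P ^ 4 := by
      have k2 : (⌊2 * P / h⌋₊ : ℝ) ≤ 2 * P / h := Nat.floor_le (by positivity)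
      have k3 : 2 * P / h = 80000 * P ^ 4 := by rw [hhd]; field_simp; norm_num
      have k4 : 1 ≤ P ^ 4 := one_le_pow₀ hP
      push_cast
      linarith
    calc (Z.card : ℝ) ≤ ((⌊2 * P / h⌋₊ + 1 : ℕ) : ℝ) ^ 5 := by exact_mod_cast hcard
      _ ≤ (100000 * P ^ 4) ^ 5 := pow_le_pow_left₀ (Nat.cast_nonneg _) k1 5
  · intro p₀ hp₀
    obtain ⟨w, hw, rfl⟩ := hZ p₀ hp₀
    obtain ⟨q1, q2, q3, q4, q5⟩ := hf w hw
    refine ⟨q1, q2, rt_cov_size hw.1 q5 he2, rt_cov_size hw.2.1 q3 he2, ?_⟩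
    have a := rt_cov_co hP0.le hw.1
    have b := rt_cov_co (by positivity) q3
    have m1 := abs_le.1 (rt_cov_mul a.1 b.1)
    have m2 := abs_le.1 (rt_cov_mul a.2 b.2)
    have e1 : P * (2 * e) = 2 * r := by rw [← hPe]; ring
    rw [e1] at m1 m2
    have m3 := abs_le.1 hw.2.2.1
    unfold rtIp at q4
    rw [abs_le]
    constructor <;> linarith
  · intro p hA hb hy hF hG
    obtain ⟨w, hw, hwZ, hc⟩ := hcov p ⟨hA, hb, hy, hF, hG⟩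
    refine ⟨f w, hwZ, ?_⟩
    obtain ⟨q1, q2, q3, q4, q5⟩ := hf w hw
    have a := rt_cov_co hP0.le hw.1
    have b := rt_cov_co (by positivity) q3
    have c := rt_cov_co (by positivity) q5
    have c1 : |p.A.1 - w.A.1| ≤ h := hc 0
    have c2 : |p.A.2 - w.A.2| ≤ h := hc 1
    have c3 : |p.b.1 - w.b.1| ≤ h := hc 2
    have c4 : |p.b.2 - w.b.2| ≤ h := hc 3
    have c5 : |p.y - w.y| ≤ h := hc 4
    obtain ⟨n1, n2, n3⟩ := rt_cov_num hP hr he0.le hh0.le hPe hPh hr1 a.1 a.2 b.1 b.2 c.1 c.2 c1 c2 c3 c4 c5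
    refine ⟨?_, ?_, ?_⟩
    · refine le_trans (le_of_eq ?_) n1
      unfold rtSq
      simp only [Prod.fst_sub, Prod.snd_sub]
      ring
    · refine le_trans (le_of_eq ?_) n2
      congr 1
      unfold rtIp at q4 ⊢
      simp only [Prod.fst_sub, Prod.snd_sub] at q4 ⊢
      linear_combination (-1 : ℝ) * q4
    · refine le_trans (le_of_eq ?_) n3
      unfold rtSq
      simp only [Prod.fst_sub, Prod.snd_sub]
      ring

/-! ## Assembly (proved) -/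

theorem rt_chart_ok {P : ℝ} (hP : 1 ≤ P) (n : RtPoly) (hd : n.disc = 1) (hn : n.Bd P) (p₀ : RtRow)
    (hF : n.F 0 p₀.b p₀.y = 0) (hG : n.G 0 p₀.b p₀.y p₀.A = 0) (hA : rtSq p₀.A ≤ (2 * P) ^ 2)
    (hb : rtSq p₀.b ≤ (2 * P) ^ 2) (hy : |p₀.y| ≤ 2 * P) : RtChartOk P n p₀ where
  ex := rt_chart_ex p₀ n hd hF hG
  flat := rt_chart_flat p₀ n hd hF hG
  dom := fun _ hp => (rt_chart_hit hP n hd hn.2.2.2.1 hn.2.2.2.2 p₀ hF hG hp).1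
  hit := fun _ hp => (rt_chart_hit hP n hd hn.2.2.2.1 hn.2.2.2.2 p₀ hF hG hp).2.1
  fwd := fun _ hp => (rt_chart_hit hP n hd hn.2.2.2.1 hn.2.2.2.2 p₀ hF hG hp).2.2.1
  img := fun _ hp => (rt_chart_hit hP n hd hn.2.2.2.1 hn.2.2.2.2 p₀ hF hG hp).2.2.2.1
  wr := fun _ hp => (rt_chart_hit hP n hd hn.2.2.2.1 hn.2.2.2.2 p₀ hF hG hp).2.2.2.2
  lin := rt_chart_lin p₀ n
  pol_bd := rt_chart_pol_bd hP n hn.2.2.2.1 hn.2.2.2.2 p₀ (rt_cf_normal n p₀ hd hF hG).1 hA hb hy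
  pol_bd_inv := rt_chart_pol_bd_inv hP n hn.2.2.2.1 hn.2.2.2.2 p₀ (rt_cf_normal n p₀ hd hF hG).1 hA hb hy

/-- **Lemma rt:conformal-chart** : polynomially many flattening charts, with all their properties, whose buffered patches cover the bounded rays on which `|F(0)|, |L_A F|` are small -/
theorem rt_chart_main {P : ℝ} (hP : 1 ≤ P) (n : RtPoly) (hd : n.disc = 1) (hn : n.Bd P) :
    ∃ Z : Finset RtRow, (Z.card : ℝ) ≤ (100000 * P ^ 4) ^ 5 ∧ (∀ p₀ ∈ Z, RtChartOk P n p₀) ∧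
      ∀ p : RtRow, rtSq p.A ≤ P ^ 2 → rtSq p.b ≤ P ^ 2 → |p.y| ≤ P → |n.F 0 p.b p.y| ≤ 1 / (100000 * P ^ 3) →
        |n.G 0 p.b p.y p.A| ≤ 1 / (100000 * P ^ 3) → ∃ p₀ ∈ Z, p ∈ rtBx p₀ 1 (rtChRho P / 2) := by
  obtain ⟨Z, h1, h2, h3⟩ := rt_chart_cover hP n hd hn
  exact ⟨Z, h1, fun p₀ hp₀ => rt_chart_ok hP n hd hn p₀ (h2 p₀ hp₀).1 (h2 p₀ hp₀).2.1 (h2 p₀ hp₀).2.2.1 (h2 p₀ hp₀).2.2.2.1
    (h2 p₀ hp₀).2.2.2.2, h3⟩

/-- boxes go to boxes, enlargement `392 M²` -/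
theorem rt_chart_box {P : ℝ} {n : RtPoly} {p₀ : RtRow} (h : RtChartOk P n p₀) {p p' : RtRow}
    (hp : p ∈ rtBx p₀ 1 (rtChRho P)) (hp' : p' ∈ rtBx p₀ 1 (rtChRho P)) {M R : ℝ} (hM : 1 ≤ M) (hR : 0 ≤ R)
    (hb : p ∈ rtBx p' R M) : (rtChart p₀ n).row p ∈ rtBx ((rtChart p₀ n).row p') R (392 * M ^ 2) := by
  have := rt_ch_box h.ex (h.dom p hp) (h.dom p' hp') (by norm_num : (1 : ℝ) ≤ 3) (by norm_num : (1 : ℝ) ≤ 2) hM hR
    (h.hit p hp) (h.hit p' hp') hb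
  have e : 2 * (2 * (((5 : ℝ) + 2) * M)) ^ 2 = 392 * M ^ 2 := by ring
  rwa [e] at this

/-- boxes come from boxes, enlargement `200 M²` -/
theorem rt_chart_box_inv {P : ℝ} {n : RtPoly} {p₀ : RtRow} (h : RtChartOk P n p₀) {p p' : RtRow}
    (hp : p ∈ rtBx p₀ 1 (rtChRho P)) (hp' : p' ∈ rtBx p₀ 1 (rtChRho P)) {M R : ℝ} (hM : 1 ≤ M) (hR : 0 ≤ R)
    (hb : (rtChart p₀ n).row p ∈ rtBx ((rtChart p₀ n).row p') R M) : p ∈ rtBx p' R (200 * M ^ 2) := by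
  have := rt_ch_box_inv h.ex (h.dom p hp) (h.dom p' hp') (by norm_num : (1 : ℝ) ≤ 2) (by norm_num : (1 : ℝ) ≤ 2) hM hR
    (h.fwd p hp) (h.fwd p' hp') hb
  have e : 2 * (2 * (((3 : ℝ) + 2) * M)) ^ 2 = 200 * M ^ 2 := by ring
  rwa [e] at this

/-- sublevels of ANY hyperquadric go to sublevels of its image -/
theorem rt_chart_sub {P : ℝ} {n : RtPoly} {p₀ : RtRow} (h : RtChartOk P n p₀) {p : RtRow}
    (hp : p ∈ rtBx p₀ 1 (rtChRho P)) (m : RtPoly) :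
    |((rtChart p₀ n).pol m).F 0 ((rtChart p₀ n).row p).b ((rtChart p₀ n).row p).y|
        ≤ 2 * (|m.F 0 p.b p.y| + 5 * |m.G 0 p.b p.y p.A|) ∧
    |((rtChart p₀ n).pol m).G 0 ((rtChart p₀ n).row p).b ((rtChart p₀ n).row p).y ((rtChart p₀ n).row p).A|
        ≤ 2 * (2 * (|m.F 0 p.b p.y| + 5 * |m.G 0 p.b p.y p.A|)) :=
  rt_ch_sub h.ex (h.dom p hp) (by norm_num : (1 : ℝ) ≤ 3) (by norm_num : (0 : ℝ) < 2) (h.hit p hp) m

theorem rt_chart_sub_inv {P : ℝ} {n : RtPoly} {p₀ : RtRow} (h : RtChartOk P n p₀) {p : RtRow}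
    (hp : p ∈ rtBx p₀ 1 (rtChRho P)) (m : RtPoly) :
    |m.F 0 p.b p.y| ≤ 2 * (|((rtChart p₀ n).pol m).F 0 ((rtChart p₀ n).row p).b ((rtChart p₀ n).row p).y|
        + 3 * |((rtChart p₀ n).pol m).G 0 ((rtChart p₀ n).row p).b ((rtChart p₀ n).row p).y ((rtChart p₀ n).row p).A|) ∧
    |m.G 0 p.b p.y p.A| ≤ 2 * (2 * (|((rtChart p₀ n).pol m).F 0 ((rtChart p₀ n).row p).b ((rtChart p₀ n).row p).y|
        + 3 * |((rtChart p₀ n).pol m).G 0 ((rtChart p₀ n).row p).b ((rtChart p₀ n).row p).y ((rtChart p₀ n).row p).A|)) :=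
  rt_ch_sub_inv h.ex (h.dom p hp) (by norm_num : (1 : ℝ) ≤ 2) (h.fwd p hp) m

/-- the thin set becomes `|b₂'|, |A₂'| ≲ |F| + |G|`  (07 l.556) -/
theorem rt_chart_thin {P : ℝ} {n : RtPoly} {p₀ : RtRow} (h : RtChartOk P n p₀) {p : RtRow}
    (hp : p ∈ rtBx p₀ 1 (rtChRho P)) :
    |((rtChart p₀ n).row p).b.2| ≤ 2 * (|n.F 0 p.b p.y| + 5 * |n.G 0 p.b p.y p.A|) ∧
    |((rtChart p₀ n).row p).A.2| ≤ 2 * (2 * (|n.F 0 p.b p.y| + 5 * |n.G 0 p.b p.y p.A|)) := by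
  have := rt_chart_sub h hp n
  rw [h.flat] at this
  simpa [rtFlat, RtPoly.F, RtPoly.G, rtIp] using this

end Claimed.Agent.R256
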