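import Claimed.Agent.R256.Rt.Tests

/-!
# Row 256, folder Rt, unit FLOORCL, file 1 : THE TWO VOLUME BOUNDS          (architect + prover helper34; prefix `rt_fc_`)          Mathlib + `Rt/Tests` only

Source: 07-round-transfer.tex l.192-206.   `RtFcC = (x, V, z)` = normalised coordinates of a row in a frame.
* `rt_fc_line`, `rt_fc_slab`   a quadratic `q(V) = c₀ + b·V + β|V|²`: `|{|q| ≤ f, |∇q|² ≥ 2γ²} ∩ square of half side ρ| ≤ 16 f ρ / γ`   (secant identity + Tonelli; no calculus).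
* `rt_fc_shear`                the free flow in frame coordinates `(x,V,z) ↦ (x + aV + c₁, V, z + a|V|² + c₂)` preserves the volume.
* `rt_fc_fub`                  Tonelli with the velocity innermost.
* `RtFcPar`                    the affine dictionary frame coordinates at the time of the test ↦ coordinates of the test.
* `rt_fc_volA`, `rt_fc_volB`   own coordinates `≲ f / (μx² μz λ²) = f δ³ R⁶`;   frame box `≲ M⁵ f / λ = M⁵ f R`.
-/

set_option autoImplicit false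

namespace Claimed.Agent.R256

open MeasureTheory
open scoped ENNReal

/-- normalised coordinates `(x, V, z)` -/
abbrev RtFcC : Type := (ℝ × ℝ) × (ℝ × ℝ) × ℝ

/-- one sign of the slope: diameter `≤ 2f/γ` -/
theorem rt_fc_line_aux (h D : ℝ → ℝ) (hs : ∀ s t, h t - h s = (t - s) * ((D s + D t) / 2)) {γ f : ℝ} (hγ : 0 < γ) :
    volume {t | |h t| ≤ f ∧ γ ≤ D t} ≤ ENNReal.ofReal (2 * f / γ) := by
  refine (Real.volume_le_diam _).trans (Metric.ediam_le ?_)
  rintro s ⟨hs1, hs2⟩ t ⟨ht1, ht2⟩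
  rw [edist_dist, Real.dist_eq]
  refine ENNReal.ofReal_le_ofReal ?_
  rw [le_div_iff₀ hγ]
  have h1 : |h t - h s| ≤ 2 * f := by
    have := abs_sub (h t) (h s)
    linarith
  have h2 : |h t - h s| = |t - s| * ((D s + D t) / 2) := by
    rw [hs s t, abs_mul, abs_of_nonneg (by linarith : 0 ≤ (D s + D t) / 2)]
  have h3 : |t - s| * γ ≤ |t - s| * ((D s + D t) / 2) := mul_le_mul_of_nonneg_left (by linarith) (abs_nonneg _)
  rw [abs_sub_comm]
  linarith

/-- **L-256-RT-FC-1**: a function with the secant identity of a quadratic.   PLAN: the set is the union of `{|h| ≤ f, γ ≤ D}` and `{|h| ≤ f, D ≤ -γ}`; two points `s ≤ t` of the first set satisfy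
`γ (t - s) ≤ h t - h s ≤ 2 f`, so it lies in an interval of length `2f/γ` (`Real.volume_le_diam` + `EMetric.diam_le`, or: empty, or `⊆ Icc (t₀ - 2f/γ) ..`). -/
theorem rt_fc_line (h D : ℝ → ℝ) (hs : ∀ s t, h t - h s = (t - s) * ((D s + D t) / 2)) {γ f : ℝ} (hγ : 0 < γ) (hf : 0 ≤ f) :
    volume {t | |h t| ≤ f ∧ γ ≤ |D t|} ≤ ENNReal.ofReal (4 * f / γ) := by
  have h1 := rt_fc_line_aux h D hs (f := f) hγ
  have h2 := rt_fc_line_aux (fun t => -h t) (fun t => -D t) (fun s t => by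
    have := hs s t
    linarith) (f := f) hγ
  have hsub : {t | |h t| ≤ f ∧ γ ≤ |D t|} ⊆ {t | |h t| ≤ f ∧ γ ≤ D t} ∪ {t | |(fun t => -h t) t| ≤ f ∧ γ ≤ (fun t => -D t) t} := by
    rintro t ⟨ht1, ht2⟩
    rcases le_abs.1 ht2 with h3 | h3
    · exact Or.inl ⟨ht1, h3⟩
    · exact Or.inr ⟨by simpa using ht1, h3⟩
  refine (measure_mono hsub).trans ((measure_union_le _ _).trans ((add_le_add h1 h2).trans (le_of_eq ?_)))
  rw [← ENNReal.ofReal_add (by positivity) (by positivity)]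
  congr 1
  ring

/-- the quadratic `c₀ + b·V + β|V|²` -/
def rtFcQ (c0 : ℝ) (b : ℝ × ℝ) (β : ℝ) (V : ℝ × ℝ) : ℝ := c0 + rtIp b V + β * rtSq V

/-- its gradient -/
def rtFcDQ (b : ℝ × ℝ) (β : ℝ) (V : ℝ × ℝ) : ℝ × ℝ := b + (2 * β) • V

/-- a rectangle -/
theorem rt_fc_rect (v : ℝ × ℝ) {ρ₁ ρ₂ : ℝ} (h1 : 0 ≤ ρ₁) (h2 : 0 ≤ ρ₂) :
    volume {V : ℝ × ℝ | |V.1 - v.1| ≤ ρ₁ ∧ |V.2 - v.2| ≤ ρ₂} ≤ ENNReal.ofReal (4 * ρ₁ * ρ₂) := by
  have e : {V : ℝ × ℝ | |V.1 - v.1| ≤ ρ₁ ∧ |V.2 - v.2| ≤ ρ₂} = Set.Icc (v.1 - ρ₁) (v.1 + ρ₁) ×ˢ Set.Icc (v.2 - ρ₂) (v.2 + ρ₂) := by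
    ext V
    simp only [Set.mem_ofPred_eq, Set.mem_prod, Set.mem_Icc, abs_le]
    constructor
    · rintro ⟨⟨a1, a2⟩, b1, b2⟩
      exact ⟨⟨by linarith, by linarith⟩, by linarith, by linarith⟩
    · rintro ⟨⟨a1, a2⟩, b1, b2⟩
      exact ⟨⟨by linarith, by linarith⟩, by linarith, by linarith⟩
  rw [e, Measure.volume_eq_prod, Measure.prod_prod, Real.volume_Icc, Real.volume_Icc, ← ENNReal.ofReal_mul (by linarith)]
  refine ENNReal.ofReal_le_ofReal (le_of_eq ?_)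
  ring

/-- Tonelli, first coordinate innermost -/
theorem rt_fc_ton1 {A : Set (ℝ × ℝ)} (hA : MeasurableSet A) (c : ℝ) {ρ : ℝ} (w : ℝ≥0∞) (h1 : ∀ V ∈ A, |V.2 - c| ≤ ρ)
    (h2 : ∀ y, volume {x | ((x, y) : ℝ × ℝ) ∈ A} ≤ w) : volume A ≤ w * ENNReal.ofReal (2 * ρ) := by
  rw [Measure.volume_eq_prod, Measure.prod_apply_symm hA]
  calc ∫⁻ y, volume ((fun x => (x, y)) ⁻¹' A) ≤ ∫⁻ y, (Set.Icc (c - ρ) (c + ρ)).indicator (fun _ => w) y := by
        refine lintegral_mono fun y => ?_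
        beta_reduce
        by_cases hy : y ∈ Set.Icc (c - ρ) (c + ρ)
        · rw [Set.indicator_of_mem hy]
          exact h2 y
        · rw [Set.indicator_of_notMem hy]
          have : (fun x => (x, y)) ⁻¹' A = ∅ := by
            ext x
            simp only [Set.mem_preimage, Set.mem_empty_iff_false, iff_false]
            intro hx
            obtain ⟨a1, a2⟩ := abs_le.1 (h1 _ hx)
            exact hy ⟨by simp only [] at a1; linarith, by simp only [] at a2; linarith⟩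
          rw [this, measure_empty]
    _ ≤ w * volume (Set.Icc (c - ρ) (c + ρ)) := lintegral_indicator_const_le _ _
    _ = w * ENNReal.ofReal (2 * ρ) := by
        rw [Real.volume_Icc]
        congr 2
        ring

/-- Tonelli, second coordinate innermost -/
theorem rt_fc_ton2 {A : Set (ℝ × ℝ)} (hA : MeasurableSet A) (c : ℝ) {ρ : ℝ} (w : ℝ≥0∞) (h1 : ∀ V ∈ A, |V.1 - c| ≤ ρ)
    (h2 : ∀ x, volume {y | ((x, y) : ℝ × ℝ) ∈ A} ≤ w) : volume A ≤ w * ENNReal.ofReal (2 * ρ) := by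
  rw [Measure.volume_eq_prod, Measure.prod_apply hA]
  calc ∫⁻ x, volume (Prod.mk x ⁻¹' A) ≤ ∫⁻ x, (Set.Icc (c - ρ) (c + ρ)).indicator (fun _ => w) x := by
        refine lintegral_mono fun x => ?_
        beta_reduce
        by_cases hx : x ∈ Set.Icc (c - ρ) (c + ρ)
        · rw [Set.indicator_of_mem hx]
          exact h2 x
        · rw [Set.indicator_of_notMem hx]
          have : Prod.mk x ⁻¹' A = ∅ := by
            ext y
            simp only [Set.mem_preimage, Set.mem_empty_iff_false, iff_false]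
            intro hy
            obtain ⟨a1, a2⟩ := abs_le.1 (h1 _ hy)
            exact hx ⟨by simp only [] at a1; linarith, by simp only [] at a2; linarith⟩
          rw [this, measure_empty]
    _ ≤ w * volume (Set.Icc (c - ρ) (c + ρ)) := lintegral_indicator_const_le _ _
    _ = w * ENNReal.ofReal (2 * ρ) := by
        rw [Real.volume_Icc]
        congr 2
        ring

/-- **L-256-RT-FC-2**: slab volume.   PLAN: `2γ² ≤ D₁² + D₂²` gives `γ ≤ |D₁|` or `γ ≤ |D₂|`; on the first set Tonelli (`Measure.prod_apply_symm`, sets are closed hence measurable): for fixed `V.2` in an interval of length `2ρ`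
the section has length `≤ 4f/γ` by `rt_fc_line` (`h t = q (t, V.2)`, `D t = b.1 + 2 β t`). -/
theorem rt_fc_slab (c0 : ℝ) (b : ℝ × ℝ) (β : ℝ) (v : ℝ × ℝ) {γ f ρ : ℝ} (hγ : 0 < γ) (hf : 0 ≤ f) (hρ : 0 ≤ ρ) :
    volume {V : ℝ × ℝ | |V.1 - v.1| ≤ ρ ∧ |V.2 - v.2| ≤ ρ ∧ |rtFcQ c0 b β V| ≤ f ∧ 2 * γ ^ 2 ≤ rtSq (rtFcDQ b β V)}
      ≤ ENNReal.ofReal (16 * f * ρ / γ) := by
  have hq : Measurable (rtFcQ c0 b β) := by
    unfold rtFcQ rtIp rtSq
    fun_prop
  have mq : MeasurableSet {V : ℝ × ℝ | |rtFcQ c0 b β V| ≤ f} := measurableSet_le hq.abs measurable_const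
  have ma1 : MeasurableSet {V : ℝ × ℝ | |V.1 - v.1| ≤ ρ} := measurableSet_le (by fun_prop) measurable_const
  have ma2 : MeasurableSet {V : ℝ × ℝ | |V.2 - v.2| ≤ ρ} := measurableSet_le (by fun_prop) measurable_const
  have mb1 : MeasurableSet {V : ℝ × ℝ | γ ≤ |b.1 + 2 * β * V.1|} := measurableSet_le measurable_const (by fun_prop)
  have mb2 : MeasurableSet {V : ℝ × ℝ | γ ≤ |b.2 + 2 * β * V.2|} := measurableSet_le measurable_const (by fun_prop)
  have m1 : MeasurableSet {V : ℝ × ℝ | |V.2 - v.2| ≤ ρ ∧ |rtFcQ c0 b β V| ≤ f ∧ γ ≤ |b.1 + 2 * β * V.1|} := ma2.inter (mq.inter mb1)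
  have m2 : MeasurableSet {V : ℝ × ℝ | |V.1 - v.1| ≤ ρ ∧ |rtFcQ c0 b β V| ≤ f ∧ γ ≤ |b.2 + 2 * β * V.2|} := ma1.inter (mq.inter mb2)
  have v1 := rt_fc_ton1 m1 v.2 (ρ := ρ) (ENNReal.ofReal (4 * f / γ)) (fun V hV => hV.1) (fun y => by
    refine (measure_mono ?_).trans (rt_fc_line (fun t => rtFcQ c0 b β (t, y)) (fun t => b.1 + 2 * β * t) (fun s t => by
      simp only [rtFcQ, rtIp, rtSq]
      ring) hγ hf)
    rintro x ⟨_, hx2, hx3⟩
    exact ⟨hx2, hx3⟩)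
  have v2 := rt_fc_ton2 m2 v.1 (ρ := ρ) (ENNReal.ofReal (4 * f / γ)) (fun V hV => hV.1) (fun x => by
    refine (measure_mono ?_).trans (rt_fc_line (fun t => rtFcQ c0 b β (x, t)) (fun t => b.2 + 2 * β * t) (fun s t => by
      simp only [rtFcQ, rtIp, rtSq]
      ring) hγ hf)
    rintro y ⟨_, hx2, hx3⟩
    exact ⟨hx2, hx3⟩)
  have hsub : {V : ℝ × ℝ | |V.1 - v.1| ≤ ρ ∧ |V.2 - v.2| ≤ ρ ∧ |rtFcQ c0 b β V| ≤ f ∧ 2 * γ ^ 2 ≤ rtSq (rtFcDQ b β V)}
      ⊆ {V : ℝ × ℝ | |V.2 - v.2| ≤ ρ ∧ |rtFcQ c0 b β V| ≤ f ∧ γ ≤ |b.1 + 2 * β * V.1|}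
        ∪ {V : ℝ × ℝ | |V.1 - v.1| ≤ ρ ∧ |rtFcQ c0 b β V| ≤ f ∧ γ ≤ |b.2 + 2 * β * V.2|} := by
    rintro V ⟨a1, a2, a3, a4⟩
    have e : rtSq (rtFcDQ b β V) = (b.1 + 2 * β * V.1) ^ 2 + (b.2 + 2 * β * V.2) ^ 2 := by
      simp only [rtSq, rtFcDQ, Prod.fst_add, Prod.snd_add, Prod.smul_fst, Prod.smul_snd, smul_eq_mul]
    rw [e] at a4
    by_cases h1 : γ ≤ |b.1 + 2 * β * V.1|
    · exact Or.inl ⟨a2, a3, h1⟩
    · refine Or.inr ⟨a1, a3, ?_⟩
      by_contra h2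
      have h1' := abs_lt.1 (not_le.1 h1)
      have h2' := abs_lt.1 (not_le.1 h2)
      have s1 := sq_lt_sq' h1'.1 h1'.2
      have s2 := sq_lt_sq' h2'.1 h2'.2
      linarith
  refine (measure_mono hsub).trans ((measure_union_le _ _).trans ((add_le_add v1 v2).trans (le_of_eq ?_)))
  rw [← ENNReal.ofReal_mul (by positivity), ← ENNReal.ofReal_add (by positivity) (by positivity)]
  congr 1
  ring

/-- the free flow in frame coordinates -/
def rtFcPsi (a : ℝ) (c1 : ℝ × ℝ) (c2 : ℝ) (c : RtFcC) : RtFcC := (c.1 + a • c.2.1 + c1, c.2.1, c.2.2 + a * rtSq c.2.1 + c2)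

/-- **L-256-RT-FC-3**: the shear preserves the volume.   PLAN: `MeasurePreserving.skew_product` twice (`(V,z) ↦ (V, z + ..)`; `((V,z),x) ↦ ((V,z), x + ..)`), `MeasurePreserving.prod`, `Measure.measurePreserving_swap`, `map_add_right_eq_self`. -/
theorem rt_fc_shear (a : ℝ) (c1 : ℝ × ℝ) (c2 : ℝ) : MeasurePreserving (rtFcPsi a c1 c2) volume volume := by
  have k1 : MeasurePreserving (fun p : (ℝ × ℝ) × ℝ => (p.1, p.2 + (a * rtSq p.1 + c2))) (volume.prod volume) (volume.prod volume) := by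
    refine (MeasurePreserving.id (volume : Measure (ℝ × ℝ))).skew_product (g := fun V z => z + (a * rtSq V + c2)) ?_ ?_
    · unfold Function.uncurry rtSq
      fun_prop
    · exact Filter.Eventually.of_forall fun V => map_add_right_eq_self volume _
  have k2 : MeasurePreserving (fun p : ((ℝ × ℝ) × ℝ) × (ℝ × ℝ) => ((p.1.1, p.1.2 + (a * rtSq p.1.1 + c2)), p.2 + (a • p.1.1 + c1)))
      ((volume.prod volume).prod volume) ((volume.prod volume).prod volume) := by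
    refine k1.skew_product (g := fun w x => x + (a • w.1 + c1)) ?_ ?_
    · unfold Function.uncurry
      fun_prop
    · exact Filter.Eventually.of_forall fun V => map_add_right_eq_self volume _
  have k3 := (Measure.measurePreserving_swap (μ := ((volume : Measure (ℝ × ℝ)).prod (volume : Measure ℝ))) (ν := (volume : Measure (ℝ × ℝ)))).comp
    (k2.comp (Measure.measurePreserving_swap (μ := (volume : Measure (ℝ × ℝ))) (ν := ((volume : Measure (ℝ × ℝ)).prod (volume : Measure ℝ)))))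
  have e : rtFcPsi a c1 c2 = Prod.swap ∘ (fun p : ((ℝ × ℝ) × ℝ) × (ℝ × ℝ) => ((p.1.1, p.1.2 + (a * rtSq p.1.1 + c2)), p.2 + (a • p.1.1 + c1))) ∘ Prod.swap := by
    funext c
    simp only [rtFcPsi, Function.comp, Prod.swap, add_assoc]
  rw [e]
  exact k3

/-- **L-256-RT-FC-4**: Tonelli with the velocity innermost.   PLAN: `Measure.prod_apply` in `X`, `Measure.prod_apply_symm` in `(V,Z)`; bound the integrands by indicators of intervals times constants (`lintegral_indicator_const`, `Real.volume_Icc`). -/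
theorem rt_fc_fub {H : Set RtFcC} (hH : MeasurableSet H) (cx : ℝ × ℝ) (ζ : ℝ × ℝ → ℝ) {hx hz : ℝ} (hx0 : 0 ≤ hx) (hz0 : 0 ≤ hz) (w : ℝ≥0∞)
    (h1 : ∀ X V Z, ((X, V, Z) : RtFcC) ∈ H → |X.1 - cx.1| ≤ hx ∧ |X.2 - cx.2| ≤ hx ∧ |Z - ζ X| ≤ hz)
    (h2 : ∀ X Z, volume {V | ((X, V, Z) : RtFcC) ∈ H} ≤ w) :
    volume H ≤ ENNReal.ofReal ((2 * hx) ^ 2 * (2 * hz)) * w := by
  have hsec : ∀ X : ℝ × ℝ, volume (Prod.mk X ⁻¹' H) ≤ w * ENNReal.ofReal (2 * hz) := fun X => by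
    have hm : MeasurableSet (Prod.mk X ⁻¹' H) := measurable_prodMk_left hH
    rw [Measure.volume_eq_prod, Measure.prod_apply_symm hm]
    calc ∫⁻ Z, volume ((fun V => (V, Z)) ⁻¹' (Prod.mk X ⁻¹' H)) ≤ ∫⁻ Z, (Set.Icc (ζ X - hz) (ζ X + hz)).indicator (fun _ => w) Z := by
          refine lintegral_mono fun Z => ?_
          beta_reduce
          by_cases hZ : Z ∈ Set.Icc (ζ X - hz) (ζ X + hz)
          · rw [Set.indicator_of_mem hZ]
            exact h2 X Z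
          · rw [Set.indicator_of_notMem hZ]
            have : (fun V => (V, Z)) ⁻¹' (Prod.mk X ⁻¹' H) = ∅ := by
              ext V
              simp only [Set.mem_preimage, Set.mem_empty_iff_false, iff_false]
              intro hV
              obtain ⟨a1, a2⟩ := abs_le.1 (h1 X V Z hV).2.2
              exact hZ ⟨by linarith, by linarith⟩
            rw [this, measure_empty]
      _ ≤ w * volume (Set.Icc (ζ X - hz) (ζ X + hz)) := lintegral_indicator_const_le _ _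
      _ = w * ENNReal.ofReal (2 * hz) := by
          rw [Real.volume_Icc]
          congr 2
          ring
  have e0 : (volume : Measure RtFcC) = (volume : Measure (ℝ × ℝ)).prod (volume : Measure ((ℝ × ℝ) × ℝ)) := rfl
  rw [e0, Measure.prod_apply hH]
  calc ∫⁻ X, volume (Prod.mk X ⁻¹' H)
      ≤ ∫⁻ X, {V : ℝ × ℝ | |V.1 - cx.1| ≤ hx ∧ |V.2 - cx.2| ≤ hx}.indicator (fun _ => w * ENNReal.ofReal (2 * hz)) X := by
        refine lintegral_mono fun X => ?_
        beta_reduce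
        by_cases hX : X ∈ {V : ℝ × ℝ | |V.1 - cx.1| ≤ hx ∧ |V.2 - cx.2| ≤ hx}
        · rw [Set.indicator_of_mem hX]
          exact hsec X
        · rw [Set.indicator_of_notMem hX]
          have : Prod.mk X ⁻¹' H = ∅ := by
            ext p
            simp only [Set.mem_preimage, Set.mem_empty_iff_false, iff_false]
            intro hp
            have := h1 X p.1 p.2 hp
            exact hX ⟨this.1, this.2.1⟩
          rw [this, measure_empty]
    _ ≤ w * ENNReal.ofReal (2 * hz) * volume {V : ℝ × ℝ | |V.1 - cx.1| ≤ hx ∧ |V.2 - cx.2| ≤ hx} := lintegral_indicator_const_le _ _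
    _ ≤ w * ENNReal.ofReal (2 * hz) * ENNReal.ofReal (4 * hx * hx) := mul_le_mul' le_rfl (rt_fc_rect cx hx0 hx0)
    _ = ENNReal.ofReal ((2 * hx) ^ 2 * (2 * hz)) * w := by
        rw [mul_assoc, ← ENNReal.ofReal_mul (by positivity), mul_comm]
        congr 2
        ring

/-- the affine dictionary: `x' = μx X + ex`, `z' = μz Z + m·X + ez`, `V' = λ V + e`;   flow parameters `a, c₁, c₂`;   box `M`;   thickness `f`;   polynomial `n` -/
structure RtFcPar where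
  lam : ℝ
  e : ℝ × ℝ
  mx : ℝ
  ex : ℝ × ℝ
  mz : ℝ
  m : ℝ × ℝ
  ez : ℝ
  a : ℝ
  c1 : ℝ × ℝ
  c2 : ℝ
  M : ℝ
  f : ℝ
  n : RtPoly

namespace RtFcPar

variable (P : RtFcPar)

/-- `x'` -/
def x' (c : RtFcC) : ℝ × ℝ := P.mx • c.1 + P.ex

/-- `z'` -/
def z' (c : RtFcC) : ℝ := P.mz * c.2.2 + rtIp P.m c.1 + P.ez

/-- `V'` -/
def V' (c : RtFcC) : ℝ × ℝ := P.lam • c.2.1 + P.e

/-- the test in frame coordinates at the time of the test -/
def tst : Set RtFcC := {c | (rtSq (P.x' c) ≤ 1 ^ 2 ∧ |P.z' c| ≤ 1 ∧ rtSq (P.V' c) ≤ 1 ^ 2) ∧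
  |P.n.F 0 (P.x' c) (P.z' c)| ≤ 1 * P.f ∧ |P.n.G 0 (P.x' c) (P.z' c) (P.V' c)| ≤ 1 * P.f}

/-- the phase box in frame coordinates at the root time -/
def bx : Set RtFcC := {c | rtSq c.1 ≤ P.M ^ 2 ∧ |c.2.2| ≤ P.M ∧ rtSq c.2.1 ≤ P.M ^ 2}

/-- rows of the box whose ray meets the test -/
def S : Set RtFcC := P.bx ∩ rtFcPsi P.a P.c1 P.c2 ⁻¹' P.tst

/-- the hypotheses -/
structure Ok : Prop where
  lam_pos : 0 < P.lam
  mx_pos : 0 < P.mx
  mz_pos : 0 < P.mz
  a_nn : 0 ≤ P.a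
  a_le : P.a ≤ 1
  M_ge : 1 ≤ P.M
  f_pos : 0 < P.f
  f_le : P.f ≤ 1
  disc : P.n.disc = 1
  bd : P.n.Bd (100 * 1)

end RtFcPar

theorem rt_fc_eqns_cite : True := by
  have := @rtFcQ.eq_1
  have := @rtFcDQ.eq_1
  have := @rtFcPsi.eq_1
  have := @RtFcPar.x'.eq_1
  have := @RtFcPar.z'.eq_1
  have := @RtFcPar.V'.eq_1
  have := @RtFcPar.tst.eq_1
  have := @RtFcPar.bx.eq_1
  have := @RtFcPar.S.eq_1
  trivial

/-- **L-256-RT-FC-5** closed sets -/
theorem rt_fc_meas_tst (P : RtFcPar) : MeasurableSet P.tst := by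
  have hx : Measurable P.x' := by
    unfold RtFcPar.x'
    fun_prop
  have hz : Measurable P.z' := by
    unfold RtFcPar.z' rtIp
    fun_prop
  have hV : Measurable P.V' := by
    unfold RtFcPar.V'
    fun_prop
  have hsq : Measurable rtSq := by
    unfold rtSq
    fun_prop
  have hF : Measurable fun c => P.n.F 0 (P.x' c) (P.z' c) := by
    unfold RtPoly.F rtIp rtSq
    fun_prop
  have hG : Measurable fun c => P.n.G 0 (P.x' c) (P.z' c) (P.V' c) := by
    unfold RtPoly.G rtIp rtSq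
    fun_prop
  exact (((measurableSet_le (hsq.comp hx) measurable_const).inter ((measurableSet_le hz.abs measurable_const).inter
    (measurableSet_le (hsq.comp hV) measurable_const)))).inter
    ((measurableSet_le hF.abs measurable_const).inter (measurableSet_le hG.abs measurable_const))

theorem rt_fc_meas_bx (P : RtFcPar) : MeasurableSet P.bx := by
  have m1 : MeasurableSet {c : RtFcC | rtSq c.1 ≤ P.M ^ 2} :=
    measurableSet_le (by unfold rtSq; fun_prop) measurable_const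
  have m2 : MeasurableSet {c : RtFcC | |c.2.2| ≤ P.M} := measurableSet_le (by fun_prop) measurable_const
  have m3 : MeasurableSet {c : RtFcC | rtSq c.2.1 ≤ P.M ^ 2} :=
    measurableSet_le (by unfold rtSq; fun_prop) measurable_const
  exact m1.inter (m2.inter m3)

theorem rt_fc_meas_S (P : RtFcPar) : MeasurableSet P.S :=
  (rt_fc_meas_bx P).inter ((rt_fc_shear P.a P.c1 P.c2).measurable (rt_fc_meas_tst P))

/-- the velocity section of the test is a slab -/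
theorem rt_fc_sec (P : RtFcPar) (hP : P.Ok) (X : ℝ × ℝ) (Z : ℝ) (v : ℝ × ℝ) {ρ : ℝ} (hρ : 0 ≤ ρ) (hf : P.f ≤ 1 / 1600) :
    volume {V : ℝ × ℝ | ((X, V, Z) : RtFcC) ∈ P.tst ∧ |V.1 - v.1| ≤ ρ ∧ |V.2 - v.2| ≤ ρ} ≤ ENNReal.ofReal (32 * P.f * ρ / P.lam) := by
  have hl := hP.lam_pos
  obtain ⟨x', hx'⟩ : ∃ x', x' = P.mx • X + P.ex := ⟨_, rfl⟩
  obtain ⟨z', hz'⟩ : ∃ z', z' = P.mz * Z + rtIp P.m X + P.ez := ⟨_, rfl⟩
  have key := rt_fc_slab (P.n.d + P.n.k * z' + rtIp P.e (P.n.al - (2 * P.n.k) • x') + P.n.be * rtSq P.e)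
    (P.lam • (P.n.al - (2 * P.n.k) • x') + (2 * P.n.be * P.lam) • P.e) (P.n.be * P.lam ^ 2) v
    (γ := P.lam / 2) (f := P.f) (ρ := ρ) (by positivity) hP.f_pos.le hρ
  have e1 : 16 * P.f * ρ / (P.lam / 2) = 32 * P.f * ρ / P.lam := by
    field_simp
    ring
  rw [e1] at key
  refine (measure_mono ?_).trans key
  rintro V ⟨⟨_, hF, hG⟩, h1, h2⟩
  have hF' : |P.n.F 0 x' z'| ≤ P.f := by
    rw [one_mul] at hF
    simpa only [RtFcPar.x', RtFcPar.z', ← hx', ← hz'] using hF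
  have hG' : |P.n.G 0 x' z' (P.lam • V + P.e)| ≤ P.f := by
    rw [one_mul] at hG
    simpa only [RtFcPar.x', RtFcPar.z', RtFcPar.V', ← hx', ← hz'] using hG
  have c1 : rtFcQ (P.n.d + P.n.k * z' + rtIp P.e (P.n.al - (2 * P.n.k) • x') + P.n.be * rtSq P.e)
      (P.lam • (P.n.al - (2 * P.n.k) • x') + (2 * P.n.be * P.lam) • P.e) (P.n.be * P.lam ^ 2) V
      = P.n.G 0 x' z' (P.lam • V + P.e) := by
    simp only [rtFcQ, RtPoly.G, rtSq, rtIp, Prod.fst_add, Prod.snd_add, Prod.fst_sub, Prod.snd_sub, Prod.smul_fst, Prod.smul_snd,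
      smul_eq_mul]
    ring
  have c2 : rtSq (rtFcDQ (P.lam • (P.n.al - (2 * P.n.k) • x') + (2 * P.n.be * P.lam) • P.e) (P.n.be * P.lam ^ 2) V)
      = P.lam ^ 2 * rtSq (P.n.g 0 x' (P.lam • V + P.e)) := by
    simp only [rtFcDQ, RtPoly.g, rtSq, Prod.fst_add, Prod.snd_add, Prod.fst_sub, Prod.snd_sub, Prod.smul_fst, Prod.smul_snd,
      smul_eq_mul]
    ring
  refine ⟨h1, h2, by rw [c1]; exact hG', ?_⟩
  rw [c2, rt_disc_identity P.n 0 x' z' (P.lam • V + P.e), hP.disc]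
  obtain ⟨_, _, _, hbe, hk⟩ := hP.bd
  have a1 : |P.n.be * P.n.G 0 x' z' (P.lam • V + P.e)| ≤ 100 * P.f := by
    rw [abs_mul]
    exact mul_le_mul (by linarith) hG' (abs_nonneg _) (by norm_num)
  have a2 : |P.n.k * P.n.F 0 x' z'| ≤ 100 * P.f := by
    rw [abs_mul]
    exact mul_le_mul (by linarith) hF' (abs_nonneg _) (by norm_num)
  have a3 := (abs_le.1 a1).1
  have a4 := (abs_le.1 a2).2
  have : (1 : ℝ) / 2 ≤ 1 + 4 * (P.n.be + P.n.k * 0) * P.n.G 0 x' z' (P.lam • V + P.e) - 4 * P.n.k * P.n.F 0 x' z' := by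
    nlinarith
  have hl2 : 0 < P.lam ^ 2 := by positivity
  nlinarith

theorem rt_fc_abs_le {u : ℝ × ℝ} {M : ℝ} (hM : 0 ≤ M) (h : rtSq u ≤ M ^ 2) : |u.1| ≤ M ∧ |u.2| ≤ M := by
  unfold rtSq at h
  constructor
  · exact abs_le_of_sq_le_sq' (by nlinarith [sq_nonneg u.2]) hM |> fun h => abs_le.2 h
  · exact abs_le_of_sq_le_sq' (by nlinarith [sq_nonneg u.1]) hM |> fun h => abs_le.2 h

/-- an affine image in a unit interval -/
theorem rt_fc_aff {μ t e : ℝ} (hμ : 0 < μ) (h : |μ * t + e| ≤ 1) : |t - (-(e / μ))| ≤ 1 / μ := by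
  have e1 : t - (-(e / μ)) = (μ * t + e) / μ := by
    field_simp
    ring
  rw [e1, abs_div, abs_of_pos hμ]
  exact div_le_div_of_nonneg_right h hμ.le

/-- the velocity section, all thicknesses, own square -/
theorem rt_fc_secA (P : RtFcPar) (hP : P.Ok) (X : ℝ × ℝ) (Z : ℝ) :
    volume {V : ℝ × ℝ | ((X, V, Z) : RtFcC) ∈ P.tst} ≤ ENNReal.ofReal (6400 * P.f / P.lam ^ 2) := by
  have hl := hP.lam_pos
  have hf := hP.f_pos
  have hsub : ∀ V : ℝ × ℝ, ((X, V, Z) : RtFcC) ∈ P.tst →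
      |V.1 - (-(P.e.1 / P.lam), -(P.e.2 / P.lam)).1| ≤ 1 / P.lam ∧ |V.2 - (-(P.e.1 / P.lam), -(P.e.2 / P.lam)).2| ≤ 1 / P.lam := by
    rintro V ⟨⟨_, _, hV⟩, _⟩
    obtain ⟨a1, a2⟩ := rt_fc_abs_le zero_le_one hV
    exact ⟨rt_fc_aff hl a1, rt_fc_aff hl a2⟩
  rcases le_or_gt P.f (1 / 1600) with h | h
  · refine (measure_mono fun V hV => ?_).trans ((rt_fc_sec P hP X Z (-(P.e.1 / P.lam), -(P.e.2 / P.lam)) (ρ := 1 / P.lam)
      (by positivity) h).trans (ENNReal.ofReal_le_ofReal ?_))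
    · exact ⟨hV, hsub V hV⟩
    · have : 32 * P.f * (1 / P.lam) / P.lam = 32 * P.f / P.lam ^ 2 := by
        field_simp
      rw [this]
      gcongr
      norm_num
  · refine (measure_mono fun V hV => ?_).trans ((rt_fc_rect (-(P.e.1 / P.lam), -(P.e.2 / P.lam)) (ρ₁ := 1 / P.lam) (ρ₂ := 1 / P.lam)
      (by positivity) (by positivity)).trans (ENNReal.ofReal_le_ofReal ?_))
    · exact hsub V hV
    · have : 4 * (1 / P.lam) * (1 / P.lam) = 4 / P.lam ^ 2 := by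
        field_simp
      rw [this]
      gcongr
      linarith

/-- own coordinates -/
theorem rt_fc_volA (P : RtFcPar) (hP : P.Ok) : volume P.S ≤ ENNReal.ofReal (51200 * P.f / (P.mx ^ 2 * P.mz * P.lam ^ 2)) := by
  have hl := hP.lam_pos
  have hx := hP.mx_pos
  have hz := hP.mz_pos
  have hf := hP.f_pos
  have h1 : volume P.S ≤ volume P.tst := by
    rw [← (rt_fc_shear P.a P.c1 P.c2).measure_preimage (rt_fc_meas_tst P).nullMeasurableSet]
    exact measure_mono Set.inter_subset_right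
  refine h1.trans ?_
  have h2 := rt_fc_fub (rt_fc_meas_tst P) (-(P.ex.1 / P.mx), -(P.ex.2 / P.mx)) (fun X => -((rtIp P.m X + P.ez) / P.mz))
    (hx := 1 / P.mx) (hz := 1 / P.mz) (by positivity) (by positivity) (ENNReal.ofReal (6400 * P.f / P.lam ^ 2)) ?_
    (fun X Z => rt_fc_secA P hP X Z)
  · refine h2.trans (le_of_eq ?_)
    rw [← ENNReal.ofReal_mul (by positivity)]
    congr 1
    field_simp
    ring
  · rintro X V Z ⟨⟨hX, hZ, _⟩, _⟩
    obtain ⟨a1, a2⟩ := rt_fc_abs_le zero_le_one hX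
    refine ⟨rt_fc_aff hx a1, rt_fc_aff hx a2, ?_⟩
    refine rt_fc_aff hz ?_
    have : P.mz * Z + (rtIp P.m X + P.ez) = P.z' (X, V, Z) := by
      simp only [RtFcPar.z']
      ring
    rw [this]
    exact hZ

/-- the image of the phase box under the flow -/
def RtFcPar.bx2 (P : RtFcPar) : Set RtFcC :=
  {c | rtSq c.2.1 ≤ P.M ^ 2 ∧ |c.1.1 - P.c1.1| ≤ 2 * P.M ∧ |c.1.2 - P.c1.2| ≤ 2 * P.M ∧ |c.2.2 - P.c2| ≤ P.M + P.M ^ 2}

theorem rt_fc_bx2_eqns_cite : True := by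
  have := @RtFcPar.bx2.eq_1
  trivial

theorem rt_fc_meas_bx2 (P : RtFcPar) : MeasurableSet P.bx2 := by
  have m1 : MeasurableSet {c : RtFcC | rtSq c.2.1 ≤ P.M ^ 2} :=
    measurableSet_le (by unfold rtSq; fun_prop) measurable_const
  have m2 : MeasurableSet {c : RtFcC | |c.1.1 - P.c1.1| ≤ 2 * P.M} := measurableSet_le (by fun_prop) measurable_const
  have m3 : MeasurableSet {c : RtFcC | |c.1.2 - P.c1.2| ≤ 2 * P.M} := measurableSet_le (by fun_prop) measurable_const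
  have m4 : MeasurableSet {c : RtFcC | |c.2.2 - P.c2| ≤ P.M + P.M ^ 2} := measurableSet_le (by fun_prop) measurable_const
  exact m1.inter (m2.inter (m3.inter m4))

theorem rt_fc_bx_bx2 (P : RtFcPar) (hP : P.Ok) {c : RtFcC} (hc : c ∈ P.bx) : rtFcPsi P.a P.c1 P.c2 c ∈ P.bx2 := by
  obtain ⟨h1, h2, h3⟩ := hc
  have hM : 0 ≤ P.M := by linarith [hP.M_ge]
  obtain ⟨a1, a2⟩ := rt_fc_abs_le hM h1
  obtain ⟨b1, b2⟩ := rt_fc_abs_le hM h3
  have ha0 := hP.a_nn
  have ha1 := hP.a_le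
  have hs : ∀ t u : ℝ, |t| ≤ P.M → |u| ≤ P.M → |t + P.a * u| ≤ 2 * P.M := by
    intro t u ht hu
    have : |P.a * u| ≤ P.M := by
      rw [abs_mul, abs_of_nonneg ha0]
      calc P.a * |u| ≤ 1 * P.M := mul_le_mul ha1 hu (abs_nonneg _) zero_le_one
        _ = P.M := one_mul _
    calc |t + P.a * u| ≤ |t| + |P.a * u| := abs_add_le _ _
      _ ≤ 2 * P.M := by linarith
  refine ⟨h3, ?_, ?_, ?_⟩
  · have : (rtFcPsi P.a P.c1 P.c2 c).1.1 - P.c1.1 = c.1.1 + P.a * c.2.1.1 := by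
      simp [rtFcPsi]
    rw [this]
    exact hs _ _ a1 b1
  · have : (rtFcPsi P.a P.c1 P.c2 c).1.2 - P.c1.2 = c.1.2 + P.a * c.2.1.2 := by
      simp [rtFcPsi]
    rw [this]
    exact hs _ _ a2 b2
  · have : (rtFcPsi P.a P.c1 P.c2 c).2.2 - P.c2 = c.2.2 + P.a * rtSq c.2.1 := by
      simp [rtFcPsi]
    rw [this]
    have h4 : |P.a * rtSq c.2.1| ≤ P.M ^ 2 := by
      rw [abs_mul, abs_of_nonneg ha0, abs_of_nonneg (rtSq_nonneg _)]
      calc P.a * rtSq c.2.1 ≤ 1 * P.M ^ 2 := mul_le_mul ha1 h3 (rtSq_nonneg _) zero_le_one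
        _ = P.M ^ 2 := one_mul _
    calc |c.2.2 + P.a * rtSq c.2.1| ≤ |c.2.2| + |P.a * rtSq c.2.1| := abs_add_le _ _
      _ ≤ P.M + P.M ^ 2 := add_le_add h2 h4

/-- the velocity section, all thicknesses, frame square -/
theorem rt_fc_secB (P : RtFcPar) (hP : P.Ok) (X : ℝ × ℝ) (Z : ℝ) :
    volume {V : ℝ × ℝ | ((X, V, Z) : RtFcC) ∈ P.tst ∩ P.bx2} ≤ ENNReal.ofReal (6400 * P.f * P.M / P.lam) := by
  have hl := hP.lam_pos
  have hf := hP.f_pos
  have hM : 0 ≤ P.M := by linarith [hP.M_ge]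
  rcases le_or_gt P.f (1 / 1600) with h | h
  · refine (measure_mono fun V hV => ?_).trans ((rt_fc_sec P hP X Z (0, 0) (ρ := P.M) hM h).trans (ENNReal.ofReal_le_ofReal ?_))
    · obtain ⟨b1, b2⟩ := rt_fc_abs_le hM hV.2.1
      exact ⟨hV.1, by simpa using b1, by simpa using b2⟩
    · gcongr
      norm_num
  · refine (measure_mono fun V hV => ?_).trans ((rt_fc_rect (-(P.e.1 / P.lam), 0) (ρ₁ := 1 / P.lam) (ρ₂ := P.M)
      (by positivity) hM).trans (ENNReal.ofReal_le_ofReal ?_))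
    · obtain ⟨b1, b2⟩ := rt_fc_abs_le hM hV.2.1
      obtain ⟨a1, a2⟩ := rt_fc_abs_le zero_le_one hV.1.1.2.2
      exact ⟨rt_fc_aff hl a1, by simpa using b2⟩
    · have : 4 * (1 / P.lam) * P.M = 4 * P.M / P.lam := by
        field_simp
      rw [this]
      gcongr ?_ / _
      nlinarith

/-- frame box -/
theorem rt_fc_volB (P : RtFcPar) (hP : P.Ok) : volume P.S ≤ ENNReal.ofReal (409600 * P.M ^ 5 * P.f / P.lam) := by
  have hl := hP.lam_pos
  have hf := hP.f_pos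
  have hM1 := hP.M_ge
  have hM : 0 ≤ P.M := by linarith
  have hm : MeasurableSet (P.tst ∩ P.bx2) := (rt_fc_meas_tst P).inter (rt_fc_meas_bx2 P)
  have h1 : volume P.S ≤ volume (P.tst ∩ P.bx2) := by
    rw [← (rt_fc_shear P.a P.c1 P.c2).measure_preimage hm.nullMeasurableSet]
    exact measure_mono fun c hc => ⟨hc.2, rt_fc_bx_bx2 P hP hc.1⟩
  refine h1.trans ?_
  have h2 := rt_fc_fub hm P.c1 (fun _ => P.c2) (hx := 2 * P.M) (hz := P.M + P.M ^ 2) (by positivity) (by positivity)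
    (ENNReal.ofReal (6400 * P.f * P.M / P.lam)) ?_ (fun X Z => rt_fc_secB P hP X Z)
  · refine h2.trans ?_
    rw [← ENNReal.ofReal_mul (by positivity)]
    refine ENNReal.ofReal_le_ofReal ?_
    have e1 : (2 * (2 * P.M)) ^ 2 * (2 * (P.M + P.M ^ 2)) * (6400 * P.f * P.M / P.lam)
        = 204800 * P.M ^ 3 * (P.M + P.M ^ 2) * P.f / P.lam := by
      field_simp
      ring
    rw [e1]
    gcongr ?_ * _ / _
    have : P.M + P.M ^ 2 ≤ 2 * P.M ^ 2 := by nlinarith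
    calc 204800 * P.M ^ 3 * (P.M + P.M ^ 2) ≤ 204800 * P.M ^ 3 * (2 * P.M ^ 2) := by gcongr
      _ = 409600 * P.M ^ 5 := by ring
  · rintro X V Z ⟨_, _, a1, a2, a3⟩
    exact ⟨a1, a2, a3⟩

end Claimed.Agent.R256
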