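import Claimed.Agent.R256.Base.RndCl
import Claimed.Agent.R256.Gen.BasB
import Claimed.Agent.R256.Rt.FloorVol

/-!
# Row 256, folder Rt, unit FLOORCL, file 2 : `(rndCl η).Floor`          (architect + prover helper34; prefix `rt_fc_`)

Source: 07-round-transfer.tex l.192-206.   Classical round model: `An = id`, masks only decrease the row energy, the flow sits in `cell`.
 1. `rt_fc_run_le`   the row energy of a masked state on a measurable set is at most that of the root state.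
 2. `rt_fc_nc_flow`, `rt_fc_mem_tst`, `rt_fc_mem_bx`   dictionary rows ↔ frame coordinates (`rtFcOf`).
 3. `rt_fc_mass`     `RdSet.supp` + `RdSet.dens`:   mass of the cell `≤ s^-C e · vol (P.S)`.
 4. `rt_fc_num`      numerics: with `R = r_Q / r`:  (A) `s^(D+2C) < K f^η R²`,  (B) `s^(D+7C) R³ < K f^η`  ⟹  `R⁴ f ≥ s^(..)`.
-/

set_option autoImplicit false

namespace Claimed.Agent.R256

open MeasureTheory
open scoped ENNReal

theorem rt_fc_tz (η : ℝ) (p : RdClPar) (T : ℝ) (k b : ℕ) (M : (p.sys η).X → ℝ) (v : (p.sys η).Kc) :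
    (p.sys η).tz T k b M v = (p.sys η).mulR k M v := by
  unfold PkSys.tz
  show ContinuousLinearMap.adjoint (ContinuousLinearMap.id ℂ (Lp p.Fb 2 p.m)) _ = _
  rw [ContinuousLinearMap.adjoint_id]
  rfl

theorem rt_fc_ms_indep (η : ℝ) (p : RdClPar) (S : Set (p.sys η).X) (T T' : ℝ) (k1 k2 b1 b2 : ℕ) (v : (p.sys η).Kc) :
    (p.sys η).ms T k1 b1 S v = (p.sys η).ms T' k2 b2 S v := rfl

theorem rt_fc_ms_mulR (η : ℝ) (p : RdClPar) {S : Set (p.sys η).X} (hS : MeasurableSet S) (T : ℝ) (k k1 b1 : ℕ) {M : (p.sys η).X → ℝ} (hM : IsMask M)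
    (v : (p.sys η).Kc) : (p.sys η).ms T k1 b1 S ((p.sys η).mulR k M v) ≤ (p.sys η).ms T k1 b1 S v := by
  have h1 := gn_ms_eq (P := p.sys η) T k b1 hS ((p.sys η).mulR k M v)
  have h2 := gn_ms_eq (P := p.sys η) T k b1 hS v
  have h3 := gn_mulR_setInt_le (P := p.sys η) k hM hS v
  calc (p.sys η).ms T k1 b1 S ((p.sys η).mulR k M v) = (p.sys η).ms T k b1 S ((p.sys η).mulR k M v) := rfl
    _ = _ := h1
    _ ≤ _ := h3
    _ = (p.sys η).ms T k b1 S v := h2.symm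
    _ = (p.sys η).ms T k1 b1 S v := rfl

/-- **L-256-RT-FC-6**: masks decrease the row energy (classical model: `An = id`, `adjoint id = id`, `tz = mulR`). -/
theorem rt_fc_run_le (η : ℝ) (p : RdClPar) (k i : ℕ) (st' : List (Stg (p.sys η))) (hst : ∀ σ ∈ st', ∀ j, IsMask (σ.M j))
    {S : Set p.Om} (hS : MeasurableSet S) (T T' : ℝ) (k1 k2 b1 b2 : ℕ) (v : (p.sys η).Kc) :
    (p.sys η).ms T k1 b1 S (Xp.run k i st' v) ≤ (p.sys η).ms T' k2 b2 S v := by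
  induction st' generalizing v with
  | nil => exact le_of_eq rfl
  | cons σ l ih =>
    have h1 := ih (fun σ' hσ' => hst σ' (List.mem_cons_of_mem _ hσ'))
      ((p.sys η).tz (tmL σ.k (ancI k σ.k i)) σ.k σ.b (σ.M (ancI k σ.k i)) v)
    refine le_trans h1 ?_
    have e := rt_fc_tz η p (tmL σ.k (ancI k σ.k i)) σ.k σ.b (σ.M (ancI k σ.k i)) v
    have h2 := rt_fc_ms_mulR η p (S := S) hS T' σ.k k2 b2 (hst σ List.mem_cons_self (ancI k σ.k i)) v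
    exact e ▸ h2

theorem rt_fc_flow_flow (p : RtRow) (s t : ℝ) : (p.flow s).flow t = p.flow (s + t) := by
  unfold RtRow.flow
  ext <;> simp <;> ring

/-- the dictionary of a frame at length `2^-k0`, a test at length `2^-k`, a time lag `t`, a box `M` -/
noncomputable def rtFcOf (φ : RdFrm) (k0 : ℕ) (Q : RdTst) (k : ℕ) (t M : ℝ) : RtFcPar where
  lam := φ.r / Q.r
  e := Q.r⁻¹ • (φ.As - Q.As)
  mx := rdLen k0 * φ.r / (rdLen k * Q.r)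
  ex := (rdLen k * Q.r)⁻¹ • (φ.bs - Q.bs)
  mz := rdLen k0 * φ.r ^ 2 / (rdLen k * Q.r ^ 2)
  m := (2 * rdLen k0 * φ.r / (rdLen k * Q.r ^ 2)) • (φ.As - Q.As)
  ez := (φ.ys - Q.ys - 2 * rtIp Q.As (φ.bs - Q.bs)) / (rdLen k * Q.r ^ 2)
  a := t / rdLen k0
  c1 := (t / (rdLen k0 * φ.r)) • φ.As
  c2 := -(t * rtSq φ.As / (rdLen k0 * φ.r ^ 2))
  M := M
  f := Q.f
  n := Q.n

theorem rt_fc_of_eqns_cite : True := by
  have := @rtFcOf.eq_1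
  trivial

/-- **L-256-RT-FC-7**: the dictionary rows ↔ frame coordinates -/
theorem rt_fc_nc_flow (φ : RdFrm) (hr : 0 < φ.r) (k0 : ℕ) (Q : RdTst) (k : ℕ) (t M : ℝ) (p : RtRow) :
    φ.nc k0 (p.flow t) = rtFcPsi (rtFcOf φ k0 Q k t M).a (rtFcOf φ k0 Q k t M).c1 (rtFcOf φ k0 Q k t M).c2 (φ.nc k0 p) := by
  have hl := rdLen_pos k0
  simp only [RdFrm.nc, RdFrm.toT, rtRound, RtTest.x, RtTest.V, RtTest.z, RtRow.flow, rtFcPsi, rtFcOf, rtIp, rtSq]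
  ext
  · simp
    field_simp
    ring
  · simp
    field_simp
    ring
  · simp
  · simp
  · simp
    field_simp
    ring

theorem rt_fc_x_eq (φ : RdFrm) (hr : 0 < φ.r) (k0 : ℕ) (Q : RdTst) (hQ : 0 < Q.r) (k : ℕ) (t M : ℝ) (p : RtRow) :
    (Q.toT k).x p = (rtFcOf φ k0 Q k t M).x' (φ.nc k0 p) := by
  have hl := rdLen_pos k0
  have hl' := rdLen_pos k
  simp only [RdFrm.nc, RdFrm.toT, RdTst.toT, rtRound, RtTest.x, RtFcPar.x', rtFcOf]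
  ext
  · simp
    field_simp
    ring
  · simp
    field_simp
    ring

theorem rt_fc_V_eq (φ : RdFrm) (hr : 0 < φ.r) (k0 : ℕ) (Q : RdTst) (hQ : 0 < Q.r) (k : ℕ) (t M : ℝ) (p : RtRow) :
    (Q.toT k).V p = (rtFcOf φ k0 Q k t M).V' (φ.nc k0 p) := by
  simp only [RdFrm.nc, RdFrm.toT, RdTst.toT, rtRound, RtTest.V, RtFcPar.V', rtFcOf]
  ext
  · simp
    field_simp
    ring
  · simp
    field_simp
    ring

theorem rt_fc_z_eq (φ : RdFrm) (hr : 0 < φ.r) (k0 : ℕ) (Q : RdTst) (hQ : 0 < Q.r) (k : ℕ) (t M : ℝ) (p : RtRow) :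
    (Q.toT k).z p = (rtFcOf φ k0 Q k t M).z' (φ.nc k0 p) := by
  have hl := rdLen_pos k0
  have hl' := rdLen_pos k
  simp only [RdFrm.nc, RdFrm.toT, RdTst.toT, rtRound, RtTest.x, RtTest.z, RtFcPar.z', rtFcOf, rtIp]
  simp
  field_simp
  ring

theorem rt_fc_mem_tst (φ : RdFrm) (hr : 0 < φ.r) (k0 : ℕ) (Q : RdTst) (hQ : 0 < Q.r) (k : ℕ) (t M : ℝ) (p : RtRow) :
    p ∈ Q.rows k ↔ φ.nc k0 p ∈ (rtFcOf φ k0 Q k t M).tst := by
  have e1 := rt_fc_x_eq φ hr k0 Q hQ k t M p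
  have e2 := rt_fc_V_eq φ hr k0 Q hQ k t M p
  have e3 := rt_fc_z_eq φ hr k0 Q hQ k t M p
  show (rtSq ((Q.toT k).x p) ≤ 1 ^ 2 ∧ |(Q.toT k).z p| ≤ 1 ∧ rtSq ((Q.toT k).V p) ≤ 1 ^ 2) ∧
    |Q.n.F 0 ((Q.toT k).x p) ((Q.toT k).z p)| ≤ 1 * Q.f ∧ |Q.n.G 0 ((Q.toT k).x p) ((Q.toT k).z p) ((Q.toT k).V p)| ≤ 1 * Q.f ↔ _
  rw [e1, e2, e3]
  rfl

theorem rt_fc_mem_bx (φ : RdFrm) (k0 : ℕ) (Q : RdTst) (k : ℕ) (t M : ℝ) (p : RtRow) :
    p ∈ φ.box k0 M ↔ φ.nc k0 p ∈ (rtFcOf φ k0 Q k t M).bx := Iff.rfl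

theorem rt_fc_of_ok (φ : RdFrm) (hr : 0 < φ.r) (k0 : ℕ) (Q : RdTst) (k : ℕ) (hQ : (Q.toT k).Adm 1) {t M : ℝ} (ht0 : 0 ≤ t)
    (ht1 : t ≤ rdLen k0) (hM : 1 ≤ M) : (rtFcOf φ k0 Q k t M).Ok := by
  have hl := rdLen_pos k0
  have hl' := rdLen_pos k
  have hrQ : 0 < RdTst.r Q := hQ.r_pos
  refine ⟨?_, ?_, ?_, ?_, ?_, hM, hQ.f_pos, hQ.f_le, hQ.disc, hQ.bd⟩
  · show 0 < φ.r / Q.r
    positivity
  · show 0 < rdLen k0 * φ.r / (rdLen k * Q.r)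
    positivity
  · show 0 < rdLen k0 * φ.r ^ 2 / (rdLen k * Q.r ^ 2)
    positivity
  · show 0 ≤ t / rdLen k0
    positivity
  · show t / rdLen k0 ≤ 1
    exact (div_le_one hl).2 ht1

/-- measurability of the frame coordinates of the particles -/
theorem rt_fc_nc_meas (p : RdClPar) (φ : RdFrm) (k0 : ℕ) (T : ℝ) : Measurable fun ω => φ.nc k0 (p.co T ω) := by
  have h1 := p.mA
  have h2 := p.mB
  have h3 := p.mY
  unfold RdFrm.nc RtTest.x RtTest.V RtTest.z RdClPar.co RtRow.flow rtIp rtSq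
  fun_prop

theorem rt_fc_ms_sub {P : PkSys} (T : ℝ) (k b : ℕ) {A B Z : Set P.X} (hA : MeasurableSet A) (hB : MeasurableSet B) (hZ : MeasurableSet Z)
    (hsub : A ⊆ B ∪ Z) (v : P.Kc) (h0 : P.ms T k b Z v = 0) : P.ms T k b A v ≤ P.ms T k b B v := by
  have := gn_mu_finite (P := P) T k b v
  rw [gn_ms_eq_mu T k b hZ] at h0
  rw [gn_ms_eq_mu T k b hA, gn_ms_eq_mu T k b hB]
  calc (P.mu T k b v).real A ≤ (P.mu T k b v).real (B ∪ Z) := measureReal_mono hsub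
    _ ≤ (P.mu T k b v).real B + (P.mu T k b v).real Z := measureReal_union_le _ _
    _ = (P.mu T k b v).real B := by rw [h0, add_zero]

/-- **the mass of a cell** -/
theorem rt_fc_mass (η : ℝ) (p : RdClPar) (E : Xp (p.sys η)) (C A : ℕ) (φ : RdFrm) (hset : RdSet (p.sys η) p.co True C A E φ)
    (k i b : ℕ) (st' : List (Stg (p.sys η))) (hst : ∀ σ ∈ st', ∀ j, IsMask (σ.M j)) (Q : RdTst) (hQ : 0 < Q.r) :
    ENNReal.ofReal ((p.sys η).ms (tmL k i) k b ((p.sys η).cell Q (tmL k i) k) (Xp.run k i st' E.v))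
      ≤ ENNReal.ofReal (E.s ^ (-(C : ℝ)) * E.e) *
          volume (rtFcOf φ E.k0 Q k (tmL k i - tmL E.k0 E.i0) (E.s ^ (-(C : ℝ)))).S := by
  obtain ⟨T0, hT0⟩ : ∃ T0, T0 = tmL E.k0 E.i0 := ⟨_, rfl⟩
  obtain ⟨T, hT⟩ : ∃ T, T = tmL k i := ⟨_, rfl⟩
  obtain ⟨M, hM⟩ : ∃ M, M = E.s ^ (-(C : ℝ)) := ⟨_, rfl⟩
  rw [← hT0, ← hT, ← hM]
  have hr := hset.r_pos
  obtain ⟨Pa, hPa⟩ : ∃ Pa, Pa = rtFcOf φ E.k0 Q k (T - T0) M := ⟨_, rfl⟩
  rw [← hPa]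
  have hNm : Measurable fun ω => φ.nc E.k0 (p.co T0 ω) := rt_fc_nc_meas p φ E.k0 T0
  have hco : ∀ ω, p.co T ω = (p.co T0 ω).flow (T - T0) := by
    intro ω
    unfold RdClPar.co
    rw [rt_fc_flow_flow]
    congr 1
    ring
  have hcell : (p.sys η).cell Q T k = (fun ω => φ.nc E.k0 (p.co T0 ω)) ⁻¹' (rtFcPsi Pa.a Pa.c1 Pa.c2 ⁻¹' Pa.tst) := by
    ext ω
    show p.co T ω ∈ Q.rows k ↔ rtFcPsi Pa.a Pa.c1 Pa.c2 (φ.nc E.k0 (p.co T0 ω)) ∈ Pa.tst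
    rw [hco ω, rt_fc_mem_tst φ hr E.k0 Q hQ k (T - T0) M, rt_fc_nc_flow φ hr E.k0 Q k (T - T0) M, hPa]
  have hbox : {x | p.co T0 x ∉ φ.box E.k0 M} = ((fun ω => φ.nc E.k0 (p.co T0 ω)) ⁻¹' Pa.bx)ᶜ := by
    ext ω
    show p.co T0 ω ∉ φ.box E.k0 M ↔ ¬ (φ.nc E.k0 (p.co T0 ω) ∈ Pa.bx)
    rw [rt_fc_mem_bx φ E.k0 Q k (T - T0) M, hPa]
  have mcell : MeasurableSet ((p.sys η).cell Q T k) := by
    rw [hcell]
    exact hNm ((rt_fc_shear Pa.a Pa.c1 Pa.c2).measurable (rt_fc_meas_tst Pa))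
  have mbx : MeasurableSet ((fun ω => φ.nc E.k0 (p.co T0 ω)) ⁻¹' Pa.bx) := hNm (rt_fc_meas_bx Pa)
  have mS : MeasurableSet {x | φ.nc E.k0 (p.co T0 x) ∈ Pa.S} := hNm (rt_fc_meas_S Pa)
  have h1 := rt_fc_run_le η p k i st' hst mcell T T0 k E.k0 b E.b0 E.v
  have h2 := hset.supp trivial
  rw [← hT0, ← hM] at h2
  replace h2 : (p.sys η).ms T0 E.k0 E.b0 (((fun ω => φ.nc E.k0 (p.co T0 ω)) ⁻¹' Pa.bx)ᶜ : Set p.Om) E.v = 0 := hbox ▸ h2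
  have h3 := hset.dens trivial Pa.S (rt_fc_meas_S Pa)
  rw [← hT0, ← hM] at h3
  refine (ENNReal.ofReal_le_ofReal (h1.trans ?_)).trans h3
  refine rt_fc_ms_sub T0 E.k0 E.b0 mcell mS mbx.compl ?_ E.v h2
  intro ω hω
  by_cases hb : φ.nc E.k0 (p.co T0 ω) ∈ Pa.bx
  · left
    rw [hcell] at hω
    exact ⟨hb, hω⟩
  · right
    exact hb

theorem rt_fc_num_core (a c k F G R ka r e v : ℝ) (ha : 0 < a) (hc : 0 < c) (hk : 0 < k) (hF : 0 < F) (hG : 0 < G) (hR : 0 < R)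
    (hka : 0 < ka) (hr : 0 < r) (he : 0 < e) (hF1 : F ≤ 1) (hKk : 2 ^ 19 * k ≤ 1)
    (hek : e ≤ c⁻¹ * (ka * r ^ 4)) (hm : a * (ka * ((R * r) ^ 4 * G)) < c⁻¹ * e * v)
    (hA : v ≤ 2 ^ 19 * (G * F) * R ^ 6) (hB : v ≤ 2 ^ 19 * (c⁻¹) ^ 5 * (G * F) * R) :
    c * e ≤ ka * r ^ 4 ∧ (a * c ^ 2 * k) ^ 2 ≤ R ^ 4 ∧ a ^ 5 * c ^ 20 * k ^ 5 ≤ F ^ 5 := by
  have h1 : c * e ≤ ka * r ^ 4 := by
    have := mul_le_mul_of_nonneg_left hek hc.le
    rwa [← mul_assoc, mul_inv_cancel₀ hc.ne', one_mul] at this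
  have hv0 : 0 < v := by
    have h2 : 0 < c⁻¹ * e * v := lt_trans (by positivity) hm
    have h3 : 0 < c⁻¹ * e := by positivity
    exact (pos_iff_pos_of_mul_pos h2).1 h3
  have hv : a * c ^ 2 * R ^ 4 * G < v := by
    have h2 : c ^ 2 * (a * (ka * ((R * r) ^ 4 * G))) < c ^ 2 * (c⁻¹ * e * v) := mul_lt_mul_of_pos_left hm (by positivity)
    have h3 : c ^ 2 * (c⁻¹ * e * v) = (c * e) * v := by field_simp
    have h4 : (c * e) * v ≤ (ka * r ^ 4) * v := mul_le_mul_of_nonneg_right h1 hv0.le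
    have h5 : (ka * r ^ 4) * (a * c ^ 2 * R ^ 4 * G) < (ka * r ^ 4) * v := by
      calc (ka * r ^ 4) * (a * c ^ 2 * R ^ 4 * G) = c ^ 2 * (a * (ka * ((R * r) ^ 4 * G))) := by ring
        _ < c ^ 2 * (c⁻¹ * e * v) := h2
        _ = (c * e) * v := h3
        _ ≤ _ := h4
    exact lt_of_mul_lt_mul_left h5 (by positivity)
  have hA1 : a * c ^ 2 < 2 ^ 19 * F * R ^ 2 := by
    have h2 : (R ^ 4 * G) * (a * c ^ 2) < (R ^ 4 * G) * (2 ^ 19 * F * R ^ 2) := by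
      calc (R ^ 4 * G) * (a * c ^ 2) = a * c ^ 2 * R ^ 4 * G := by ring
        _ < v := hv
        _ ≤ _ := hA
        _ = _ := by ring
    exact lt_of_mul_lt_mul_left h2 (by positivity)
  have hB1 : a * c ^ 7 * R ^ 3 < 2 ^ 19 * F := by
    have h2 : (R * G) * (a * c ^ 7 * R ^ 3) < (R * G) * (2 ^ 19 * F) := by
      calc (R * G) * (a * c ^ 7 * R ^ 3) = c ^ 5 * (a * c ^ 2 * R ^ 4 * G) := by ring
        _ < c ^ 5 * v := mul_lt_mul_of_pos_left hv (by positivity)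
        _ ≤ c ^ 5 * (2 ^ 19 * (c⁻¹) ^ 5 * (G * F) * R) := mul_le_mul_of_nonneg_left hB (by positivity)
        _ = _ := by field_simp
    exact lt_of_mul_lt_mul_left h2 (by positivity)
  have hA2 : a * c ^ 2 * k ≤ F * R ^ 2 := by
    calc a * c ^ 2 * k ≤ (2 ^ 19 * F * R ^ 2) * k := mul_le_mul_of_nonneg_right hA1.le hk.le
      _ = (2 ^ 19 * k) * (F * R ^ 2) := by ring
      _ ≤ 1 * (F * R ^ 2) := mul_le_mul_of_nonneg_right hKk (by positivity)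
      _ = _ := one_mul _
  have hB2 : a * c ^ 7 * R ^ 3 * k ≤ F := by
    calc a * c ^ 7 * R ^ 3 * k ≤ (2 ^ 19 * F) * k := mul_le_mul_of_nonneg_right hB1.le hk.le
      _ = (2 ^ 19 * k) * F := by ring
      _ ≤ 1 * F := mul_le_mul_of_nonneg_right hKk hF.le
      _ = _ := one_mul _
  refine ⟨h1, ?_, ?_⟩
  · calc (a * c ^ 2 * k) ^ 2 ≤ (F * R ^ 2) ^ 2 := pow_le_pow_left₀ (by positivity) hA2 2
      _ = F ^ 2 * R ^ 4 := by ring
      _ ≤ 1 * R ^ 4 := mul_le_mul_of_nonneg_right (pow_le_one₀ hF.le hF1) (by positivity)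
      _ = _ := one_mul _
  · have h2 : R ^ 6 * (a ^ 5 * c ^ 20 * k ^ 5) ≤ R ^ 6 * F ^ 5 := by
      calc R ^ 6 * (a ^ 5 * c ^ 20 * k ^ 5) = (a * c ^ 2 * k) ^ 3 * (a * c ^ 7 * R ^ 3 * k) ^ 2 := by ring
        _ ≤ (F * R ^ 2) ^ 3 * F ^ 2 :=
          mul_le_mul (pow_le_pow_left₀ (by positivity) hA2 3) (pow_le_pow_left₀ (by positivity) hB2 2) (by positivity) (by positivity)
        _ = _ := by ring
    exact le_of_mul_le_mul_left h2 (by positivity)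

/-- **L-256-RT-FC-8**: numerics.   `K = 2^19`. -/
theorem rt_fc_num (η : ℝ) (h0 : 0 < η) (h1 : η < 1) (N : ℕ) (hN : 1 ≤ η * N) (C D : ℕ) {s e ka r rQ f v : ℝ} (hs : 0 < s) (hs2 : s ≤ 1 / 2)
    (he : 0 < e) (hka : 0 < ka) (hr : 0 < r) (hrQ : 0 < rQ) (hf : 0 < f) (hf1 : f ≤ 1)
    (hek : e ≤ (s ^ C)⁻¹ * (ka * r ^ 4)) (hm : s ^ D * (ka * (rQ ^ 4 * f ^ (1 - η))) < (s ^ C)⁻¹ * e * v)
    (hA : v ≤ 2 ^ 19 * f * (rQ / r) ^ 6) (hB : v ≤ 2 ^ 19 * ((s ^ C)⁻¹) ^ 5 * f * (rQ / r)) :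
    s ^ (C + (2 * D + 4 * C) + (5 * D + 20 * C) * N + 19 * (2 + 5 * N)) * e ≤ ka * (rQ ^ 4 * f ^ (1 - η)) := by
  have hrQ' : rQ = (rQ / r) * r := by field_simp
  have hfGF : f = f ^ (1 - η) * f ^ η := by
    rw [← Real.rpow_add hf]; simp
  have hF1 : f ^ η ≤ 1 := Real.rpow_le_one hf.le hf1 h0.le
  have hKk : (2 : ℝ) ^ 19 * s ^ 19 ≤ 1 := by
    rw [← mul_pow]; exact pow_le_one₀ (by positivity) (by linarith)
  have hm' : s ^ D * (ka * (((rQ / r) * r) ^ 4 * f ^ (1 - η))) < (s ^ C)⁻¹ * e * v := by rw [← hrQ']; exact hm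
  have hA' : v ≤ 2 ^ 19 * (f ^ (1 - η) * f ^ η) * (rQ / r) ^ 6 := by rw [← hfGF]; exact hA
  have hB' : v ≤ 2 ^ 19 * ((s ^ C)⁻¹) ^ 5 * (f ^ (1 - η) * f ^ η) * (rQ / r) := by rw [← hfGF]; exact hB
  obtain ⟨c1, c2, c3⟩ := rt_fc_num_core (s ^ D) (s ^ C) (s ^ 19) (f ^ η) (f ^ (1 - η)) (rQ / r) ka r e v (by positivity) (by positivity)
    (by positivity) (by positivity) (by positivity) (by positivity) hka hr he hF1 hKk hek hm' hA' hB'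
  have c4 : ((s ^ D) ^ 5 * (s ^ C) ^ 20 * (s ^ 19) ^ 5) ^ N ≤ f ^ (1 - η) := by
    calc ((s ^ D) ^ 5 * (s ^ C) ^ 20 * (s ^ 19) ^ 5) ^ N ≤ ((f ^ η) ^ 5) ^ N := pow_le_pow_left₀ (by positivity) c3 N
      _ = f ^ (η * 5 * N) := by
        rw [Real.rpow_mul hf.le, Real.rpow_mul hf.le, Real.rpow_natCast]
        congr 1
        exact (Real.rpow_natCast _ 5).symm
      _ ≤ f ^ (1 - η) := Real.rpow_le_rpow_of_exponent_ge hf hf1 (by nlinarith)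
  calc s ^ (C + (2 * D + 4 * C) + (5 * D + 20 * C) * N + 19 * (2 + 5 * N)) * e
      = (s ^ C * e) * ((s ^ D * (s ^ C) ^ 2 * s ^ 19) ^ 2 * ((s ^ D) ^ 5 * (s ^ C) ^ 20 * (s ^ 19) ^ 5) ^ N) := by
        simp only [← pow_mul, ← pow_add, mul_pow]
        rw [mul_comm (s ^ C) e, mul_comm _ e, mul_assoc]
        simp only [← pow_mul, ← pow_add, mul_pow]
        congr 2
        ring
    _ ≤ (ka * r ^ 4) * ((rQ / r) ^ 4 * f ^ (1 - η)) :=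
        mul_le_mul c1 (mul_le_mul c2 c4 (by positivity) (by positivity)) (by positivity) (by positivity)
    _ = ka * (rQ ^ 4 * f ^ (1 - η)) := by
        field_simp

theorem rt_fc_len_le {k0 k : ℕ} (h : k0 ≤ k) : rdLen k ≤ rdLen k0 := by
  unfold rdLen
  exact pow_le_pow_of_le_one (by norm_num) (by norm_num) h

theorem rt_fc_s_le {P : PkSys} (E : Xp P) (hn : 1 ≤ E.n) : E.s ≤ 1 / 2 := by
  unfold Xp.s
  calc (2 : ℝ)⁻¹ ^ E.n ≤ (2 : ℝ)⁻¹ ^ 1 := pow_le_pow_of_le_one (by norm_num) (by norm_num) hn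
    _ = 1 / 2 := by norm_num

/-- the three inequalities behind `rt_floor_cl` and `rt_poly_cl`: heavy cell against the two volume bounds -/
theorem rt_fc_data (η : ℝ) (C D A : ℕ) (p : RdClPar) (E : Xp (p.sys η)) (hn : 1 ≤ E.n)
    (hval : E.Valid) (φ : RdFrm) (hset' : RdSet (p.sys η) p.co True C A E φ) (k i b : ℕ) (st' : List (Stg (p.sys η))) (Q : RdTst)
    (hk0 : E.k0 ≤ k) (hanc : ancI k E.k0 i = E.i0) (hst : ∀ σ ∈ st', ∀ j, IsMask (σ.M j)) (hQ : (Q.toT k).Adm 1)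
    (hm : E.s ^ (D : ℝ) * (E.ka * Q.wt η) < (p.sys η).ms (tmL k i) k b ((p.sys η).cell Q (tmL k i) k) (Xp.run k i st' E.v)) :
    ∃ v : ℝ, E.s ^ D * (E.ka * (RdTst.r Q ^ 4 * RdTst.f Q ^ (1 - η))) < (E.s ^ C)⁻¹ * E.e * v ∧
      v ≤ 2 ^ 19 * RdTst.f Q * (RdTst.r Q / φ.r) ^ 6 ∧ v ≤ 2 ^ 19 * ((E.s ^ C)⁻¹) ^ 5 * RdTst.f Q * (RdTst.r Q / φ.r) := by
  have hr := hset'.r_pos
  have hrQ : 0 < RdTst.r Q := hQ.r_pos
  have hf : 0 < RdTst.f Q := hQ.f_pos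
  have hf1 : RdTst.f Q ≤ 1 := hQ.f_le
  have hs := gn_s_pos E
  have hs2 : E.s ≤ 1 / 2 := by
    unfold Xp.s
    calc (2 : ℝ)⁻¹ ^ E.n ≤ (2 : ℝ)⁻¹ ^ 1 := pow_le_pow_of_le_one (by norm_num) (by norm_num) hn
      _ = 1 / 2 := by norm_num
  have eM : E.s ^ (-(C : ℝ)) = (E.s ^ C)⁻¹ := by rw [Real.rpow_neg hs.le, Real.rpow_natCast]
  have hM : 1 ≤ (E.s ^ C)⁻¹ := by
    rw [one_le_inv₀ (by positivity)]
    exact pow_le_one₀ hs.le (by linarith)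
  have hcut := gn_cutle_anc hk0 i
  rw [hanc] at hcut
  obtain ⟨_, ht0, ht1⟩ := hcut
  have hOk := rt_fc_of_ok φ hr E.k0 Q k hQ (t := tmL k i - tmL E.k0 E.i0) (M := (E.s ^ C)⁻¹) (by linarith)
    (by unfold rdLen; linarith) hM
  have hmass := rt_fc_mass η p E C A φ hset' k i b st' hst Q hrQ
  rw [eM] at hmass
  have vA := rt_fc_volA _ hOk
  have vB := rt_fc_volB _ hOk
  obtain ⟨Pa, hPa⟩ : ∃ Pa, Pa = rtFcOf φ E.k0 Q k (tmL k i - tmL E.k0 E.i0) (E.s ^ C)⁻¹ := ⟨_, rfl⟩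
  rw [← hPa] at hmass vA vB
  have hfin : volume Pa.S ≠ ⊤ := ne_top_of_le_ne_top ENNReal.ofReal_ne_top vA
  obtain ⟨v, hv⟩ : ∃ v, v = (volume Pa.S).toReal := ⟨_, rfl⟩
  have hv0 : 0 ≤ v := by rw [hv]; exact ENNReal.toReal_nonneg
  have hvol : volume Pa.S = ENNReal.ofReal v := by rw [hv, ENNReal.ofReal_toReal hfin]
  have he := hval.e_pos
  have hka := hval.ka_pos
  rw [hvol, ← ENNReal.ofReal_mul (by positivity), ENNReal.ofReal_le_ofReal_iff (by positivity)] at hmass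
  have hl0 := rdLen_pos E.k0
  have hl := rdLen_pos k
  have hll := rt_fc_len_le hk0
  have hA : v ≤ 2 ^ 19 * RdTst.f Q * (RdTst.r Q / φ.r) ^ 6 := by
    rw [hvol, ENNReal.ofReal_le_ofReal_iff (by rw [hPa]; have := hOk.mx_pos; have := hOk.mz_pos; have := hOk.lam_pos; have := hOk.f_pos; positivity)] at vA
    refine vA.trans ?_
    have e1 : 51200 * Pa.f / (Pa.mx ^ 2 * Pa.mz * Pa.lam ^ 2)
        = 51200 * RdTst.f Q * (RdTst.r Q / φ.r) ^ 6 * (rdLen k / rdLen E.k0) ^ 3 := by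
      rw [hPa]
      simp only [rtFcOf]
      field_simp
    rw [e1]
    have h3 : (rdLen k / rdLen E.k0) ^ 3 ≤ 1 := pow_le_one₀ (by positivity) ((div_le_one hl0).2 hll)
    have h4 : 0 ≤ RdTst.f Q * (RdTst.r Q / φ.r) ^ 6 := by positivity
    nlinarith
  have hB : v ≤ 2 ^ 19 * ((E.s ^ C)⁻¹) ^ 5 * RdTst.f Q * (RdTst.r Q / φ.r) := by
    rw [hvol, ENNReal.ofReal_le_ofReal_iff (by rw [hPa]; have := hOk.lam_pos; have := hOk.f_pos; have := hOk.M_ge; positivity)] at vB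
    refine vB.trans ?_
    have e1 : 409600 * Pa.M ^ 5 * Pa.f / Pa.lam = 409600 * (((E.s ^ C)⁻¹) ^ 5 * RdTst.f Q * (RdTst.r Q / φ.r)) := by
      rw [hPa]
      simp only [rtFcOf]
      field_simp
    rw [e1]
    have h4 : 0 ≤ ((E.s ^ C)⁻¹) ^ 5 * RdTst.f Q * (RdTst.r Q / φ.r) := by positivity
    nlinarith
  have hm' : E.s ^ D * (E.ka * (RdTst.r Q ^ 4 * RdTst.f Q ^ (1 - η))) < (E.s ^ C)⁻¹ * E.e * v := by
    refine lt_of_lt_of_le ?_ hmass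
    rw [← Real.rpow_natCast]
    exact hm
  exact ⟨v, hm', hA, hB⟩

theorem rt_fc_core (η : ℝ) (h0 : 0 < η) (h1 : η < 1) (N : ℕ) (hN : 1 ≤ η * N) (C D A : ℕ) (p : RdClPar) (E : Xp (p.sys η)) (hn : 1 ≤ E.n)
    (hval : E.Valid) (φ : RdFrm) (hset' : RdSet (p.sys η) p.co True C A E φ) (k i b : ℕ) (st' : List (Stg (p.sys η))) (Q : RdTst)
    (hk0 : E.k0 ≤ k) (hanc : ancI k E.k0 i = E.i0) (hst : ∀ σ ∈ st', ∀ j, IsMask (σ.M j)) (hQ : (Q.toT k).Adm 1)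
    (hm : E.s ^ (D : ℝ) * (E.ka * Q.wt η) < (p.sys η).ms (tmL k i) k b ((p.sys η).cell Q (tmL k i) k) (Xp.run k i st' E.v)) :
    E.s ^ ((C + (2 * D + 4 * C) + (5 * D + 20 * C) * N + 19 * (2 + 5 * N) : ℕ) : ℝ) * E.e ≤ E.ka * Q.wt η := by
  obtain ⟨v, hm', hA, hB⟩ := rt_fc_data η C D A p E hn hval φ hset' k i b st' Q hk0 hanc hst hQ hm
  have hs := gn_s_pos E
  have hs2 := rt_fc_s_le E hn
  have hek := hset'.ek_hi
  rw [Real.rpow_neg hs.le, Real.rpow_natCast] at hek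
  have key := rt_fc_num η h0 h1 N hN C D hs hs2 hval.e_pos hval.ka_pos hset'.r_pos hQ.r_pos hQ.f_pos hQ.f_le hek hm' hA hB
  rw [← Real.rpow_natCast] at key
  exact key

theorem rt_fc_num_core2 (a c k F G R ka r e v : ℝ) (ha : 0 < a) (hc : 0 < c) (hk : 0 < k) (hF : 0 < F) (hG : 0 < G) (hR : 0 < R)
    (hka : 0 < ka) (hr : 0 < r) (he : 0 < e) (hKk : 2 ^ 19 * k ≤ 1)
    (hek : e ≤ c⁻¹ * (ka * r ^ 4)) (hm : a * (ka * ((R * r) ^ 4 * G)) < c⁻¹ * e * v)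
    (hB : v ≤ 2 ^ 19 * (c⁻¹) ^ 5 * (G * F) * R) :
    a * c ^ 7 * R ^ 3 * k ≤ F := by
  have h1 : c * e ≤ ka * r ^ 4 := by
    have := mul_le_mul_of_nonneg_left hek hc.le
    rwa [← mul_assoc, mul_inv_cancel₀ hc.ne', one_mul] at this
  have hv0 : 0 < v := by
    have h2 : 0 < c⁻¹ * e * v := lt_trans (by positivity) hm
    have h3 : 0 < c⁻¹ * e := by positivity
    exact (pos_iff_pos_of_mul_pos h2).1 h3
  have hv : a * c ^ 2 * R ^ 4 * G < v := by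
    have h2 : c ^ 2 * (a * (ka * ((R * r) ^ 4 * G))) < c ^ 2 * (c⁻¹ * e * v) := mul_lt_mul_of_pos_left hm (by positivity)
    have h3 : c ^ 2 * (c⁻¹ * e * v) = (c * e) * v := by field_simp
    have h4 : (c * e) * v ≤ (ka * r ^ 4) * v := mul_le_mul_of_nonneg_right h1 hv0.le
    have h5 : (ka * r ^ 4) * (a * c ^ 2 * R ^ 4 * G) < (ka * r ^ 4) * v := by
      calc (ka * r ^ 4) * (a * c ^ 2 * R ^ 4 * G) = c ^ 2 * (a * (ka * ((R * r) ^ 4 * G))) := by ring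
        _ < c ^ 2 * (c⁻¹ * e * v) := h2
        _ = (c * e) * v := h3
        _ ≤ _ := h4
    exact lt_of_mul_lt_mul_left h5 (by positivity)
  have hB1 : a * c ^ 7 * R ^ 3 < 2 ^ 19 * F := by
    have h2 : (R * G) * (a * c ^ 7 * R ^ 3) < (R * G) * (2 ^ 19 * F) := by
      calc (R * G) * (a * c ^ 7 * R ^ 3) = c ^ 5 * (a * c ^ 2 * R ^ 4 * G) := by ring
        _ < c ^ 5 * v := mul_lt_mul_of_pos_left hv (by positivity)
        _ ≤ c ^ 5 * (2 ^ 19 * (c⁻¹) ^ 5 * (G * F) * R) := mul_le_mul_of_nonneg_left hB (by positivity)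
        _ = _ := by field_simp
    exact lt_of_mul_lt_mul_left h2 (by positivity)
  calc a * c ^ 7 * R ^ 3 * k ≤ (2 ^ 19 * F) * k := mul_le_mul_of_nonneg_right hB1.le hk.le
    _ = (2 ^ 19 * k) * F := by ring
    _ ≤ 1 * F := mul_le_mul_of_nonneg_right hKk hF.le
    _ = _ := one_mul _

/-- numerics of `rt_poly_cl` -/
theorem rt_fc_num2 (η : ℝ) (h0 : 0 < η) (h1 : η < 1) (N : ℕ) (hN : 1 ≤ η * N) (C D : ℕ) {s e ka r rQ f v : ℝ} (hs : 0 < s) (hs2 : s ≤ 1 / 2)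
    (he : 0 < e) (hka : 0 < ka) (hr : 0 < r) (hrQ : 0 < rQ) (hf : 0 < f) (hf1 : f ≤ 1)
    (hel : s ^ C * (ka * r ^ 4) ≤ e)
    (hek : e ≤ (s ^ C)⁻¹ * (ka * r ^ 4)) (hm : s ^ D * (ka * (rQ ^ 4 * f ^ (1 - η))) < (s ^ C)⁻¹ * e * v)
    (hA : v ≤ 2 ^ 19 * f * (rQ / r) ^ 6) (hB : v ≤ 2 ^ 19 * ((s ^ C)⁻¹) ^ 5 * f * (rQ / r)) :
    s ^ (5 * C + 2 * D + 38) * e ≤ ka * rQ ^ 4 ∧ s ^ (4 * D + 29 * C + 76) * (ka * rQ ^ 4) ≤ e ∧ s ^ ((5 * D + 20 * C + 95) * N) ≤ f := by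
  have hrQ' : rQ = (rQ / r) * r := by field_simp
  have hfGF : f = f ^ (1 - η) * f ^ η := by
    rw [← Real.rpow_add hf]; simp
  have hF1 : f ^ η ≤ 1 := Real.rpow_le_one hf.le hf1 h0.le
  have hKk : (2 : ℝ) ^ 19 * s ^ 19 ≤ 1 := by
    rw [← mul_pow]; exact pow_le_one₀ (by positivity) (by linarith)
  have hm' : s ^ D * (ka * (((rQ / r) * r) ^ 4 * f ^ (1 - η))) < (s ^ C)⁻¹ * e * v := by rw [← hrQ']; exact hm
  have hA' : v ≤ 2 ^ 19 * (f ^ (1 - η) * f ^ η) * (rQ / r) ^ 6 := by rw [← hfGF]; exact hA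
  have hB' : v ≤ 2 ^ 19 * ((s ^ C)⁻¹) ^ 5 * (f ^ (1 - η) * f ^ η) * (rQ / r) := by rw [← hfGF]; exact hB
  obtain ⟨c1, c2, c3⟩ := rt_fc_num_core (s ^ D) (s ^ C) (s ^ 19) (f ^ η) (f ^ (1 - η)) (rQ / r) ka r e v (by positivity) (by positivity)
    (by positivity) (by positivity) (by positivity) (by positivity) hka hr he hF1 hKk hek hm' hA' hB'
  have c5 := rt_fc_num_core2 (s ^ D) (s ^ C) (s ^ 19) (f ^ η) (f ^ (1 - η)) (rQ / r) ka r e v (by positivity) (by positivity)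
    (by positivity) (by positivity) (by positivity) (by positivity) hka hr he hKk hek hm' hB'
  obtain ⟨R, hR⟩ : ∃ R, R = rQ / r := ⟨_, rfl⟩
  rw [← hR] at c2 c5
  have hR0 : 0 < R := by rw [hR]; positivity
  have hs1 : s ≤ 1 := by linarith
  have eQ : ka * rQ ^ 4 = (ka * r ^ 4) * R ^ 4 := by
    rw [hR]; field_simp
  refine ⟨?_, ?_, ?_⟩
  · calc s ^ (5 * C + 2 * D + 38) * e = (s ^ C * e) * (s ^ D * (s ^ C) ^ 2 * s ^ 19) ^ 2 := by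
          simp only [← pow_mul, ← pow_add, mul_pow]
          rw [mul_comm (s ^ C) e, mul_comm _ e, mul_assoc]
          simp only [← pow_mul, ← pow_add, mul_pow]
          congr 2
          ring
      _ ≤ (ka * r ^ 4) * R ^ 4 := mul_le_mul c1 c2 (by positivity) (by positivity)
      _ = _ := eQ.symm
  · obtain ⟨X, hX⟩ : ∃ X, X = s ^ D * (s ^ C) ^ 7 * s ^ 19 := ⟨_, rfl⟩
    have hX0 : 0 < X := by rw [hX]; positivity
    have hX1 : X ≤ 1 := by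
      rw [hX]
      have a1 : s ^ D ≤ 1 := pow_le_one₀ hs.le hs1
      have a2 : (s ^ C) ^ 7 ≤ 1 := pow_le_one₀ (by positivity) (pow_le_one₀ hs.le hs1)
      have a3 : s ^ 19 ≤ 1 := pow_le_one₀ hs.le hs1
      calc s ^ D * (s ^ C) ^ 7 * s ^ 19 ≤ 1 * 1 * 1 := by gcongr
        _ = 1 := by norm_num
    have hXR3 : X * R ^ 3 ≤ 1 := by
      calc X * R ^ 3 = s ^ D * (s ^ C) ^ 7 * R ^ 3 * s ^ 19 := by rw [hX]; ring
        _ ≤ f ^ η := c5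
        _ ≤ 1 := hF1
    have hXR : X * R ≤ 1 := by
      rcases le_total R 1 with h | h
      · calc X * R ≤ 1 * 1 := by gcongr
          _ = 1 := by norm_num
      · refine le_trans ?_ hXR3
        have : R ≤ R ^ 3 := le_self_pow₀ h (by norm_num)
        gcongr
    have h4 : (X * R) ^ 4 ≤ 1 := pow_le_one₀ (by positivity) hXR
    calc s ^ (4 * D + 29 * C + 76) * (ka * rQ ^ 4) = (s ^ C * (ka * r ^ 4)) * (X * R) ^ 4 := by
          rw [eQ, hX]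
          simp only [← pow_mul, ← pow_add, mul_pow]
          have : s ^ (4 * D + 29 * C + 76) = s ^ C * (s ^ (D * 4) * s ^ (C * 7 * 4) * s ^ (19 * 4)) := by
            simp only [← pow_add]
            congr 1
            ring
          rw [this]
          ring
      _ ≤ e * 1 := mul_le_mul hel h4 (by positivity) he.le
      _ = e := mul_one _
  · calc s ^ ((5 * D + 20 * C + 95) * N) = ((s ^ D) ^ 5 * (s ^ C) ^ 20 * (s ^ 19) ^ 5) ^ N := by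
          simp only [← pow_mul, ← pow_add]
          congr 1
          ring
      _ ≤ ((f ^ η) ^ 5) ^ N := pow_le_pow_left₀ (by positivity) c3 N
      _ = f ^ (η * 5 * N) := by
        rw [Real.rpow_mul hf.le, Real.rpow_mul hf.le, Real.rpow_natCast]
        congr 1
        exact (Real.rpow_natCast _ 5).symm
      _ ≤ f ^ (1 : ℝ) := Real.rpow_le_rpow_of_exponent_ge hf hf1 (by nlinarith)
      _ = f := Real.rpow_one f

theorem rt_fc_poly_core (η : ℝ) (h0 : 0 < η) (h1 : η < 1) (N : ℕ) (hN : 1 ≤ η * N) (C D A : ℕ) (p : RdClPar) (E : Xp (p.sys η)) (hn : 1 ≤ E.n)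
    (hval : E.Valid) (φ : RdFrm) (hset' : RdSet (p.sys η) p.co True C A E φ) (k i b : ℕ) (st' : List (Stg (p.sys η))) (Q : RdTst)
    (hk0 : E.k0 ≤ k) (hanc : ancI k E.k0 i = E.i0) (hst : ∀ σ ∈ st', ∀ j, IsMask (σ.M j)) (hQ : (Q.toT k).Adm 1)
    (hm : E.s ^ (D : ℝ) * (E.ka * Q.wt η) < (p.sys η).ms (tmL k i) k b ((p.sys η).cell Q (tmL k i) k) (Xp.run k i st' E.v))
    (D' : ℕ) (hD1 : 5 * C + 2 * D + 38 ≤ D') (hD2 : 4 * D + 29 * C + 76 ≤ D') (hD3 : (5 * D + 20 * C + 95) * N ≤ D') :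
    E.s ^ (D' : ℝ) * E.e ≤ E.ka * RdTst.r Q ^ 4 ∧ E.ka * RdTst.r Q ^ 4 ≤ E.s ^ (-(D' : ℝ)) * E.e ∧ E.s ^ (D' : ℝ) ≤ RdTst.f Q := by
  obtain ⟨v, hm', hA, hB⟩ := rt_fc_data η C D A p E hn hval φ hset' k i b st' Q hk0 hanc hst hQ hm
  have hs := gn_s_pos E
  have hs2 := rt_fc_s_le E hn
  have hs1 : E.s ≤ 1 := by linarith
  have hek := hset'.ek_hi
  rw [Real.rpow_neg hs.le, Real.rpow_natCast] at hek
  have hel := hset'.ek_lo
  rw [Real.rpow_natCast] at hel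
  have he := hval.e_pos
  have hka := hval.ka_pos
  have hrQ : 0 < RdTst.r Q := hQ.r_pos
  obtain ⟨k1, k2, k3⟩ := rt_fc_num2 η h0 h1 N hN C D hs hs2 he hka hset'.r_pos hrQ hQ.f_pos hQ.f_le hel hek hm' hA hB
  rw [Real.rpow_neg hs.le, Real.rpow_natCast]
  refine ⟨?_, ?_, ?_⟩
  · exact (mul_le_mul_of_nonneg_right (pow_le_pow_of_le_one hs.le hs1 hD1) he.le).trans k1
  · rw [le_inv_mul_iff₀ (by positivity)]
    exact (mul_le_mul_of_nonneg_right (pow_le_pow_of_le_one hs.le hs1 hD2) (by positivity)).trans k2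
  · exact (pow_le_pow_of_le_one hs.le hs1 hD3).trans k3

/-- **unit FLOORCL** -/
theorem rt_fc_main (η : ℝ) (h0 : 0 < η) (h1 : η < 1) : (rndCl η).Floor := by
  intro C D
  obtain ⟨N, hN⟩ : ∃ N : ℕ, 1 ≤ η * N := by
    refine ⟨⌈1 / η⌉₊, ?_⟩
    have := Nat.le_ceil (1 / η)
    rw [div_le_iff₀ h0] at this
    linarith
  refine ⟨C + (2 * D + 4 * C) + (5 * D + 20 * C) * N + 19 * (2 + 5 * N), 0, 1, ?_⟩
  intro p E hn hcls k i b st' Q hk0 hk1 hanc hb hst hok hm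
  obtain ⟨_, hval, _, _, φ, hset⟩ := hcls
  exact rt_fc_core η h0 h1 N hN C D 0 p E hn hval φ hset k i b st' Q hk0 hanc hst.msk hok hm

/-- **`rt_poly_cl`** (the body of `RtPoly2 (rndCl η) (fun _ Q => Q)`, `Rt/Mod.lean`) -/
theorem rt_fc_poly (η : ℝ) (h0 : 0 < η) (h1 : η < 1) (C D : ℕ) : ∃ D' A n0 : ℕ, ∀ (p : (rndCl η).Par) (E : Xp ((rndCl η).sys p)), n0 ≤ E.n → (rndCl η).Cls C A p E →
    ∀ (k i b : ℕ) (st' : List (Stg ((rndCl η).sys p))) (Q : ((rndCl η).sys p).Tst), E.k0 ≤ k → k ≤ E.kf → ancI k E.k0 i = E.i0 → b ≤ C →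
      StOk E.k0 k C C st' → ((rndCl η).sys p).ok Q k →
      E.s ^ (D : ℝ) * (E.ka * ((rndCl η).sys p).wt Q) < ((rndCl η).sys p).ms (tmL k i) k b (((rndCl η).sys p).cell Q (tmL k i) k) (Xp.run k i st' E.v) →
      E.s ^ (D' : ℝ) * E.e ≤ E.ka * RdTst.r Q ^ 4 ∧ E.ka * RdTst.r Q ^ 4 ≤ E.s ^ (-(D' : ℝ)) * E.e ∧ E.s ^ (D' : ℝ) ≤ RdTst.f Q := by
  obtain ⟨N, hN⟩ : ∃ N : ℕ, 1 ≤ η * N := by
    refine ⟨⌈1 / η⌉₊, ?_⟩
    have := Nat.le_ceil (1 / η)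
    rw [div_le_iff₀ h0] at this
    linarith
  refine ⟨(5 * C + 2 * D + 38) + (4 * D + 29 * C + 76) + (5 * D + 20 * C + 95) * N, 0, 1, ?_⟩
  intro p E hn hcls k i b st' Q hk0 hk1 hanc hb hst hok hm
  obtain ⟨_, hval, _, _, φ, hset⟩ := hcls
  exact rt_fc_poly_core η h0 h1 N hN C D 0 p E hn hval φ hset k i b st' Q hk0 hanc hst.msk hok hm _ (by omega) (by omega) (by omega)

end Claimed.Agent.R256
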