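import Claimed.Agent.R256.Base.RndCl
import Claimed.Agent.R256.Base.RndWav
import Claimed.Agent.R256.Gen.Contract
import Claimed.Agent.R256.Gen.BasB
import Claimed.Agent.R256.Rt.Geo
import Claimed.Agent.R256.Rt.Wv1

/-!
# Row 256, folder Rt, unit INST : the elementary instance facts of `Rt/Contract.lean`      (architect helper282, chief Rt helper216; prefix `rt_in_`)

Every theorem here is cited by ONE line of `Rt/Contract.lean` (`rt_tight_cl`, `rt_ker_cl`, `rt_cov_wv`, `rt_cov_cl`, `rt_root_*`, `rt_scale_*`, `rt_floor_wv`).   No analysis: measurability, unfolding, real inequalities; `rt_G2` (`Rt/Geo.lean`) is a black box.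
LEAVES (EDIT IN PLACE, splice only your theorems, helpers directly above):
 L-256-RT-IN-1 `rt_in_set_meas`, `rt_in_box_meas`, `rt_in_ms_mono`;   IN-2 `rt_in_tight_cl`, `rt_in_ker_cl`;   IN-3 `rt_in_cov_wv`, `rt_in_cov_cl`;   IN-4 `rt_in_root_wv`, `rt_in_root_cl`;
 IN-5 `rt_in_set_scale`, `rt_in_scale_wv`, `rt_in_scale_cl`;   IN-6 `rt_in_floor_wv`;   IN-7 `rt_in_poly_wv`.
-/

set_option autoImplicit false

namespace Claimed.Agent.R256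

open MeasureTheory
open scoped ENNReal

/-! ## measurability -/

theorem rt_in_box_meas' {Ω : Type} [MeasurableSpace Ω] {A B : Ω → ℝ × ℝ} {Y : Ω → ℝ} (hA : Measurable A) (hB : Measurable B)
    (hY : Measurable Y) (τ : RtTest) (M : ℝ) : MeasurableSet {ω | (⟨A ω, B ω, Y ω⟩ : RtRow) ∈ τ.box M} := by
  have ms : Measurable rtSq := by
    unfold rtSq
    fun_prop
  have mx : Measurable fun ω => τ.x (⟨A ω, B ω, Y ω⟩ : RtRow) := by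
    unfold RtTest.x
    dsimp only
    fun_prop
  have mz : Measurable fun ω => τ.z (⟨A ω, B ω, Y ω⟩ : RtRow) := by
    unfold RtTest.z rtIp
    dsimp only
    fun_prop
  have mV : Measurable fun ω => τ.V (⟨A ω, B ω, Y ω⟩ : RtRow) := by
    unfold RtTest.V
    dsimp only
    fun_prop
  have e : {ω | (⟨A ω, B ω, Y ω⟩ : RtRow) ∈ τ.box M} = {ω | rtSq (τ.x (⟨A ω, B ω, Y ω⟩ : RtRow)) ≤ M ^ 2}
      ∩ {ω | |τ.z (⟨A ω, B ω, Y ω⟩ : RtRow)| ≤ M} ∩ {ω | rtSq (τ.V (⟨A ω, B ω, Y ω⟩ : RtRow)) ≤ M ^ 2} := by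
    ext ω
    simp only [RtTest.box, Set.mem_ofPred_eq, Set.mem_inter_iff]
    tauto
  rw [e]
  exact ((measurableSet_le (ms.comp mx) measurable_const).inter (measurableSet_le (continuous_abs.measurable.comp mz) measurable_const)).inter
    (measurableSet_le (ms.comp mV) measurable_const)

/-- LEAF IN-1.  (finitely many closed polynomial conditions on measurable coordinates: unfold `RtTest.set, box, x, z, V, Fv, Gv, RtPoly.F, RtPoly.G, rtSq, rtIp`; `measurableSet_le`, `Measurable.*`, `fun_prop`/`measurability`) -/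
theorem rt_in_set_meas {Ω : Type} [MeasurableSpace Ω] {A B : Ω → ℝ × ℝ} {Y : Ω → ℝ} (hA : Measurable A) (hB : Measurable B)
    (hY : Measurable Y) (τ : RtTest) (M : ℝ) : MeasurableSet {ω | (⟨A ω, B ω, Y ω⟩ : RtRow) ∈ τ.set M} := by
  have ms : Measurable rtSq := by
    unfold rtSq
    fun_prop
  have mx : Measurable fun ω => τ.x (⟨A ω, B ω, Y ω⟩ : RtRow) := by
    unfold RtTest.x
    dsimp only
    fun_prop
  have mz : Measurable fun ω => τ.z (⟨A ω, B ω, Y ω⟩ : RtRow) := by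
    unfold RtTest.z rtIp
    dsimp only
    fun_prop
  have mV : Measurable fun ω => τ.V (⟨A ω, B ω, Y ω⟩ : RtRow) := by
    unfold RtTest.V
    dsimp only
    fun_prop
  have mF : Measurable fun ω => τ.Fv (⟨A ω, B ω, Y ω⟩ : RtRow) := by
    unfold RtTest.Fv RtPoly.F rtIp rtSq
    fun_prop
  have mG : Measurable fun ω => τ.Gv (⟨A ω, B ω, Y ω⟩ : RtRow) := by
    unfold RtTest.Gv RtPoly.G rtIp rtSq
    fun_prop
  have e : {ω | (⟨A ω, B ω, Y ω⟩ : RtRow) ∈ τ.set M} = {ω | (⟨A ω, B ω, Y ω⟩ : RtRow) ∈ τ.box M}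
      ∩ {ω | |τ.Fv (⟨A ω, B ω, Y ω⟩ : RtRow)| ≤ M * τ.f} ∩ {ω | |τ.Gv (⟨A ω, B ω, Y ω⟩ : RtRow)| ≤ M * τ.f} := by
    ext ω
    simp only [RtTest.set, Set.mem_ofPred_eq, Set.mem_inter_iff]
    tauto
  rw [e]
  exact ((rt_in_box_meas' hA hB hY τ M).inter (measurableSet_le (continuous_abs.measurable.comp mF) measurable_const)).inter
    (measurableSet_le (continuous_abs.measurable.comp mG) measurable_const)

/-- LEAF IN-1. -/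
theorem rt_in_box_meas {Ω : Type} [MeasurableSpace Ω] {A B : Ω → ℝ × ℝ} {Y : Ω → ℝ} (hA : Measurable A) (hB : Measurable B)
    (hY : Measurable Y) (τ : RtTest) (M : ℝ) : MeasurableSet {ω | (⟨A ω, B ω, Y ω⟩ : RtRow) ∈ τ.box M} := by
  exact rt_in_box_meas' hA hB hY τ M

/-- LEAF IN-1.  `ms` is nonnegative, and monotone on measurable sets   (`‖An v‖²` is integrable: `(Lp.memLp _).integrable_norm_pow`; `integral_mono`, `Integrable.indicator`-type) -/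
theorem rt_in_ms_mono (P : PkSys) (T : ℝ) (k b : ℕ) (v : P.Kc) {S S' : Set P.X} (hS' : MeasurableSet S') (h : S ⊆ S') :
    0 ≤ P.ms T k b S v ∧ (MeasurableSet S → P.ms T k b S v ≤ P.ms T k b S' v) := by
  exact ⟨gn_ms_nonneg T k b S v, fun hS => gn_ms_mono T k b hS hS' h v⟩

/-! ## the classical instance -/

/-- LEAF IN-2.  (`An = id`: `Pl b = univ`, `adjoint id = id`; `cellM` by `rt_in_set_meas` with the flow of `p.mA, p.mB, p.mY`; `ok_mono`: only `l_pos` depends on `k`) -/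
theorem rt_in_tight_cl (η : ℝ) (p : RdClPar) : (p.sys η).Tight := by
  refine ⟨fun T k b v => le_refl _, fun b v _ T k => rfl, fun T k b F T' k' => rfl, fun T k b b' v _ _ => rfl, fun k => p.sf, fun Q T k => ?_,
    fun Q k h => ?_, fun Q k k' _ h => ?_⟩
  · exact rt_in_set_meas (A := p.A) (B := fun ω => p.B ω + T • p.A ω) (Y := fun ω => p.Y ω + T * rtSq (p.A ω)) p.mA
      (p.mB.add (p.mA.const_smul T)) (p.mY.add ((by unfold rtSq; exact ((measurable_fst.comp p.mA).pow_const 2).add ((measurable_snd.comp p.mA).pow_const 2) :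
        Measurable fun ω => rtSq (p.A ω)).const_mul T)) (Q.toT k) 1
  · have h' : (Q.toT k).Adm 1 := h
    have hr : 0 < Q.r := h'.r_pos
    have hf : 0 < Q.f := h'.f_pos
    show 0 < Q.r ^ 4 * Q.f ^ (1 - η)
    positivity
  · have h' : (Q.toT k').Adm 1 := h
    exact ⟨rdLen_pos k, h'.r_pos, h'.f_pos, h'.f_le, h'.disc, h'.bd⟩

/-- LEAF IN-2.  (`adjoint id = id`; `mulR k 1_S F =ᵐ 1_S F` or `= 0`; `S ∩ S' = ∅`; `integral_eq_zero_of_ae`) -/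
theorem rt_in_ker_cl (η : ℝ) (p : RdClPar) (T : ℝ) (k : ℕ) (T' : ℝ) (k' b b' : ℕ) (S S' : Set p.Om) (hS : MeasurableSet S)
    (hS' : MeasurableSet S') (hd : ∀ x ∈ S, ∀ x' ∈ S', ¬ x = x') (F : Lp p.Fb 2 p.m) :
    (p.sys η).ms T' k' b' S' (ContinuousLinearMap.adjoint ((p.sys η).An T k b) ((p.sys η).mulR k (S.indicator fun _ => 1) F)) = 0 := by
  have hadj : ContinuousLinearMap.adjoint ((p.sys η).An T k b) ((p.sys η).mulR k (S.indicator fun _ => 1) F)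
      = (p.sys η).mulR k (S.indicator fun _ => 1) F := by
    have : ContinuousLinearMap.adjoint ((p.sys η).An T k b) = ContinuousLinearMap.id ℂ _ := by
      show ContinuousLinearMap.adjoint (ContinuousLinearMap.id ℂ (Lp p.Fb 2 p.m)) = ContinuousLinearMap.id ℂ _
      exact star_one _
    rw [this]
    rfl
  rw [hadj]
  obtain ⟨G, hG⟩ : ∃ G : Lp p.Fb 2 p.m, G = (p.sys η).mulR k (S.indicator fun _ => 1) F := ⟨_, rfl⟩
  have hc : (G : p.Om → p.Fb) =ᵐ[p.m] fun x => (((S.indicator (fun _ => (1 : ℝ)) x : ℝ) : ℂ)) • (F : p.Om → p.Fb) x := by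
    rw [hG]
    exact gn_mulR_coe (P := p.sys η) k (gn_mask_ind hS) F
  rw [← hG]
  show ∫ x : p.Om, S'.indicator (fun _ => (1 : ℝ)) x * ‖(G : p.Om → p.Fb) x‖ ^ 2 ∂p.m = 0
  refine integral_eq_zero_of_ae ?_
  filter_upwards [hc] with x hx
  show S'.indicator (fun _ => (1 : ℝ)) x * ‖(G : p.Om → p.Fb) x‖ ^ 2 = 0
  by_cases h1 : x ∈ S'
  · have h2 : x ∉ S := fun h => hd x h x h1 rfl
    rw [hx, Set.indicator_of_notMem h2]
    simp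
  · rw [Set.indicator_of_notMem h1, zero_mul]

/-! ## back covering -/

theorem rt_in_toT (k : ℕ) (σ : RtTest) (h : σ.l = rdLen k) : (⟨σ.r, σ.f, σ.As, σ.bs, σ.ys, σ.n⟩ : RdTst).toT k = σ := by
  cases σ
  simp only at h
  simp only [RdTst.toT, h]

theorem rt_in_delta {k k' : ℕ} (h : k ≤ k') : rdLen k' = (2 : ℝ)⁻¹ ^ (k' - k) * rdLen k ∧
    (2 : ℝ)⁻¹ ^ (k' - k) = 2 ^ (-(1 * ((k' : ℝ) - k))) ∧ (0 : ℝ) < (2 : ℝ)⁻¹ ^ (k' - k) ∧ (2 : ℝ)⁻¹ ^ (k' - k) ≤ 1 := by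
  refine ⟨?_, ?_, by positivity, pow_le_one₀ (by norm_num) (by norm_num)⟩
  · unfold rdLen
    rw [← pow_add, Nat.sub_add_cancel h]
  · rw [one_mul, Real.rpow_neg (by norm_num), ← Nat.cast_sub h, Real.rpow_natCast, inv_pow]

theorem rt_in_dict {H : ℝ} (hH : 0 < H) {k k' : ℕ} (h : k ≤ k') :
    rdD H k' * Real.sqrt ((2 : ℝ)⁻¹ ^ (k' - k)) = rdD H k ∧ rdD H k / Real.sqrt ((2 : ℝ)⁻¹ ^ (k' - k)) = rdD H k' ∧
    rdLen k * rdD H k = rdQ H k ∧ rdLen k * rdD H k ^ 2 = H := by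
  obtain ⟨d1, -, d3, -⟩ := rt_in_delta h
  have hℓ := rdLen_pos k
  have hℓ' := rdLen_pos k'
  have hs : 0 < Real.sqrt ((2 : ℝ)⁻¹ ^ (k' - k)) := Real.sqrt_pos.2 d3
  have a1 : rdD H k' * Real.sqrt ((2 : ℝ)⁻¹ ^ (k' - k)) = rdD H k := by
    unfold rdD
    rw [← Real.sqrt_mul (div_pos hH hℓ').le, d1]
    congr 1
    field_simp
  refine ⟨a1, ?_, ?_, ?_⟩
  · rw [← a1]
    field_simp
  · unfold rdD rdQ
    have : H * rdLen k = rdLen k ^ 2 * (H / rdLen k) := by field_simp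
    rw [this, Real.sqrt_mul (by positivity), Real.sqrt_sq hℓ.le]
  · unfold rdD
    rw [Real.sq_sqrt (div_pos hH hℓ).le]
    field_simp

theorem rt_in_near_mono {M M' d q H : ℝ} (h : M ≤ M') (h0 : 0 ≤ M) (hd : 0 ≤ d) (hq : 0 ≤ q) (hH : 0 ≤ H) {p p' : RtRow}
    (hn : RtNear M d q H p p') : RtNear M' d q H p p' := by
  obtain ⟨a, b, c⟩ := hn
  exact ⟨a.trans (pow_le_pow_left₀ (by positivity) (mul_le_mul_of_nonneg_right h hd) 2),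
    b.trans (pow_le_pow_left₀ (by positivity) (mul_le_mul_of_nonneg_right h hq) 2), c.trans (mul_le_mul_of_nonneg_right h hH)⟩

theorem rt_in_const {C Λ M : ℝ} (hC0 : 0 < C) (hΛ : 1 ≤ Λ) (hM0 : 0 ≤ M) (hM : M ≤ 2 * Λ) :
    M ^ C ≤ max C (2 ^ C) * Λ ^ (max C (2 ^ C)) := by
  have hΛ0 : 0 ≤ Λ := by linarith
  calc M ^ C ≤ (2 * Λ) ^ C := Real.rpow_le_rpow hM0 hM hC0.le
    _ = 2 ^ C * Λ ^ C := Real.mul_rpow (by norm_num) hΛ0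
    _ ≤ max C (2 ^ C) * Λ ^ (max C (2 ^ C)) :=
        mul_le_mul (le_max_right _ _) (Real.rpow_le_rpow_of_exponent_le hΛ (le_max_left _ _)) (by positivity)
          (le_trans (by positivity) (le_max_right C ((2 : ℝ) ^ C)))

/-- LEAF IN-3.  From `rt_G2` with `M = 2Λ`, `l = rdLen k`, `δ = rdLen k' / rdLen k = 2^-(k'-k)`, `t = T' - T`, `D = rdD H k`, `τ = Q.toT k'`:
`D/√δ = rdD H k'`, `l D = rdQ H k`, `l D² = H`, `D ≤ τ.unc √δ ⟸ rdD H k' ≤ Q.r Q.f`;   `Qs i = ⟨σ.r, σ.f, σ.As, σ.bs, σ.ys, σ.n⟩` (`(Qs i).toT k = σ i` because `(σ i).l = rdLen k`);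
`RtNear` is monotone in `M`;   `Cg = max C (2^C)`: `(2Λ)^C ≤ Cg Λ^Cg`. -/
theorem rt_in_cov_wv (η : ℝ) (h0 : 0 < η) (h1 : η < 1) : ∃ Cg : ℝ, 0 < Cg ∧ ∀ (p : RdWvPar) (Λ : ℝ), 1 ≤ Λ →
    ∀ (T : ℝ) (k : ℕ) (T' : ℝ) (k' : ℕ), CutLe T k T' k' → ∀ Q : RdTst, (p.sys η).ok Q k' →
    ∃ (m : ℕ) (Qs : Fin m → RdTst), (∀ i, (p.sys η).ok (Qs i) k) ∧
      (∀ x x', x' ∈ (p.sys η).cell Q T' k' →
        RtNear Λ (rdD p.H k') (rdQ p.H k) p.H ((RdWvPar.co T x).flow (T' - T)) (RdWvPar.co T' x') → ∃ i, x ∈ (p.sys η).cell (Qs i) T k) ∧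
      ∑ i, (Qs i).wt η ≤ Cg * Λ ^ Cg * 2 ^ (-(1 * ((k' : ℝ) - k))) * Q.wt η := by
  obtain ⟨C, hC0, hG⟩ := rt_G2 η h0 h1
  refine ⟨max C (2 ^ C), lt_max_of_lt_left hC0, fun p Λ hΛ T k T' k' hcut Q hok => ?_⟩
  obtain ⟨hkk, hT1, hT2⟩ := hcut
  obtain ⟨hadm, hunc⟩ : (Q.toT k').Adm 1 ∧ rdD p.H k' ≤ Q.r * Q.f := hok
  obtain ⟨d1, d2, d3, d4⟩ := rt_in_delta hkk
  obtain ⟨q1, q2, q3, q4⟩ := rt_in_dict p.H_pos hkk
  set δ : ℝ := (2 : ℝ)⁻¹ ^ (k' - k) with hδ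
  have hsδ : 0 < Real.sqrt δ := Real.sqrt_pos.2 d3
  obtain ⟨m, σ, hσ, hcov, hw⟩ := hG (2 * Λ) (rdLen k) δ (T' - T) (rdD p.H k) (Q.toT k') (by linarith) (rdLen_pos k) d3 d4 (by linarith)
    (by unfold rdLen; linarith) (Real.sqrt_nonneg _) hadm d1 (by
      rw [← q1, RdTst.unc_eq]
      exact mul_le_mul_of_nonneg_right hunc hsδ.le)
  refine ⟨m, fun i => ⟨(σ i).r, (σ i).f, (σ i).As, (σ i).bs, (σ i).ys, (σ i).n⟩, fun i => ?_, fun x x' hx' hn => ?_, ?_⟩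
  · show ((⟨(σ i).r, (σ i).f, (σ i).As, (σ i).bs, (σ i).ys, (σ i).n⟩ : RdTst).toT k).Adm 1 ∧ rdD p.H k ≤ (σ i).r * (σ i).f
    rw [rt_in_toT k (σ i) (hσ i).2.1]
    exact ⟨(hσ i).1, (hσ i).2.2⟩
  · have hmem : RdWvPar.co T x ∈ rtPred (2 * Λ) (rdD p.H k / Real.sqrt δ) (rdLen k * rdD p.H k) (rdLen k * rdD p.H k ^ 2) (T' - T)
        ((Q.toT k').set 1) := by
      refine ⟨RdWvPar.co T' x', hx', ?_⟩
      rw [q2, q3, q4]
      exact rt_in_near_mono (by linarith) (by linarith) (Real.sqrt_nonneg _) (Real.sqrt_nonneg _) p.H_pos.le hn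
    obtain ⟨i, hi⟩ := Set.mem_iUnion.1 (hcov hmem)
    refine ⟨i, ?_⟩
    show RdWvPar.co T x ∈ ((⟨(σ i).r, (σ i).f, (σ i).As, (σ i).bs, (σ i).ys, (σ i).n⟩ : RdTst).toT k).set 1
    rw [rt_in_toT k (σ i) (hσ i).2.1]
    exact hi
  · show ∑ i, (σ i).w η ≤ _
    refine hw.trans ?_
    rw [← d2, RdTst.wt_eq]
    have hwt : 0 ≤ Q.wt η := by
      have hr : 0 < Q.r := hadm.r_pos
      have hf : 0 < Q.f := hadm.f_pos
      unfold RdTst.wt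
      positivity
    exact mul_le_mul_of_nonneg_right (mul_le_mul_of_nonneg_right (rt_in_const hC0 hΛ (by linarith) le_rfl) d3.le) hwt

/-- LEAF IN-3.  The same with `D = 0`, `M = 2`: `p.co T' x = (p.co T x).flow (T' - T)` and `RtNear 2 0 0 0 q q`. -/
theorem rt_in_cov_cl (η : ℝ) (h0 : 0 < η) (h1 : η < 1) : ∃ Cg : ℝ, 0 < Cg ∧ ∀ (p : RdClPar) (Λ : ℝ), 1 ≤ Λ →
    ∀ (T : ℝ) (k : ℕ) (T' : ℝ) (k' : ℕ), CutLe T k T' k' → ∀ Q : RdTst, (p.sys η).ok Q k' →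
    ∃ (m : ℕ) (Qs : Fin m → RdTst), (∀ i, (p.sys η).ok (Qs i) k) ∧
      (∀ x, x ∈ (p.sys η).cell Q T' k' → ∃ i, x ∈ (p.sys η).cell (Qs i) T k) ∧
      ∑ i, (Qs i).wt η ≤ Cg * Λ ^ Cg * 2 ^ (-(1 * ((k' : ℝ) - k))) * Q.wt η := by
  obtain ⟨C, hC0, hG⟩ := rt_G2 η h0 h1
  refine ⟨max C (2 ^ C), lt_max_of_lt_left hC0, fun p Λ hΛ T k T' k' hcut Q hok => ?_⟩
  obtain ⟨hkk, hT1, hT2⟩ := hcut
  have hadm : (Q.toT k').Adm 1 := hok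
  obtain ⟨d1, d2, d3, d4⟩ := rt_in_delta hkk
  set δ : ℝ := (2 : ℝ)⁻¹ ^ (k' - k) with hδ
  have hsδ : 0 < Real.sqrt δ := Real.sqrt_pos.2 d3
  have hr : 0 < Q.r := hadm.r_pos
  have hf : 0 < Q.f := hadm.f_pos
  obtain ⟨m, σ, hσ, hcov, hw⟩ := hG 2 (rdLen k) δ (T' - T) 0 (Q.toT k') le_rfl (rdLen_pos k) d3 d4 (by linarith)
    (by unfold rdLen; linarith) le_rfl hadm d1 (by
      rw [RdTst.unc_eq]
      positivity)
  refine ⟨m, fun i => ⟨(σ i).r, (σ i).f, (σ i).As, (σ i).bs, (σ i).ys, (σ i).n⟩, fun i => ?_, fun x hx => ?_, ?_⟩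
  · show ((⟨(σ i).r, (σ i).f, (σ i).As, (σ i).bs, (σ i).ys, (σ i).n⟩ : RdTst).toT k).Adm 1
    rw [rt_in_toT k (σ i) (hσ i).2.1]
    exact (hσ i).1
  · have hfl : (p.co T x).flow (T' - T) = p.co T' x := by
      unfold RdClPar.co RtRow.flow
      ext
      · rfl
      · rfl
      · simp only [Prod.fst_add, Prod.smul_fst, smul_eq_mul]
        ring
      · simp only [Prod.snd_add, Prod.smul_snd, smul_eq_mul]
        ring
      · simp only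
        ring
    have hmem : p.co T x ∈ rtPred 2 (0 / Real.sqrt δ) (rdLen k * 0) (rdLen k * 0 ^ 2) (T' - T) ((Q.toT k').set 1) := by
      refine ⟨p.co T' x, hx, ?_⟩
      rw [hfl]
      unfold RtNear rtSq rtIp
      simp
    obtain ⟨i, hi⟩ := Set.mem_iUnion.1 (hcov hmem)
    refine ⟨i, ?_⟩
    show p.co T x ∈ ((⟨(σ i).r, (σ i).f, (σ i).As, (σ i).bs, (σ i).ys, (σ i).n⟩ : RdTst).toT k).set 1
    rw [rt_in_toT k (σ i) (hσ i).2.1]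
    exact hi
  · show ∑ i, (σ i).w η ≤ _
    refine hw.trans ?_
    rw [← d2, RdTst.wt_eq]
    have hwt : 0 ≤ Q.wt η := by
      unfold RdTst.wt
      positivity
    exact mul_le_mul_of_nonneg_right (mul_le_mul_of_nonneg_right (rt_in_const hC0 hΛ (by norm_num) (by linarith)) d3.le) hwt

/-! ## the setups -/

theorem rt_in_set_root (P : PkSys) (co : ℝ → P.X → RtRow) (jt : Prop) (C A : ℕ) (E E' : Xp P) (φ : RdFrm) (h : RdSet P co jt C A E φ)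
    (hr : Mdl.SameRoot E E') (hn : E'.n = E.n) : RdSet P co jt C A E' φ := by
  obtain ⟨r1, r2, r3, r4, r5, r6⟩ := hr
  have hs : E'.s = E.s := by unfold Xp.s; rw [hn]
  refine ⟨h.r_pos, ?_, ?_, ?_, ?_, ?_⟩
  · rw [hs, r4, r5]; exact h.ek_lo
  · rw [hs, r4, r5]; exact h.ek_hi
  · rw [hs, r1, r2, r3, r4, r6]; exact h.tail
  · rw [hs, r1, r2, r3, r6]; exact h.supp
  · rw [hs, r1, r2, r3, r4, r6]; exact h.dens

theorem rt_in_root_wv_aux (η : ℝ) (C A : ℕ) (p : RdWvPar) (E E' : Xp (p.sys η))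
    (h : ∃ φ : RdFrm, RdSet (p.sys η) RdWvPar.co False C A E φ ∧
      E.s ^ (C : ℝ) ≤ p.H / (rdLen E.k0 * φ.r ^ 2) ∧ p.H / (rdLen E.k0 * φ.r ^ 2) ≤ E.s ^ (-(C : ℝ)))
    (hr : Mdl.SameRoot E E') (hn : E'.n = E.n) :
    ∃ φ : RdFrm, RdSet (p.sys η) RdWvPar.co False C A E' φ ∧
      E'.s ^ (C : ℝ) ≤ p.H / (rdLen E'.k0 * φ.r ^ 2) ∧ p.H / (rdLen E'.k0 * φ.r ^ 2) ≤ E'.s ^ (-(C : ℝ)) := by
  obtain ⟨φ, h, h2, h3⟩ := h
  have hs : E'.s = E.s := by unfold Xp.s; rw [hn]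
  refine ⟨φ, rt_in_set_root _ _ _ C A E E' φ h hr hn, ?_, ?_⟩
  · rw [hs, hr.1]; exact h2
  · rw [hs, hr.1]; exact h3

/-- LEAF IN-4.  (all fields of `RdSet` and the Planck window see only `k0, i0, v, e, ka, b0` and `s = 2^-n`) -/
theorem rt_in_root_wv (η : ℝ) : (rndWav η).AdmRoot := by
  intro C A p E E' h hr hn
  exact rt_in_root_wv_aux η C A p E E' h hr hn

/-- LEAF IN-4. -/
theorem rt_in_root_cl (η : ℝ) : (rndCl η).AdmRoot := by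
  rintro C A p E E' ⟨φ, h⟩ hr hn
  exact ⟨φ, rt_in_set_root _ _ _ C A E E' φ h hr hn⟩

theorem rt_in_s_cmp {P : PkSys} (C A C' A' : ℕ) (E E' : Xp P) (hC : C * E.n ≤ C' * E'.n) (hA : A' * E'.n ≤ A * E.n) :
    E'.s ^ (C' : ℝ) ≤ E.s ^ (C : ℝ) ∧ E.s ^ (-(C : ℝ)) ≤ E'.s ^ (-(C' : ℝ)) ∧ E.s ^ (A : ℝ) ≤ E'.s ^ (A' : ℝ) := by
  have hC' : (C : ℝ) * E.n ≤ (C' : ℝ) * E'.n := by exact_mod_cast hC
  have hA' : (A' : ℝ) * E'.n ≤ (A : ℝ) * E.n := by exact_mod_cast hA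
  refine ⟨?_, ?_, ?_⟩
  · rw [gn_s_rpow, gn_s_rpow]
    exact gn_two_mono (by linarith)
  · rw [gn_s_rpow, gn_s_rpow]
    exact gn_two_mono (by linarith)
  · rw [gn_s_rpow, gn_s_rpow]
    exact gn_two_mono (by linarith)

theorem rt_in_box_mono (τ : RtTest) {M M' : ℝ} (h0 : 0 ≤ M) (h : M ≤ M') {q : RtRow} (hq : q ∈ τ.box M) : q ∈ τ.box M' := by
  obtain ⟨a, b, c⟩ := hq
  have h2 : M ^ 2 ≤ M' ^ 2 := pow_le_pow_left₀ h0 h 2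
  exact ⟨a.trans h2, b.trans h, c.trans h2⟩

/-- LEAF IN-5.  **monotonicity of the round setup in the scale.**   `s = 2^-n`: `s'^C' ≤ s^C`, `s^-C ≤ s'^-C'`, `s^A ≤ s'^A'`.   `tail` + `rt_in_ms_mono` give `0 ≤ e`, then `ek_hi` gives `0 ≤ κ r⁴`;
the box grows (`hbox` = measurability of the boxes), so the complements shrink (`rt_in_ms_mono`). -/
theorem rt_in_set_scale (P : PkSys) (co : ℝ → P.X → RtRow) (jt : Prop) (hbox : ∀ (T : ℝ) (τ : RtTest) (M : ℝ), MeasurableSet {x | co T x ∈ τ.box M})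
    (C A C' A' : ℕ) (E E' : Xp P) (φ : RdFrm) (h : RdSet P co jt C A E φ) (hr : Mdl.SameRoot E E') (hC : C * E.n ≤ C' * E'.n)
    (hA : A' * E'.n ≤ A * E.n) : RdSet P co jt C' A' E' φ := by
  obtain ⟨r1, r2, r3, r4, r5, r6⟩ := hr
  obtain ⟨s1, s2, s3⟩ := rt_in_s_cmp C A C' A' E E' hC hA
  have sA : 0 < E.s ^ (A : ℝ) := Real.rpow_pos_of_pos (gn_s_pos E) _
  have sC : 0 < E.s ^ (-(C : ℝ)) := Real.rpow_pos_of_pos (gn_s_pos E) _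
  have he : 0 ≤ E.e := (mul_nonneg_iff_of_pos_left sA).1 ((gn_ms_nonneg _ _ _ _ _).trans h.tail)
  have hk : 0 ≤ E.ka * φ.r ^ 4 := (mul_nonneg_iff_of_pos_left sC).1 (he.trans h.ek_hi)
  have hm : ∀ (T M : ℝ), MeasurableSet {x | co T x ∉ φ.box E.k0 M} := fun T M => (hbox T (φ.toT E.k0) M).compl
  have hb : ∀ T : ℝ, {x | co T x ∉ φ.box E.k0 (E'.s ^ (-(C' : ℝ)))} ⊆ {x | co T x ∉ φ.box E.k0 (E.s ^ (-(C : ℝ)))} := by
    intro T x hx hx'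
    exact hx (rt_in_box_mono _ sC.le s2 hx')
  have hms := gn_ms_mono (P := P) (tmL E.k0 E.i0) E.k0 E.b0 (hm _ _) (hm _ _) (hb (tmL E.k0 E.i0)) E.v
  refine ⟨h.r_pos, ?_, ?_, ?_, ?_, ?_⟩
  · rw [r4, r5]
    exact (mul_le_mul_of_nonneg_right s1 hk).trans h.ek_lo
  · rw [r4, r5]
    exact h.ek_hi.trans (mul_le_mul_of_nonneg_right s2 hk)
  · rw [r1, r2, r3, r4, r6]
    exact (hms.trans h.tail).trans (mul_le_mul_of_nonneg_right s3 he)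
  · rw [r1, r2, r3, r6]
    intro hj
    exact le_antisymm (hms.trans (h.supp hj).le) (gn_ms_nonneg _ _ _ _ _)
  · rw [r1, r2, r3, r4, r6]
    intro hj S hS
    refine (h.dens hj S hS).trans ?_
    gcongr

theorem rt_in_scale_wv_aux (η : ℝ) (C A C' A' : ℕ) (p : RdWvPar) (E E' : Xp (p.sys η))
    (h : ∃ φ : RdFrm, RdSet (p.sys η) RdWvPar.co False C A E φ ∧
      E.s ^ (C : ℝ) ≤ p.H / (rdLen E.k0 * φ.r ^ 2) ∧ p.H / (rdLen E.k0 * φ.r ^ 2) ≤ E.s ^ (-(C : ℝ)))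
    (hr : Mdl.SameRoot E E') (hC : C * E.n ≤ C' * E'.n) (hA : A' * E'.n ≤ A * E.n) :
    ∃ φ : RdFrm, RdSet (p.sys η) RdWvPar.co False C' A' E' φ ∧
      E'.s ^ (C' : ℝ) ≤ p.H / (rdLen E'.k0 * φ.r ^ 2) ∧ p.H / (rdLen E'.k0 * φ.r ^ 2) ≤ E'.s ^ (-(C' : ℝ)) := by
  obtain ⟨φ, h, h2, h3⟩ := h
  obtain ⟨s1, s2, -⟩ := rt_in_s_cmp C A C' A' E E' hC hA
  refine ⟨φ, rt_in_set_scale _ _ _ (fun T τ M => ?_) C A C' A' E E' φ h hr hC hA, ?_, ?_⟩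
  · exact rt_in_box_meas (Ω := RdWvPar.Ph) (A := fun x => x.1) (B := fun x => x.2.1) (Y := fun x => x.2.2) measurable_fst
      (measurable_fst.comp measurable_snd) (measurable_snd.comp measurable_snd) τ M
  · rw [hr.1]; exact s1.trans h2
  · rw [hr.1]; exact h3.trans s2

/-- LEAF IN-5. -/
theorem rt_in_scale_wv (η : ℝ) : (rndWav η).AdmScale := by
  intro C A C' A' p E E' _ h hr hC hA
  exact rt_in_scale_wv_aux η C A C' A' p E E' h hr hC hA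

/-- LEAF IN-5. -/
theorem rt_in_scale_cl (η : ℝ) : (rndCl η).AdmScale := by
  rintro C A C' A' p E E' _ ⟨φ, h⟩ hr hC hA
  refine ⟨φ, rt_in_set_scale _ _ _ (fun T τ M => ?_) C A C' A' E E' φ h hr hC hA⟩
  have hp : ∀ p : RdClPar, MeasurableSet {x | p.co T x ∈ τ.box M} := fun p =>
    rt_in_box_meas (A := p.A) (B := fun ω => p.B ω + T • p.A ω) (Y := fun ω => p.Y ω + T * rtSq (p.A ω)) p.mA
      (p.mB.add (p.mA.const_smul T)) (p.mY.add ((by unfold rtSq; exact ((measurable_fst.comp p.mA).pow_const 2).add ((measurable_snd.comp p.mA).pow_const 2) :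
        Measurable fun ω => rtSq (p.A ω)).const_mul T)) τ M
  exact hp p

theorem rt_in_floor_aux (η : ℝ) (h0 : 0 < η) (h1 : η < 1) (C A : ℕ) (p : RdWvPar) (E : Xp (p.sys η)) (hka : 0 < E.ka)
    (h : ∃ φ : RdFrm, RdSet (p.sys η) RdWvPar.co False C A E φ ∧
      E.s ^ (C : ℝ) ≤ p.H / (rdLen E.k0 * φ.r ^ 2) ∧ p.H / (rdLen E.k0 * φ.r ^ 2) ≤ E.s ^ (-(C : ℝ)))
    (k : ℕ) (Q : RdTst) (hk : E.k0 ≤ k) (hok : (Q.toT k).Adm 1 ∧ rdD p.H k ≤ Q.r * Q.f) :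
    E.s ^ ((3 * C : ℕ) : ℝ) * E.e ≤ E.ka * Q.wt η := by
  obtain ⟨φ, hs, hp, -⟩ := h
  obtain ⟨hadm, hd⟩ := hok
  have hH := p.H_pos
  have hr : 0 < φ.r := hs.r_pos
  have hQr : 0 < Q.r := hadm.r_pos
  have hQf : 0 < Q.f := hadm.f_pos
  have hQf1 : Q.f ≤ 1 := hadm.f_le
  have hσ : 0 < E.s ^ C := pow_pos (gn_s_pos E) C
  have e1 : E.s ^ ((3 * C : ℕ) : ℝ) = (E.s ^ C) ^ 3 := by rw [Real.rpow_natCast, mul_comm, pow_mul]
  have e2 : E.s ^ (C : ℝ) = E.s ^ C := Real.rpow_natCast _ _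
  have e3 : E.s ^ (-(C : ℝ)) = (E.s ^ C)⁻¹ := by rw [Real.rpow_neg (gn_s_pos E).le, Real.rpow_natCast]
  have hek := hs.ek_hi
  rw [e3] at hek
  rw [e2] at hp
  set σ := E.s ^ C with hσdef
  have k1 : σ * E.e ≤ E.ka * φ.r ^ 4 := by
    have := mul_le_mul_of_nonneg_left hek hσ.le
    rwa [← mul_assoc, mul_inv_cancel₀ hσ.ne', one_mul] at this
  have hℓ0 := rdLen_pos E.k0
  have hℓ := rdLen_pos k
  have k2 : σ * φ.r ^ 2 ≤ p.H / rdLen E.k0 := by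
    rw [le_div_iff₀ (by positivity)] at hp
    rw [le_div_iff₀ hℓ0]
    nlinarith
  have hℓle : rdLen k ≤ rdLen E.k0 := by
    unfold rdLen
    exact pow_le_pow_of_le_one (by norm_num) (by norm_num) hk
  have k3 : p.H / rdLen E.k0 ≤ p.H / rdLen k := div_le_div_of_nonneg_left hH.le hℓ hℓle
  have k4 : p.H / rdLen k ≤ (Q.r * Q.f) ^ 2 := by
    have : rdD p.H k ^ 2 = p.H / rdLen k := Real.sq_sqrt (div_pos hH hℓ).le
    rw [← this]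
    exact pow_le_pow_left₀ (Real.sqrt_nonneg _) hd 2
  have k5 : σ * φ.r ^ 2 ≤ (Q.r * Q.f) ^ 2 := k2.trans (k3.trans k4)
  have k6 : (σ * φ.r ^ 2) ^ 2 ≤ ((Q.r * Q.f) ^ 2) ^ 2 := pow_le_pow_left₀ (by positivity) k5 2
  have k7 : Q.f ^ 4 ≤ Q.f ^ (1 - η) := by
    have := Real.rpow_le_rpow_of_exponent_ge hQf hQf1 (by push_cast; linarith : 1 - η ≤ ((4 : ℕ) : ℝ))
    rwa [Real.rpow_natCast] at this
  have k8 : σ ^ 2 * φ.r ^ 4 ≤ Q.wt η := by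
    unfold RdTst.wt
    calc σ ^ 2 * φ.r ^ 4 = (σ * φ.r ^ 2) ^ 2 := by ring
      _ ≤ ((Q.r * Q.f) ^ 2) ^ 2 := k6
      _ = Q.r ^ 4 * Q.f ^ 4 := by ring
      _ ≤ Q.r ^ 4 * Q.f ^ (1 - η) := mul_le_mul_of_nonneg_left k7 (by positivity)
  rw [e1]
  calc σ ^ 3 * E.e = σ ^ 2 * (σ * E.e) := by ring
    _ ≤ σ ^ 2 * (E.ka * φ.r ^ 4) := mul_le_mul_of_nonneg_left k1 (by positivity)
    _ = E.ka * (σ ^ 2 * φ.r ^ 4) := by ring
    _ ≤ E.ka * Q.wt η := mul_le_mul_of_nonneg_left k8 hka.le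

/-- LEAF IN-6.  ELEMENTARY, `D' = 3 C`, `A = 0`, `n0 = 0`, the heaviness hypothesis is not used:   `ok Q k` gives `d_k ≤ r_Q f_Q`, `f_Q ≤ 1`;  `d_k ≥ d_{k0}` (`k0 ≤ k`), `d_{k0}² = H/ℓ₀ ≥ s^C r²` (Planck window);
`w(Q) = r_Q⁴ f_Q^(1-η) ≥ (r_Q f_Q)⁴ ≥ s^(2C) r⁴`;   `ek_hi`: `κ r⁴ ≥ s^C e`;   `κ > 0` (`Valid.ka_pos`). -/
theorem rt_in_floor_wv (η : ℝ) (h0 : 0 < η) (h1 : η < 1) : (rndWav η).Floor := by
  intro C D
  refine ⟨3 * C, 0, 0, fun p E _ hcl k i b st' Q hk0 _ _ _ _ hok _ => ?_⟩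
  exact rt_in_floor_aux η h0 h1 C 0 p E hcl.2.1.ka_pos hcl.2.2.2.2 k Q hk0 hok

theorem rt_in_poly_real (σ δ κ e r f R : ℝ) (hσ : 0 < σ) (hσ1 : σ ≤ 1) (hδ : 0 < δ) (hδ1 : δ ≤ 1) (hκ : 0 < κ) (he : 0 < e)
    (hr : 0 < r) (hf : 0 < f) (hf1 : f ≤ 1) (hR : 0 < R) (k5 : σ * R ^ 2 ≤ (r * f) ^ 2) (lo : σ * (κ * R ^ 4) ≤ e)
    (hi : σ * e ≤ κ * R ^ 4) (hv : δ * (κ * (r ^ 4 * f)) < e) :
    δ ^ 4 * σ ^ 9 * e ≤ κ * r ^ 4 ∧ δ ^ 4 * σ ^ 9 * (κ * r ^ 4) ≤ e ∧ δ ^ 4 * σ ^ 9 ≤ f := by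
  have hf2 : f ^ 2 ≤ 1 := pow_le_one₀ hf.le hf1
  have a1 : σ * R ^ 2 ≤ r ^ 2 := by
    calc σ * R ^ 2 ≤ (r * f) ^ 2 := k5
      _ = r ^ 2 * f ^ 2 := by ring
      _ ≤ r ^ 2 * 1 := mul_le_mul_of_nonneg_left hf2 (by positivity)
      _ = r ^ 2 := mul_one _
  have a2 : σ ^ 2 * R ^ 4 ≤ r ^ 4 := by
    have := pow_le_pow_left₀ (by positivity) a1 2
    calc σ ^ 2 * R ^ 4 = (σ * R ^ 2) ^ 2 := by ring
      _ ≤ (r ^ 2) ^ 2 := this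
      _ = r ^ 4 := by ring
  have hδ4 : δ ^ 4 ≤ 1 := pow_le_one₀ hδ.le hδ1
  have hδ2 : δ ^ 2 ≤ 1 := pow_le_one₀ hδ.le hδ1
  have hδ3 : δ ^ 3 ≤ 1 := pow_le_one₀ hδ.le hδ1
  have hσ6 : σ ^ 6 ≤ 1 := pow_le_one₀ hσ.le hσ1
  have hσ5 : σ ^ 5 ≤ 1 := pow_le_one₀ hσ.le hσ1
  have hσ7 : σ ^ 7 ≤ 1 := pow_le_one₀ hσ.le hσ1
  have hσ3 : σ ^ 3 ≤ 1 := pow_le_one₀ hσ.le hσ1
  set m := δ ^ 2 * σ ^ 3 with hm
  have hm0 : 0 < m := by positivity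
  have hm1 : m ≤ 1 := mul_le_one₀ hδ2 (by positivity) hσ3
  have b1 : δ * σ * (r ^ 4 * f) < R ^ 4 := by
    have h1 : σ * (δ * (κ * (r ^ 4 * f))) < σ * e := mul_lt_mul_of_pos_left hv hσ
    have h2 : κ * (δ * σ * (r ^ 4 * f)) < κ * R ^ 4 := by
      calc κ * (δ * σ * (r ^ 4 * f)) = σ * (δ * (κ * (r ^ 4 * f))) := by ring
        _ < σ * e := h1
        _ ≤ κ * R ^ 4 := hi
    exact lt_of_mul_lt_mul_left h2 hκ.le
  have b2 : m * r ^ 6 < R ^ 6 := by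
    have h1 : (δ * σ * (r ^ 4 * f)) ^ 2 < (R ^ 4) ^ 2 := pow_lt_pow_left₀ b1 (by positivity) (by norm_num)
    have h2 : R ^ 2 * (m * r ^ 6) < R ^ 2 * R ^ 6 := by
      calc R ^ 2 * (m * r ^ 6) = δ ^ 2 * σ ^ 2 * r ^ 6 * (σ * R ^ 2) := by rw [hm]; ring
        _ ≤ δ ^ 2 * σ ^ 2 * r ^ 6 * (r * f) ^ 2 := mul_le_mul_of_nonneg_left k5 (by positivity)
        _ = (δ * σ * (r ^ 4 * f)) ^ 2 := by ring
        _ < (R ^ 4) ^ 2 := h1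
        _ = R ^ 2 * R ^ 6 := by ring
    exact lt_of_mul_lt_mul_left h2 (by positivity)
  have c1 : m * r ^ 4 ≤ R ^ 4 := by
    rcases le_total r R with h | h
    · calc m * r ^ 4 ≤ 1 * r ^ 4 := mul_le_mul_of_nonneg_right hm1 (by positivity)
        _ = r ^ 4 := one_mul _
        _ ≤ R ^ 4 := pow_le_pow_left₀ hr.le h 4
    · have h2 : R ^ 2 * (m * r ^ 4) ≤ R ^ 2 * R ^ 4 := by
        calc R ^ 2 * (m * r ^ 4) ≤ r ^ 2 * (m * r ^ 4) := mul_le_mul_of_nonneg_right (pow_le_pow_left₀ hR.le h 2) (by positivity)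
          _ = m * r ^ 6 := by ring
          _ ≤ R ^ 6 := b2.le
          _ = R ^ 2 * R ^ 4 := by ring
      exact le_of_mul_le_mul_left h2 (by positivity)
  have c2 : m * r ^ 2 ≤ R ^ 2 := by
    rcases le_total r R with h | h
    · calc m * r ^ 2 ≤ 1 * r ^ 2 := mul_le_mul_of_nonneg_right hm1 (by positivity)
        _ = r ^ 2 := one_mul _
        _ ≤ R ^ 2 := pow_le_pow_left₀ hr.le h 2
    · have h2 : R ^ 4 * (m * r ^ 2) ≤ R ^ 4 * R ^ 2 := by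
        calc R ^ 4 * (m * r ^ 2) ≤ r ^ 4 * (m * r ^ 2) := mul_le_mul_of_nonneg_right (pow_le_pow_left₀ hR.le h 4) (by positivity)
          _ = m * r ^ 6 := by ring
          _ ≤ R ^ 6 := b2.le
          _ = R ^ 4 * R ^ 2 := by ring
      exact le_of_mul_le_mul_left h2 (by positivity)
  refine ⟨?_, ?_, ?_⟩
  · calc δ ^ 4 * σ ^ 9 * e = (δ ^ 4 * σ ^ 6) * (σ ^ 2 * (σ * e)) := by ring
      _ ≤ 1 * (σ ^ 2 * (σ * e)) := mul_le_mul_of_nonneg_right (mul_le_one₀ hδ4 (by positivity) hσ6) (by positivity)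
      _ = σ ^ 2 * (σ * e) := one_mul _
      _ ≤ σ ^ 2 * (κ * R ^ 4) := mul_le_mul_of_nonneg_left hi (by positivity)
      _ = κ * (σ ^ 2 * R ^ 4) := by ring
      _ ≤ κ * r ^ 4 := mul_le_mul_of_nonneg_left a2 hκ.le
  · calc δ ^ 4 * σ ^ 9 * (κ * r ^ 4) = (δ ^ 2 * σ ^ 5) * (σ * (κ * (m * r ^ 4))) := by rw [hm]; ring
      _ ≤ 1 * (σ * (κ * (m * r ^ 4))) := mul_le_mul_of_nonneg_right (mul_le_one₀ hδ2 (by positivity) hσ5) (by positivity)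
      _ = σ * (κ * (m * r ^ 4)) := one_mul _
      _ ≤ σ * (κ * R ^ 4) := mul_le_mul_of_nonneg_left (mul_le_mul_of_nonneg_left c1 hκ.le) hσ.le
      _ ≤ e := lo
  · have h1 : r ^ 2 * (δ * σ ^ 2) ^ 2 ≤ r ^ 2 * f ^ 2 := by
      calc r ^ 2 * (δ * σ ^ 2) ^ 2 = σ * (m * r ^ 2) := by rw [hm]; ring
        _ ≤ σ * R ^ 2 := mul_le_mul_of_nonneg_left c2 hσ.le
        _ ≤ (r * f) ^ 2 := k5
        _ = r ^ 2 * f ^ 2 := by ring
    have h2 : (δ * σ ^ 2) ^ 2 ≤ f ^ 2 := le_of_mul_le_mul_left h1 (by positivity)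
    have h3 : δ * σ ^ 2 ≤ f := (pow_le_pow_iff_left₀ (by positivity) hf.le (by norm_num)).1 h2
    calc δ ^ 4 * σ ^ 9 = (δ ^ 3 * σ ^ 7) * (δ * σ ^ 2) := by ring
      _ ≤ 1 * (δ * σ ^ 2) := mul_le_mul_of_nonneg_right (mul_le_one₀ hδ3 (by positivity) hσ7) (by positivity)
      _ = δ * σ ^ 2 := one_mul _
      _ ≤ f := h3

theorem rt_in_poly_aux (η : ℝ) (h0 : 0 < η) (h1 : η < 1) (C D A : ℕ) (p : RdWvPar) (E : Xp (p.sys η)) (hV : E.Valid)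
    (h : ∃ φ : RdFrm, RdSet (p.sys η) RdWvPar.co False C A E φ ∧
      E.s ^ (C : ℝ) ≤ p.H / (rdLen E.k0 * φ.r ^ 2) ∧ p.H / (rdLen E.k0 * φ.r ^ 2) ≤ E.s ^ (-(C : ℝ)))
    (k i b : ℕ) (st' : List (Stg (p.sys η))) (Q : RdTst) (hk : E.k0 ≤ k) (hst : StOk E.k0 k C C st')
    (hok : (Q.toT k).Adm 1 ∧ rdD p.H k ≤ Q.r * Q.f)
    (hh : E.s ^ (D : ℝ) * (E.ka * Q.wt η) < (p.sys η).ms (tmL k i) k b ((p.sys η).cell Q (tmL k i) k) (Xp.run k i st' E.v)) :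
    E.s ^ ((4 * D + 9 * C : ℕ) : ℝ) * E.e ≤ E.ka * Q.r ^ 4 ∧ E.ka * Q.r ^ 4 ≤ E.s ^ (-((4 * D + 9 * C : ℕ) : ℝ)) * E.e ∧
      E.s ^ ((4 * D + 9 * C : ℕ) : ℝ) ≤ Q.f := by
  obtain ⟨φ, hs, hp, -⟩ := h
  obtain ⟨hadm, hd⟩ := hok
  have hT := rt_w1_tight p η
  have hH := p.H_pos
  have hr : 0 < φ.r := hs.r_pos
  have hQr : 0 < Q.r := hadm.r_pos
  have hQf : 0 < Q.f := hadm.f_pos
  have hQf1 : Q.f ≤ 1 := hadm.f_le
  have hs0 := gn_s_pos E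
  have hs1 := gn_s_le_one E
  have hσ : 0 < E.s ^ C := pow_pos hs0 C
  have hσ1 : E.s ^ C ≤ 1 := pow_le_one₀ hs0.le hs1
  have hδ : 0 < E.s ^ D := pow_pos hs0 D
  have hδ1 : E.s ^ D ≤ 1 := pow_le_one₀ hs0.le hs1
  have e1 : E.s ^ ((4 * D + 9 * C : ℕ) : ℝ) = (E.s ^ D) ^ 4 * (E.s ^ C) ^ 9 := by
    rw [Real.rpow_natCast, pow_add, mul_comm 4 D, mul_comm 9 C, pow_mul, pow_mul]
  have e1' : E.s ^ (-((4 * D + 9 * C : ℕ) : ℝ)) = ((E.s ^ D) ^ 4 * (E.s ^ C) ^ 9)⁻¹ := by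
    rw [Real.rpow_neg hs0.le, e1]
  have e2 : E.s ^ (C : ℝ) = E.s ^ C := Real.rpow_natCast _ _
  have e2' : E.s ^ (D : ℝ) = E.s ^ D := Real.rpow_natCast _ _
  have e3 : E.s ^ (-(C : ℝ)) = (E.s ^ C)⁻¹ := by rw [Real.rpow_neg hs0.le, Real.rpow_natCast]
  have hek := hs.ek_hi
  have hel := hs.ek_lo
  rw [e3] at hek
  rw [e2] at hp hel
  rw [e2'] at hh
  set σ := E.s ^ C with hσdef
  set δ := E.s ^ D with hδdef
  have k1 : σ * E.e ≤ E.ka * φ.r ^ 4 := by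
    have := mul_le_mul_of_nonneg_left hek hσ.le
    rwa [← mul_assoc, mul_inv_cancel₀ hσ.ne', one_mul] at this
  have hℓ0 := rdLen_pos E.k0
  have hℓ := rdLen_pos k
  have k2 : σ * φ.r ^ 2 ≤ p.H / rdLen E.k0 := by
    rw [le_div_iff₀ (by positivity)] at hp
    rw [le_div_iff₀ hℓ0]
    nlinarith
  have hℓle : rdLen k ≤ rdLen E.k0 := by
    unfold rdLen
    exact pow_le_pow_of_le_one (by norm_num) (by norm_num) hk
  have k3 : p.H / rdLen E.k0 ≤ p.H / rdLen k := div_le_div_of_nonneg_left hH.le hℓ hℓle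
  have k4 : p.H / rdLen k ≤ (Q.r * Q.f) ^ 2 := by
    have : rdD p.H k ^ 2 = p.H / rdLen k := Real.sq_sqrt (div_pos hH hℓ).le
    rw [← this]
    exact pow_le_pow_left₀ (Real.sqrt_nonneg _) hd 2
  have k5 : σ * φ.r ^ 2 ≤ (Q.r * Q.f) ^ 2 := k2.trans (k3.trans k4)
  have k7 : Q.f ≤ Q.f ^ (1 - η) := by
    have := Real.rpow_le_rpow_of_exponent_ge hQf hQf1 (by linarith : 1 - η ≤ (1 : ℝ))
    rwa [Real.rpow_one] at this
  have m1 : (p.sys η).ms (tmL k i) k b ((p.sys η).cell Q (tmL k i) k) (Xp.run k i st' E.v) ≤ E.e := by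
    refine (gn_ms_le hT _ _ _ (hT.cellM _ _ _) _).trans (le_trans ?_ hV.budget)
    exact pow_le_pow_left₀ (norm_nonneg _) (gn_run_norm_le hT k i st' hst.msk E.v) 2
  have hv : δ * (E.ka * (Q.r ^ 4 * Q.f)) < E.e := by
    refine lt_of_le_of_lt ?_ (hh.trans_le m1)
    unfold RdTst.wt
    exact mul_le_mul_of_nonneg_left (mul_le_mul_of_nonneg_left (mul_le_mul_of_nonneg_left k7 (by positivity)) hV.ka_pos.le) hδ.le
  obtain ⟨r1, r2, r3⟩ := rt_in_poly_real σ δ E.ka E.e Q.r Q.f φ.r hσ hσ1 hδ hδ1 hV.ka_pos hV.e_pos hQr hQf hQf1 hr k5 hel k1 hv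
  rw [e1, e1']
  refine ⟨r1, ?_, r3⟩
  rw [inv_mul_eq_div, le_div_iff₀ (by positivity), mul_comm]
  exact r2

/-- LEAF IN-7.  (= `rt_poly_wv : RtPoly2 (rndWav η) (fun _ Q => Q)` of `Rt/Mod.lean`, unfolded.)   Write `r, f` for the test, `R` for the width of the frame `φ`, `s = E.s ∈ (0, 1]`.
(a) `r f ≥ d_k ≥ d_{k0} ≥ s^(C/2) R` (as in `rt_in_floor_wv`), `f ≤ 1`: `κ r⁴ ≥ s^(2C) κ R⁴ ≥ s^(3C) e` (`ek_hi`).
(b) heavy + `gn_ms_le`, `gn_run_norm_le` (`Gen/BasB, BasC`; `rt_w1_tight`; `StOk.msk`), `Valid.budget`: `s^D κ r⁴ f^(1-η) < e`.   `r⁴ f^(1-η) = r^(3+η) (r f)^(1-η) ≥ r^(3+η) (s^(C/2) R)^(1-η)` and `e ≤ s^-C κ R⁴`: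
    `(r/R)^(3+η) ≤ s^-(D+2C)`, hence `r/R ≤ s^-(D+2C)` (both sides: base `≥ 1` or trivial), `κ r⁴ ≤ s^-(4D+8C) κ R⁴ ≤ s^-(4D+9C) e` (`ek_lo`).
(c) `f ≥ s^(C/2) R / r ≥ s^(D+3C)`.      `D' = 4 D + 9 C`, `A = 0`, `n0 = 0`. -/
theorem rt_in_poly_wv (η : ℝ) (h0 : 0 < η) (h1 : η < 1) :
    ∀ C D : ℕ, ∃ D' A n0 : ℕ, ∀ (p : (rndWav η).Par) (E : Xp ((rndWav η).sys p)), n0 ≤ E.n → (rndWav η).Cls C A p E →
    ∀ (k i b : ℕ) (st' : List (Stg ((rndWav η).sys p))) (Q : ((rndWav η).sys p).Tst), E.k0 ≤ k → k ≤ E.kf → ancI k E.k0 i = E.i0 → b ≤ C →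
      StOk E.k0 k C C st' → ((rndWav η).sys p).ok Q k →
      E.s ^ (D : ℝ) * (E.ka * ((rndWav η).sys p).wt Q) < ((rndWav η).sys p).ms (tmL k i) k b (((rndWav η).sys p).cell Q (tmL k i) k) (Xp.run k i st' E.v) →
      E.s ^ (D' : ℝ) * E.e ≤ E.ka * (RdTst.r Q) ^ 4 ∧ E.ka * (RdTst.r Q) ^ 4 ≤ E.s ^ (-(D' : ℝ)) * E.e ∧ E.s ^ (D' : ℝ) ≤ RdTst.f Q := by
  intro C D
  refine ⟨4 * D + 9 * C, 0, 0, fun p E _ hcl k i b st' Q hk0 _ _ _ hst hok hh => ?_⟩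
  exact rt_in_poly_aux η h0 h1 C D 0 p E hcl.2.1 hcl.2.2.2.2 k i b st' Q hk0 hst hok hh

end Claimed.Agent.R256
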