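import Claimed.Agent.R256.Base.RndGeo
import Claimed.Agent.R256.Rt.Geo

/-!
# Row 256, folder Rt, unit TAILADM, file 1 : GEOMETRY OF FRAMES ALONG THE CENTRAL RAY          (helper235; prefix `rt_ta_`)

Mathlib only, no measure.   `φ.mv t` = the frame `φ` with its centre transported along the central ray for the time `t` (same `r`).
* `rt_ta_V`, `rt_ta_x`, `rt_ta_z` : normalised coordinates of the transported row in the transported frame at another length: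
      `V' = V`,  `x' = λ (x + τ V)`,  `z' = λ (z + τ |V|²)`,   `λ = ℓ/ℓ'`, `τ = t/ℓ`.
* `rt_ta_box_flow` : `p ∈ φ.box k M`, `0 ≤ t ≤ ℓ_k`, `k ≤ k'`, `1 ≤ M`  ⟹  `p.flow t ∈ (φ.mv t).box k' (2 λ M²)`.
* `rt_ta_box_near` : `p ∈ φ.box k M`, `RtNear Λ d q H p p'`, `Λ d ≤ W r`, `Λ q ≤ W ℓ r`, `Λ H ≤ W ℓ r²`, `1 ≤ M, W`  ⟹  `p' ∈ φ.box k (4 M W)`.
* `rt_ta_box_step` : the two together: `8 λ W M²`.
-/

set_option autoImplicit false

namespace Claimed.Agent.R256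

/-- the frame transported along its central ray -/
def RdFrm.mv (φ : RdFrm) (t : ℝ) : RdFrm := ⟨φ.r, φ.As, φ.bs + t • φ.As, φ.ys + t * rtSq φ.As⟩

theorem rt_ta_eqns_cite : True := by
  have := @RdFrm.mv.eq_1
  trivial

theorem rt_ta_mv_zero (φ : RdFrm) : φ.mv 0 = φ := by
  cases φ
  simp [RdFrm.mv]

theorem rt_ta_mv_mv (φ : RdFrm) (a b : ℝ) : (φ.mv a).mv b = φ.mv (a + b) := by
  cases φ
  simp only [RdFrm.mv, RdFrm.mk.injEq, true_and]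
  constructor
  · rw [add_smul, add_assoc]
  · ring

theorem rt_ta_flow_flow (p : RtRow) (a b : ℝ) : (p.flow a).flow b = p.flow (a + b) := by
  cases p
  simp only [RtRow.flow, RtRow.mk.injEq, true_and]
  constructor
  · rw [add_smul, add_assoc]
  · ring

theorem rt_ta_V (φ : RdFrm) (t : ℝ) (k k' : ℕ) (p : RtRow) : ((φ.mv t).toT k').V (p.flow t) = (φ.toT k).V p := by
  rfl

theorem rt_ta_x (φ : RdFrm) (hr : φ.r ≠ 0) (t : ℝ) (k k' : ℕ) (p : RtRow) :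
    ((φ.mv t).toT k').x (p.flow t) = (rdLen k / rdLen k') • ((φ.toT k).x p + (t / rdLen k) • (φ.toT k).V p) := by
  have h1 := (rdLen_pos k).ne'
  have h2 := (rdLen_pos k').ne'
  ext
  · simp only [RtTest.x, RtTest.V, RdFrm.toT, RdFrm.mv, rtRound, RtRow.flow, Prod.fst_add, Prod.fst_sub, Prod.smul_fst, smul_eq_mul]
    field_simp
    ring
  · simp only [RtTest.x, RtTest.V, RdFrm.toT, RdFrm.mv, rtRound, RtRow.flow, Prod.snd_add, Prod.snd_sub, Prod.smul_snd, smul_eq_mul]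
    field_simp
    ring

theorem rt_ta_z (φ : RdFrm) (hr : φ.r ≠ 0) (t : ℝ) (k k' : ℕ) (p : RtRow) :
    ((φ.mv t).toT k').z (p.flow t) = rdLen k / rdLen k' * ((φ.toT k).z p + t / rdLen k * rtSq ((φ.toT k).V p)) := by
  have h1 := (rdLen_pos k).ne'
  have h2 := (rdLen_pos k').ne'
  simp only [RtTest.z, RtTest.V, RdFrm.toT, RdFrm.mv, rtRound, RtRow.flow, rtSq, rtIp, Prod.fst_add, Prod.fst_sub, Prod.smul_fst,
    Prod.snd_add, Prod.snd_sub, Prod.smul_snd, smul_eq_mul]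
  field_simp
  ring

/-- `|u + c v|² ≤ (a + c b)²` -/
theorem rt_ta_sq_add {u v : ℝ × ℝ} {a b c : ℝ} (ha : 0 ≤ a) (hb : 0 ≤ b) (hc : 0 ≤ c) (hu : rtSq u ≤ a ^ 2) (hv : rtSq v ≤ b ^ 2) :
    rtSq (u + c • v) ≤ (a + c * b) ^ 2 := by
  have h := (abs_le.1 (rtIp_abs_le ha hb hu hv)).2
  have e : rtSq (u + c • v) = rtSq u + 2 * c * rtIp u v + c ^ 2 * rtSq v := by
    simp only [rtSq, rtIp, Prod.fst_add, Prod.snd_add, Prod.smul_fst, Prod.smul_snd, smul_eq_mul]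
    ring
  rw [e]
  have h1 : 2 * c * rtIp u v ≤ 2 * c * (a * b) := mul_le_mul_of_nonneg_left h (by positivity)
  have h2 : c ^ 2 * rtSq v ≤ c ^ 2 * b ^ 2 := mul_le_mul_of_nonneg_left hv (sq_nonneg c)
  nlinarith

theorem rt_ta_sq_smul (c : ℝ) (u : ℝ × ℝ) : rtSq (c • u) = c ^ 2 * rtSq u := by
  simp only [rtSq, Prod.smul_fst, Prod.smul_snd, smul_eq_mul]
  ring

theorem rt_ta_len_ratio {k k' : ℕ} (h : k ≤ k') : rdLen k / rdLen k' = 2 ^ (k' - k) := by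
  obtain ⟨m, rfl⟩ := Nat.exists_eq_add_of_le h
  unfold rdLen
  rw [Nat.add_sub_cancel_left, pow_add, inv_pow, inv_pow]
  field_simp

theorem rt_ta_box_mono (φ : RdFrm) (k : ℕ) {M M' : ℝ} (h0 : 0 ≤ M) (h : M ≤ M') : φ.box k M ⊆ φ.box k M' := by
  intro p hp
  have h2 : M ^ 2 ≤ M' ^ 2 := pow_le_pow_left₀ h0 h 2
  exact ⟨hp.1.trans h2, hp.2.1.trans h, hp.2.2.trans h2⟩

/-- transport of a box along the flow -/
theorem rt_ta_box_flow (φ : RdFrm) (hr : 0 < φ.r) {t : ℝ} {k k' : ℕ} (hk : k ≤ k') (ht0 : 0 ≤ t) (ht1 : t ≤ rdLen k) {M : ℝ} (hM : 1 ≤ M)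
    {p : RtRow} (hp : p ∈ φ.box k M) : p.flow t ∈ (φ.mv t).box k' (2 * 2 ^ (k' - k) * M ^ 2) := by
  obtain ⟨hx, hz, hV⟩ := hp
  have hl := rdLen_pos k
  obtain ⟨lam, hlam⟩ : ∃ lam : ℝ, lam = 2 ^ (k' - k) := ⟨_, rfl⟩
  have hlam1 : 1 ≤ lam := by rw [hlam]; exact one_le_pow₀ (by norm_num)
  obtain ⟨τ, hτ⟩ : ∃ τ, τ = t / rdLen k := ⟨_, rfl⟩
  have hτ0 : 0 ≤ τ := by rw [hτ]; positivity
  have hτ1 : τ ≤ 1 := by rw [hτ, div_le_one hl]; exact ht1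
  have hM0 : 0 ≤ M := by linarith
  have hMM : M ≤ M ^ 2 := by nlinarith
  have hV0 : 0 ≤ rtSq ((φ.toT k).V p) := by
    unfold rtSq
    positivity
  rw [← hlam]
  have hbig : M ≤ 2 * lam * M ^ 2 := by nlinarith
  refine ⟨?_, ?_, ?_⟩
  · rw [rt_ta_x φ hr.ne' t k k' p, rt_ta_len_ratio hk, ← hlam, ← hτ, rt_ta_sq_smul]
    have h1 := rt_ta_sq_add hM0 hM0 hτ0 hx hV
    have h2 : (M + τ * M) ^ 2 ≤ (2 * M ^ 2) ^ 2 := by
      refine pow_le_pow_left₀ (by positivity) ?_ 2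
      nlinarith
    calc lam ^ 2 * rtSq ((φ.toT k).x p + τ • (φ.toT k).V p) ≤ lam ^ 2 * (2 * M ^ 2) ^ 2 :=
          mul_le_mul_of_nonneg_left (h1.trans h2) (sq_nonneg _)
      _ = (2 * lam * M ^ 2) ^ 2 := by ring
  · rw [rt_ta_z φ hr.ne' t k k' p, rt_ta_len_ratio hk, ← hlam, ← hτ, abs_mul, abs_of_nonneg (by linarith : (0 : ℝ) ≤ lam)]
    have h1 : |(φ.toT k).z p + τ * rtSq ((φ.toT k).V p)| ≤ 2 * M ^ 2 := by
      refine (abs_add_le _ _).trans ?_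
      rw [abs_mul, abs_of_nonneg hτ0, abs_of_nonneg hV0]
      have : τ * rtSq ((φ.toT k).V p) ≤ 1 * M ^ 2 := mul_le_mul hτ1 hV hV0 (by norm_num)
      linarith
    calc lam * |(φ.toT k).z p + τ * rtSq ((φ.toT k).V p)| ≤ lam * (2 * M ^ 2) := mul_le_mul_of_nonneg_left h1 (by linarith)
      _ = 2 * lam * M ^ 2 := by ring
  · rw [rt_ta_V φ t k k' p]
    exact hV.trans (pow_le_pow_left₀ hM0 hbig 2)

/-- a box and the correspondence at one time:  `V' = V + (A'-A)/r`,  `x' = x + (b'-b)/(ℓ r)`,  `z' = z + (y'-y-2A·(b'-b))/(ℓ r²) + 2 V·(b'-b)/(ℓ r)`. -/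
theorem rt_ta_box_near (φ : RdFrm) (hr : 0 < φ.r) (k : ℕ) {M W Λ d q H : ℝ} (hM : 1 ≤ M) (hW : 1 ≤ W)
    (hd : Λ * d ≤ W * φ.r) (hd0 : 0 ≤ Λ * d) (hq : Λ * q ≤ W * (rdLen k * φ.r)) (hq0 : 0 ≤ Λ * q) (hH : Λ * H ≤ W * (rdLen k * φ.r ^ 2))
    {p p' : RtRow} (hp : p ∈ φ.box k M) (hn : RtNear Λ d q H p p') : p' ∈ φ.box k (4 * M * W) := by
  obtain ⟨hx, hz, hV⟩ := hp
  obtain ⟨nA, nb, ny⟩ := hn
  have hl := rdLen_pos k
  have hM0 : 0 ≤ M := by linarith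
  have hW0 : 0 ≤ W := by linarith
  have hlr : 0 < rdLen k * φ.r := mul_pos hl hr
  have hlr2 : 0 < rdLen k * φ.r ^ 2 := by positivity
  have hMW : M + 1 * W ≤ 4 * M * W := by nlinarith
  have hsq : (M + 1 * W) ^ 2 ≤ (4 * M * W) ^ 2 := pow_le_pow_left₀ (by positivity) hMW 2
  have e1 : rtSq ((rdLen k * φ.r)⁻¹ • (p'.b - p.b)) ≤ W ^ 2 := by
    rw [rt_ta_sq_smul, inv_pow, inv_mul_le_iff₀ (by positivity)]
    calc rtSq (p'.b - p.b) ≤ (Λ * q) ^ 2 := nb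
      _ ≤ (W * (rdLen k * φ.r)) ^ 2 := pow_le_pow_left₀ hq0 hq 2
      _ = (rdLen k * φ.r) ^ 2 * W ^ 2 := by ring
  have e2 : rtSq (φ.r⁻¹ • (p'.A - p.A)) ≤ W ^ 2 := by
    rw [rt_ta_sq_smul, inv_pow, inv_mul_le_iff₀ (by positivity)]
    calc rtSq (p'.A - p.A) ≤ (Λ * d) ^ 2 := nA
      _ ≤ (W * φ.r) ^ 2 := pow_le_pow_left₀ hd0 hd 2
      _ = φ.r ^ 2 * W ^ 2 := by ring
  refine ⟨?_, ?_, ?_⟩
  · have e : (φ.toT k).x p' = (φ.toT k).x p + (1 : ℝ) • ((rdLen k * φ.r)⁻¹ • (p'.b - p.b)) := by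
      simp only [RtTest.x, RdFrm.toT, rtRound, one_smul, ← smul_add]
      congr 1
      abel
    rw [e]
    exact (rt_ta_sq_add hM0 hW0 zero_le_one hx e1).trans hsq
  · have e : (φ.toT k).z p' = (φ.toT k).z p + (p'.y - p.y - 2 * rtIp p.A (p'.b - p.b)) / (rdLen k * φ.r ^ 2)
        + 2 * rtIp ((φ.toT k).V p) ((rdLen k * φ.r)⁻¹ • (p'.b - p.b)) := by
      simp only [RtTest.z, RtTest.V, RdFrm.toT, rtRound, rtIp, Prod.fst_sub, Prod.snd_sub, Prod.smul_fst, Prod.smul_snd, smul_eq_mul]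
      field_simp
      ring
    have t1 : |(p'.y - p.y - 2 * rtIp p.A (p'.b - p.b)) / (rdLen k * φ.r ^ 2)| ≤ W := by
      rw [abs_div, abs_of_pos hlr2, div_le_iff₀ hlr2]
      exact ny.trans hH
    have t2 := rtIp_abs_le hM0 hW0 hV e1
    rw [e]
    have a1 := abs_add_le ((φ.toT k).z p + (p'.y - p.y - 2 * rtIp p.A (p'.b - p.b)) / (rdLen k * φ.r ^ 2))
      (2 * rtIp ((φ.toT k).V p) ((rdLen k * φ.r)⁻¹ • (p'.b - p.b)))
    have a2 := abs_add_le ((φ.toT k).z p) ((p'.y - p.y - 2 * rtIp p.A (p'.b - p.b)) / (rdLen k * φ.r ^ 2))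
    rw [abs_mul, abs_two] at a1
    nlinarith
  · have e : (φ.toT k).V p' = (φ.toT k).V p + (1 : ℝ) • (φ.r⁻¹ • (p'.A - p.A)) := by
      simp only [RtTest.V, RdFrm.toT, rtRound, one_smul, ← smul_add]
      congr 1
      abel
    rw [e]
    exact (rt_ta_sq_add hM0 hW0 zero_le_one hV e2).trans hsq

/-- one step: flow, then the correspondence -/
theorem rt_ta_box_step (φ : RdFrm) (hr : 0 < φ.r) {t : ℝ} {k k' : ℕ} (hk : k ≤ k') (ht0 : 0 ≤ t) (ht1 : t ≤ rdLen k)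
    {M W Λ d q H : ℝ} (hM : 1 ≤ M) (hW : 1 ≤ W)
    (hd : Λ * d ≤ W * φ.r) (hd0 : 0 ≤ Λ * d) (hq : Λ * q ≤ W * (rdLen k' * φ.r)) (hq0 : 0 ≤ Λ * q) (hH : Λ * H ≤ W * (rdLen k' * φ.r ^ 2))
    {p p' : RtRow} (hp : p ∈ φ.box k M) (hn : RtNear Λ d q H (p.flow t) p') :
    p' ∈ (φ.mv t).box k' (8 * 2 ^ (k' - k) * W * M ^ 2) := by
  have h1 := rt_ta_box_flow φ hr hk ht0 ht1 hM hp
  have hM2 : (1 : ℝ) ≤ 2 * 2 ^ (k' - k) * M ^ 2 := by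
    have h2 : (1 : ℝ) ≤ 2 ^ (k' - k) := one_le_pow₀ (by norm_num)
    have h3 : (1 : ℝ) ≤ M ^ 2 := one_le_pow₀ hM
    nlinarith
  have h2 := rt_ta_box_near (φ.mv t) hr k' hM2 hW hd hd0 hq hq0 hH h1 hn
  have e : 4 * (2 * 2 ^ (k' - k) * M ^ 2) * W = 8 * 2 ^ (k' - k) * W * M ^ 2 := by ring
  rwa [e] at h2

end Claimed.Agent.R256
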