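import Claimed.Agent.R256.Gen.BasC
import Claimed.Agent.R256.Base.RndGeo

/-!
# Row 256, unit TAILADM, file 3 : NUMERICS OF TAIL PIECES (GENERIC)          (helper235; prefix `rt_ta_`)

`E'` a tail piece of `E` (`Mdl.IsTail C E E'`), `h n ≤ n'`.   `s = 2^-n`, `s' = 2^-n'`, `n' ≤ n`.   Everything is arithmetic of powers of two (`gn_s_rpow`, `gn_two_*` of `Gen/BasA`).
-/

set_option autoImplicit false

namespace Claimed.Agent.R256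

variable {P : PkSys}

/-- L-TA-N1.  `kf' ≤ kf`, `k0 ≤ k0'` (`Xp.kf = k0 + n`, `omega`). -/
theorem rt_ta_n_le {C : ℕ} {E E' : Xp P} (ht : Mdl.IsTail C E E') : E'.n ≤ E.n ∧ E'.k0 ≤ E.k0 + E.n := by
  have h1 := ht.k_lo
  have h2 := ht.k_hi
  unfold Xp.kf at h2
  constructor <;> omega

/-- L-TA-N2.  `s^-a = 2^(a n) ≤ 2^(C' n') = s'^-C'`  since `a n ≤ h C' n ≤ C' n'`. -/
theorem rt_ta_pow_le {E E' : Xp P} {h a : ℝ} {C' : ℕ} (hh : h * E.n ≤ E'.n) (ha : a ≤ h * C') :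
    E.s ^ (-a) ≤ E'.s ^ (-(C' : ℝ)) ∧ E'.s ^ (C' : ℝ) ≤ E.s ^ a := by
  have hn : (0 : ℝ) ≤ E.n := Nat.cast_nonneg _
  have hC : (0 : ℝ) ≤ C' := Nat.cast_nonneg _
  have key : a * E.n ≤ C' * E'.n := by
    calc a * E.n ≤ h * C' * E.n := mul_le_mul_of_nonneg_right ha hn
      _ = C' * (h * E.n) := by ring
      _ ≤ C' * E'.n := mul_le_mul_of_nonneg_left hh hC
  rw [gn_s_rpow, gn_s_rpow, gn_s_rpow, gn_s_rpow]
  constructor
  · apply gn_two_mono; linarith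
  · apply gn_two_mono; linarith

/-- L-TA-N3.  `s^A'' ≤ s'^A'` for `A' ≤ A''` (`n' ≤ n`). -/
theorem rt_ta_pow_ge {E E' : Xp P} (hn : E'.n ≤ E.n) {A' A'' : ℝ} (h0 : 0 ≤ A') (hA : A' ≤ A'') : E.s ^ A'' ≤ E'.s ^ A' := by
  have hn' : (E'.n : ℝ) ≤ E.n := by exact_mod_cast hn
  have hn0 : (0 : ℝ) ≤ E.n := Nat.cast_nonneg _
  rw [gn_s_rpow, gn_s_rpow]
  apply gn_two_mono
  have : A' * E'.n ≤ A'' * E.n := by
    calc A' * E'.n ≤ A' * E.n := mul_le_mul_of_nonneg_left hn' h0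
      _ ≤ A'' * E.n := mul_le_mul_of_nonneg_right hA hn0
  linarith

/-- L-TA-N4.  The two `e/κ` bounds of the setup pass to the tail piece (`R = r⁴`).
`κ' R ≤ s^-C κ R ≤ s^-2C e ≤ s^-3C e'`;   `e' ≤ e ≤ s^-C κ R ≤ s^-2C κ' R`. -/
theorem rt_ta_ek {C C' : ℕ} {E E' : Xp P} {h R : ℝ} (hR : 0 ≤ R) (hka : 0 ≤ E'.ka) (ht : Mdl.IsTail C E E') (hh : h * E.n ≤ E'.n)
    (hC' : 3 * (C : ℝ) ≤ h * C') (lo : E.s ^ (C : ℝ) * (E.ka * R) ≤ E.e) (hi : E.e ≤ E.s ^ (-(C : ℝ)) * (E.ka * R)) :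
    E'.s ^ (C' : ℝ) * (E'.ka * R) ≤ E'.e ∧ E'.e ≤ E'.s ^ (-(C' : ℝ)) * (E'.ka * R) := by
  obtain ⟨hp1, hp2⟩ := rt_ta_pow_le (E := E) (E' := E') hh hC'
  have e_lo := ht.e_lo
  have e_hi := ht.e_hi
  have ka_lo := ht.ka_lo
  have ka_hi := ht.ka_hi
  have hs : 0 < E.s := gn_s_pos E
  have hs' : 0 < E'.s := gn_s_pos E'
  have hx : 0 < E.s ^ (C : ℝ) := Real.rpow_pos_of_pos hs _
  have hinv : E.s ^ (-(C : ℝ)) = (E.s ^ (C : ℝ))⁻¹ := Real.rpow_neg hs.le _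
  have h3 : E.s ^ (3 * (C : ℝ)) = E.s ^ (C : ℝ) * E.s ^ (C : ℝ) * E.s ^ (C : ℝ) := by
    rw [← Real.rpow_add hs, ← Real.rpow_add hs]; congr 1; ring
  have h3n : E.s ^ (-(3 * (C : ℝ))) = (E.s ^ (3 * (C : ℝ)))⁻¹ := Real.rpow_neg hs.le _
  have hx1 : E.s ^ (C : ℝ) ≤ 1 := Real.rpow_le_one hs.le (gn_s_le_one E) (Nat.cast_nonneg _)
  have hy : 0 < E'.s ^ (C' : ℝ) := Real.rpow_pos_of_pos hs' _
  have hyinv : E'.s ^ (-(C' : ℝ)) = (E'.s ^ (C' : ℝ))⁻¹ := Real.rpow_neg hs'.le _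
  rw [h3n, hyinv] at hp1
  rw [hyinv]
  rw [h3] at hp1 hp2
  rw [hinv] at hi ka_hi
  generalize E.s ^ (C : ℝ) = x at *
  generalize E'.s ^ (C' : ℝ) = y at *
  generalize E.ka = κ at *
  generalize E'.ka = κ' at *
  generalize E.e = e at *
  generalize E'.e = e' at *
  have hkR : 0 ≤ κ' * R := mul_nonneg hka hR
  -- x κ' ≤ κ
  have k1 : x * κ' ≤ κ := by
    have := mul_le_mul_of_nonneg_left ka_hi hx.le
    rwa [← mul_assoc, mul_inv_cancel₀ hx.ne', one_mul] at this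
  -- x e ≤ κ R
  have k2 : x * e ≤ κ * R := by
    have := mul_le_mul_of_nonneg_left hi hx.le
    rwa [← mul_assoc, mul_inv_cancel₀ hx.ne', one_mul] at this
  constructor
  · -- x^3 κ' R ≤ x^2 κ R ≤ x e ≤ e'
    have a1 : x * κ' * R ≤ κ * R := mul_le_mul_of_nonneg_right k1 hR
    have a2 : x * (x * κ' * R) ≤ x * (κ * R) := mul_le_mul_of_nonneg_left a1 hx.le
    have a3 : x * (x * (x * κ' * R)) ≤ x * e := mul_le_mul_of_nonneg_left (a2.trans lo) hx.le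
    have a4 : y * (κ' * R) ≤ x * x * x * (κ' * R) := mul_le_mul_of_nonneg_right hp2 hkR
    nlinarith
  · -- x^2 e' ≤ x^2 e ≤ x κ R ≤ κ' R
    have b1 : x * κ * R ≤ κ' * R := mul_le_mul_of_nonneg_right ka_lo hR
    have b2 : x * (x * e') ≤ κ' * R := by
      have : x * (x * e') ≤ x * (x * e) := by
        apply mul_le_mul_of_nonneg_left _ hx.le
        exact mul_le_mul_of_nonneg_left e_hi hx.le
      have t2 : x * (x * e) ≤ x * (κ * R) := mul_le_mul_of_nonneg_left k2 hx.le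
      nlinarith
    -- e' ≤ (x x)⁻¹ κ' R ≤ y⁻¹ κ' R
    have hxx : 0 < x * x := by positivity
    have b3 : e' ≤ (x * x)⁻¹ * (κ' * R) := by
      rw [← div_eq_inv_mul, le_div_iff₀ hxx]
      nlinarith
    have b4 : (x * x)⁻¹ ≤ y⁻¹ := by
      refine le_trans ?_ hp1
      apply inv_anti₀ (by positivity)
      nlinarith
    exact b3.trans (mul_le_mul_of_nonneg_right b4 hkR)

/-- L-TA-N5.  The root time of the tail piece (`gn_cutle_anc`, `IsTail.anc`; `rdLen k = 2⁻¹ ^ k`). -/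
theorem rt_ta_time {C : ℕ} {E E' : Xp P} (ht : Mdl.IsTail C E E') :
    0 ≤ tmL E'.k0 E'.i0 - tmL E.k0 E.i0 ∧ tmL E'.k0 E'.i0 - tmL E.k0 E.i0 ≤ rdLen E.k0 := by
  have h := gn_cutle_anc ht.k_lo E'.i0
  rw [ht.anc] at h
  obtain ⟨_, h1, h2⟩ := h
  unfold rdLen
  constructor <;> linarith

/-- L-TA-N6.  `s^-C = 2^(C n)` with natural exponents. -/
theorem rt_ta_s_nat (E : Xp P) (C : ℕ) : E.s ^ (-(C : ℝ)) = 2 ^ (C * E.n) := by
  rw [gn_s_rpow, ← gn_two_nat]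
  congr 1
  push_cast
  ring

end Claimed.Agent.R256
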