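import Claimed.Agent.R256.Base.RndCl
import Claimed.Agent.R256.Rt.TaGeo
import Claimed.Agent.R256.Rt.TaNum

/-!
# Row 256, unit TAILADM, file 4 : THE CLASSICAL ROUND MODEL          (helper235; prefix `rt_ta_`)

`An = id`, so `tz = mulR` and a stack multiplies the state by a product of masks: `|run l v| ≤ |v|` pointwise a.e.; `ms T k b S v = ∫_S |v|² dm` for all `T, k, b`.
New frame `φ' = φ.mv (T' - T)`.   `co T' ω = (co T ω).flow (T' - T)`.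
* support: `co T ω ∈ φ.box k0 M ⟹ co T' ω ∈ φ'.box k0' (2 λ M²)` (`rt_ta_box_flow`), `2 λ M² ≤ s^-(2C+2) ≤ s'^-C'`.
* density: `φ'.nc k0' (co T' ω) = Φ (φ.nc k0 (co T ω))`, `Φ (x,V,z) = (λ (x + τ V), V, λ (z + τ |V|²))` (`rt_ta_V/x/z`), `vol (Φ⁻¹ S) = λ⁻³ vol S ≤ vol S` (`rt_ta_vol`).
EXIT `rt_ta_cl`.
-/

set_option autoImplicit false

namespace Claimed.Agent.R256

open MeasureTheory
open scoped ENNReal

/-- the change of normalised coordinates -/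
noncomputable def rtTaPhi (lam τ : ℝ) (q : (ℝ × ℝ) × (ℝ × ℝ) × ℝ) : (ℝ × ℝ) × (ℝ × ℝ) × ℝ :=
  (lam • (q.1 + τ • q.2.1), q.2.1, lam * (q.2.2 + τ * rtSq q.2.1))

theorem rt_ta_cl_eqns_cite : True := by
  have := @rtTaPhi.eq_1
  trivial

/-- L-TA-C1. -/
theorem rt_ta_phi_meas (lam τ : ℝ) : Measurable (rtTaPhi lam τ) := by
  unfold rtTaPhi rtSq
  fun_prop

/-- a translation followed by a dilation of factor `≥ 1` does not increase integrals -/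
theorem rt_ta_scl {E : Type*} [NormedAddCommGroup E] [NormedSpace ℝ E] [FiniteDimensional ℝ E] [MeasurableSpace E] [BorelSpace E] (μ : Measure E)
    [μ.IsAddHaarMeasure] {lam : ℝ} (hl : 1 ≤ lam) (a : E) {G : E → ℝ≥0∞} (hG : Measurable G) : ∫⁻ x, G (lam • (x + a)) ∂μ ≤ ∫⁻ x, G x ∂μ := by
  have hl0 : lam ≠ 0 := by positivity
  rw [lintegral_add_right_eq_self (fun x => G (lam • x)) a]
  have h1 : ∫⁻ x, G (lam • x) ∂μ = ∫⁻ y, G y ∂(Measure.map (fun x => lam • x) μ) := (lintegral_map hG (measurable_const_smul lam)).symm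
  rw [h1, Measure.map_addHaar_smul μ hl0, lintegral_smul_measure]
  have h2 : ENNReal.ofReal |(lam ^ Module.finrank ℝ E)⁻¹| ≤ 1 := by
    rw [ENNReal.ofReal_le_one, abs_of_nonneg (by positivity)]
    exact inv_le_one_of_one_le₀ (one_le_pow₀ hl)
  calc ENNReal.ofReal |(lam ^ Module.finrank ℝ E)⁻¹| • ∫⁻ y, G y ∂μ ≤ 1 * ∫⁻ y, G y ∂μ := by
        rw [smul_eq_mul]
        gcongr
    _ = ∫⁻ y, G y ∂μ := one_mul _

/-- the integral form of the volume bound -/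
theorem rt_ta_lint {lam : ℝ} (hl : 1 ≤ lam) (τ : ℝ) {F : (ℝ × ℝ) × (ℝ × ℝ) × ℝ → ℝ≥0∞} (hF : Measurable F) :
    ∫⁻ q, F (rtTaPhi lam τ q) ≤ ∫⁻ q, F q := by
  have hFΦ : Measurable fun q => F (rtTaPhi lam τ q) := hF.comp (rt_ta_phi_meas lam τ)
  have m1 : Measurable fun w : (ℝ × ℝ) × ℝ => ∫⁻ x : ℝ × ℝ, F (x, w) := hF.lintegral_prod_left'
  calc ∫⁻ q, F (rtTaPhi lam τ q)
      = ∫⁻ x : ℝ × ℝ, ∫⁻ w : (ℝ × ℝ) × ℝ, F (rtTaPhi lam τ (x, w)) := by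
        rw [Measure.volume_eq_prod, lintegral_prod _ hFΦ.aemeasurable]
    _ = ∫⁻ w : (ℝ × ℝ) × ℝ, ∫⁻ x : ℝ × ℝ, F (rtTaPhi lam τ (x, w)) := lintegral_lintegral_swap hFΦ.aemeasurable
    _ ≤ ∫⁻ w : (ℝ × ℝ) × ℝ, ∫⁻ x : ℝ × ℝ, F (x, w.1, lam * (w.2 + τ * rtSq w.1)) := by
        refine lintegral_mono fun w => ?_
        have hG : Measurable fun x : ℝ × ℝ => F (x, w.1, lam * (w.2 + τ * rtSq w.1)) := hF.comp (measurable_id.prodMk measurable_const)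
        exact rt_ta_scl volume hl (τ • w.1) hG
    _ = ∫⁻ V : ℝ × ℝ, ∫⁻ z : ℝ, ∫⁻ x : ℝ × ℝ, F (x, V, lam * (z + τ * rtSq V)) := by
        have m2 : Measurable fun w : (ℝ × ℝ) × ℝ => ∫⁻ x : ℝ × ℝ, F (x, w.1, lam * (w.2 + τ * rtSq w.1)) := by
          have : Measurable fun w : (ℝ × ℝ) × ℝ => ((w.1, lam * (w.2 + τ * rtSq w.1)) : (ℝ × ℝ) × ℝ) := by
            unfold rtSq
            fun_prop
          exact m1.comp this
        rw [Measure.volume_eq_prod, lintegral_prod _ m2.aemeasurable]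
    _ ≤ ∫⁻ V : ℝ × ℝ, ∫⁻ z : ℝ, ∫⁻ x : ℝ × ℝ, F (x, V, z) := by
        refine lintegral_mono fun V => ?_
        have hG : Measurable fun z : ℝ => ∫⁻ x : ℝ × ℝ, F (x, V, z) := m1.comp measurable_prodMk_left
        exact rt_ta_scl volume hl (τ * rtSq V) hG
    _ = ∫⁻ w : (ℝ × ℝ) × ℝ, ∫⁻ x : ℝ × ℝ, F (x, w) := by
        rw [Measure.volume_eq_prod (α := ℝ × ℝ) (β := ℝ), lintegral_prod _ m1.aemeasurable]
    _ = ∫⁻ x : ℝ × ℝ, ∫⁻ w : (ℝ × ℝ) × ℝ, F (x, w) := (lintegral_lintegral_swap (f := fun x w => F (x, w)) hF.aemeasurable).symm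
    _ = ∫⁻ q, F q := by
        rw [Measure.volume_eq_prod (α := ℝ × ℝ) (β := (ℝ × ℝ) × ℝ), lintegral_prod _ hF.aemeasurable]

/-- L-TA-C2 (**volume**).   `Φ = scaling ∘ shear`.   Shear: reorder to `(V, (x, z))`, `MeasurePreserving.skew_product` with the translations `(x,z) ↦ (x + τ V, z + τ |V|²)` (`measurePreserving_add_right`).
Scaling `(x,V,z) ↦ (λ x, V, λ z)`: `Measure.addHaar_preimage_smul` on `ℝ × ℝ` and `ℝ`, or `Measure.prod` of maps; factor `λ⁻³ ≤ 1`. -/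
theorem rt_ta_vol {lam : ℝ} (hl : 1 ≤ lam) (τ : ℝ) {S : Set ((ℝ × ℝ) × (ℝ × ℝ) × ℝ)} (hS : MeasurableSet S) :
    volume (rtTaPhi lam τ ⁻¹' S) ≤ volume S := by
  have h := rt_ta_lint hl τ (F := S.indicator 1) (measurable_one.indicator hS)
  rw [lintegral_indicator_one hS] at h
  refine le_trans (le_of_eq ?_) h
  rw [← lintegral_indicator_one (rt_ta_phi_meas lam τ hS)]
  rfl

variable (η : ℝ) (p : RdClPar)

/-- L-TA-C3.  `ContinuousLinearMap.adjoint_id`. -/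
theorem rt_ta_cl_tz (T : ℝ) (k b : ℕ) (M : p.Om → ℝ) (v : Lp p.Fb 2 p.m) : (p.sys η).tz T k b M v = (p.sys η).mulR k M v := by
  exact DFunLike.congr_fun (ContinuousLinearMap.adjoint_id (𝕜 := ℂ) (E := Lp p.Fb 2 p.m)) ((p.sys η).mulR k M v)

/-- L-TA-C4.  Induction on the stack; `gn_mulR_coe`; `0 ≤ M ≤ 1`. -/
theorem rt_ta_cl_run_le (k' i : ℕ) (l : List (Stg (p.sys η))) (hl : StM l) (v : Lp p.Fb 2 p.m) :
    ∀ᵐ x ∂p.m, ‖(show Lp p.Fb 2 p.m from Xp.run k' i l v : p.Om → p.Fb) x‖ ≤ ‖(v : p.Om → p.Fb) x‖ := by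
  induction l generalizing v with
  | nil => exact Filter.Eventually.of_forall fun x => le_rfl
  | cons σ l ih =>
    have hM : IsMask (σ.M (ancI k' σ.k i)) := hl σ List.mem_cons_self _
    have h1 := ih (fun τ hτ j => hl τ (List.mem_cons_of_mem _ hτ) j) ((p.sys η).mulR σ.k (σ.M (ancI k' σ.k i)) v)
    have h2 : ((show Lp p.Fb 2 p.m from (p.sys η).mulR σ.k (σ.M (ancI k' σ.k i)) v : Lp p.Fb 2 p.m) : p.Om → p.Fb) =ᵐ[p.m]
        fun x => ((σ.M (ancI k' σ.k i) x : ℝ) : ℂ) • (v : p.Om → p.Fb) x := gn_mulR_coe (P := p.sys η) σ.k hM v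
    have e : Xp.run (P := p.sys η) k' i (σ :: l) v = Xp.run (P := p.sys η) k' i l ((p.sys η).mulR σ.k (σ.M (ancI k' σ.k i)) v) := by
      show Xp.run (P := p.sys η) k' i l ((p.sys η).tz (tmL σ.k (ancI k' σ.k i)) σ.k σ.b (σ.M (ancI k' σ.k i)) v) = _
      exact congrArg (Xp.run (P := p.sys η) k' i l) (rt_ta_cl_tz η p _ _ _ _ v)
    rw [e]
    filter_upwards [h1, h2] with x a1 a2
    refine a1.trans ?_
    have a3 : ‖((show Lp p.Fb 2 p.m from (p.sys η).mulR σ.k (σ.M (ancI k' σ.k i)) v : Lp p.Fb 2 p.m) : p.Om → p.Fb) x‖ ≤ ‖(v : p.Om → p.Fb) x‖ := by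
      rw [a2, norm_smul, Complex.norm_real, Real.norm_eq_abs, abs_of_nonneg (hM.2 x).1]
      exact mul_le_of_le_one_left (norm_nonneg _) (hM.2 x).2
    exact a3

/-- L-TA-C5.  `gn_ms_eq`. -/
theorem rt_ta_cl_ms (T : ℝ) (k b : ℕ) {S : Set p.Om} (hS : MeasurableSet S) (v : Lp p.Fb 2 p.m) :
    (p.sys η).ms T k b S v = ∫ x in S, ‖(v : p.Om → p.Fb) x‖ ^ 2 ∂p.m := by
  exact gn_ms_eq (P := p.sys η) T k b hS v

/-- L-TA-C6.  `rt_ta_cl_ms`, `rt_ta_cl_run_le`, `setIntegral_mono_ae` (`gn_sq_integrable`). -/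
theorem rt_ta_cl_ms_run (T T' : ℝ) (k k' b b' kk i : ℕ) (l : List (Stg (p.sys η))) (hl : StM l) {S : Set p.Om} (hS : MeasurableSet S)
    (v : Lp p.Fb 2 p.m) : (p.sys η).ms T' k' b' S (Xp.run kk i l v) ≤ (p.sys η).ms T k b S v := by
  have e1 := rt_ta_cl_ms η p T' k' b' hS (show Lp p.Fb 2 p.m from Xp.run (P := p.sys η) kk i l v)
  have e2 := rt_ta_cl_ms η p T k b hS v
  refine le_trans (le_of_eq e1) (le_trans ?_ (le_of_eq e2.symm))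
  refine setIntegral_mono_ae (gn_sq_integrable _).integrableOn (gn_sq_integrable _).integrableOn ?_
  filter_upwards [rt_ta_cl_run_le η p kk i l hl v] with x hx
  exact pow_le_pow_left₀ (norm_nonneg _) hx 2

/-- L-TA-C7. -/
theorem rt_ta_cl_co (T t : ℝ) (x : p.Om) : p.co (T + t) x = (p.co T x).flow t := by
  ext
  · simp [RdClPar.co, RtRow.flow]
  · simp [RdClPar.co, RtRow.flow]
  · simp only [RdClPar.co, RtRow.flow, Prod.fst_add, Prod.smul_fst, smul_eq_mul]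
    ring
  · simp only [RdClPar.co, RtRow.flow, Prod.snd_add, Prod.smul_snd, smul_eq_mul]
    ring
  · simp only [RdClPar.co, RtRow.flow]
    ring

/-- L-TA-C8.  `p.mA`, `p.mB`, `p.mY`; unfold `RdFrm.nc`, `RtTest.x/V/z`, `RdClPar.co`, `RtRow.flow`. -/
theorem rt_ta_cl_nc_meas (T : ℝ) (φ : RdFrm) (k : ℕ) : Measurable fun x => φ.nc k (p.co T x) := by
  have mA := p.mA
  have mB := p.mB
  have mY := p.mY
  simp only [RdFrm.nc, RtTest.x, RtTest.V, RtTest.z, RdClPar.co, RtRow.flow, RdFrm.toT, rtRound, rtIp, rtSq]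
  fun_prop

/-- L-TA-C9.  The box is the preimage under `nc` of a closed (measurable) set. -/
theorem rt_ta_cl_box_meas (T : ℝ) (φ : RdFrm) (k : ℕ) (M : ℝ) : MeasurableSet {x | p.co T x ∉ φ.box k M} := by
  have hm := rt_ta_cl_nc_meas p T φ k
  have hB : MeasurableSet {q : (ℝ × ℝ) × (ℝ × ℝ) × ℝ | rtSq q.1 ≤ M ^ 2 ∧ |q.2.2| ≤ M ∧ rtSq q.2.1 ≤ M ^ 2} := by
    have m1 : MeasurableSet {q : (ℝ × ℝ) × (ℝ × ℝ) × ℝ | rtSq q.1 ≤ M ^ 2} := measurableSet_le (by unfold rtSq; fun_prop) measurable_const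
    have m2 : MeasurableSet {q : (ℝ × ℝ) × (ℝ × ℝ) × ℝ | |q.2.2| ≤ M} := measurableSet_le (by fun_prop) measurable_const
    have m3 : MeasurableSet {q : (ℝ × ℝ) × (ℝ × ℝ) × ℝ | rtSq q.2.1 ≤ M ^ 2} := measurableSet_le (by unfold rtSq; fun_prop) measurable_const
    exact m1.inter (m2.inter m3)
  exact (hm hB).compl

/-- L-TA-C10.  `rt_ta_V`, `rt_ta_x`, `rt_ta_z`, `rt_ta_cl_co`. -/
theorem rt_ta_cl_nc (T t : ℝ) (φ : RdFrm) (hr : φ.r ≠ 0) (k k' : ℕ) (x : p.Om) :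
    (φ.mv t).nc k' (p.co (T + t) x) = rtTaPhi (rdLen k / rdLen k') (t / rdLen k) (φ.nc k (p.co T x)) := by
  rw [rt_ta_cl_co]
  unfold RdFrm.nc rtTaPhi
  rw [rt_ta_x φ hr t k k', rt_ta_z φ hr t k k', rt_ta_V φ t k k']

/-- L-TA-C11 (**the setup of the tail piece**). -/
theorem rt_ta_cl_set {C C' A A' : ℕ} {h : ℝ} (hC' : 3 * (C : ℝ) + 3 ≤ h * C') {E E' : Xp (p.sys η)} (hn : 1 ≤ E.n) (hV' : E'.Valid)
    (ht : Mdl.IsTail C E E') (hh : h * E.n ≤ E'.n) {φ : RdFrm} (hs : RdSet (p.sys η) p.co True C A E φ) :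
    RdSet (p.sys η) p.co True C' A' E' (φ.mv (tmL E'.k0 E'.i0 - tmL E.k0 E.i0)) := by
  have hC0 : (0 : ℝ) ≤ (C : ℝ) := Nat.cast_nonneg _
  have hr := hs.r_pos
  have hek := rt_ta_ek (C' := C') (R := φ.r ^ 4) (by positivity) hV'.ka_pos.le ht hh (by linarith) hs.ek_lo hs.ek_hi
  have hnle := rt_ta_n_le ht
  obtain ⟨ht0, ht1⟩ := rt_ta_time ht
  obtain ⟨st', hst, hv'⟩ := ht.st
  have hTT : tmL E.k0 E.i0 + (tmL E'.k0 E'.i0 - tmL E.k0 E.i0) = tmL E'.k0 E'.i0 := by ring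
  have hsC := rt_ta_s_nat E C
  -- the support
  have hbox : 2 * (2 : ℝ) ^ (E'.k0 - E.k0) * (E.s ^ (-(C : ℝ))) ^ 2 ≤ E'.s ^ (-(C' : ℝ)) := by
    have h1 : E.s ^ (-(2 * (C : ℝ) + 2)) ≤ E'.s ^ (-(C' : ℝ)) := (rt_ta_pow_le hh (by linarith)).1
    refine le_trans ?_ h1
    have h2 : (2 : ℝ) ^ (E'.k0 - E.k0) ≤ 2 ^ E.n := pow_le_pow_right₀ (by norm_num) (by have := hnle.2; omega)
    have h3 : (2 : ℝ) ≤ 2 ^ E.n := by
      calc (2 : ℝ) = 2 ^ 1 := by norm_num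
        _ ≤ 2 ^ E.n := pow_le_pow_right₀ (by norm_num) hn
    have h4 : E.s ^ (-(2 * (C : ℝ) + 2)) = 2 ^ E.n * 2 ^ E.n * (E.s ^ (-(C : ℝ))) ^ 2 := by
      have := rt_ta_s_nat E (2 * C + 2)
      push_cast at this
      rw [this, hsC, ← pow_mul, ← pow_add, ← pow_add]
      congr 1
      ring
    rw [h4]
    gcongr
  have hsub : {x | p.co (tmL E'.k0 E'.i0) x ∉ (φ.mv (tmL E'.k0 E'.i0 - tmL E.k0 E.i0)).box E'.k0 (E'.s ^ (-(C' : ℝ)))}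
      ⊆ {x | p.co (tmL E.k0 E.i0) x ∉ φ.box E.k0 (E.s ^ (-(C : ℝ)))} := by
    intro x hx hx'
    apply hx
    have hM : (1 : ℝ) ≤ E.s ^ (-(C : ℝ)) := by
      rw [hsC]
      exact one_le_pow₀ (by norm_num)
    have h1 := rt_ta_box_flow φ hr ht.k_lo ht0 ht1 hM hx'
    rw [← rt_ta_cl_co, hTT] at h1
    exact rt_ta_box_mono _ _ (by positivity) hbox h1
  have hsupp : (p.sys η).ms (tmL E'.k0 E'.i0) E'.k0 E'.b0
      {x | p.co (tmL E'.k0 E'.i0) x ∉ (φ.mv (tmL E'.k0 E'.i0 - tmL E.k0 E.i0)).box E'.k0 (E'.s ^ (-(C' : ℝ)))} E'.v = 0 := by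
    refine le_antisymm ?_ (gn_ms_nonneg _ _ _ _ _)
    rw [hv', ← hs.supp trivial]
    refine (rt_ta_cl_ms_run η p (tmL E.k0 E.i0) _ E.k0 _ E.b0 _ _ _ st' hst.msk (rt_ta_cl_box_meas p _ _ _ _) E.v).trans ?_
    exact gn_ms_mono _ _ _ (rt_ta_cl_box_meas p _ _ _ _) (rt_ta_cl_box_meas p _ _ _ _) hsub _
  refine ⟨hr, hek.1, hek.2, ?_, fun _ => hsupp, fun _ S hS => ?_⟩
  · rw [hsupp]
    exact mul_nonneg (Real.rpow_nonneg (gn_s_pos E').le _) hV'.e_pos.le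
  · -- density
    have hlam : (1 : ℝ) ≤ rdLen E.k0 / rdLen E'.k0 := by
      rw [rt_ta_len_ratio ht.k_lo]
      exact one_le_pow₀ (by norm_num)
    have hset : {x | (φ.mv (tmL E'.k0 E'.i0 - tmL E.k0 E.i0)).nc E'.k0 (p.co (tmL E'.k0 E'.i0) x) ∈ S}
        = {x | φ.nc E.k0 (p.co (tmL E.k0 E.i0) x) ∈ rtTaPhi (rdLen E.k0 / rdLen E'.k0) ((tmL E'.k0 E'.i0 - tmL E.k0 E.i0) / rdLen E.k0) ⁻¹' S} := by
      ext x
      have := rt_ta_cl_nc p (tmL E.k0 E.i0) (tmL E'.k0 E'.i0 - tmL E.k0 E.i0) φ hr.ne' E.k0 E'.k0 x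
      rw [hTT] at this
      simp only [Set.mem_ofPred_eq, Set.mem_preimage, this]
    have hSm : MeasurableSet (rtTaPhi (rdLen E.k0 / rdLen E'.k0) ((tmL E'.k0 E'.i0 - tmL E.k0 E.i0) / rdLen E.k0) ⁻¹' S) :=
      rt_ta_phi_meas _ _ hS
    have hm : MeasurableSet {x | φ.nc E.k0 (p.co (tmL E.k0 E.i0) x) ∈ rtTaPhi (rdLen E.k0 / rdLen E'.k0) ((tmL E'.k0 E'.i0 - tmL E.k0 E.i0) / rdLen E.k0) ⁻¹' S} :=
      rt_ta_cl_nc_meas p _ _ _ hSm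
    have e1 := congrArg (fun S' => (p.sys η).ms (tmL E'.k0 E'.i0) E'.k0 E'.b0 S' E'.v) hset
    have h1 := rt_ta_cl_ms_run η p (tmL E.k0 E.i0) (tmL E'.k0 E'.i0) E.k0 E'.k0 E.b0 E'.b0 E'.k0 E'.i0 st' hst.msk hm E.v
    have h2 := hs.dens trivial _ hSm
    have h3 := rt_ta_vol hlam ((tmL E'.k0 E'.i0 - tmL E.k0 E.i0) / rdLen E.k0) hS
    have h4 : E.s ^ (-(C : ℝ)) * E.e ≤ E'.s ^ (-(C' : ℝ)) * E'.e := by
      have h5 : E.s ^ (-(2 * (C : ℝ))) ≤ E'.s ^ (-(C' : ℝ)) := (rt_ta_pow_le hh (by linarith)).1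
      have h6 : E.e = E.s ^ (-(C : ℝ)) * (E.s ^ (C : ℝ) * E.e) := by
        rw [← mul_assoc, ← Real.rpow_add (gn_s_pos E)]
        simp
      have h7 : E.s ^ (-(C : ℝ)) * E.e ≤ E.s ^ (-(2 * (C : ℝ))) * E'.e := by
        have h8 : E.s ^ (-(2 * (C : ℝ))) = E.s ^ (-(C : ℝ)) * E.s ^ (-(C : ℝ)) := by
          rw [← Real.rpow_add (gn_s_pos E)]
          congr 1
          ring
        rw [h8, mul_assoc]
        refine mul_le_mul_of_nonneg_left ?_ (Real.rpow_nonneg (gn_s_pos E).le _)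
        rw [h6]
        exact mul_le_mul_of_nonneg_left ht.e_lo (Real.rpow_nonneg (gn_s_pos E).le _)
      exact h7.trans (mul_le_mul_of_nonneg_right h5 hV'.e_pos.le)
    rw [← hv'] at h1
    calc ENNReal.ofReal _ ≤ ENNReal.ofReal _ := ENNReal.ofReal_le_ofReal ((le_of_eq e1).trans h1)
      _ ≤ _ := h2
      _ ≤ _ := mul_le_mul' (ENNReal.ofReal_le_ofReal h4) h3

/-- **EXIT** -/
theorem rt_ta_cl : (rndCl η).TailAdm := by
  intro C h hh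
  obtain ⟨C', hC'⟩ : ∃ C' : ℕ, 3 * (C : ℝ) + 3 ≤ h * C' := by
    obtain ⟨C', hC'⟩ := exists_nat_ge ((3 * (C : ℝ) + 3) / h)
    exact ⟨C', by rwa [div_le_iff₀' hh] at hC'⟩
  refine ⟨C', fun A' => ⟨0, 1, fun p E E' hn hE hV' ht hlen => ?_⟩⟩
  obtain ⟨φ, hφ⟩ := hE.2.2.2.2
  exact ⟨_, rt_ta_cl_set η p hC' hn hV' ht hlen hφ⟩

end Claimed.Agent.R256
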