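import Claimed.Agent.R256.Gen.BasC

/-!
# Row 256, unit TAILADM, file 2 : LEAKAGE THROUGH A STACK (GENERIC)          (helper235; prefix `rt_ta_`)

Paper free, model free: a packet system `P` with `Tight`, a correspondence `cn` between the rows of two cuts with the operator bound `δ` off the correspondence (`TaKer` = `Mdl.Loc.ker` at one fixed `Λ`, `N`,
on a window of depths), and sets of rows `B j k` (`j` = number of steps, `k` = depth) along the branch of ONE interval `i` of depth `kf`, stable under the correspondence (`TaBox`).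
EXIT `rt_ta_leak`: for `v` in a plateau class,
  `√ms(final cut, outside B (len+1) kf)(run l v) ≤ (len + 1) δ ‖v‖ + √ms(first cut, outside B 0 k)(v)`.
PROOF (`rt_ta_leak_F`, induction on the stack).   `v = An^*(1_B F)`.   `[]`: `TaKer`.   `σ :: l'`: `G = M_σ An_σ v`, `‖G‖ ≤ ‖F‖`;  `G = 1_{B'} G + 1_{B'ᶜ} G`, `B' = B (j+1) σ.k`;  first part: induction;
second part: `‖1_{B'ᶜ} G‖² ≤ ms_σ(B'ᶜ)(v) ≤ δ² ‖F‖²` (`TaKer`), all later operators are contractions;  `√ms` is a seminorm (`gn_en_tri`).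
-/

set_option autoImplicit false

namespace Claimed.Agent.R256

open MeasureTheory

/-- the operator bound `δ` off the correspondence `cn`, for cuts of depths in `[klo, khi]` and generations `≤ bm` -/
def TaKer (P : PkSys) (cn : ℝ → ℕ → ℝ → ℕ → P.X → P.X → Prop) (bm klo khi : ℕ) (δ : ℝ) : Prop :=
  ∀ (T : ℝ) (k : ℕ) (T' : ℝ) (k' b b' : ℕ), CutLe T k T' k' → klo ≤ k → k' ≤ khi → b ≤ bm → b' ≤ bm →
    ∀ (S S' : Set P.X), MeasurableSet S → MeasurableSet S' → (∀ x ∈ S, ∀ x' ∈ S', ¬ cn T k T' k' x x') →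
    ∀ F : Lp P.Fb 2 (P.rho k),
      P.ms T' k' b' S' (ContinuousLinearMap.adjoint (P.An T k b) (P.mulR k (S.indicator fun _ => 1) F)) ≤ δ ^ 2 * ‖F‖ ^ 2

/-- sets of rows along the branch of the interval `i` of depth `kf`, stable under the correspondence -/
structure TaBox (P : PkSys) (cn : ℝ → ℕ → ℝ → ℕ → P.X → P.X → Prop) (klo kf i : ℕ) (B : ℕ → ℕ → Set P.X) : Prop where
  meas : ∀ j k, MeasurableSet (B j k)
  step : ∀ j k k', klo ≤ k → k ≤ k' → k' ≤ kf → ∀ x ∈ B j k, ∀ x',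
    cn (tmL k (ancI kf k i)) k (tmL k' (ancI kf k' i)) k' x x' → x' ∈ B (j + 1) k'

theorem rt_ta_leak_eqns_cite : True := by
  have := @TaKer.eq_1
  trivial

variable {P : PkSys}

/-- L-TA-L1.  `Tight.same`: the generation of the analysis does not matter above the plateau class of the state. -/
theorem rt_ta_ms_gen (hT : P.Tight) (T : ℝ) (k : ℕ) {b b' : ℕ} (hb : b ≤ b') (S : Set P.X) {v : P.Kc} (hv : v ∈ P.Pl b) :
    P.ms T k b' S v = P.ms T k b S v := by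
  unfold PkSys.ms PkSys.en
  rw [hT.same T k b b' v hv hb]

/-- L-TA-L2.  `1 = 1_B + 1_{Bᶜ}` (`gn_mulR_sum` or directly `gn_mulR_coe`). -/
theorem rt_ta_split (k : ℕ) {B : Set P.X} (hB : MeasurableSet B) (F : Lp P.Fb 2 (P.rho k)) :
    F = P.mulR k (B.indicator fun _ => 1) F + P.mulR k (Bᶜ.indicator fun _ => 1) F := by
  apply Lp.ext
  filter_upwards [gn_mulR_coe k (gn_mask_ind hB) F, gn_mulR_coe k (gn_mask_ind hB.compl) F,
    Lp.coeFn_add (P.mulR k (B.indicator fun _ => 1) F) (P.mulR k (Bᶜ.indicator fun _ => 1) F)] with x h1 h2 h3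
  rw [h3, Pi.add_apply, h1, h2]
  by_cases hx : x ∈ B <;> simp [hx]

/-- L-TA-L3.  `‖1_S (M · An v)‖² ≤ ms S v` (`gn_mulR_ind_normsq`, `gn_mulR_setInt_le`, `gn_ms_eq`). -/
theorem rt_ta_cut_le (T : ℝ) (k b : ℕ) {M : P.X → ℝ} (hM : IsMask M) {S : Set P.X} (hS : MeasurableSet S) (v : P.Kc) :
    ‖P.mulR k (S.indicator fun _ => 1) (P.mulR k M (P.An T k b v))‖ ^ 2 ≤ P.ms T k b S v := by
  rw [gn_mulR_ind_normsq k hS, gn_ms_eq T k b hS]
  exact gn_mulR_setInt_le k hM hS _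

/-- L-TA-L4 (**the induction**). -/
theorem rt_ta_leak_F (hT : P.Tight) {cn : ℝ → ℕ → ℝ → ℕ → P.X → P.X → Prop} {bm klo kf i : ℕ} {δ : ℝ} (hδ : 0 ≤ δ)
    (hK : TaKer P cn bm klo kf δ) {B : ℕ → ℕ → Set P.X} (hB : TaBox P cn klo kf i B) (l : List (Stg P)) :
    ∀ (j k c b' K : ℕ) (F : Lp P.Fb 2 (P.rho k)), StOk k kf bm K l → klo ≤ k → k ≤ kf → c ≤ bm → b' ≤ bm →
      Real.sqrt (P.ms (tmL kf i) kf b' (B (j + l.length + 1) kf)ᶜ
        (Xp.run kf i l (ContinuousLinearMap.adjoint (P.An (tmL k (ancI kf k i)) k c) (P.mulR k ((B j k).indicator fun _ => 1) F))))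
        ≤ (l.length + 1) * δ * ‖F‖ := by
  induction l with
  | nil =>
    intro j k c b' K F _ hk0 hk hc hb'
    simp only [Xp.run, List.length_nil, Nat.cast_zero, zero_add, add_zero]
    have hcut : CutLe (tmL k (ancI kf k i)) k (tmL kf i) kf := gn_cutle_anc hk i
    have h1 := hK _ k _ kf c b' hcut hk0 le_rfl hc hb' (B j k) (B (j + 1) kf)ᶜ (hB.meas j k) (hB.meas (j + 1) kf).compl
      (fun x hx x' hx' hcn => hx' (by
        have := hB.step j k kf hk0 hk le_rfl x hx x'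
        rw [gn_anc_self] at this
        exact this hcn)) F
    calc Real.sqrt _ ≤ Real.sqrt (δ ^ 2 * ‖F‖ ^ 2) := Real.sqrt_le_sqrt h1
      _ = 1 * δ * ‖F‖ := by
        rw [← mul_pow, Real.sqrt_sq (mul_nonneg hδ (norm_nonneg _)), one_mul]
  | cons σ l ih =>
    intro j k c b' K F hst hk0 hk hc hb'
    have hσ := hst.dep σ List.mem_cons_self
    have hσb := hst.gen σ List.mem_cons_self
    have hσM : IsMask (σ.M (ancI kf σ.k i)) := hst.msk σ List.mem_cons_self _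
    have hmono := List.pairwise_cons.1 hst.mono
    have hst' : StOk σ.k kf bm l.length l :=
      ⟨le_rfl, fun σ' h' => ⟨hmono.1 σ' h', (hst.dep σ' (List.mem_cons_of_mem _ h')).2⟩, hmono.2,
        fun σ' h' => hst.gen σ' (List.mem_cons_of_mem _ h'), fun σ' h' => hst.msk σ' (List.mem_cons_of_mem _ h')⟩
    have hlM : StM l := fun σ' h' => hst.msk σ' (List.mem_cons_of_mem _ h')
    obtain ⟨v, hv⟩ : ∃ v : P.Kc, v = ContinuousLinearMap.adjoint (P.An (tmL k (ancI kf k i)) k c)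
        (P.mulR k ((B j k).indicator fun _ => 1) F) := ⟨_, rfl⟩
    rw [← hv]
    have hvF : ‖v‖ ≤ ‖F‖ := by
      rw [hv]
      exact (gn_adj_norm_le hT _ _ _ _).trans (gn_mulR_norm_le k (gn_mask_ind (hB.meas j k)) F)
    obtain ⟨G, hG⟩ : ∃ G : Lp P.Fb 2 (P.rho σ.k), G = P.mulR σ.k (σ.M (ancI kf σ.k i))
        (P.An (tmL σ.k (ancI kf σ.k i)) σ.k σ.b v) := ⟨_, rfl⟩
    have hGF : ‖G‖ ≤ ‖F‖ := by
      rw [hG]
      exact (gn_mulR_norm_le σ.k hσM _).trans ((hT.contr _ _ _ v).trans hvF)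
    have hBm := hB.meas (j + 1) σ.k
    -- the part outside the box
    have hout : ‖P.mulR σ.k ((B (j + 1) σ.k)ᶜ.indicator fun _ => 1) G‖ ≤ δ * ‖F‖ := by
      have h1 : ‖P.mulR σ.k ((B (j + 1) σ.k)ᶜ.indicator fun _ => 1) G‖ ^ 2
          ≤ P.ms (tmL σ.k (ancI kf σ.k i)) σ.k σ.b (B (j + 1) σ.k)ᶜ v := by
        rw [hG]
        exact rt_ta_cut_le _ _ _ hσM hBm.compl v
      have hcut : CutLe (tmL k (ancI kf k i)) k (tmL σ.k (ancI kf σ.k i)) σ.k := by
        have := gn_cutle_anc hσ.1 (ancI kf σ.k i)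
        rwa [gn_anc_anc hσ.1 hσ.2] at this
      have h2 := hK _ k _ σ.k c σ.b hcut hk0 hσ.2 hc hσb (B j k) (B (j + 1) σ.k)ᶜ (hB.meas j k) hBm.compl
        (fun x hx x' hx' hcn => hx' (hB.step j k σ.k hk0 hσ.1 hσ.2 x hx x' hcn)) F
      rw [← hv] at h2
      have h3 : ‖P.mulR σ.k ((B (j + 1) σ.k)ᶜ.indicator fun _ => 1) G‖ ^ 2 ≤ (δ * ‖F‖) ^ 2 := by
        rw [mul_pow]
        exact h1.trans h2
      exact le_of_sq_le_sq h3 (mul_nonneg hδ (norm_nonneg _)) |> fun h => h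
    have hrun : Xp.run kf i (σ :: l) v
        = Xp.run kf i l (ContinuousLinearMap.adjoint (P.An (tmL σ.k (ancI kf σ.k i)) σ.k σ.b)
            (P.mulR σ.k ((B (j + 1) σ.k).indicator fun _ => 1) G))
          + Xp.run kf i l (ContinuousLinearMap.adjoint (P.An (tmL σ.k (ancI kf σ.k i)) σ.k σ.b)
            (P.mulR σ.k ((B (j + 1) σ.k)ᶜ.indicator fun _ => 1) G)) := by
      rw [← gn_run_add kf i l hlM, ← map_add, ← rt_ta_split σ.k hBm G, hG]
      rfl
    have e1 : j + (σ :: l).length + 1 = (j + 1) + l.length + 1 := by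
      simp only [List.length_cons]
      omega
    rw [hrun, e1]
    have hSm : MeasurableSet (B (j + 1 + l.length + 1) kf)ᶜ := (hB.meas _ _).compl
    have h1 := ih (j + 1) σ.k σ.b b' l.length G hst' (hk0.trans hσ.1) hσ.2 hσb hb'
    have h2 : Real.sqrt (P.ms (tmL kf i) kf b' (B (j + 1 + l.length + 1) kf)ᶜ
        (Xp.run kf i l (ContinuousLinearMap.adjoint (P.An (tmL σ.k (ancI kf σ.k i)) σ.k σ.b)
            (P.mulR σ.k ((B (j + 1) σ.k)ᶜ.indicator fun _ => 1) G)))) ≤ δ * ‖F‖ := by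
      refine (Real.sqrt_le_sqrt (gn_ms_le hT _ _ _ hSm _)).trans ?_
      rw [Real.sqrt_sq (norm_nonneg _)]
      exact ((gn_run_norm_le hT kf i l hlM _).trans (gn_adj_norm_le hT _ _ _ _)).trans hout
    have h3 := gn_en_tri (P := P) (tmL kf i) kf b' (gn_mask_ind hSm)
      (Xp.run kf i l (ContinuousLinearMap.adjoint (P.An (tmL σ.k (ancI kf σ.k i)) σ.k σ.b)
            (P.mulR σ.k ((B (j + 1) σ.k).indicator fun _ => 1) G)))
      (Xp.run kf i l (ContinuousLinearMap.adjoint (P.An (tmL σ.k (ancI kf σ.k i)) σ.k σ.b)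
            (P.mulR σ.k ((B (j + 1) σ.k)ᶜ.indicator fun _ => 1) G)))
    have h4 : ((l.length : ℝ) + 1) * δ * ‖G‖ ≤ ((l.length : ℝ) + 1) * δ * ‖F‖ :=
      mul_le_mul_of_nonneg_left hGF (by positivity)
    calc _ ≤ _ := h3
      _ ≤ ((l.length : ℝ) + 1) * δ * ‖F‖ + δ * ‖F‖ := add_le_add (h1.trans h4) h2
      _ = (((σ :: l).length : ℝ) + 1) * δ * ‖F‖ := by
        simp only [List.length_cons, Nat.cast_add, Nat.cast_one]
        ring

/-- **EXIT**: leakage of a plateau state through a stack. -/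
theorem rt_ta_leak (hT : P.Tight) {cn : ℝ → ℕ → ℝ → ℕ → P.X → P.X → Prop} {bm klo kf i : ℕ} {δ : ℝ} (hδ : 0 ≤ δ)
    (hK : TaKer P cn bm klo kf δ) {B : ℕ → ℕ → Set P.X} (hB : TaBox P cn klo kf i B) (l : List (Stg P))
    {k c b' K : ℕ} (hl : StOk k kf bm K l) (hk0 : klo ≤ k) (hk : k ≤ kf) (hc : c ≤ bm) (hb' : b' ≤ bm) {v : P.Kc} (hv : v ∈ P.Pl c) :
    Real.sqrt (P.ms (tmL kf i) kf b' (B (l.length + 1) kf)ᶜ (Xp.run kf i l v))
      ≤ (l.length + 1) * δ * ‖v‖ + Real.sqrt (P.ms (tmL k (ancI kf k i)) k c (B 0 k)ᶜ v) := by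
  have hlM : StM l := hl.msk
  have hBm := hB.meas 0 k
  obtain ⟨F, hF⟩ : ∃ F : Lp P.Fb 2 (P.rho k), F = P.An (tmL k (ancI kf k i)) k c v := ⟨_, rfl⟩
  have hFv : ‖F‖ ≤ ‖v‖ := by rw [hF]; exact hT.contr _ _ _ v
  have hv' : v = ContinuousLinearMap.adjoint (P.An (tmL k (ancI kf k i)) k c) (P.mulR k ((B 0 k).indicator fun _ => 1) F)
      + ContinuousLinearMap.adjoint (P.An (tmL k (ancI kf k i)) k c) (P.mulR k ((B 0 k)ᶜ.indicator fun _ => 1) F) := by
    rw [← map_add, ← rt_ta_split k hBm F, hF, gn_adj_an hT _ _ _ hv]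
  have hSm : MeasurableSet (B (l.length + 1) kf)ᶜ := (hB.meas _ _).compl
  have h1 := rt_ta_leak_F hT hδ hK hB l 0 k c b' K F hl hk0 hk hc hb'
  rw [zero_add] at h1
  have hout : ‖P.mulR k ((B 0 k)ᶜ.indicator fun _ => 1) F‖ = Real.sqrt (P.ms (tmL k (ancI kf k i)) k c (B 0 k)ᶜ v) := by
    rw [gn_ms_eq _ _ _ hBm.compl, ← hF, ← gn_mulR_ind_normsq k hBm.compl, Real.sqrt_sq (norm_nonneg _)]
  have h2 : Real.sqrt (P.ms (tmL kf i) kf b' (B (l.length + 1) kf)ᶜ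
      (Xp.run kf i l (ContinuousLinearMap.adjoint (P.An (tmL k (ancI kf k i)) k c) (P.mulR k ((B 0 k)ᶜ.indicator fun _ => 1) F))))
      ≤ Real.sqrt (P.ms (tmL k (ancI kf k i)) k c (B 0 k)ᶜ v) := by
    refine (Real.sqrt_le_sqrt (gn_ms_le hT _ _ _ hSm _)).trans ?_
    rw [Real.sqrt_sq (norm_nonneg _), ← hout]
    exact (gn_run_norm_le hT kf i l hlM _).trans (gn_adj_norm_le hT _ _ _ _)
  have h3 := gn_en_tri (P := P) (tmL kf i) kf b' (gn_mask_ind hSm)
    (Xp.run kf i l (ContinuousLinearMap.adjoint (P.An (tmL k (ancI kf k i)) k c) (P.mulR k ((B 0 k).indicator fun _ => 1) F)))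
    (Xp.run kf i l (ContinuousLinearMap.adjoint (P.An (tmL k (ancI kf k i)) k c) (P.mulR k ((B 0 k)ᶜ.indicator fun _ => 1) F)))
  rw [← gn_run_add kf i l hlM, ← hv'] at h3
  have h4 : ((l.length : ℝ) + 1) * δ * ‖F‖ ≤ ((l.length : ℝ) + 1) * δ * ‖v‖ :=
    mul_le_mul_of_nonneg_left hFv (by positivity)
  exact h3.trans (add_le_add (h1.trans h4) h2)

end Claimed.Agent.R256
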