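import Claimed.Agent.R256.Base.RndWav
import Claimed.Agent.R256.Rt.TaGeo
import Claimed.Agent.R256.Rt.TaNum
import Claimed.Agent.R256.Rt.TaLeak

/-!
# Row 256, unit TAILADM, file 5 : THE ROUND WAVE MODEL          (helper235; prefix `rt_ta_`)

`n = E.n`, `Λ = 2^n`, `W = 2^((C+3) n)`, box sizes `M_j = 2^(c_j n)`, `c_0 = C`, `c_{j+1} = 2 c_j + C + 7` (`rtTaC C j`);  frames `φ.mv (T_κ - T_0)`, `T_κ = tmL κ (ancI k0' κ i0')`.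
* `rt_ta_wv_planck`: `Λ d_{κ'} ≤ W r`, `Λ q_κ ≤ W ℓ_{κ'} r`, `Λ H ≤ W ℓ_{κ'} r²` for `k0 ≤ κ ≤ κ' ≤ k0 + n`, from `H/(ℓ_0 r²) ≤ 2^(C n)`.
* `rt_ta_wv_box`: `TaBox` for `B j κ = {x | co x ∈ (φ.mv (T_κ - T_0)).box κ (M_j)}` (`rt_ta_box_step`: `8 λ W M_j² ≤ 2^((3 + 1 + C + 3 + 2 c_j) n)`).
* `rt_ta_wv_ker`: `TaKer` with `δ = CN bm N 2^-(N n) 2^(|Cl| n)`.
* `rt_ta_leak`, generations by `rt_ta_ms_gen` (`E'.b0` is NOT bounded: `E'.v ∈ Pl (C+1)`).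
* numerics `rt_ta_wv_num`: `((C+1) δ √e + √(s^A e))² ≤ s^(A'+C) e ≤ s'^A' e'`  for `A = 2(A'+C)+2`..., `N ≥ |Cl| + A' + C + 1`, `n ≥ n0`.
EXIT `rt_ta_wv`.
-/

set_option autoImplicit false

namespace Claimed.Agent.R256

open MeasureTheory
open scoped ENNReal

/-- the exponents of the boxes -/
def rtTaC (C : ℕ) : ℕ → ℕ
  | 0 => C
  | j + 1 => 2 * rtTaC C j + C + 7

theorem rt_ta_wv_eqns_cite : True := by
  have := @rtTaC.eq_1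
  trivial

/-- the statement of `rt_ker_wv` (`Rt/Contract.lean`) at a fixed `η` -/
def RtTaKerWv (η : ℝ) : Prop :=
  ∃ (Cl : ℝ) (CN : ℕ → ℕ → ℝ), ∀ (p : RdWvPar) (bm N : ℕ) (Λ : ℝ), 1 ≤ Λ →
    ∀ (T : ℝ) (k : ℕ) (T' : ℝ) (k' b b' : ℕ), CutLe T k T' k' → b ≤ bm → b' ≤ bm →
    ∀ (S S' : Set RdWvPar.Ph), MeasurableSet S → MeasurableSet S' →
      (∀ x ∈ S, ∀ x' ∈ S', ¬ RtNear Λ (rdD p.H k') (rdQ p.H k) p.H ((RdWvPar.co T x).flow (T' - T)) (RdWvPar.co T' x')) →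
    ∀ F : Lp ℂ 2 (p.rw k),
      (p.sys η).ms T' k' b' S' (ContinuousLinearMap.adjoint ((p.sys η).An T k b) ((p.sys η).mulR k (S.indicator fun _ => 1) F))
        ≤ (CN bm N * Λ ^ (-(N : ℝ)) * 2 ^ (Cl * ((k' : ℝ) - k))) ^ 2 * ‖F‖ ^ 2

theorem rt_ta_wv_eqns_cite2 : True := by
  have := @RtTaKerWv.eq_1
  trivial

/-- L-TA-W1. -/
theorem rt_ta_C_mono (C : ℕ) {j j' : ℕ} (h : j ≤ j') : rtTaC C j ≤ rtTaC C j' := by
  refine monotone_nat_of_le_succ (f := rtTaC C) (fun m => ?_) h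
  rw [rtTaC]
  omega

/-- L-TA-W2.  Boxes are measurable in `Ph` (continuous functions of `x`, closed conditions). -/
theorem rt_ta_wv_box_meas (T : ℝ) (φ : RdFrm) (k : ℕ) (M : ℝ) : MeasurableSet {x : RdWvPar.Ph | RdWvPar.co T x ∈ φ.box k M} := by
  have m1 : MeasurableSet {x : RdWvPar.Ph | rtSq ((φ.toT k).x (RdWvPar.co T x)) ≤ M ^ 2} := by
    refine measurableSet_le ?_ measurable_const
    simp only [RtTest.x, RdWvPar.co, RdFrm.toT, rtRound, rtSq]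
    fun_prop
  have m2 : MeasurableSet {x : RdWvPar.Ph | |(φ.toT k).z (RdWvPar.co T x)| ≤ M} := by
    refine measurableSet_le ?_ measurable_const
    simp only [RtTest.z, RdWvPar.co, RdFrm.toT, rtRound, rtIp]
    fun_prop
  have m3 : MeasurableSet {x : RdWvPar.Ph | rtSq ((φ.toT k).V (RdWvPar.co T x)) ≤ M ^ 2} := by
    refine measurableSet_le ?_ measurable_const
    simp only [RtTest.V, RdWvPar.co, RdFrm.toT, rtRound, rtSq]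
    fun_prop
  exact m1.inter (m2.inter m3)

/-- L-TA-W3 (**Planck quantities in frame units**).   `(d_{κ'}/r)² = (ℓ_0/ℓ_{κ'}) H/(ℓ_0 r²) ≤ 2^((C+1) n)`;  `(q_κ/(ℓ_{κ'} r))² = (ℓ_κ ℓ_0/ℓ_{κ'}²) H/(ℓ_0 r²) ≤ 2^((C+2) n)`;  `H/(ℓ_{κ'} r²) ≤ 2^((C+1) n)`. -/
theorem rt_ta_wv_planck {H r : ℝ} (hH : 0 < H) (hr : 0 < r) {C n k0 κ κ' : ℕ} (hP : H / (rdLen k0 * r ^ 2) ≤ 2 ^ (C * n))
    (h0 : k0 ≤ κ) (h1 : κ ≤ κ') (h2 : κ' ≤ k0 + n) :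
    (2 : ℝ) ^ n * rdD H κ' ≤ 2 ^ ((C + 3) * n) * r ∧ (2 : ℝ) ^ n * rdQ H κ ≤ 2 ^ ((C + 3) * n) * (rdLen κ' * r) ∧
      (2 : ℝ) ^ n * H ≤ 2 ^ ((C + 3) * n) * (rdLen κ' * r ^ 2) := by
  obtain ⟨A, hA⟩ : ∃ A : ℝ, A = 2 ^ n := ⟨_, rfl⟩
  obtain ⟨B, hB⟩ : ∃ B : ℝ, B = 2 ^ (C * n) := ⟨_, rfl⟩
  have hA1 : 1 ≤ A := by rw [hA]; exact one_le_pow₀ (by norm_num)
  have hB1 : 1 ≤ B := by rw [hB]; exact one_le_pow₀ (by norm_num)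
  have hA0 : 0 < A := by linarith
  have hB0 : 0 < B := by linarith
  have e3 : (2 : ℝ) ^ ((C + 3) * n) = B * A ^ 3 := by
    rw [hA, hB, ← pow_mul, ← pow_add]
    congr 1
    ring
  obtain ⟨L0, hL0⟩ : ∃ L0 : ℝ, L0 = rdLen k0 := ⟨_, rfl⟩
  obtain ⟨L1, hL1⟩ : ∃ L1 : ℝ, L1 = rdLen κ := ⟨_, rfl⟩
  obtain ⟨L2, hL2⟩ : ∃ L2 : ℝ, L2 = rdLen κ' := ⟨_, rfl⟩
  have p0 : 0 < L0 := by rw [hL0]; exact rdLen_pos _
  have p1 : 0 < L1 := by rw [hL1]; exact rdLen_pos _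
  have p2 : 0 < L2 := by rw [hL2]; exact rdLen_pos _
  have l10 : L1 ≤ L0 := by
    rw [hL1, hL0]
    unfold rdLen
    exact pow_le_pow_of_le_one (by norm_num) (by norm_num) h0
  have l02 : L0 ≤ A * L2 := by
    have h3 : (2 : ℝ)⁻¹ ^ (k0 + n) ≤ (2 : ℝ)⁻¹ ^ κ' := pow_le_pow_of_le_one (by norm_num) (by norm_num) h2
    have h4 : A * (2 : ℝ)⁻¹ ^ (k0 + n) = L0 := by
      rw [hA, hL0, pow_add]
      unfold rdLen
      have : (2 : ℝ) ^ n * (2 : ℝ)⁻¹ ^ n = 1 := by rw [← mul_pow]; norm_num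
      calc (2 : ℝ) ^ n * ((2 : ℝ)⁻¹ ^ k0 * (2 : ℝ)⁻¹ ^ n) = (2 : ℝ)⁻¹ ^ k0 * ((2 : ℝ) ^ n * (2 : ℝ)⁻¹ ^ n) := by ring
        _ = (2 : ℝ)⁻¹ ^ k0 := by rw [this, mul_one]
    rw [← h4, hL2]
    unfold rdLen
    exact mul_le_mul_of_nonneg_left h3 hA0.le
  rw [← hL0, ← hB, div_le_iff₀ (by positivity)] at hP
  rw [← hA, e3, ← hL2]
  have hr2 : 0 < r ^ 2 := by positivity
  -- H ≤ B A L2 r²
  have hH2 : H ≤ B * A * (L2 * r ^ 2) := by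
    calc H ≤ B * (L0 * r ^ 2) := hP
      _ ≤ B * ((A * L2) * r ^ 2) := by gcongr
      _ = B * A * (L2 * r ^ 2) := by ring
  have hBA : B * A ≤ (B * A ^ 2) ^ 2 := by
    have h5 : B * A ≤ B * A ^ 2 := by
      have : A ≤ A ^ 2 := by nlinarith
      gcongr
    have h6 : 1 ≤ B * A ^ 2 := by nlinarith [one_le_pow₀ hA1 (n := 2)]
    nlinarith
  refine ⟨?_, ?_, ?_⟩
  · have h7 : rdD H κ' ≤ B * A ^ 2 * r := by
      unfold rdD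
      rw [← hL2]
      refine Real.sqrt_le_iff.2 ⟨by positivity, ?_⟩
      rw [div_le_iff₀ p2]
      calc H ≤ B * A * (L2 * r ^ 2) := hH2
        _ ≤ (B * A ^ 2) ^ 2 * (L2 * r ^ 2) := by gcongr
        _ = (B * A ^ 2 * r) ^ 2 * L2 := by ring
    calc A * rdD H κ' ≤ A * (B * A ^ 2 * r) := by gcongr
      _ = B * A ^ 3 * r := by ring
  · have h7 : rdQ H κ ≤ B * A ^ 2 * (L2 * r) := by
      unfold rdQ
      rw [← hL1]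
      refine Real.sqrt_le_iff.2 ⟨by positivity, ?_⟩
      have hBA2 : B * A ^ 2 ≤ (B * A ^ 2) ^ 2 := by
        have h6 : 1 ≤ B * A ^ 2 := by nlinarith [one_le_pow₀ hA1 (n := 2)]
        nlinarith
      calc H * L1 ≤ (B * A * (L2 * r ^ 2)) * (A * L2) := by
            have : L1 ≤ A * L2 := l10.trans l02
            gcongr
        _ = B * A ^ 2 * (L2 ^ 2 * r ^ 2) := by ring
        _ ≤ (B * A ^ 2) ^ 2 * (L2 ^ 2 * r ^ 2) := by gcongr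
        _ = (B * A ^ 2 * (L2 * r)) ^ 2 := by ring
    calc A * rdQ H κ ≤ A * (B * A ^ 2 * (L2 * r)) := by gcongr
      _ = B * A ^ 3 * (L2 * r) := by ring
  · calc A * H ≤ A * (B * A * (L2 * r ^ 2)) := by gcongr
      _ = B * A ^ 2 * (L2 * r ^ 2) := by ring
      _ ≤ B * A ^ 3 * (L2 * r ^ 2) := by
          have : A ^ 2 ≤ A ^ 3 := pow_le_pow_right₀ hA1 (by norm_num)
          gcongr

/-- the boxes along the branch -/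
def rtTaB (φ : RdFrm) (C n k0 i0 kf i : ℕ) (j κ : ℕ) : Set RdWvPar.Ph :=
  {x | RdWvPar.co 0 x ∈ (φ.mv (tmL κ (ancI kf κ i) - tmL k0 i0)).box κ (2 ^ (rtTaC C j * n))}

theorem rt_ta_wv_eqns_cite3 : True := by
  have := @rtTaB.eq_1
  trivial

/-- L-TA-W4 (**the boxes are stable**).   `rt_ta_box_step` with `t = T_κ' - T_κ ∈ [0, ℓ_κ]` (`gn_cutle_anc`, `gn_anc_anc`), `rt_ta_mv_mv`, `rt_ta_wv_planck`, `rt_ta_box_mono`;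
`8 · 2^(κ'-κ) · 2^((C+3) n) · (2^(c n))² ≤ 2^((2 c + C + 7) n)` for `1 ≤ n`, `κ' - κ ≤ n`. -/
theorem rt_ta_wv_box (p : RdWvPar) {φ : RdFrm} (hr : 0 < φ.r) {C n k0 i0 kf i : ℕ} (hn : 1 ≤ n)
    (hP : p.H / (rdLen k0 * φ.r ^ 2) ≤ 2 ^ (C * n)) (hkf : kf ≤ k0 + n) (η : ℝ) :
    TaBox (p.sys η) (fun T k T' k' x x' => RtNear (2 ^ n) (rdD p.H k') (rdQ p.H k) p.H ((RdWvPar.co T x).flow (T' - T)) (RdWvPar.co T' x'))
      k0 kf i (rtTaB φ C n k0 i0 kf i) := by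
  refine ⟨fun j k => rt_ta_wv_box_meas 0 _ _ _, fun j k k' hk0 hkk' hk'f x hx x' hcn => ?_⟩
  have hcut : CutLe (tmL k (ancI kf k i)) k (tmL k' (ancI kf k' i)) k' := by
    have := gn_cutle_anc hkk' (ancI kf k' i)
    rwa [gn_anc_anc hkk' hk'f] at this
  obtain ⟨-, ht0, ht1⟩ := hcut
  obtain ⟨hd, hq, hH⟩ := rt_ta_wv_planck p.H_pos hr hP hk0 hkk' (hk'f.trans hkf)
  have hM : (1 : ℝ) ≤ 2 ^ (rtTaC C j * n) := one_le_pow₀ (by norm_num)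
  have hW : (1 : ℝ) ≤ 2 ^ ((C + 3) * n) := one_le_pow₀ (by norm_num)
  have hd0 : (0 : ℝ) ≤ 2 ^ n * rdD p.H k' := mul_nonneg (by positivity) (Real.sqrt_nonneg _)
  have hq0 : (0 : ℝ) ≤ 2 ^ n * rdQ p.H k := mul_nonneg (by positivity) (Real.sqrt_nonneg _)
  have hstep := rt_ta_box_step (φ.mv (tmL k (ancI kf k i) - tmL k0 i0)) hr hkk'
    (t := tmL k' (ancI kf k' i) - tmL k (ancI kf k i)) (by linarith) (by unfold rdLen; linarith) hM hW hd hd0 hq hq0 hH hx hcn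
  rw [rt_ta_mv_mv, sub_add_sub_cancel'] at hstep
  refine rt_ta_box_mono _ _ (by positivity) ?_ hstep
  have h8 : (8 : ℝ) ≤ 2 ^ (3 * n) := by
    calc (8 : ℝ) = 2 ^ 3 := by norm_num
      _ ≤ 2 ^ (3 * n) := pow_le_pow_right₀ (by norm_num) (by omega)
  have hk : (2 : ℝ) ^ (k' - k) ≤ 2 ^ n := pow_le_pow_right₀ (by norm_num) (by omega)
  calc (8 : ℝ) * 2 ^ (k' - k) * 2 ^ ((C + 3) * n) * (2 ^ (rtTaC C j * n)) ^ 2
      ≤ 2 ^ (3 * n) * 2 ^ n * 2 ^ ((C + 3) * n) * (2 ^ (rtTaC C j * n)) ^ 2 := by gcongr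
    _ = 2 ^ (rtTaC C (j + 1) * n) := by
      rw [← pow_mul, ← pow_add, ← pow_add, ← pow_add]
      congr 1
      simp only [rtTaC]
      ring

/-- L-TA-W5 (**the kernel bound on the window**).   `Λ = 2^n`: `Λ^-N = 2^-(N n)`; `2^(Cl (k'-k)) ≤ 2^(|Cl| n)`. -/
theorem rt_ta_wv_ker {η Cl : ℝ} {CN : ℕ → ℕ → ℝ} (p : RdWvPar)
    (hker : ∀ (bm N : ℕ) (Λ : ℝ), 1 ≤ Λ →
      ∀ (T : ℝ) (k : ℕ) (T' : ℝ) (k' b b' : ℕ), CutLe T k T' k' → b ≤ bm → b' ≤ bm →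
      ∀ (S S' : Set RdWvPar.Ph), MeasurableSet S → MeasurableSet S' →
        (∀ x ∈ S, ∀ x' ∈ S', ¬ RtNear Λ (rdD p.H k') (rdQ p.H k) p.H ((RdWvPar.co T x).flow (T' - T)) (RdWvPar.co T' x')) →
      ∀ F : Lp ℂ 2 (p.rw k),
        (p.sys η).ms T' k' b' S' (ContinuousLinearMap.adjoint ((p.sys η).An T k b) ((p.sys η).mulR k (S.indicator fun _ => 1) F))
          ≤ (CN bm N * Λ ^ (-(N : ℝ)) * 2 ^ (Cl * ((k' : ℝ) - k))) ^ 2 * ‖F‖ ^ 2)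
    (bm N n k0 kf : ℕ) (hkf : kf ≤ k0 + n) :
    TaKer (p.sys η) (fun T k T' k' x x' => RtNear (2 ^ n) (rdD p.H k') (rdQ p.H k) p.H ((RdWvPar.co T x).flow (T' - T)) (RdWvPar.co T' x'))
      bm k0 kf (|CN bm N| * 2 ^ ((|Cl| - N) * n)) := by
  intro T k T' k' b b' hcut hk0 hk' hb hb' S S' hS hS' hcn F
  have h1 := hker bm N (2 ^ n) (one_le_pow₀ (by norm_num)) T k T' k' b b' hcut hb hb' S S' hS hS' hcn F
  refine h1.trans (mul_le_mul_of_nonneg_right ?_ (sq_nonneg _))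
  have hkk : (k : ℝ) ≤ k' := by exact_mod_cast hcut.1
  have hkn : (k' : ℝ) - k ≤ n := by
    have : k' ≤ k + n := by omega
    have : (k' : ℝ) ≤ k + n := by exact_mod_cast this
    linarith
  have e1 : ((2 : ℝ) ^ n) ^ (-(N : ℝ)) = 2 ^ (-(N : ℝ) * n) := by
    rw [← gn_two_nat, gn_two_mul]
    congr 1
    ring
  have h2 : (2 : ℝ) ^ (Cl * ((k' : ℝ) - k)) ≤ 2 ^ (|Cl| * n) := by
    refine gn_two_mono ?_
    calc Cl * ((k' : ℝ) - k) ≤ |Cl| * ((k' : ℝ) - k) := mul_le_mul_of_nonneg_right (le_abs_self _) (by linarith)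
      _ ≤ |Cl| * n := mul_le_mul_of_nonneg_left hkn (abs_nonneg _)
  have h3 : |CN bm N * ((2 : ℝ) ^ n) ^ (-(N : ℝ)) * 2 ^ (Cl * ((k' : ℝ) - k))| ≤ |CN bm N| * 2 ^ ((|Cl| - N) * n) := by
    rw [abs_mul, abs_mul, abs_of_pos (gn_two_pos _), e1, abs_of_pos (gn_two_pos _), mul_assoc]
    refine mul_le_mul_of_nonneg_left ?_ (abs_nonneg _)
    calc (2 : ℝ) ^ (-(N : ℝ) * n) * 2 ^ (Cl * ((k' : ℝ) - k)) ≤ 2 ^ (-(N : ℝ) * n) * 2 ^ (|Cl| * n) :=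
          mul_le_mul_of_nonneg_left h2 (gn_two_pos _).le
      _ = 2 ^ ((|Cl| - N) * n) := by
        rw [← gn_two_add]
        congr 1
        ring
  exact sq_le_sq' (abs_le.1 h3).1 (abs_le.1 h3).2

/-- L-TA-W6 (**numerics of the leak**): `gn_absorb`. -/
theorem rt_ta_wv_num (C A' : ℕ) (Cl c0 : ℝ) {N : ℕ} (hN : |Cl| + A' + C + 1 ≤ N) : ∃ n0 : ℕ, ∀ (n : ℕ) (e x : ℝ), n0 ≤ n → 0 ≤ e → 0 ≤ x →
    x ≤ ((C : ℝ) + 1) * (|c0| * 2 ^ ((|Cl| - N) * n)) * Real.sqrt e + Real.sqrt (((2 : ℝ)⁻¹ ^ n) ^ ((2 * (A' + C) + 2 : ℕ) : ℝ) * e) →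
    x ^ 2 ≤ ((2 : ℝ)⁻¹ ^ n) ^ ((A' + C : ℕ) : ℝ) * e := by
  obtain ⟨n0, hn0⟩ := gn_absorb ((((C : ℝ) + 1) * |c0| + 1) ^ 2) 1 one_pos
  refine ⟨n0, fun n e x hn he hx hle => ?_⟩
  have hK := hn0 n hn
  rw [one_mul, gn_two_nat] at hK
  rw [Real.rpow_natCast] at hle ⊢
  obtain ⟨a, ha⟩ : ∃ a : ℕ, a = A' + C := ⟨_, rfl⟩
  rw [← ha] at hle ⊢
  obtain ⟨t, ht⟩ : ∃ t : ℝ, t = (2 : ℝ)⁻¹ ^ n := ⟨_, rfl⟩
  have ht0 : 0 < t := by rw [ht]; positivity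
  have ht1 : t ≤ 1 := by rw [ht]; exact pow_le_one₀ (by norm_num) (by norm_num)
  have h2t : (2 : ℝ) ^ n * t = 1 := by
    rw [ht, ← mul_pow]; norm_num
  have hpow : (2 : ℝ) ^ ((|Cl| - N) * n) ≤ t ^ (a + 1) := by
    have e1 : t ^ (a + 1) = (2 : ℝ) ^ (-(((a : ℝ) + 1) * n)) := by
      rw [ht, ← pow_mul, inv_pow, gn_two_neg, ← gn_two_nat]
      congr 2
      push_cast
      ring
    rw [e1]
    apply gn_two_mono
    have hn' : (0 : ℝ) ≤ n := Nat.cast_nonneg _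
    have : |Cl| - N ≤ -((a : ℝ) + 1) := by
      rw [ha]; push_cast; linarith
    nlinarith
  rw [← ht] at hle ⊢
  have hsq : Real.sqrt (t ^ (2 * a + 2) * e) = t ^ (a + 1) * Real.sqrt e := by
    have : t ^ (2 * a + 2) = (t ^ (a + 1)) ^ 2 := by rw [← pow_mul]; congr 1; ring
    rw [this, Real.sqrt_mul (by positivity), Real.sqrt_sq (by positivity)]
  rw [hsq] at hle
  have hse : 0 ≤ Real.sqrt e := Real.sqrt_nonneg e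
  have hc0 : 0 ≤ |c0| := abs_nonneg c0
  have hC0 : (0 : ℝ) ≤ (C : ℝ) + 1 := by positivity
  have hx2 : x ≤ (((C : ℝ) + 1) * |c0| + 1) * (t ^ (a + 1) * Real.sqrt e) := by
    have : ((C : ℝ) + 1) * (|c0| * 2 ^ ((|Cl| - N) * n)) * Real.sqrt e ≤ ((C : ℝ) + 1) * (|c0| * t ^ (a + 1)) * Real.sqrt e := by
      apply mul_le_mul_of_nonneg_right _ hse
      apply mul_le_mul_of_nonneg_left _ hC0
      exact mul_le_mul_of_nonneg_left hpow hc0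
    nlinarith
  have hx3 : x ^ 2 ≤ ((((C : ℝ) + 1) * |c0| + 1) * (t ^ (a + 1) * Real.sqrt e)) ^ 2 := pow_le_pow_left₀ hx hx2 2
  have hee : Real.sqrt e ^ 2 = e := Real.sq_sqrt he
  have e2 : ((((C : ℝ) + 1) * |c0| + 1) * (t ^ (a + 1) * Real.sqrt e)) ^ 2
      = ((((C : ℝ) + 1) * |c0| + 1) ^ 2 * t) * (t ^ (a + 1) * (t ^ a * e)) := by
    rw [mul_pow, mul_pow, hee]; ring
  rw [e2] at hx3
  have h1 : (((C : ℝ) + 1) * |c0| + 1) ^ 2 * t ≤ 1 := by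
    calc (((C : ℝ) + 1) * |c0| + 1) ^ 2 * t ≤ 2 ^ n * t := mul_le_mul_of_nonneg_right hK ht0.le
      _ = 1 := h2t
  have h2 : t ^ (a + 1) ≤ 1 := pow_le_one₀ ht0.le ht1
  have h3 : 0 ≤ t ^ a * e := by positivity
  calc x ^ 2 ≤ ((((C : ℝ) + 1) * |c0| + 1) ^ 2 * t) * (t ^ (a + 1) * (t ^ a * e)) := hx3
    _ ≤ 1 * (t ^ (a + 1) * (t ^ a * e)) := mul_le_mul_of_nonneg_right h1 (by positivity)
    _ ≤ 1 * (1 * (t ^ a * e)) := by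
        apply mul_le_mul_of_nonneg_left _ zero_le_one
        exact mul_le_mul_of_nonneg_right h2 h3
    _ = t ^ a * e := by ring

/-- L-TA-W7 (**the tail bound of the tail piece**): `rt_ta_leak` + `rt_ta_ms_gen` + `rt_ta_wv_num`. -/
theorem rt_ta_wv_tail (η : ℝ) (hT : ∀ p : RdWvPar, (p.sys η).Tight) (hker : RtTaKerWv η) (C A' : ℕ) :
    ∃ n0 : ℕ, 1 ≤ n0 ∧ ∀ (p : RdWvPar) (E E' : Xp (p.sys η)) (φ : RdFrm), n0 ≤ E.n → E.Valid → E.GenLe C → E'.Valid → Mdl.IsTail C E E' →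
      RdSet (p.sys η) RdWvPar.co False C (2 * (A' + C) + 2) E φ → p.H / (rdLen E.k0 * φ.r ^ 2) ≤ E.s ^ (-(C : ℝ)) →
      (p.sys η).ms (tmL E'.k0 E'.i0) E'.k0 E'.b0
        {x | RdWvPar.co (tmL E'.k0 E'.i0) x ∉ (φ.mv (tmL E'.k0 E'.i0 - tmL E.k0 E.i0)).box E'.k0 (2 ^ (rtTaC C (C + 1) * E.n))} E'.v
        ≤ E.s ^ ((A' + C : ℕ) : ℝ) * E.e := by
  obtain ⟨Cl, CN, H⟩ := hker
  obtain ⟨N, hN⟩ := exists_nat_ge (|Cl| + A' + C + 1)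
  obtain ⟨n0, hn0⟩ := rt_ta_wv_num C A' Cl (CN (C + 1) N) hN
  refine ⟨max 1 n0, le_max_left _ _, fun p E E' φ hn hV hG hV' ht hs hP => ?_⟩
  have hn1 : 1 ≤ E.n := (le_max_left _ _).trans hn
  have hn2 : n0 ≤ E.n := (le_max_right _ _).trans hn
  obtain ⟨st', hst, hv'⟩ := ht.st
  have hTp := hT p
  have hkf : E'.k0 ≤ E.k0 + E.n := (rt_ta_n_le ht).2
  have hsC := rt_ta_s_nat E C
  rw [hsC] at hP
  have hB := rt_ta_wv_box p hs.r_pos (i0 := E.i0) (i := E'.i0) hn1 hP hkf η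
  have hK := rt_ta_wv_ker p (H p) (C + 1) N E.n E.k0 E'.k0 hkf
  have hst1 : StOk E.k0 E'.k0 (C + 1) C st' :=
    ⟨hst.len, hst.dep, hst.mono, fun σ h => (hst.gen σ h).trans (Nat.le_succ _), hst.msk⟩
  have hδ : 0 ≤ |CN (C + 1) N| * (2 : ℝ) ^ ((|Cl| - N) * E.n) := by positivity
  have hleak := rt_ta_leak hTp hδ hK hB st' hst1 le_rfl ht.k_lo (hG.1.trans (Nat.le_succ _)) (le_refl (C + 1)) hV.plat
  rw [ht.anc, ← hv'] at hleak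
  -- the root box
  have hB0 : ((rtTaB φ C E.n E.k0 E.i0 E'.k0 E'.i0 0 E.k0 : Set (p.sys η).X))ᶜ
      = {x | RdWvPar.co (tmL E.k0 E.i0) x ∉ φ.box E.k0 (E.s ^ (-(C : ℝ)))} := by
    ext x
    simp only [rtTaB, ht.anc, sub_self, rt_ta_mv_zero, hsC, rtTaC, Set.mem_compl_iff, Set.mem_ofPred_eq]
    rfl
  have htail := (le_of_eq (congrArg (fun S => (p.sys η).ms (tmL E.k0 E.i0) E.k0 E.b0 S E.v) hB0)).trans hs.tail
  -- the final box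
  have hBf : {x | RdWvPar.co (tmL E'.k0 E'.i0) x ∉ (φ.mv (tmL E'.k0 E'.i0 - tmL E.k0 E.i0)).box E'.k0 (2 ^ (rtTaC C (C + 1) * E.n))}
      ⊆ (rtTaB φ C E.n E.k0 E.i0 E'.k0 E'.i0 (st'.length + 1) E'.k0)ᶜ := by
    intro x hx hx'
    apply hx
    simp only [rtTaB, gn_anc_self, Set.mem_ofPred_eq] at hx'
    refine rt_ta_box_mono _ _ (by positivity) ?_ hx'
    refine pow_le_pow_right₀ (by norm_num) (Nat.mul_le_mul_right _ (rt_ta_C_mono C ?_))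
    have := hst.len
    omega
  have hm1 : MeasurableSet {x | RdWvPar.co (tmL E'.k0 E'.i0) x ∉ (φ.mv (tmL E'.k0 E'.i0 - tmL E.k0 E.i0)).box E'.k0 (2 ^ (rtTaC C (C + 1) * E.n))} :=
    (rt_ta_wv_box_meas _ _ _ _).compl
  have hm2 := (hB.meas (st'.length + 1) E'.k0).compl
  -- generations
  have hpl : E'.v ∈ (p.sys η).Pl (C + 1) := by
    rw [hv']
    exact gn_run_pl hTp _ _ C st' hst.gen (gn_pl_mono hTp hG.1 hV.plat)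
  have hgen : ∀ S : Set (p.sys η).X, (p.sys η).ms (tmL E'.k0 E'.i0) E'.k0 E'.b0 S E'.v = (p.sys η).ms (tmL E'.k0 E'.i0) E'.k0 (C + 1) S E'.v := by
    intro S
    rcases le_total E'.b0 (C + 1) with h | h
    · exact (rt_ta_ms_gen hTp _ _ h S hV'.plat).symm
    · exact rt_ta_ms_gen hTp _ _ h S hpl
  rw [hgen]
  have hmono := gn_ms_mono (P := p.sys η) (tmL E'.k0 E'.i0) E'.k0 (C + 1) hm1 hm2 hBf E'.v
  refine hmono.trans ?_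
  have hnn := gn_ms_nonneg (P := p.sys η) (tmL E'.k0 E'.i0) E'.k0 (C + 1) (rtTaB φ C E.n E.k0 E.i0 E'.k0 E'.i0 (st'.length + 1) E'.k0)ᶜ E'.v
  have hfin := hn0 E.n E.e _ hn2 hV.e_pos.le (Real.sqrt_nonneg ((p.sys η).ms (tmL E'.k0 E'.i0) E'.k0 (C + 1) (rtTaB φ C E.n E.k0 E.i0 E'.k0 E'.i0 (st'.length + 1) E'.k0)ᶜ E'.v)) ?_
  · rwa [Real.sq_sqrt hnn] at hfin
  · refine hleak.trans (add_le_add ?_ (Real.sqrt_le_sqrt htail))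
    have h1 : ‖E.v‖ ≤ Real.sqrt E.e := Real.le_sqrt_of_sq_le hV.budget
    have h2 : ((st'.length : ℝ) + 1) ≤ (C : ℝ) + 1 := by
      have := hst.len
      have : (st'.length : ℝ) ≤ C := by exact_mod_cast this
      linarith
    gcongr

/-- L-TA-W8 (**the setup of the tail piece**): `rt_ta_ek`, `rt_ta_wv_tail`, `rt_ta_pow_le`, `rt_ta_pow_ge`; Planck: `H/(ℓ_0' r²) = 2^(k0'-k0) H/(ℓ_0 r²)`. -/
theorem rt_ta_wv_set (η : ℝ) (p : RdWvPar) {C C' A A' : ℕ} {h : ℝ} (hC' : (rtTaC C (C + 1) : ℝ) + 3 * C + 3 ≤ h * C') {E E' : Xp (p.sys η)}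
    (hV' : E'.Valid) (ht : Mdl.IsTail C E E') (hh : h * E.n ≤ E'.n) {φ : RdFrm} (hs : RdSet (p.sys η) RdWvPar.co False C A E φ)
    (hP1 : E.s ^ (C : ℝ) ≤ p.H / (rdLen E.k0 * φ.r ^ 2)) (hP2 : p.H / (rdLen E.k0 * φ.r ^ 2) ≤ E.s ^ (-(C : ℝ)))
    (htl : (p.sys η).ms (tmL E'.k0 E'.i0) E'.k0 E'.b0
        {x | RdWvPar.co (tmL E'.k0 E'.i0) x ∉ (φ.mv (tmL E'.k0 E'.i0 - tmL E.k0 E.i0)).box E'.k0 (2 ^ (rtTaC C (C + 1) * E.n))} E'.v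
        ≤ E.s ^ ((A' + C : ℕ) : ℝ) * E.e) :
    RdSet (p.sys η) RdWvPar.co False C' A' E' (φ.mv (tmL E'.k0 E'.i0 - tmL E.k0 E.i0)) ∧
      E'.s ^ (C' : ℝ) ≤ p.H / (rdLen E'.k0 * (φ.mv (tmL E'.k0 E'.i0 - tmL E.k0 E.i0)).r ^ 2) ∧
      p.H / (rdLen E'.k0 * (φ.mv (tmL E'.k0 E'.i0 - tmL E.k0 E.i0)).r ^ 2) ≤ E'.s ^ (-(C' : ℝ)) := by
  have hc0 : (0 : ℝ) ≤ (rtTaC C (C + 1) : ℝ) := Nat.cast_nonneg _
  have hC0 : (0 : ℝ) ≤ (C : ℝ) := Nat.cast_nonneg _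
  have hr := hs.r_pos
  have hek := rt_ta_ek (C' := C') (R := φ.r ^ 4) (by positivity) hV'.ka_pos.le ht hh (by linarith) hs.ek_lo hs.ek_hi
  have hnle := rt_ta_n_le ht
  -- Planck
  have hrat : p.H / (rdLen E'.k0 * φ.r ^ 2) = 2 ^ (E'.k0 - E.k0) * (p.H / (rdLen E.k0 * φ.r ^ 2)) := by
    rw [← rt_ta_len_ratio ht.k_lo]
    have h1 := rdLen_pos E.k0
    have h2 := rdLen_pos E'.k0
    field_simp
  have hPnn : 0 ≤ p.H / (rdLen E.k0 * φ.r ^ 2) := by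
    have h1 := rdLen_pos E.k0
    have := p.H_pos
    positivity
  refine ⟨⟨hr, hek.1, hek.2, ?_, fun hf => hf.elim, fun hf => hf.elim⟩, ?_, ?_⟩
  · -- tail
    have hbox : (2 : ℝ) ^ (rtTaC C (C + 1) * E.n) ≤ E'.s ^ (-(C' : ℝ)) := by
      rw [← rt_ta_s_nat E]
      exact (rt_ta_pow_le hh (by linarith)).1
    have hsub : {x | RdWvPar.co (tmL E'.k0 E'.i0) x ∉ (φ.mv (tmL E'.k0 E'.i0 - tmL E.k0 E.i0)).box E'.k0 (E'.s ^ (-(C' : ℝ)))}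
        ⊆ {x | RdWvPar.co (tmL E'.k0 E'.i0) x ∉ (φ.mv (tmL E'.k0 E'.i0 - tmL E.k0 E.i0)).box E'.k0 (2 ^ (rtTaC C (C + 1) * E.n))} :=
      fun x hx hx' => hx (rt_ta_box_mono _ _ (by positivity) hbox hx')
    have h1 := gn_ms_mono (P := p.sys η) (tmL E'.k0 E'.i0) E'.k0 E'.b0 (rt_ta_wv_box_meas _ _ _ _).compl (rt_ta_wv_box_meas _ _ _ _).compl hsub E'.v
    refine (h1.trans htl).trans ?_
    have h2 : E.s ^ ((A' + C : ℕ) : ℝ) = E.s ^ (A' : ℝ) * E.s ^ (C : ℝ) := by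
      rw [Nat.cast_add, Real.rpow_add (gn_s_pos E)]
    rw [h2, mul_assoc]
    have h3 : E.s ^ (A' : ℝ) ≤ E'.s ^ (A' : ℝ) := rt_ta_pow_ge hnle.1 (Nat.cast_nonneg _) le_rfl
    have h4 : 0 ≤ E.s ^ (C : ℝ) * E.e := by
      have h5 : 0 ≤ E.s ^ ((A' + C : ℕ) : ℝ) * E.e := (gn_ms_nonneg _ _ _ _ _).trans htl
      have h6 : 0 ≤ E.e := (mul_nonneg_iff_of_pos_left (Real.rpow_pos_of_pos (gn_s_pos E) _)).1 h5
      exact mul_nonneg (Real.rpow_nonneg (gn_s_pos E).le _) h6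
    exact mul_le_mul h3 ht.e_lo h4 (Real.rpow_nonneg (gn_s_pos E').le _)
  · show E'.s ^ (C' : ℝ) ≤ p.H / (rdLen E'.k0 * φ.r ^ 2)
    rw [hrat]
    have h1 : E'.s ^ (C' : ℝ) ≤ E.s ^ (C : ℝ) := (rt_ta_pow_le hh (by linarith)).2
    have h2 : (1 : ℝ) ≤ 2 ^ (E'.k0 - E.k0) := one_le_pow₀ (by norm_num)
    nlinarith
  · show p.H / (rdLen E'.k0 * φ.r ^ 2) ≤ E'.s ^ (-(C' : ℝ))
    rw [hrat]
    have h1 : E.s ^ (-((C : ℝ) + 1)) ≤ E'.s ^ (-(C' : ℝ)) := (rt_ta_pow_le hh (by linarith)).1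
    refine le_trans ?_ h1
    have h2 : (2 : ℝ) ^ (E'.k0 - E.k0) ≤ 2 ^ E.n := pow_le_pow_right₀ (by norm_num) (by have := hnle.2; omega)
    have h3 : E.s ^ (-((C : ℝ) + 1)) = 2 ^ E.n * E.s ^ (-(C : ℝ)) := by
      have := rt_ta_s_nat E (C + 1)
      rw [Nat.cast_add, Nat.cast_one] at this
      rw [this, rt_ta_s_nat, ← pow_add]
      congr 1
      ring
    rw [h3]
    exact mul_le_mul h2 hP2 hPnn (by positivity)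

/-- **EXIT** -/
theorem rt_ta_wv (η : ℝ) (hT : ∀ p : RdWvPar, (p.sys η).Tight) (hker : RtTaKerWv η) : (rndWav η).TailAdm := by
  intro C h hh
  obtain ⟨C', hC'⟩ : ∃ C' : ℕ, (rtTaC C (C + 1) : ℝ) + 3 * C + 3 ≤ h * C' := by
    obtain ⟨C', hC'⟩ := exists_nat_ge (((rtTaC C (C + 1) : ℝ) + 3 * C + 3) / h)
    exact ⟨C', by rwa [div_le_iff₀' hh] at hC'⟩
  refine ⟨C', fun A' => ?_⟩
  obtain ⟨n0, -, H⟩ := rt_ta_wv_tail η hT hker C A'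
  refine ⟨2 * (A' + C) + 2, n0, fun p E E' hn hE hV' ht hlen => ?_⟩
  obtain ⟨φ, hφ, hP1, hP2⟩ := hE.2.2.2.2
  exact ⟨_, rt_ta_wv_set η p hC' hV' ht hlen hφ hP1 hP2 (H p E E' φ hn hE.2.1 hE.2.2.2.1 hV' ht hφ hP2)⟩

end Claimed.Agent.R256
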