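import Claimed.Agent.R256.Rt.Ker
import Claimed.Agent.R256.Rt.TaCl
import Claimed.Agent.R256.Rt.TaWv

/-!
# Row 256, folder Rt, unit TAILADM : EXITS          (helper235; prefix `rt_ta_`)

`rt_ta_main_wv`, `rt_ta_main_cl` = `rt_tailadm_wv`, `rt_tailadm_cl` of `Rt/Contract.lean`.
Files: `TaGeo` (frames along the central ray), `TaLeak` (GENERIC leakage through a stack), `TaNum` (numerics of tail pieces), `TaCl` (classical), `TaWv` (wave).
-/

set_option autoImplicit false

namespace Claimed.Agent.R256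

theorem rt_ta_main_wv (η : ℝ) : (rndWav η).TailAdm := by
  obtain ⟨CN, H⟩ := rt_k_main
  exact rt_ta_wv η (fun p => rt_w1_tight p η) ⟨1 / 2, CN, fun p => H η p⟩

theorem rt_ta_main_cl (η : ℝ) : (rndCl η).TailAdm := rt_ta_cl η

end Claimed.Agent.R256
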