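-- KEEP
import Claimed.Agent.R256.Base.RndCl
import Claimed.Agent.R256.Base.RndWav
import Claimed.Agent.R256.Gen.Contract
import Claimed.Agent.R256.Rt.Geo
import Claimed.Agent.R256.Rt.Ker
import Claimed.Agent.R256.Rt.FloorCl
import Claimed.Agent.R256.Rt.Inst
import Claimed.Agent.R256.Rt.TailAdm

/-!
# Row 256 (LS paper), folder Rt, file Mod : THE TWO ROUND MODELS ARE INSTANCES OF THE GENERIC THEORY          (chief helper216; prefix `rt_`)          CONTRACT FILE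

Moved verbatim from the first version of `Rt/Contract.lean` (which is now the umbrella: CONSUMERS IMPORT `Rt/Contract.lean`).   Exits X2, X3, X4, X6 of the contract + `rt_poly_*`.
OWNERS of the `sorry`s:  BP-256-RT-INST (helper282): `rt_tight_cl`, `rt_ker_cl`, `rt_cov_wv`, `rt_cov_cl`, `rt_root_*`, `rt_scale_*`, `rt_floor_wv`, `rt_poly_wv`, `rt_sup_wv`;
  BP-256-RT-FLOORCL (helper34): `rt_floor_cl`, `rt_poly_cl`;   BP-256-RT-TAILADM: `rt_tailadm_*`.      Proofs go to own files BELOW this one (`Rt/Inst.lean`, `Rt/FloorCl.lean`, `Rt/TailAdm.lean`, importing Base, Gen, Geo, Ker) and are linked here.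
REMARKS ON TRUTH: header of `Rt/Contract.lean`.
-/

set_option autoImplicit false

namespace Claimed.Agent.R256

open MeasureTheory
open scoped ENNReal

/-! ## X1, X2 : the instances are tight -/

/-- **X2** (unit W1, `Rt/Wv1.lean`, architect helper282) -/
theorem rt_tight_wv (η : ℝ) (p : RdWvPar) : (p.sys η).Tight := rt_w1_tight p η

/-- **X2** -/
theorem rt_tight_cl (η : ℝ) (p : RdClPar) : (p.sys η).Tight := rt_in_tight_cl η p

/-! ## X3 : locality and back covering -/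

/-- the correspondence of the wave model: (cone-kernel) at the scales `d_{ℓ'}`, `q_ℓ`, `H` -/
def rtCnWv (p : RdWvPar) (Λ T : ℝ) (k : ℕ) (T' : ℝ) (k' : ℕ) (x x' : RdWvPar.Ph) : Prop :=
  RtNear Λ (rdD p.H k') (rdQ p.H k) p.H ((RdWvPar.co T x).flow (T' - T)) (RdWvPar.co T' x')

/-- the correspondence of the classical model: the same particle -/
def rtCnCl (p : RdClPar) (_Λ _T : ℝ) (_k : ℕ) (_T' : ℝ) (_k' : ℕ) (x x' : p.Om) : Prop := x = x'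

theorem rt_cn_eqns_cite : True := by
  have := @rtCnWv.eq_1
  have := @rtCnCl.eq_1
  trivial

/-- the correspondence of the wave model, written out (= `reCn` of `Re/Contract.lean`) -/
theorem rt_cn_wv_iff (p : RdWvPar) (Λ T : ℝ) (k : ℕ) (T' : ℝ) (k' : ℕ) (x x' : RdWvPar.Ph) :
    rtCnWv p Λ T k T' k' x x' ↔
      rtSq ((RdWvPar.co T' x').A - (RdWvPar.co T x).A) ≤ (Λ * rdD p.H k') ^ 2 ∧
      rtSq ((RdWvPar.co T' x').b - ((RdWvPar.co T x).flow (T' - T)).b) ≤ (Λ * rdQ p.H k) ^ 2 ∧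
      |(RdWvPar.co T' x').y - ((RdWvPar.co T x).flow (T' - T)).y
        - 2 * rtIp (RdWvPar.co T x).A ((RdWvPar.co T' x').b - ((RdWvPar.co T x).flow (T' - T)).b)| ≤ Λ * p.H := Iff.rfl

theorem rt_cn_wv_mono (p : RdWvPar) (Λ Λ' T : ℝ) (k : ℕ) (T' : ℝ) (k' : ℕ) (x x' : RdWvPar.Ph) (hΛ : Λ ≤ Λ')
    (h : rtCnWv p Λ T k T' k' x x') : rtCnWv p Λ' T k T' k' x x' := by
  obtain ⟨h1, h2, h3⟩ := h
  have hH := p.H_pos
  have h0 : 0 ≤ Λ := by
    have : 0 ≤ Λ * p.H := le_trans (abs_nonneg _) h3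
    by_contra hn
    have : Λ * p.H < 0 := mul_neg_of_neg_of_pos (not_le.1 hn) hH
    linarith
  have hd : 0 ≤ rdD p.H k' := Real.sqrt_nonneg _
  have hq : 0 ≤ rdQ p.H k := Real.sqrt_nonneg _
  refine ⟨h1.trans ?_, h2.trans ?_, h3.trans ?_⟩
  · exact pow_le_pow_left₀ (mul_nonneg h0 hd) (mul_le_mul_of_nonneg_right hΛ hd) 2
  · exact pow_le_pow_left₀ (mul_nonneg h0 hq) (mul_le_mul_of_nonneg_right hΛ hq) 2
  · exact mul_le_mul_of_nonneg_right hΛ hH.le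

/-- **X3, W2**, classical: exact -/
theorem rt_ker_cl (η : ℝ) (p : RdClPar) (T : ℝ) (k : ℕ) (T' : ℝ) (k' b b' : ℕ) (S S' : Set p.Om) (hS : MeasurableSet S)
    (hS' : MeasurableSet S') (hd : ∀ x ∈ S, ∀ x' ∈ S', ¬ x = x') (F : Lp p.Fb 2 p.m) :
    (p.sys η).ms T' k' b' S' (ContinuousLinearMap.adjoint ((p.sys η).An T k b) ((p.sys η).mulR k (S.indicator fun _ => 1) F)) = 0 :=
  rt_in_ker_cl η p T k T' k' b b' S S' hS hS' hd F

/-- **X3, G2** for the wave model, from `rt_G2` -/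
theorem rt_cov_wv (η : ℝ) (h0 : 0 < η) (h1 : η < 1) : ∃ Cg : ℝ, 0 < Cg ∧ ∀ (p : RdWvPar) (Λ : ℝ), 1 ≤ Λ →
    ∀ (T : ℝ) (k : ℕ) (T' : ℝ) (k' : ℕ), CutLe T k T' k' → ∀ Q : RdTst, (p.sys η).ok Q k' →
    ∃ (m : ℕ) (Qs : Fin m → RdTst), (∀ i, (p.sys η).ok (Qs i) k) ∧
      (∀ x x', x' ∈ (p.sys η).cell Q T' k' → rtCnWv p Λ T k T' k' x x' → ∃ i, x ∈ (p.sys η).cell (Qs i) T k) ∧
      ∑ i, (Qs i).wt η ≤ Cg * Λ ^ Cg * 2 ^ (-(1 * ((k' : ℝ) - k))) * Q.wt η :=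
  rt_in_cov_wv η h0 h1

/-- **X3, G2** for the classical model, from `rt_G2` with `D = 0` -/
theorem rt_cov_cl (η : ℝ) (h0 : 0 < η) (h1 : η < 1) : ∃ Cg : ℝ, 0 < Cg ∧ ∀ (p : RdClPar) (Λ : ℝ), 1 ≤ Λ →
    ∀ (T : ℝ) (k : ℕ) (T' : ℝ) (k' : ℕ), CutLe T k T' k' → ∀ Q : RdTst, (p.sys η).ok Q k' →
    ∃ (m : ℕ) (Qs : Fin m → RdTst), (∀ i, (p.sys η).ok (Qs i) k) ∧
      (∀ x, x ∈ (p.sys η).cell Q T' k' → ∃ i, x ∈ (p.sys η).cell (Qs i) T k) ∧
      ∑ i, (Qs i).wt η ≤ Cg * Λ ^ Cg * 2 ^ (-(1 * ((k' : ℝ) - k))) * Q.wt η :=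
  rt_in_cov_cl η h0 h1

/-- **X3** the locality structure of the wave model -/
noncomputable def rtLocWv (η : ℝ) (h0 : 0 < η) (h1 : η < 1) : (rndWav η).Loc 1 where
  cn := fun p => rtCnWv p
  Cl := 1 / 2
  Cg := (rt_cov_wv η h0 h1).choose
  CN := rt_k_main.choose
  cn_mono := fun p Λ Λ' T k T' k' x x' hΛ h => rt_cn_wv_mono p Λ Λ' T k T' k' x x' hΛ h
  ker := fun p _ bm N Λ hΛ T k T' k' b b' hc hb hb' S S' hS hS' hd F =>
    rt_k_main.choose_spec η p bm N Λ hΛ T k T' k' b b' hc hb hb' S S' hS hS' hd F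
  cov := fun p _ Λ hΛ T k T' k' hc Q hQ => (rt_cov_wv η h0 h1).choose_spec.2 p Λ hΛ T k T' k' hc Q hQ

/-- **X3** the locality structure of the classical model -/
noncomputable def rtLocCl (η : ℝ) (h0 : 0 < η) (h1 : η < 1) : (rndCl η).Loc 1 where
  cn := fun p => rtCnCl p
  Cl := 0
  Cg := (rt_cov_cl η h0 h1).choose
  CN := fun _ _ => 0
  cn_mono := fun _ _ _ _ _ _ _ _ _ _ h => h
  ker := fun p _ bm N Λ _ T k T' k' b b' _ _ _ S S' hS hS' hd F => by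
    have h := rt_ker_cl η p T k T' k' b b' S S' hS hS' hd F
    have h2 : ((rndCl η).sys p).ms T' k' b' S' (ContinuousLinearMap.adjoint (((rndCl η).sys p).An T k b)
        (((rndCl η).sys p).mulR k (S.indicator fun _ => 1) F)) = 0 := h
    rw [h2]
    positivity
  cov := fun p _ Λ hΛ T k T' k' hc Q hQ => by
    obtain ⟨m, Qs, a1, a2, a3⟩ := (rt_cov_cl η h0 h1).choose_spec.2 p Λ hΛ T k T' k' hc Q hQ
    refine ⟨m, Qs, a1, fun x x' hx' hc' => ?_, a3⟩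
    have : x = x' := hc'
    subst this
    exact a2 x hx'

theorem rt_loc_eqns_cite : True := by
  have := @rtLocWv.eq_1
  have := @rtLocCl.eq_1
  trivial

/-! ## X4 : the hypotheses of the generic theory -/

theorem rt_root_wv (η : ℝ) : (rndWav η).AdmRoot := rt_in_root_wv η

theorem rt_root_cl (η : ℝ) : (rndCl η).AdmRoot := rt_in_root_cl η

theorem rt_scale_wv (η : ℝ) : (rndWav η).AdmScale := rt_in_scale_wv η

theorem rt_scale_cl (η : ℝ) : (rndCl η).AdmScale := rt_in_scale_cl η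

/-- tail pieces: new frame `r' = (e'/κ')^{1/4}`, centre transported along the central ray; leakage by `rt_k_main` -/
theorem rt_tailadm_wv (η : ℝ) (_h0 : 0 < η) (_h1 : η < 1) : (rndWav η).TailAdm := rt_ta_main_wv η

theorem rt_tailadm_cl (η : ℝ) (_h0 : 0 < η) (_h1 : η < 1) : (rndCl η).TailAdm := rt_ta_main_cl η

/-- 07 l.192-206: phase density (Bernstein) bounds `mass / (e w)` by `s^-C r² f^η` -/
theorem rt_floor_wv (η : ℝ) (h0 : 0 < η) (h1 : η < 1) : (rndWav η).Floor := rt_in_floor_wv η h0 h1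

/-- 07 l.192-206, 08 l.66-118 (lem:rt-test-volume) -/
theorem rt_floor_cl (η : ℝ) (h0 : 0 < η) (h1 : η < 1) : (rndCl η).Floor := rt_fc_main η h0 h1

/-- **X4** -/
theorem rt_gen_wv (η : ℝ) (h0 : 0 < η) (h1 : η < 1) : (rndWav η).Gen 1 where
  g_pos := le_rfl
  tight := fun p _ => rt_tight_wv η p
  rep := gn_rep _ 1 (rtLocWv η h0 h1) (fun p _ => rt_tight_wv η p)
  sgl := gn_sgl _ 1 (rtLocWv η h0 h1) (fun p _ => rt_tight_wv η p)
  root := rt_root_wv η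
  scale := rt_scale_wv η
  tail := rt_tailadm_wv η h0 h1
  floor := rt_floor_wv η h0 h1

/-- **X4** -/
theorem rt_gen_cl (η : ℝ) (h0 : 0 < η) (h1 : η < 1) : (rndCl η).Gen 1 where
  g_pos := le_rfl
  tight := fun p _ => rt_tight_cl η p
  rep := gn_rep _ 1 (rtLocCl η h0 h1) (fun p _ => rt_tight_cl η p)
  sgl := gn_sgl _ 1 (rtLocCl η h0 h1) (fun p _ => rt_tight_cl η p)
  root := rt_root_cl η
  scale := rt_scale_cl η
  tail := rt_tailadm_cl η h0 h1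
  floor := rt_floor_cl η h0 h1

/-! ## heavy tests have polynomial width and thickness -/

/-- heavy tests at a polynomial floor have polynomial width and thickness (in units of `(e/κ)^{1/4}`); same hypotheses as `Mdl.Floor` -/
def RtPoly2 (M : Mdl) (tq : (p : M.Par) → (M.sys p).Tst → RdTst) : Prop :=
  ∀ C D : ℕ, ∃ D' A n0 : ℕ, ∀ (p : M.Par) (E : Xp (M.sys p)), n0 ≤ E.n → M.Cls C A p E →
    ∀ (k i b : ℕ) (st' : List (Stg (M.sys p))) (Q : (M.sys p).Tst), E.k0 ≤ k → k ≤ E.kf → ancI k E.k0 i = E.i0 → b ≤ C →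
      StOk E.k0 k C C st' → (M.sys p).ok Q k →
      E.s ^ (D : ℝ) * (E.ka * (M.sys p).wt Q) < (M.sys p).ms (tmL k i) k b ((M.sys p).cell Q (tmL k i) k) (Xp.run k i st' E.v) →
      E.s ^ (D' : ℝ) * E.e ≤ E.ka * (tq p Q).r ^ 4 ∧ E.ka * (tq p Q).r ^ 4 ≤ E.s ^ (-(D' : ℝ)) * E.e ∧ E.s ^ (D' : ℝ) ≤ (tq p Q).f

theorem rt_poly2_eqns_cite : True := by
  have := @RtPoly2.eq_1
  trivial

/-- waves: `r f ≥ d_k ≥ d_{k0} ≥ s^(C/2) r_φ`;  heavy gives `κ r⁴ f^(1-η) ≤ s^-D e`, hence `r^(3+η) ≤ s^-(D+2C) r_φ^(3+η)`;  then `f ≥ d_{k0}/r` -/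
theorem rt_poly_wv (η : ℝ) (h0 : 0 < η) (h1 : η < 1) : RtPoly2 (rndWav η) (fun _ Q => Q) := rt_in_poly_wv η h0 h1

/-- classical: the two volume bounds of `rt_floor_cl` (`mass ≤ s^-C e R⁶ f`, `mass ≤ s^-C' e f R`, `R = r_Q / r_φ`) -/
theorem rt_poly_cl (η : ℝ) (h0 : 0 < η) (h1 : η < 1) : RtPoly2 (rndCl η) (fun _ Q => Q) := rt_fc_poly η h0 h1

/-! ## X6 : the sup normalisation of the kernel -/

/-- **X6** (cone-kernel) with its normalisation `1/(q_ℓ² H)` against the row measures: Cauchy-Schwarz form.   `vol` = Lebesgue measure of `(A,b,y)`-sets.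
`|K| ≤ Cs/(q_ℓ² H)` w.r.t. `d_ℓ^{-2} dA db dy`, so  `ms(S') ≤ Cs² (q_ℓ² H)^{-2} ρ_{k'}(S') ρ_k(S) ‖F‖²`. -/
theorem rt_sup_wv : ∃ Cs : ℕ → ℝ, ∀ (η : ℝ) (p : RdWvPar) (bm : ℕ) (T : ℝ) (k : ℕ) (T' : ℝ) (k' b b' : ℕ), CutLe T k T' k' → b ≤ bm → b' ≤ bm →
    ∀ (S S' : Set RdWvPar.Ph), MeasurableSet S → MeasurableSet S' → volume S ≠ ⊤ → volume S' ≠ ⊤ → ∀ F : Lp ℂ 2 (p.rw k),
      (p.sys η).ms T' k' b' S' (ContinuousLinearMap.adjoint ((p.sys η).An T k b) ((p.sys η).mulR k (S.indicator fun _ => 1) F))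
        ≤ Cs bm * (rdQ p.H k ^ 2 * p.H)⁻¹ ^ 2 * (p.rw k' S').toReal * (p.rw k S).toReal * ‖F‖ ^ 2 :=
  rt_k_sup

/-! ## rates on marked labels -/

/-- the rate `γ` on FREE experiments all of whose labels satisfy the test predicate `Th p Q n` (`n` = relative length of the experiment) -/
def Mdl.RateOnT (M : Mdl) (Th : (p : M.Par) → (M.sys p).Tst → ℕ → Prop) (γ : ℝ) : Prop :=
  ∀ C : ℕ, ∃ A n0 : ℕ, ∀ (p : M.Par) (E : Xp (M.sys p)), n0 ≤ E.n → M.Cls C A p E → E.st = [] → (∀ l, Th p (E.ts l) E.n) →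
    E.val ≤ 2 ^ (γ * E.n)

theorem rt_rateon_eqns_cite : True := by
  have := @Mdl.RateOnT.eq_1
  trivial

end Claimed.Agent.R256
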