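-- KEEP
import Claimed.Agent.R256.Base.Cyl
import Claimed.Agent.R256.Rt.Mod
import Claimed.Agent.R256.Rt.ChartContract

/-!
# Row 256 (LS paper), folder Rt, file PatchDefs : DEFINITIONS OF THE HUB OF THE THIN FREE GAP          (chief helper216; split off `Rt/Patch.lean` by helper111, 14 Oct 22:50Z)

Sections 1-3 of the first version of `Rt/Patch.lean`, VERBATIM (+ the field `RtMd.Ok.H_lo`): the bundle `RtMd`, `RtMd.Ok`, the instances `rtMdWv`, `rtMdCl` (+ `rt_md_wv_ok`, `rt_md_cl_ok`), `rtNrm`, `rtLabCh`,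
patch data `RtPd`, `RtPd.Ok`, `RtMd.PatchRate`.      Documentation: header of `Rt/Patch.lean`.
RULE: the units (GROUP `Rt/Grp*`, PATCHCL, TRANSPORT ...) import THIS file, never `Rt/Patch.lean`; `Rt/Patch.lean` imports the units and links the exits.
-/

set_option autoImplicit false

namespace Claimed.Agent.R256

open MeasureTheory

/-! ## 1. The bundle -/

/-- a round-type model (data) -/
structure RtMd (η : ℝ) where
  M : Mdl
  L : M.Loc 1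
  /-- tests are `RdTst` -/
  tq : (p : M.Par) → (M.sys p).Tst → RdTst
  qt : (p : M.Par) → RdTst → (M.sys p).Tst
  /-- the phase point of a row at a time -/
  co : (p : M.Par) → ℝ → (M.sys p).X → RtRow
  /-- the Planck parameter (`0`: classical) -/
  H : M.Par → ℝ

/-- the properties of a round-type model -/
structure RtMd.Ok {η : ℝ} (Y : RtMd η) : Prop where
  gen : Y.M.Gen 1
  tq_qt : ∀ p Q, Y.tq p (Y.qt p Q) = Q
  H_nn : ∀ p, 0 ≤ Y.H p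
  co_meas : ∀ p, Y.M.gd p → ∀ T, Measurable fun x => ((Y.co p T x).A, (Y.co p T x).b, (Y.co p T x).y)
  cell_eq : ∀ p Q T k, (Y.M.sys p).cell Q T k = {x | Y.co p T x ∈ (Y.tq p Q).rows k}
  wt_eq : ∀ p Q, (Y.M.sys p).wt Q = (Y.tq p Q).wt η
  ok_iff : ∀ p Q k, (Y.M.sys p).ok Q k ↔ ((Y.tq p Q).toT k).Adm 1 ∧ rdD (Y.H p) k ≤ (Y.tq p Q).r * (Y.tq p Q).f
  cn_near : ∀ p Λ T k T' k' x x', Y.L.cn p Λ T k T' k' x x' →
    RtNear Λ (rdD (Y.H p) k') (rdQ (Y.H p) k) (Y.H p) ((Y.co p T x).flow (T' - T)) (Y.co p T' x')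
  poly : RtPoly2 Y.M Y.tq
  /-- the frame of the setup (support box up to `s^A e`, `e/κ ≈ r⁴`, Planck window) -/
  frame : ∀ (C A : ℕ) (p : Y.M.Par) (E : Xp (Y.M.sys p)), Y.M.adm C A p E → ∃ φ : RdFrm, RdSet (Y.M.sys p) (Y.co p) False C A E φ ∧
    (Y.H p = 0 ∨ (E.s ^ (C : ℝ) ≤ Y.H p / (rdLen E.k0 * φ.r ^ 2) ∧ Y.H p / (rdLen E.k0 * φ.r ^ 2) ≤ E.s ^ (-(C : ℝ))))
  /-- the Planck parameter is polynomial in the units of the class (waves), or zero (classical) -/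
  H_lo : ∀ (C A : ℕ) (p : Y.M.Par) (E : Xp (Y.M.sys p)), Y.M.Cls C A p E →
    Y.H p = 0 ∨ E.s ^ (3 * (C : ℝ)) * E.e ≤ E.ka * (Y.H p / rdLen E.k0) ^ 2

/-- the round wave model as a round-type model -/
noncomputable def rtMdWv (η : ℝ) (h0 : 0 < η) (h1 : η < 1) : RtMd η where
  M := rndWav η
  L := rtLocWv η h0 h1
  tq := fun _ Q => Q
  qt := fun _ Q => Q
  co := fun _ T x => RdWvPar.co T x
  H := fun p => RdWvPar.H p

/-- the classical round model as a round-type model -/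
noncomputable def rtMdCl (η : ℝ) (h0 : 0 < η) (h1 : η < 1) : RtMd η where
  M := rndCl η
  L := rtLocCl η h0 h1
  tq := fun _ Q => Q
  qt := fun _ Q => Q
  co := fun p T x => RdClPar.co p T x
  H := fun _ => 0

/-! ## 2. Patch data -/

/-- the centre of a frame -/
def RdFrm.cen (ψ : RdFrm) : RtRow := ⟨ψ.As, ψ.bs, ψ.ys⟩

/-- the centre of a test -/
def RdTst.cen (Q : RdTst) : RtRow := ⟨Q.As, Q.bs, Q.ys⟩

/-- the normalising chart: centre `c`, length `l`, width `r` -/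
noncomputable def rtNrm (l r : ℝ) (c : RtRow) : RtCh := (rtChSc l r).comp (rtChCen c)

/-- the normalising chart of a test of the cut `(T, k)`, on events whose time is counted from `T0` -/
noncomputable def rtLabCh (T0 : ℝ) (k : ℕ) (T : ℝ) (Q : RdTst) : RtCh := (rtNrm (rdLen k) Q.r Q.cen).comp (rtChTr (T - T0))

/-- patch data -/
structure RtPd where
  ψ : RdFrm
  nL : RtPoly
  p0 : RtRow
  f : ℝ

namespace RtPd

variable (d : RtPd)

/-- the normalising chart of the frame at the root of `E` -/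
noncomputable def N {P : PkSys} (E : Xp P) : RtCh := rtNrm (rdLen E.k0) d.ψ.r d.ψ.cen

/-- the normalised rows of the patch: buffered patch of the chart, sublevels `fs` of the group polynomial -/
def In (Pp fs : ℝ) : Set RtRow :=
  {q | q ∈ rtBx d.p0 1 (rtChRho Pp / 2) ∧ |d.nL.F 0 q.b q.y| ≤ fs ∧ |d.nL.G 0 q.b q.y q.A| ≤ fs}

/-- the test `Q` read at `(T, k)` is connected to the group: its parent polynomial is within `fs` of `± nL` -/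
def Con (Nn : RtCh) (T0 : ℝ) (k : ℕ) (T : ℝ) (Q : RdTst) (fs : ℝ) : Prop :=
  ∃ m : RtPoly, (rtLabCh T0 k T Q).pol m = Q.n ∧
    ((RtPoly.comb 1 (Nn.pol m) (-1) d.nL).Bd fs ∨ (RtPoly.comb 1 (Nn.pol m) 1 d.nL).Bd fs)

/-- **patch data of the free experiment `E`**, package `C`, tail order `A`, group exponent `D1`, coefficient exponent `b0` -/
structure Ok {η : ℝ} (Y : RtMd η) (p : Y.M.Par) (E : Xp (Y.M.sys p)) (C A : ℕ) (D1 b0 : ℝ) : Prop where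
  r_pos : 0 < d.ψ.r
  f_lo : E.s ^ (C : ℝ) ≤ d.f
  disc : d.nL.disc = 1
  bd : d.nL.Bd (E.s ^ (-b0))
  chart : RtChartOk (E.s ^ (-b0)) d.nL d.p0
  root : (Y.M.sys p).ms (tmL E.k0 E.i0) E.k0 E.b0
    {x | (d.N E).row (Y.co p (tmL E.k0 E.i0) x) ∉ d.In (E.s ^ (-b0)) (E.s ^ (-D1) * d.f)} E.v ≤ E.s ^ (A : ℝ) * E.e
  e_hi : E.e ≤ E.s ^ (-(C : ℝ)) * (E.ka * d.ψ.r ^ 4 * (E.s ^ (-D1) * d.f) ^ (1 - η))
  e_lo : E.s ^ (C : ℝ) * (E.ka * d.ψ.r ^ 4) ≤ E.e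
  H_lo : Y.H p = 0 ∨ E.s ^ (C : ℝ) ≤ Y.H p / (rdLen E.k0 * d.ψ.r ^ 2)
  lab_r : ∀ l, d.ψ.r / 2 ≤ (Y.tq p (E.ts l)).r ∧ (Y.tq p (E.ts l)).r ≤ 2 * d.ψ.r
  lab_f : ∀ l, d.f / 2 ≤ (Y.tq p (E.ts l)).f ∧ (Y.tq p (E.ts l)).f ≤ d.f
  lab_n : ∀ l, d.Con (d.N E) (tmL E.k0 E.i0) E.kf (tmL E.kf (E.iv l)) (Y.tq p (E.ts l)) (E.s ^ (-D1) * d.f)

end RtPd

/-- **PATCH** with exponent `Γp` -/
def RtMd.PatchRate {η : ℝ} (Y : RtMd η) (Γp : ℝ) : Prop :=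
  ∀ γ D1 : ℝ, 0 < γ → 1 ≤ D1 → ∃ b1 : ℝ, 0 < b1 ∧ ∀ b0 : ℝ, 0 < b0 → b0 ≤ b1 → ∃ Z : ℝ, ∀ C : ℕ, ∃ A n0 : ℕ,
    ∀ (p : Y.M.Par) (E : Xp (Y.M.sys p)) (d : RtPd), n0 ≤ E.n → Y.M.Cls C A p E → E.st = [] → d.Ok Y p E C A D1 b0 → d.f ≤ E.s ^ Z →
      E.val ≤ 2 ^ ((Γp + γ) * E.n)

theorem rt_patch_eqns_cite : True := by
  have := @rtMdWv.eq_1
  have := @rtMdCl.eq_1
  have := @RdFrm.cen.eq_1
  have := @RdTst.cen.eq_1
  have := @rtNrm.eq_1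
  have := @rtLabCh.eq_1
  have := @RtPd.N.eq_1
  have := @RtPd.In.eq_1
  have := @RtPd.Con.eq_1
  have := @RtMd.PatchRate.eq_1
  trivial

/-! ## 3. The instances -/

/-- waves: `(H/ℓ₀)² ≥ s^(2C) r_φ⁴ ≥ s^(3C) e/κ` -/
theorem rt_md_wv_Hlo (η : ℝ) (C A : ℕ) (p : RdWvPar) (E : Xp (p.sys η)) (hE : (rndWav η).Cls C A p E) :
    E.s ^ (3 * (C : ℝ)) * E.e ≤ E.ka * (p.H / rdLen E.k0) ^ 2 := by
  obtain ⟨_, hV, _, _, φ, hS, hlo, _⟩ := hE
  have hs : 0 < E.s := by unfold Xp.s; positivity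
  have hl := rdLen_pos E.k0
  have hr := hS.r_pos
  have hk := hV.ka_pos
  have hsC : 0 < E.s ^ (C : ℝ) := Real.rpow_pos_of_pos hs _
  have h1 : E.s ^ (C : ℝ) * φ.r ^ 2 ≤ p.H / rdLen E.k0 := by
    rw [le_div_iff₀ (by positivity)] at hlo
    rw [le_div_iff₀ hl]
    nlinarith
  have h2 : (E.s ^ (C : ℝ) * φ.r ^ 2) ^ 2 ≤ (p.H / rdLen E.k0) ^ 2 := pow_le_pow_left₀ (by positivity) h1 2
  have h3 : E.s ^ (C : ℝ) * E.e ≤ E.ka * φ.r ^ 4 := by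
    have := mul_le_mul_of_nonneg_left hS.ek_hi hsC.le
    rw [← mul_assoc, ← Real.rpow_add hs] at this
    simpa using this
  have h4 : E.s ^ (3 * (C : ℝ)) = E.s ^ (C : ℝ) * E.s ^ (C : ℝ) * E.s ^ (C : ℝ) := by
    rw [← Real.rpow_add hs, ← Real.rpow_add hs]
    congr 1
    ring
  calc E.s ^ (3 * (C : ℝ)) * E.e = E.s ^ (C : ℝ) * E.s ^ (C : ℝ) * (E.s ^ (C : ℝ) * E.e) := by rw [h4]; ring
    _ ≤ E.s ^ (C : ℝ) * E.s ^ (C : ℝ) * (E.ka * φ.r ^ 4) := mul_le_mul_of_nonneg_left h3 (by positivity)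
    _ = E.ka * (E.s ^ (C : ℝ) * φ.r ^ 2) ^ 2 := by ring
    _ ≤ E.ka * (p.H / rdLen E.k0) ^ 2 := mul_le_mul_of_nonneg_left h2 hk.le

theorem rt_md_wv_ok (η : ℝ) (h0 : 0 < η) (h1 : η < 1) : (rtMdWv η h0 h1).Ok where
  gen := rt_gen_wv η h0 h1
  tq_qt := fun _ _ => rfl
  H_nn := fun p => (RdWvPar.H_pos p).le
  co_meas := fun _ _ _ => measurable_id
  cell_eq := fun _ _ _ _ => rfl
  wt_eq := fun _ _ => rfl
  ok_iff := fun _ _ _ => Iff.rfl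
  cn_near := fun _ _ _ _ _ _ _ _ h => h
  poly := rt_poly_wv η h0 h1
  frame := fun _ _ _ _ h => by
    obtain ⟨φ, h1, h2, h3⟩ := h
    exact ⟨φ, h1, Or.inr ⟨h2, h3⟩⟩
  H_lo := fun C A p E hE => Or.inr (rt_md_wv_Hlo η C A p E hE)

theorem rt_md_cl_meas (p : RdClPar) (T : ℝ) : Measurable fun x => ((p.co T x).A, (p.co T x).b, (p.co T x).y) := by
  have hA : Measurable p.A := p.mA
  have hB : Measurable p.B := p.mB
  have hY : Measurable p.Y := p.mY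
  have hq : Measurable fun ω => rtSq (p.A ω) := by
    unfold rtSq
    exact (hA.fst.pow_const 2).add (hA.snd.pow_const 2)
  exact hA.prodMk ((hB.add (hA.const_smul T)).prodMk (hY.add (hq.const_mul T)))

theorem rt_md_cl_ok (η : ℝ) (h0 : 0 < η) (h1 : η < 1) : (rtMdCl η h0 h1).Ok where
  gen := rt_gen_cl η h0 h1
  tq_qt := fun _ _ => rfl
  H_nn := fun _ => le_rfl
  co_meas := fun p _ T => rt_md_cl_meas p T
  cell_eq := fun _ _ _ _ => rfl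
  wt_eq := fun _ _ => rfl
  ok_iff := fun p Q k => by
    refine ⟨fun h => ⟨h, ?_⟩, fun h => h.1⟩
    have h' : (RdTst.toT Q k).Adm 1 := h
    have e : rdD 0 k = 0 := by simp [rdD]
    show rdD 0 k ≤ RdTst.r Q * RdTst.f Q
    rw [e]
    exact (mul_pos h'.r_pos h'.f_pos).le
  cn_near := fun p Λ T k T' k' x x' h => by
    have h' : x = x' := h
    subst h'
    have e : (RdClPar.co p T x).flow (T' - T) = RdClPar.co p T' x := by
      simp only [RdClPar.co, RtRow.flow]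
      ext <;> simp <;> ring
    show RtNear Λ (rdD 0 k') (rdQ 0 k) 0 ((RdClPar.co p T x).flow (T' - T)) (RdClPar.co p T' x)
    rw [e]
    simp [RtNear, rtSq, rtIp, rdD, rdQ]
  poly := rt_poly_cl η h0 h1
  frame := fun _ _ _ _ h => by
    obtain ⟨φ, h1⟩ := h
    exact ⟨φ, ⟨h1.r_pos, h1.ek_lo, h1.ek_hi, h1.tail, fun hf => hf.elim, fun hf => hf.elim⟩, Or.inl rfl⟩
  H_lo := fun _ _ _ _ _ => Or.inl rfl

end Claimed.Agent.R256
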