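import Claimed.Agent.R256.Rt.PatchDefs
import Claimed.Agent.R256.Gen.Tot

/-!
# Row 256, folder Rt, unit GROUP, block GR-HOM = T0 LIGHT + T1 POLY + T2 PIGEON of `rt_group`      (architect helper299 for helper216/helper111; prefix `rt_gh_`)      07 l.446-470

EXIT `rt_gh_main`: a free experiment of the class is dominated by `(D' n + 1)²` HOMOGENEOUS selections of its labels (`RtHom`: all labels heavy, one dyadic class of widths and of thicknesses, polynomial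
width / thickness / number of labels), up to the additive error `1` (light labels: `val ≤ s^(1/2)`).
 T0 LIGHT   `m < s⁴ κ w`:  `Σ m^(3/2) w^(-1/2) ≤ s² √κ Σ m ≤ s √κ e` (`gn_total`)                                        `rt_gh_light`
 T1 POLY    heavy labels: `RtMd.Ok.poly` with `D = 5` (strict inequality: `s⁵ < s⁴`), `f ≤ 1`, `0 < r` from `ok_iff`          `rt_gh_poly`
 T2 PIGEON  `r_l ∈ [2^-N a, a]`, `κ a⁴ = s^-D e`, `f_l ∈ [2^-N, 1]`, `N = D n`: classes `(j₁, j₂) ∈ [0,N]²`; `val` is additive   `rt_gh_dyad`, `rt_gh_rng`, `rt_gh_part`, `rt_gh_hom`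
EVERY LEAF IS PAPER FREE.   Prove in place, edit only your block, helper lemmas directly above it.
-/

set_option autoImplicit false

namespace Claimed.Agent.R256

open MeasureTheory

/-- **homogeneous labels**: heavy, one dyadic class `(r, f)`, polynomial data with the exponent `D'` -/
structure RtHom {η : ℝ} (Y : RtMd η) (p : Y.M.Par) (E : Xp (Y.M.sys p)) (D' : ℕ) (r f : ℝ) : Prop where
  heavy : ∀ l, E.s ^ (4 : ℝ) * (E.ka * E.w l) ≤ E.m l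
  lab_r : ∀ l, r / 2 < (Y.tq p (E.ts l)).r ∧ (Y.tq p (E.ts l)).r ≤ r
  lab_f : ∀ l, f / 2 < (Y.tq p (E.ts l)).f ∧ (Y.tq p (E.ts l)).f ≤ f
  r_pos : 0 < r
  r_lo : E.s ^ (D' : ℝ) * E.e ≤ E.ka * r ^ 4
  r_hi : E.ka * r ^ 4 ≤ E.s ^ (-(D' : ℝ)) * E.e
  f_lo : E.s ^ (D' : ℝ) ≤ f
  f_hi : f ≤ 1
  cnt : (E.L : ℝ) ≤ E.s ^ (-(D' : ℝ))

theorem rt_gh_s_nat {P : PkSys} (E : Xp P) (D : ℕ) : E.s ^ (D : ℝ) = (2 : ℝ)⁻¹ ^ (D * E.n) := by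
  rw [Real.rpow_natCast]
  unfold Xp.s
  rw [← pow_mul, mul_comm]

/-- **(H1) LIGHT.**   `gn_pick_sel_val`;  `tr l ≤ sqrt (s⁴ κ) m l` (`gn_tr_le` with `ρ = s⁴ κ`);  `Σ_{l ∈ S} m l ≤ E.tm ≤ 2^n e` (`Finset.sum_le_univ_sum_of_nonneg`, `gn_m_nonneg'`, `gn_total`; `E.tm = Σ_l m l` by `rfl`);
`sqrt (s⁴ κ) = s² sqrt κ`;   `2^(n/2) s² 2^n = 2^(-n/2) ≤ 1` (`gn_s_rpow`, `Real.rpow_natCast`).   ~70 l. -/
theorem rt_gh_light {P : PkSys} (hT : P.Tight) (E : Xp P) (hE : E.Valid) (S : Finset (Fin E.L))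
    (hS : ∀ l ∈ S, E.m l ≤ E.s ^ (4 : ℝ) * (E.ka * E.w l)) : (E.pick (E.sel S)).val ≤ 1 := by
  rw [gn_pick_sel_val]
  have he := hE.e_pos
  have hk := hE.ka_pos
  have hsk : 0 < Real.sqrt E.ka := Real.sqrt_pos.2 hk
  have hs0 := gn_s_pos E
  have h1 : ∀ l ∈ S, E.tr l ≤ Real.sqrt (E.s ^ (4 : ℝ) * E.ka) * E.m l := fun l hl =>
    gn_tr_le E hE l (by rw [mul_assoc]; exact hS l hl)
  have h2 : ∑ l ∈ S, E.m l ≤ 2 ^ E.n * E.e :=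
    (Finset.sum_le_univ_sum_of_nonneg (fun l => gn_m_nonneg' E hE l)).trans (gn_total hT E hE)
  have h3 : Real.sqrt (E.s ^ (4 : ℝ) * E.ka) = E.s ^ (2 : ℝ) * Real.sqrt E.ka := by
    rw [Real.sqrt_mul (Real.rpow_nonneg hs0.le _)]
    congr 1
    rw [Real.sqrt_eq_rpow, ← Real.rpow_mul hs0.le]
    norm_num
  have h4 : ∑ l ∈ S, E.tr l ≤ E.s ^ (2 : ℝ) * Real.sqrt E.ka * (2 ^ E.n * E.e) := by
    calc ∑ l ∈ S, E.tr l ≤ ∑ l ∈ S, Real.sqrt (E.s ^ (4 : ℝ) * E.ka) * E.m l := Finset.sum_le_sum h1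
      _ = E.s ^ (2 : ℝ) * Real.sqrt E.ka * ∑ l ∈ S, E.m l := by rw [← Finset.mul_sum, h3]
      _ ≤ E.s ^ (2 : ℝ) * Real.sqrt E.ka * (2 ^ E.n * E.e) := by
        refine mul_le_mul_of_nonneg_left h2 ?_
        have := Real.rpow_nonneg hs0.le (2 : ℝ)
        positivity
  have h5 : (0 : ℝ) ≤ 2 ^ ((E.n : ℝ) / 2) / (E.e * Real.sqrt E.ka) := by positivity
  refine (mul_le_mul_of_nonneg_left h4 h5).trans ?_
  have h6 : (2 : ℝ) ^ ((E.n : ℝ) / 2) / (E.e * Real.sqrt E.ka) * (E.s ^ (2 : ℝ) * Real.sqrt E.ka * (2 ^ E.n * E.e))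
      = 2 ^ ((E.n : ℝ) / 2) * E.s ^ (2 : ℝ) * 2 ^ E.n := by
    field_simp
  rw [h6, gn_s_rpow, ← Real.rpow_natCast, ← Real.rpow_add (by norm_num), ← Real.rpow_add (by norm_num)]
  refine Real.rpow_le_one_of_one_le_of_nonpos (by norm_num) ?_
  have : (0 : ℝ) ≤ E.n := Nat.cast_nonneg _
  linarith

/-- **(H2) POLY.**   `hY.poly C 5` gives `(D, A, n0)`; take `max n0 1`.   For a heavy label: `k = kf`, `i = iv l`, `b = bT ≤ C` (`hE.2.2.2.1 : GenLe C`), `st' = []` (`StOk` trivial; `Xp.run _ _ [] v = v`, `E.fin i = run kf i E.st v`, `E.st = []`),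
`hV.iv_in`, `hV.ts_ok`;   `s⁵ κ w < s⁴ κ w ≤ m l ≤ ms cell` (`s < 1` as `n ≥ 1`, `hV.ka_pos`, `hV.w_pos`, `gn_m_le_ms (hY.gen.tight p hE.1)`; `E.w l = wt (ts l)` by `rfl`).
`f ≤ 1`, `0 < r`: `(hY.ok_iff p _ _).1 (hV.ts_ok l)` and `RtTest.Adm.f_le`, `.r_pos`.   ~80 l. -/
theorem rt_gh_poly {η : ℝ} (Y : RtMd η) (hY : Y.Ok) (C : ℕ) : ∃ D A n0 : ℕ, ∀ (p : Y.M.Par) (E : Xp (Y.M.sys p)), n0 ≤ E.n → Y.M.Cls C A p E → E.st = [] →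
    ∀ l, E.s ^ (4 : ℝ) * (E.ka * E.w l) ≤ E.m l →
      E.s ^ (D : ℝ) * E.e ≤ E.ka * (Y.tq p (E.ts l)).r ^ 4 ∧ E.ka * (Y.tq p (E.ts l)).r ^ 4 ≤ E.s ^ (-(D : ℝ)) * E.e ∧
        E.s ^ (D : ℝ) ≤ (Y.tq p (E.ts l)).f ∧ (Y.tq p (E.ts l)).f ≤ 1 ∧ 0 < (Y.tq p (E.ts l)).r := by
  obtain ⟨D, A, n0, H⟩ := hY.poly C 5
  refine ⟨D, A, max n0 1, fun p E hn hE hst l hl => ?_⟩
  have hV := hE.2.1
  have hT := hY.gen.tight p hE.1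
  have hs0 := gn_s_pos E
  have hn1 : 1 ≤ E.n := (le_max_right _ _).trans hn
  have hs1 : E.s < 1 := by
    unfold Xp.s
    exact pow_lt_one₀ (by norm_num) (by norm_num) (by omega)
  have hkw : 0 < E.ka * E.w l := mul_pos hV.ka_pos (hV.w_pos l)
  have hfin : E.fin (E.iv l) = Xp.run E.kf (E.iv l) [] E.v := by
    unfold Xp.fin
    rw [hst]
  have hms := gn_m_le_ms hT E hV l
  rw [hfin] at hms
  have hlt : E.s ^ ((5 : ℕ) : ℝ) * (E.ka * (Y.M.sys p).wt (E.ts l)) <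
      (Y.M.sys p).ms (tmL E.kf (E.iv l)) E.kf E.bT ((Y.M.sys p).cell (E.ts l) (tmL E.kf (E.iv l)) E.kf) (Xp.run E.kf (E.iv l) [] E.v) := by
    refine lt_of_lt_of_le ?_ (hl.trans hms)
    refine mul_lt_mul_of_pos_right ?_ hkw
    exact Real.rpow_lt_rpow_of_exponent_gt hs0 hs1 (by norm_num)
  obtain ⟨a1, a2, a3⟩ := H p E ((le_max_left _ _).trans hn) hE E.kf (E.iv l) E.bT [] (E.ts l) (Nat.le_add_right _ _) le_rfl (hV.iv_in l) hE.2.2.2.1.2.1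
    ⟨Nat.zero_le _, fun σ hσ => absurd hσ (List.not_mem_nil), List.Pairwise.nil, fun σ hσ => absurd hσ (List.not_mem_nil), fun σ hσ => absurd hσ (List.not_mem_nil)⟩
    (hV.ts_ok l) hlt
  have hadm := ((hY.ok_iff p _ _).1 (hV.ts_ok l)).1
  exact ⟨a1, a2, a3, hadm.f_le, hadm.r_pos⟩

/-- **(H3) DYADIC CLASS.**   Induction on `N`, or `Nat.findGreatest (fun j => x ≤ 2⁻¹^j a) N`.   ~40 l. -/
theorem rt_gh_dyad (a x : ℝ) (N : ℕ) (ha : 0 < a) (h1 : (2 : ℝ)⁻¹ ^ N * a ≤ x) (h2 : x ≤ a) :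
    ∃ j ≤ N, (2 : ℝ)⁻¹ ^ j * a / 2 < x ∧ x ≤ (2 : ℝ)⁻¹ ^ j * a := by
  induction N with
  | zero =>
    refine ⟨0, le_rfl, ?_, ?_⟩
    · rw [pow_zero, one_mul] at h1 ⊢
      linarith
    · rw [pow_zero, one_mul]
      exact h2
  | succ N ih =>
    have hp : 0 < (2 : ℝ)⁻¹ ^ (N + 1) * a := by positivity
    by_cases hx : x ≤ (2 : ℝ)⁻¹ ^ (N + 1) * a
    · exact ⟨N + 1, le_rfl, by linarith, hx⟩
    · rw [not_le] at hx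
      by_cases hy : (2 : ℝ)⁻¹ ^ N * a ≤ x
      · obtain ⟨j, hj, r1, r2⟩ := ih hy
        exact ⟨j, Nat.le_succ_of_le hj, r1, r2⟩
      · rw [not_le] at hy
        refine ⟨N, Nat.le_succ N, ?_, hy.le⟩
        rw [pow_succ] at hx
        linarith

/-- **(H4) COUNT.**   `L c e ≤ Σ_l m l = E.tm ≤ 2^n e` (`Finset.sum_const`, `Finset.card_univ`, `Fintype.card_fin`, `gn_total`), divide by `c e > 0`.   ~30 l. -/
theorem rt_gh_count {P : PkSys} (hT : P.Tight) (E : Xp P) (hE : E.Valid) (c : ℝ) (hc : 0 < c) (h : ∀ l, c * E.e ≤ E.m l) : (E.L : ℝ) ≤ 2 ^ E.n / c := by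
  have he := hE.e_pos
  have h1 := gn_total hT E hE
  have h2 : ∑ _l : Fin E.L, c * E.e ≤ E.tm := Finset.sum_le_sum fun l _ => h l
  rw [Finset.sum_const, Finset.card_univ, Fintype.card_fin, nsmul_eq_mul] at h2
  rw [le_div_iff₀ hc]
  have h3 : (E.L : ℝ) * c * E.e ≤ 2 ^ E.n * E.e := by linarith
  exact le_of_mul_le_mul_right h3 he

/-- **(H5) PARTITION.**   `gn_val_split E S0`, `gn_pick_sel_val`, `Finset.mul_sum`, `Finset.sum_fiberwise_of_maps_to` on `S0ᶜ`.   ~30 l. -/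
theorem rt_gh_part {P : PkSys} (E : Xp P) {ι : Type} [DecidableEq ι] (J : Finset ι) (cls : Fin E.L → ι) (S0 : Finset (Fin E.L)) (h : ∀ l, l ∉ S0 → cls l ∈ J) :
    E.val = (E.pick (E.sel S0)).val + ∑ j ∈ J, (E.pick (E.sel (S0ᶜ.filter fun l => cls l = j))).val := by
  rw [gn_val_split E S0]
  congr 1
  simp only [gn_pick_sel_val]
  rw [← Finset.mul_sum, Finset.sum_fiberwise_of_maps_to (fun l hl => h l (Finset.mem_compl.1 hl))]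

/-- **(H6)** fourth root: `a = x^(1/4)` (`Real.rpow_natCast`, `← Real.rpow_mul`).   ~10 l. -/
theorem rt_gh_root4 (x : ℝ) (hx : 0 < x) : ∃ a : ℝ, 0 < a ∧ a ^ 4 = x := by
  refine ⟨x ^ ((1 : ℝ) / 4), Real.rpow_pos_of_pos hx _, ?_⟩
  rw [← Real.rpow_natCast, ← Real.rpow_mul hx.le]
  norm_num

/-- **(H7) RANGE OF THE WIDTHS.**   `κ r⁴ ≤ κ a⁴` gives `r ≤ a` (`pow_le_pow_iff_left₀`/`lt_of_pow_lt_pow_left₀`);   `κ (σ a)⁴ = σ⁴ σ⁻¹ e' ...`: with `σ = s^D ≤ 1`, `κ a⁴ = σ⁻¹ e`:  `κ (σ a)⁴ = σ³ e ≤ σ e ≤ κ r⁴`.   ~40 l. -/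
theorem rt_gh_rng (κ e σ a r : ℝ) (hκ : 0 < κ) (he : 0 < e) (hσ : 0 < σ) (hσ1 : σ ≤ 1) (ha : 0 < a) (hr : 0 < r) (hka : κ * a ^ 4 = σ⁻¹ * e)
    (h1 : σ * e ≤ κ * r ^ 4) (h2 : κ * r ^ 4 ≤ σ⁻¹ * e) : σ * a ≤ r ∧ r ≤ a := by
  constructor
  · have e1 : κ * (σ * a) ^ 4 = σ ^ 3 * e := by
      rw [mul_pow, mul_left_comm, hka]
      field_simp
    have e2 : σ ^ 3 ≤ σ := by
      calc σ ^ 3 ≤ σ ^ 1 := pow_le_pow_of_le_one hσ.le hσ1 (by norm_num)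
        _ = σ := pow_one σ
    have e3 : κ * (σ * a) ^ 4 ≤ κ * r ^ 4 := by
      rw [e1]
      exact (mul_le_mul_of_nonneg_right e2 he.le).trans h1
    exact (pow_le_pow_iff_left₀ (by positivity) hr.le (by norm_num)).1 (le_of_mul_le_mul_left e3 hκ)
  · rw [← hka] at h2
    exact (pow_le_pow_iff_left₀ hr.le ha.le (by norm_num)).1 (le_of_mul_le_mul_left h2 hκ)

/-- the mass of a heavy label with polynomial data -/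
theorem rt_gh_aux_mass {s κ e r f η m D : ℝ} (hs0 : 0 < s) (hs1 : s ≤ 1) (h0 : 0 < η) (h1 : η < 1) (hD : 0 ≤ D) (he : 0 < e)
    (hm : s ^ (4 : ℝ) * (κ * (r ^ 4 * f ^ (1 - η))) ≤ m) (hr : s ^ D * e ≤ κ * r ^ 4) (hf : s ^ D ≤ f) :
    s ^ (4 + 2 * D) * e ≤ m := by
  have hsD : 0 < s ^ D := Real.rpow_pos_of_pos hs0 _
  have hsD1 : s ^ D ≤ 1 := Real.rpow_le_one hs0.le hs1 hD
  have a1 : s ^ D ≤ f ^ (1 - η) := by
    calc s ^ D = (s ^ D) ^ (1 : ℝ) := (Real.rpow_one _).symm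
      _ ≤ (s ^ D) ^ (1 - η) := Real.rpow_le_rpow_of_exponent_ge hsD hsD1 (by linarith)
      _ ≤ f ^ (1 - η) := Real.rpow_le_rpow hsD.le hf (by linarith)
  have a2 : s ^ D * e * s ^ D ≤ κ * r ^ 4 * f ^ (1 - η) := mul_le_mul hr a1 hsD.le (le_trans (by positivity) hr)
  have a3 : s ^ (4 + 2 * D) * e = s ^ (4 : ℝ) * (s ^ D * e * s ^ D) := by
    rw [show (4 : ℝ) + 2 * D = 4 + D + D by ring, Real.rpow_add hs0, Real.rpow_add hs0]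
    ring
  rw [a3]
  refine le_trans (mul_le_mul_of_nonneg_left a2 (Real.rpow_nonneg hs0.le _)) (le_of_eq_of_le ?_ hm)
  ring

/-- **(H8) A CLASS IS HOMOGENEOUS.**   Labels of `E.pick (E.sel S)` are `E.sel S l ∈ S` (`gn_sel_mem`); `m`, `w`, `ts`, `s`, `e`, `ka` of the pick unfold by `rfl`.   Pick `l₀ ∈ S`.
`r_lo`: `κ r⁴ ≥ κ r_{l₀}⁴ ≥ s^D e ≥ s^(2D+5) e`;   `r_hi`: `κ (2⁻¹^j₁ a)⁴ ≤ κ a⁴ = s^-D e ≤ s^-(2D+5) e`;   `f_lo`: `f ≥ f_{l₀} ≥ s^D`;   `f_hi`: `2⁻¹^j₂ ≤ 1`  (`gn_s_anti`, `gn_s_le_one`).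
`cnt`: `rt_gh_count` for the pick (`gn_pick_valid`, `gn_sel_inj`) with `c = s^(4+2D)`:  `m l ≥ s⁴ κ r_l⁴ f_l^(1-η) ≥ s⁴ s^D e (s^D)^(1-η) ≥ s^(4+2D) e`  (`E.w l = (tq (ts l)).wt η` by `hY.wt_eq`, `RdTst.wt`; `(s^D)^(1-η) ≥ s^D` as `s^D ≤ 1`, `1-η ≤ 1`:
`Real.rpow_le_rpow_of_exponent_ge`);   `2^n / s^(4+2D) = s^-(2D+5)`.   ~170 l. -/
theorem rt_gh_hom {η : ℝ} (h0 : 0 < η) (h1 : η < 1) (Y : RtMd η) (hY : Y.Ok) (p : Y.M.Par) (hp : Y.M.gd p) (E : Xp (Y.M.sys p)) (hE : E.Valid) (D : ℕ)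
    (S : Finset (Fin E.L)) (hne : S.Nonempty) (a : ℝ) (ha : 0 < a) (hka : E.ka * a ^ 4 = E.s ^ (-(D : ℝ)) * E.e) (j1 j2 : ℕ)
    (hv : ∀ l ∈ S, E.s ^ (4 : ℝ) * (E.ka * E.w l) ≤ E.m l)
    (hlo : ∀ l ∈ S, E.s ^ (D : ℝ) * E.e ≤ E.ka * (Y.tq p (E.ts l)).r ^ 4 ∧ E.s ^ (D : ℝ) ≤ (Y.tq p (E.ts l)).f)
    (hr : ∀ l ∈ S, (2 : ℝ)⁻¹ ^ j1 * a / 2 < (Y.tq p (E.ts l)).r ∧ (Y.tq p (E.ts l)).r ≤ (2 : ℝ)⁻¹ ^ j1 * a)
    (hf : ∀ l ∈ S, (2 : ℝ)⁻¹ ^ j2 * 1 / 2 < (Y.tq p (E.ts l)).f ∧ (Y.tq p (E.ts l)).f ≤ (2 : ℝ)⁻¹ ^ j2 * 1) :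
    RtHom Y p (E.pick (E.sel S)) (2 * D + 5) ((2 : ℝ)⁻¹ ^ j1 * a) ((2 : ℝ)⁻¹ ^ j2 * 1) := by
  obtain ⟨l₀, hl₀⟩ := hne
  have hs0 := gn_s_pos E
  have hs1 := gn_s_le_one E
  have he := hE.e_pos
  have hk := hE.ka_pos
  have hT := hY.gen.tight p hp
  have hrp : 0 < (2 : ℝ)⁻¹ ^ j1 * a := by positivity
  have hDD : (D : ℝ) ≤ ((2 * D + 5 : ℕ) : ℝ) := by
    push_cast
    have : (0 : ℝ) ≤ D := Nat.cast_nonneg _
    linarith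
  have hp1 : (2 : ℝ)⁻¹ ^ j1 ≤ 1 := pow_le_one₀ (by norm_num) (by norm_num)
  have hp2 : (2 : ℝ)⁻¹ ^ j2 ≤ 1 := pow_le_one₀ (by norm_num) (by norm_num)
  have hmem := gn_sel_mem E S
  refine ⟨fun l => ?_, fun l => hr _ (hmem l), fun l => hf _ (hmem l), hrp, ?_, ?_, ?_, ?_, ?_⟩
  · rw [(gn_pick_m E (E.sel S) l).1, (gn_pick_m E (E.sel S) l).2]
    exact hv _ (hmem l)
  · show E.s ^ ((2 * D + 5 : ℕ) : ℝ) * E.e ≤ E.ka * ((2 : ℝ)⁻¹ ^ j1 * a) ^ 4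
    have b1 := (hlo l₀ hl₀).1
    have b2 := hr l₀ hl₀
    have b3 : (Y.tq p (E.ts l₀)).r ^ 4 ≤ ((2 : ℝ)⁻¹ ^ j1 * a) ^ 4 := pow_le_pow_left₀ (by linarith [b2.1]) b2.2 4
    calc E.s ^ ((2 * D + 5 : ℕ) : ℝ) * E.e ≤ E.s ^ (D : ℝ) * E.e := mul_le_mul_of_nonneg_right (gn_s_anti E hDD) he.le
      _ ≤ E.ka * (Y.tq p (E.ts l₀)).r ^ 4 := b1
      _ ≤ _ := mul_le_mul_of_nonneg_left b3 hk.le
  · show E.ka * ((2 : ℝ)⁻¹ ^ j1 * a) ^ 4 ≤ E.s ^ (-((2 * D + 5 : ℕ) : ℝ)) * E.e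
    have b3 : ((2 : ℝ)⁻¹ ^ j1 * a) ^ 4 ≤ a ^ 4 := pow_le_pow_left₀ hrp.le (mul_le_of_le_one_left ha.le hp1) 4
    calc E.ka * ((2 : ℝ)⁻¹ ^ j1 * a) ^ 4 ≤ E.ka * a ^ 4 := mul_le_mul_of_nonneg_left b3 hk.le
      _ = E.s ^ (-(D : ℝ)) * E.e := hka
      _ ≤ _ := mul_le_mul_of_nonneg_right (gn_s_anti E (by linarith)) he.le
  · show E.s ^ ((2 * D + 5 : ℕ) : ℝ) ≤ (2 : ℝ)⁻¹ ^ j2 * 1
    exact (gn_s_anti E hDD).trans ((hlo l₀ hl₀).2.trans (hf l₀ hl₀).2)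
  · rw [mul_one]
    exact hp2
  · have hc : 0 < E.s ^ (4 + 2 * (D : ℝ)) := Real.rpow_pos_of_pos hs0 _
    have hcnt := rt_gh_count hT (E.pick (E.sel S)) (gn_pick_valid E hE _ (gn_sel_inj E S)) (E.s ^ (4 + 2 * (D : ℝ))) hc (fun l => by
      rw [(gn_pick_m E (E.sel S) l).1]
      show E.s ^ (4 + 2 * (D : ℝ)) * E.e ≤ E.m (E.sel S l)
      have c1 := hv _ (hmem l)
      have c2 : E.w (E.sel S l) = (Y.tq p (E.ts (E.sel S l))).r ^ 4 * (Y.tq p (E.ts (E.sel S l))).f ^ (1 - η) := hY.wt_eq p _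
      rw [c2] at c1
      exact rt_gh_aux_mass hs0 hs1 h0 h1 (Nat.cast_nonneg _) he c1 (hlo _ (hmem l)).1 (hlo _ (hmem l)).2)
    refine hcnt.trans (le_of_eq ?_)
    show (2 : ℝ) ^ E.n / E.s ^ (4 + 2 * (D : ℝ)) = E.s ^ (-((2 * D + 5 : ℕ) : ℝ))
    rw [gn_s_rpow, gn_s_rpow, ← Real.rpow_natCast, ← Real.rpow_sub (by norm_num)]
    congr 1
    push_cast
    ring

/-- **EXIT OF GR-HOM** (T0-T2 of `rt_group`) -/
theorem rt_gh_main {η : ℝ} (h0 : 0 < η) (h1 : η < 1) (Y : RtMd η) (hY : Y.Ok) (C : ℕ) : ∃ D' A n0 : ℕ, ∀ (p : Y.M.Par) (E : Xp (Y.M.sys p)) (V : ℝ),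
    n0 ≤ E.n → Y.M.Cls C A p E → E.st = [] → 0 ≤ V →
    (∀ (L' : ℕ) (φ : Fin L' → Fin E.L) (r f : ℝ), Function.Injective φ → RtHom Y p (E.pick φ) D' r f → (E.pick φ).val ≤ V) →
    E.val ≤ ((D' : ℝ) * E.n + 1) ^ 2 * V + 1 := by
  classical
  obtain ⟨D, A, n0, H⟩ := rt_gh_poly Y hY C
  refine ⟨2 * D + 5, A, n0, fun p E V hn hE hst hV hyp => ?_⟩
  have hgd := hE.1
  have hVal := hE.2.1
  have hT := hY.gen.tight p hgd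
  have hs0 := gn_s_pos E
  have he := hVal.e_pos
  have hk := hVal.ka_pos
  have hsD : 0 < E.s ^ (D : ℝ) := Real.rpow_pos_of_pos hs0 _
  have hsD1 : E.s ^ (D : ℝ) ≤ 1 := Real.rpow_le_one hs0.le (gn_s_le_one E) (Nat.cast_nonneg _)
  have hsDi : E.s ^ (-(D : ℝ)) = (E.s ^ (D : ℝ))⁻¹ := Real.rpow_neg hs0.le _
  obtain ⟨a, ha, ha4⟩ := rt_gh_root4 (E.s ^ (-(D : ℝ)) * E.e / E.ka) (by
    have : 0 < E.s ^ (-(D : ℝ)) := Real.rpow_pos_of_pos hs0 _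
    positivity)
  have hka : E.ka * a ^ 4 = E.s ^ (-(D : ℝ)) * E.e := by
    rw [ha4]
    field_simp
  obtain ⟨S0, hS0⟩ : ∃ S0 : Finset (Fin E.L), S0 = Finset.univ.filter fun l => E.m l < E.s ^ (4 : ℝ) * (E.ka * E.w l) := ⟨_, rfl⟩
  have hheavy : ∀ l, l ∉ S0 → E.s ^ (4 : ℝ) * (E.ka * E.w l) ≤ E.m l := by
    intro l hl
    rw [hS0, Finset.mem_filter, not_and, not_lt] at hl
    exact hl (Finset.mem_univ l)
  have hcl : ∀ l, ∃ j : ℕ × ℕ, l ∉ S0 → j.1 ≤ D * E.n ∧ j.2 ≤ D * E.n ∧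
      ((2 : ℝ)⁻¹ ^ j.1 * a / 2 < (Y.tq p (E.ts l)).r ∧ (Y.tq p (E.ts l)).r ≤ (2 : ℝ)⁻¹ ^ j.1 * a) ∧
      ((2 : ℝ)⁻¹ ^ j.2 * 1 / 2 < (Y.tq p (E.ts l)).f ∧ (Y.tq p (E.ts l)).f ≤ (2 : ℝ)⁻¹ ^ j.2 * 1) := by
    intro l
    by_cases hl : l ∈ S0
    · exact ⟨(0, 0), fun h => absurd hl h⟩
    · obtain ⟨p1, p2, p3, p4, p5⟩ := H p E hn hE hst l (hheavy l hl)
      rw [hsDi] at p2
      obtain ⟨q1, q2⟩ := rt_gh_rng E.ka E.e (E.s ^ (D : ℝ)) a _ hk he hsD hsD1 ha p5 (by rw [hka, hsDi]) p1 p2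
      rw [rt_gh_s_nat] at q1 p3
      obtain ⟨j1, hj1, r1, r2⟩ := rt_gh_dyad a _ (D * E.n) ha q1 q2
      obtain ⟨j2, hj2, f1, f2⟩ := rt_gh_dyad 1 _ (D * E.n) one_pos (by rw [mul_one]; exact p3) p4
      exact ⟨(j1, j2), fun _ => ⟨hj1, hj2, ⟨r1, r2⟩, ⟨f1, f2⟩⟩⟩
  choose cls hcls using hcl
  have part := rt_gh_part E (Finset.range (D * E.n + 1) ×ˢ Finset.range (D * E.n + 1)) cls S0 (fun l hl => by
    obtain ⟨c1, c2, -, -⟩ := hcls l hl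
    exact Finset.mem_product.2 ⟨Finset.mem_range.2 (Nat.lt_succ_of_le c1), Finset.mem_range.2 (Nat.lt_succ_of_le c2)⟩)
  have l1 := rt_gh_light hT E hVal S0 (fun l hl => by
    rw [hS0] at hl
    exact (Finset.mem_filter.1 hl).2.le)
  have l2 : ∀ j ∈ Finset.range (D * E.n + 1) ×ˢ Finset.range (D * E.n + 1), (E.pick (E.sel (S0ᶜ.filter fun l => cls l = j))).val ≤ V := by
    intro j _
    by_cases hne : (S0ᶜ.filter fun l => cls l = j).Nonempty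
    · have hm : ∀ l ∈ S0ᶜ.filter (fun l => cls l = j), l ∉ S0 ∧ cls l = j := fun l hl =>
        ⟨Finset.mem_compl.1 (Finset.mem_filter.1 hl).1, (Finset.mem_filter.1 hl).2⟩
      refine hyp _ _ _ _ (gn_sel_inj _ _) (rt_gh_hom h0 h1 Y hY p hgd E hVal D _ hne a ha hka j.1 j.2 (fun l hl => hheavy l (hm l hl).1) (fun l hl => ?_)
        (fun l hl => ?_) (fun l hl => ?_))
      · obtain ⟨p1, -, p3, -, -⟩ := H p E hn hE hst l (hheavy l (hm l hl).1)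
        exact ⟨p1, p3⟩
      · rw [← (hm l hl).2]
        exact (hcls l (hm l hl).1).2.2.1
      · rw [← (hm l hl).2]
        exact (hcls l (hm l hl).1).2.2.2
    · rw [Finset.not_nonempty_iff_eq_empty] at hne
      rw [gn_pick_sel_val, hne, Finset.sum_empty, mul_zero]
      exact hV
  rw [part]
  have l3 := Finset.sum_le_sum l2
  rw [Finset.sum_const, Finset.card_product, Finset.card_range, nsmul_eq_mul] at l3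
  have l4 : (((D * E.n + 1) * (D * E.n + 1) : ℕ) : ℝ) * V ≤ (((2 * D + 5 : ℕ) : ℝ) * E.n + 1) ^ 2 * V := by
    refine mul_le_mul_of_nonneg_right ?_ hV
    push_cast
    have hD : (0 : ℝ) ≤ D := Nat.cast_nonneg _
    have hnn : (0 : ℝ) ≤ E.n := Nat.cast_nonneg _
    have : (D : ℝ) * E.n + 1 ≤ (2 * (D : ℝ) + 5) * E.n + 1 := by nlinarith
    have h00 : (0 : ℝ) ≤ (D : ℝ) * E.n + 1 := by positivity
    nlinarith
  linarith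

end Claimed.Agent.R256
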