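import Claimed.Agent.R256.Base.Sys

/-!
# Row 256, folder Rt, file PclV : VALIDITY WITHOUT REGULARITY      (helper157; block PATCHCL = `rt_patch_cl`; shared by `Rt/PclW.lean` (helper29) and `Rt/Pcl*.lean`)      SORRY-FREE

`E.ValidW` = all fields of `Xp.Valid` except `reg`.      The un-jittered cylinder experiment of PATCHCL is NOT regular for any `ka` (its row measure may be singular); `Cyl/Fcr.lean` never uses `reg`.
-/

set_option autoImplicit false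

namespace Claimed.Agent.R256

/-- structural validity without the regularity of the root state -/
structure Xp.ValidW {P : PkSys} (E : Xp P) : Prop where
  e_pos : 0 < E.e
  ka_pos : 0 < E.ka
  budget : ‖E.v‖ ^ 2 ≤ E.e
  plat : E.v ∈ P.Pl E.b0
  st_dep : ∀ σ ∈ E.st, E.k0 ≤ σ.k ∧ σ.k ≤ E.kf
  st_mono : E.st.Pairwise fun σ σ' => σ.k ≤ σ'.k
  st_meas : ∀ σ ∈ E.st, ∀ i, Measurable (σ.M i)
  st_bd : ∀ σ ∈ E.st, ∀ i x, 0 ≤ σ.M i x ∧ σ.M i x ≤ 1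
  iv_in : ∀ l, ancI E.kf E.k0 (E.iv l) = E.i0
  ts_ok : ∀ l, P.ok (E.ts l) E.kf
  w_pos : ∀ l, 0 < E.w l
  th_meas : ∀ l, Measurable (E.th l)
  th_nn : ∀ l x, 0 ≤ E.th l x
  th_supp : ∀ l x, E.th l x ≠ 0 → x ∈ P.cell (E.ts l) (tmL E.kf (E.iv l)) E.kf
  th_sum : ∀ i x, ∑ l, (if E.iv l = i then E.th l x else 0) ≤ 1

theorem Xp.Valid.toW {P : PkSys} {E : Xp P} (h : E.Valid) : E.ValidW :=
  ⟨h.e_pos, h.ka_pos, h.budget, h.plat, h.st_dep, h.st_mono, h.st_meas, h.st_bd, h.iv_in, h.ts_ok, h.w_pos, h.th_meas, h.th_nn,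
    h.th_supp, h.th_sum⟩

theorem Xp.ValidW.toValid {P : PkSys} {E : Xp P} (h : E.ValidW) (hr : P.Reg (tmL E.k0 E.i0) E.k0 E.b0 E.ka E.v) : E.Valid :=
  ⟨h.e_pos, h.ka_pos, h.budget, h.plat, hr, h.st_dep, h.st_mono, h.st_meas, h.st_bd, h.iv_in, h.ts_ok, h.w_pos, h.th_meas, h.th_nn,
    h.th_supp, h.th_sum⟩

end Claimed.Agent.R256
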