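import Claimed.Agent.R256.Rt.LiftPatch
import Claimed.Agent.R256.Rt.PclV
import Claimed.Agent.R256.Cyl.ClOp

/-!
# Row 256, folder Rt, file PclDefs : DEFINITIONS OF THE BLOCK PATCHCL = `rt_patch_cl` (07 l.855-990, classical case)      (architect helper157, with helper29 (W, RATE), helper144 (REG); prefix `rt_pc_`, `rtPc`)      SORRY-FREE

ROUTE.   `E` = free patch experiment of the classical round model `rndCl η` over `p : RdClPar`, patch data `d : RtPd`;  `s = E.s = 2^-n`, `P = s^-b0`, `fs = f_* = s^-D1 d.f`, `Nn = d.N E`, `T0 = tmL E.k0 E.i0`, `ℓ0 = rdLen E.k0`.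
* a particle `ω` has the physical root row `x = p.co T0 ω`, the normalised row `Nn.row x`, the TRANSFORMED row `rtPcRow Nn d x = (rtChart p0 nL).row (Nn.row x)`; its new time at the normalised old time `θ` is `rtPcTm Nn d x θ`.
* GOOD rows `rtPcG Nn d P fs = {x | Nn.row x ∈ d.In P fs}` (buffered patch, sublevels `fs`).
* CLOCK.   new times of the labels lie in `[-2.6, 2.8]`;  cylinder time `T = (τ + 4) / 8 ∈ [0,1)`, root `k0 = 0, i0 = 0`, relative scale `n + 3`:  the interval `j` of depth `n + 3` starts at the new time `rtPcTau n j = -4 + j s`.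
* UNITS.   positions are divided by `8` (`cySc8`, tests `cyT8`): `cyIn (cyT8 Q) (l / 8) (cySc8 z) ↔ cyIn Q l z`, SAME widths and weights; `cyFlow T (cySc8 z) = cySc8 (cyFlow (8 T) z)`.
* `rtPcZ Nn d fs x = cySc8 (rtFl fs ((transformed row).flow (-4)))` = the cylinder coordinates at the cylinder time `0`;  IDEAL cylinder evolution afterwards (the omitted vertical displacement is `(τ+4) A₂'² ≤ 4608 fs²`).
* `rtPcP` : the UN-JITTERED classical cylinder parameter: SAME particles, measure, multiplicity; coordinates `rtPcZg` = `rtPcZ` on the good rows, THE ORIGIN on the bad rows (an atom of mass `≤ s^A e`: harmless for the TRUNCATED regularity).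
* `rtPcE` : the cylinder experiment: SAME state, budget; label `l` is attached to ONE new interval `jv l`, test `tsq l`, weight `1_G th_l / K`  (`K ≈ 10 M` = number of old intervals that a row can visit within `M s` of a new time).
* frame `rtPcQs` = unit base box, normal box `32`, no shear.
NO JITTER HERE: `Rt/PclW.lean` (helper29) = `Cyl/Fcr.lean` without `Valid.reg` does jitter, density, sublevels.
-/

set_option autoImplicit false

namespace Claimed.Agent.R256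

open MeasureTheory

attribute [local implicit_reducible] CclPar.sys RdClPar.sys

/-- the transformed row of a physical root row -/
noncomputable def rtPcRow (Nn : RtCh) (d : RtPd) (x : RtRow) : RtRow := (rtChart d.p0 d.nL).row (Nn.row x)

/-- the new time of a physical root row at the normalised old time `θ` -/
noncomputable def rtPcTm (Nn : RtCh) (d : RtPd) (x : RtRow) (θ : ℝ) : ℝ := (rtChart d.p0 d.nL).tm (Nn.row x) θ

/-- the good physical root rows -/
def rtPcG (Nn : RtCh) (d : RtPd) (P fs : ℝ) : Set RtRow := {x | Nn.row x ∈ d.In P fs}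

/-- position units `8` -/
noncomputable def cySc8 (z : Cy5) : Cy5 := ⟨z.X, z.B / 8, z.Y / 8, z.N, z.D / 8⟩

/-- a test in position units `8` -/
noncomputable def cyT8 (Q : CyT) : CyT := ⟨Q.x, Q.b / 8, Q.y / 8, Q.r, Q.f, Q.c, Q.d / 8, Q.al, Q.be, 8 * Q.K⟩

/-- the inverse of `cyT8` -/
noncomputable def cyT8i (Q : CyT) : CyT := ⟨Q.x, 8 * Q.b, 8 * Q.y, Q.r, Q.f, Q.c, 8 * Q.d, Q.al, Q.be, Q.K / 8⟩

/-- the new time at which the interval `j` of depth `n + 3` starts -/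
noncomputable def rtPcTau (n j : ℕ) : ℝ := -4 + j * (2 : ℝ)⁻¹ ^ n

/-- cylinder coordinates at the cylinder time `0` (new time `-4`) -/
noncomputable def rtPcZ (Nn : RtCh) (d : RtPd) (fs : ℝ) (x : RtRow) : Cy5 := cySc8 (rtFl fs ((rtPcRow Nn d x).flow (-4)))

open Classical in
/-- the same, bad rows at the origin -/
noncomputable def rtPcZg (Nn : RtCh) (d : RtPd) (P fs : ℝ) (x : RtRow) : Cy5 :=
  if x ∈ rtPcG Nn d P fs then rtPcZ Nn d fs x else ⟨0, 0, 0, 0, 0⟩

/-- the un-jittered cylinder parameter -/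
noncomputable def rtPcP (p : RdClPar) (Nn : RtCh) (d : RtPd) (P fs T0 : ℝ) : CclPar where
  Om := p.Om
  m := p.m
  Fb := p.Fb
  X := fun ω => (rtPcZg Nn d P fs (p.co T0 ω)).X
  B := fun ω => (rtPcZg Nn d P fs (p.co T0 ω)).B
  Y := fun ω => (rtPcZg Nn d P fs (p.co T0 ω)).Y
  N := fun ω => (rtPcZg Nn d P fs (p.co T0 ω)).N
  D := fun ω => (rtPcZg Nn d P fs (p.co T0 ω)).D

/-- the good particles -/
def rtPcGo (p : RdClPar) (Nn : RtCh) (d : RtPd) (P fs T0 : ℝ) : Set p.Om := {ω | p.co T0 ω ∈ rtPcG Nn d P fs}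

/-- the cylinder experiment -/
noncomputable def rtPcE (η : ℝ) (p : RdClPar) (E : Xp (p.sys η)) (d : RtPd) (P fs K : ℝ) (jv : Fin E.L → ℕ) (tsq : Fin E.L → CyT) :
    Xp ((rtPcP p (d.N E) d P fs (tmL E.k0 E.i0)).sys η) where
  k0 := 0
  i0 := 0
  n := E.n + 3
  v := E.v
  e := E.e
  ka := 1
  b0 := 0
  st := []
  bT := 0
  L := E.L
  iv := jv
  ts := tsq
  th := fun l => (rtPcGo p (d.N E) d P fs (tmL E.k0 E.i0)).indicator fun ω => E.th l ω / K

/-- the frame -/
def rtPcQs : CyT := ⟨0, 0, 0, 1, 32, 0, 0, 0, 0, 0⟩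

/-- the normalised old time of the label `l` -/
noncomputable def rtPcTh {P : PkSys} (E : Xp P) (l : Fin E.L) : ℝ := (tmL E.kf (E.iv l) - tmL E.k0 E.i0) / rdLen E.k0

theorem rt_pc_eqns_cite : True := by
  have := @rtPcRow.eq_1
  have := @rtPcTm.eq_1
  have := @rtPcG.eq_1
  have := @cySc8.eq_1
  have := @cyT8.eq_1
  have := @cyT8i.eq_1
  have := @rtPcTau.eq_1
  have := @rtPcZ.eq_1
  have := @rtPcZg.eq_1
  have := @rtPcP.eq_1
  have := @rtPcGo.eq_1
  have := @rtPcE.eq_1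
  have := @rtPcQs.eq_1
  have := @rtPcTh.eq_1
  trivial

/-! ## first facts (exact) -/

/-- the coordinates of the cylinder system -/
theorem rt_pc_co (p : RdClPar) (Nn : RtCh) (d : RtPd) (P fs T0 T : ℝ) (ω : p.Om) :
    (rtPcP p Nn d P fs T0).co T ω = cyFlow T (rtPcZg Nn d P fs (p.co T0 ω)) := rfl

theorem rt_pc_co_good (p : RdClPar) (Nn : RtCh) (d : RtPd) (P fs T0 T : ℝ) {ω : p.Om} (h : ω ∈ rtPcGo p Nn d P fs T0) :
    (rtPcP p Nn d P fs T0).co T ω = cyFlow T (rtPcZ Nn d fs (p.co T0 ω)) := by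
  have h' : p.co T0 ω ∈ rtPcG Nn d P fs := h
  rw [rt_pc_co, rtPcZg, if_pos h']

theorem rt_pc_co_bad (p : RdClPar) (Nn : RtCh) (d : RtPd) (P fs T0 T : ℝ) {ω : p.Om} (h : ω ∉ rtPcGo p Nn d P fs T0) :
    (rtPcP p Nn d P fs T0).co T ω = ⟨0, 0, 0, 0, 0⟩ := by
  have h' : p.co T0 ω ∉ rtPcG Nn d P fs := h
  rw [rt_pc_co, rtPcZg, if_neg h']
  simp [cyFlow]

/-- position units and the free flow -/
theorem rt_pc_sc8_flow (T : ℝ) (z : Cy5) : cyFlow T (cySc8 z) = cySc8 (cyFlow (8 * T) z) := by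
  simp only [cyFlow, cySc8, Cy5.mk.injEq]
  refine ⟨trivial, ?_, ?_, trivial, ?_⟩ <;> ring

/-- position units and tests -/
theorem rt_pc_sc8_in (Q : CyT) (l : ℝ) (z : Cy5) : cyIn (cyT8 Q) (l / 8) (cySc8 z) ↔ cyIn Q l z := by
  have e2 : z.B / 8 - Q.b / 8 = (z.B - Q.b) / 8 := by ring
  have e3 : cyTilt (cyT8 Q) (cySc8 z) = cyTilt Q z / 8 := by
    simp only [cyTilt, cyT8, cySc8]; ring
  have e4 : cyVel (cyT8 Q) (cySc8 z) = cyVel Q z := by
    simp only [cyVel, cyT8, cySc8]; ring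
  have e5 : cyPos (cyT8 Q) (cySc8 z) = cyPos Q z / 8 := by
    simp only [cyPos, cyT8, cySc8]; ring
  have h8 : ∀ a b : ℝ, |a / 8| ≤ l / 8 * b ↔ |a| ≤ l * b := by
    intro a b
    rw [abs_div, abs_of_pos (by norm_num : (0 : ℝ) < 8)]
    constructor <;> intro h <;> linarith
  unfold cyIn
  rw [e3, e4, e5]
  show (|z.X - Q.x| ≤ Q.r ∧ |z.B / 8 - Q.b / 8| ≤ l / 8 * Q.r ∧ |cyTilt Q z / 8| ≤ l / 8 * Q.r ^ 2 ∧ |cyVel Q z| ≤ Q.f ∧
    |cyPos Q z / 8| ≤ l / 8 * Q.f) ↔ _
  rw [e2, h8, h8, h8]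

theorem rt_pc_t8_wt (η : ℝ) (Q : CyT) : cyWt η (cyT8 Q) = cyWt η Q := rfl

theorem rt_pc_t8_inv (Q : CyT) : cyT8 (cyT8i Q) = Q := by
  cases Q
  simp only [cyT8, cyT8i, CyT.mk.injEq]
  refine ⟨trivial, ?_, ?_, trivial, trivial, trivial, ?_, trivial, trivial, ?_⟩ <;> ring

/-- the clock -/
theorem rt_pc_tau (n j : ℕ) : 8 * tmL (0 + (n + 3)) j = rtPcTau n j + 4 := by
  unfold tmL rtPcTau
  rw [zero_add, pow_add, inv_pow]
  field_simp
  norm_num

/-- the ideal coordinates at the start of the new interval `j` -/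
theorem rt_pc_co_tau (p : RdClPar) (Nn : RtCh) (d : RtPd) (P fs T0 : ℝ) (n j : ℕ) {ω : p.Om} (h : ω ∈ rtPcGo p Nn d P fs T0) :
    (rtPcP p Nn d P fs T0).co (tmL (0 + (n + 3)) j) ω
      = cySc8 (cyFlow (rtPcTau n j + 4) (rtFl fs ((rtPcRow Nn d (p.co T0 ω)).flow (-4)))) := by
  rw [rt_pc_co_good p Nn d P fs T0 _ h, rtPcZ, rt_pc_sc8_flow, rt_pc_tau]

/-- ideal evolution versus exact evolution: only the vertical coordinate differs, by `(τ + 4) A₂²` -/
theorem rt_pc_ideal (fs τ : ℝ) (q : RtRow) :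
    cyFlow (τ + 4) (rtFl fs (q.flow (-4))) = { rtFl fs (q.flow τ) with Y := (rtFl fs (q.flow τ)).Y - (τ + 4) * q.A.2 ^ 2 } := by
  simp only [cyFlow, rtFl, RtRow.flow, rtSq, Prod.fst_add, Prod.snd_add, Prod.smul_fst, Prod.smul_snd, smul_eq_mul, Cy5.mk.injEq]
  refine ⟨trivial, ?_, ?_, trivial, ?_⟩ <;> ring

end Claimed.Agent.R256
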