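-- KEEP
import Claimed.Agent.R256.Cyl.Fcr
import Claimed.Agent.R256.Cyl.InstCl
import Claimed.Agent.R256.Rt.PclV

/-!
# Row 256 (LS paper), RT, block `rt_patch_cl`, unit W : THE TRUNCATED RATE WITHOUT ROOT REGULARITY          (helper29; prefix `rt_pcw_`)

The cylinder experiment produced by the chart (07 l.947-990) is regular ONLY on the truncated family `CyTr` of the chart frame: no `ka` with `Reg .. ka v` on ALL tests is available (that would need a five dimensional Jacobian).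
`CyTrRate` (`Cyl/Defs.lean`) asks `E.Valid`, but the proofs of `cy_cj_m`, `cy_cj_valid`, `cy_cj_main` (`Cyl/ClJit.lean`), `cy_fc_lab_E` (`Cyl/FcrLab.lean`), `cy_fc_copy`, `cy_fc_main` (`Cyl/Fcr.lean`) never use the fields `ka_pos`, `reg`.
This file = these six proofs VERBATIM with `E.Valid` replaced by `E.ValidW` (`Rt/PclV.lean`, helper157: `Valid` without `reg`).
**EXIT** `rt_pcw_trrate η h0 h1 : RtPcwRate η`   (plain classical form: no Planck clauses, `Gam (cylCl η)`).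
-/

set_option autoImplicit false

namespace Claimed.Agent.R256

open MeasureTheory

attribute [local implicit_reducible] CclPar.sys cylCl sfCl

theorem rt_pcw_stm {P : PkSys} (E : Xp P) (hE : E.ValidW) : StM E.st :=
  fun σ hσ i => ⟨hE.st_meas σ hσ i, hE.st_bd σ hσ i⟩

theorem rt_pcw_th_mask {P : PkSys} (E : Xp P) (hE : E.ValidW) (l : Fin E.L) : IsMask (E.th l) := by
  refine ⟨hE.th_meas l, fun x => ⟨hE.th_nn l x, ?_⟩⟩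
  refine le_trans ?_ (hE.th_sum (E.iv l) x)
  have := Finset.single_le_sum (f := fun l' => if E.iv l' = E.iv l then E.th l' x else 0) (fun l' _ => by
    split_ifs
    · exact hE.th_nn l' x
    · exact le_refl _) (Finset.mem_univ l)
  simpa using this

/-- `CyJit` of `Cyl/Defs.lean` for weakly valid inputs -/
def CyJitW (Y : SfCy) : Prop :=
  ∀ (p : Y.M.Par), Y.M.gd p → ∀ (E : Xp (Y.M.sys p)), E.ValidW → ∀ (Qs : CyT) (ζ : ℝ), 0 < Qs.r → 0 < Qs.f → 0 < ζ →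
    ∀ tsq : Fin E.L → CyT, (∀ l, 0 < (tsq l).r ∧ 0 < (tsq l).f ∧ Y.dl p E.kf ≤ (tsq l).f) →
    (∀ l, ∀ θ ∈ cyCube, ∀ z, cyIn (Y.tq p (E.ts l)) ((2 : ℝ)⁻¹ ^ E.kf) z →
      cyIn (tsq l) ((2 : ℝ)⁻¹ ^ E.kf) (cyJit (cyExt Qs (tmL E.kf (E.iv l) - tmL E.k0 E.i0))
        (cyFlow (tmL E.kf (E.iv l) - tmL E.k0 E.i0) (cyJitPar Qs ((2 : ℝ)⁻¹ ^ E.k0) ζ θ)) z)) →
    ∃ (p' : Y.M.Par) (E' : Xp (Y.M.sys p')), Y.M.gd p' ∧ Y.H p' = Y.H p ∧ (∀ k, Y.dl p' k = Y.dl p k) ∧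
      E'.k0 = E.k0 ∧ E'.i0 = E.i0 ∧ E'.n = E.n ∧ E'.e = E.e ∧ E'.b0 = E.b0 ∧ E'.bT = E.bT ∧ E'.st.length = E.st.length ∧ (∀ bm, E.GenLe bm → E'.GenLe bm) ∧
      (∃ hL : E'.L = E.L, ∀ l : Fin E'.L, Y.tq p' (E'.ts l) = tsq (Fin.cast hL l) ∧ E'.m l = E.m (Fin.cast hL l)) ∧
      (∀ κ' : ℝ, 0 < κ' → (Y.M.sys p').Reg (tmL E'.k0 E'.i0) E'.k0 E'.b0 κ' E'.v → Xp.Valid { E' with ka := κ' }) ∧
      ∀ U : Set (ℝ × ℝ × ℝ × ℝ × ℝ), MeasurableSet U →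
        (Y.M.sys p').ms (tmL E.k0 E.i0) E.k0 E.b0 {x | cyVec (Y.co p' (tmL E.k0 E.i0) x) ∈ U} E'.v
          = ∫ θ in cyCube, (Y.M.sys p).ms (tmL E.k0 E.i0) E.k0 E.b0
              {x | cyVec (cyJit Qs (cyJitPar Qs ((2 : ℝ)⁻¹ ^ E.k0) ζ θ) (Y.co p (tmL E.k0 E.i0) x)) ∈ U} E.v

/-- `CyTrRateX` of `Cyl/Fcr.lean` for weakly valid inputs -/
def CyTrRateXW (Y : SfCy) : Prop :=
  ∀ Ds : ℝ, 0 < Ds → ∃ D1 : ℝ, 0 < D1 ∧ ∀ (C : ℕ) (ε : ℝ), 0 < ε → ∃ (ε1 : ℝ) (A n0 : ℕ), 0 < ε1 ∧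
    ∀ (p : Y.M.Par) (E : Xp (Y.M.sys p)) (Qs : CyT) (b : ℝ), Y.M.gd p → n0 ≤ E.n → E.ValidW → E.st.length ≤ C → E.GenLe C →
      0 < Qs.r → 0 < Qs.f → 0 < b →
      E.s ^ (C : ℝ) * (b * cyWt Y.η Qs) ≤ E.e → E.e ≤ E.s ^ (-(C : ℝ)) * (b * cyWt Y.η Qs) →
      (Y.hyb = true → E.s ^ (C : ℝ) ≤ Y.H p * 2 ^ E.k0 / Qs.f ^ 2) → Y.H p * 2 ^ E.k0 / Qs.f ^ 2 ≤ 1 →
      (Y.M.sys p).ms (tmL E.k0 E.i0) E.k0 E.b0 {x | 1 < cyBaseSz Qs ((2 : ℝ)⁻¹ ^ E.k0) (Y.co p (tmL E.k0 E.i0) x)} E.v = 0 →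
      (Y.M.sys p).ms (tmL E.k0 E.i0) E.k0 E.b0 {x | E.s ^ (-ε1) < cyNorSz Qs ((2 : ℝ)⁻¹ ^ E.k0) (Y.co p (tmL E.k0 E.i0) x)} E.v ≤ E.s ^ (A : ℝ) * E.e →
      (∀ Q, (Y.M.sys p).ok Q E.k0 → CyTr (tmL E.k0 E.i0) E.k0 Qs (E.s ^ D1) (Y.tq p Q) →
        (Y.M.sys p).ms (tmL E.k0 E.i0) E.k0 E.b0 ((Y.M.sys p).cell Q (tmL E.k0 E.i0) E.k0) E.v ≤ b * (Y.M.sys p).wt Q) →
      (∀ l, CyBdd (E.s ^ Ds) (cyNrm (tmL E.k0 E.i0) E.k0 Qs (tmL E.kf (E.iv l)) (Y.tq p (E.ts l)))) →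
      E.rd ≤ 2 ^ (-((1 / 2 - Y.M.Gam - ε) * E.n)) * E.e * Real.sqrt b

/-- **the exit in plain classical form** (`Y = sfCl η`: `co = CclPar.co`, `tq = id`, no Planck parameter) -/
def RtPcwRate (η : ℝ) : Prop :=
  ∀ Ds : ℝ, 0 < Ds → ∃ D1 : ℝ, 0 < D1 ∧ ∀ (C : ℕ) (ε : ℝ), 0 < ε → ∃ (ε1 : ℝ) (A n0 : ℕ), 0 < ε1 ∧
    ∀ (p : CclPar) (E : Xp (p.sys η)) (Qs : CyT) (b : ℝ), p.Ok → n0 ≤ E.n → E.ValidW → E.st.length ≤ C → E.GenLe C →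
      0 < Qs.r → 0 < Qs.f → 0 < b →
      E.s ^ (C : ℝ) * (b * cyWt η Qs) ≤ E.e → E.e ≤ E.s ^ (-(C : ℝ)) * (b * cyWt η Qs) →
      (p.sys η).ms (tmL E.k0 E.i0) E.k0 E.b0 {x | 1 < cyBaseSz Qs ((2 : ℝ)⁻¹ ^ E.k0) (p.co (tmL E.k0 E.i0) x)} E.v = 0 →
      (p.sys η).ms (tmL E.k0 E.i0) E.k0 E.b0 {x | E.s ^ (-ε1) < cyNorSz Qs ((2 : ℝ)⁻¹ ^ E.k0) (p.co (tmL E.k0 E.i0) x)} E.v ≤ E.s ^ (A : ℝ) * E.e →
      (∀ Q : CyT, 0 < Q.r → 0 < Q.f → CyTr (tmL E.k0 E.i0) E.k0 Qs (E.s ^ D1) Q →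
        (p.sys η).ms (tmL E.k0 E.i0) E.k0 E.b0 {x | cyIn Q ((2 : ℝ)⁻¹ ^ E.k0) (p.co (tmL E.k0 E.i0) x)} E.v ≤ b * cyWt η Q) →
      (∀ l, CyBdd (E.s ^ Ds) (cyNrm (tmL E.k0 E.i0) E.k0 Qs (tmL E.kf (E.iv l)) (E.ts l))) →
      E.rd ≤ 2 ^ (-((1 / 2 - (cylCl η).Gam - ε) * E.n)) * E.e * Real.sqrt b

theorem rt_pcw_eqns_cite : True := by
  have := @CyJitW.eq_1
  have := @CyTrRateXW.eq_1
  have := @RtPcwRate.eq_1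
  trivial

/-! ## copies of `Cyl/ClJit.lean` -/

theorem rt_pcw_m (η : ℝ) (p : CclPar) (h : p.Ok) (Qs : CyT) (ζ : ℝ) (E : Xp (p.sys η)) (hE : E.ValidW) (tsq : Fin E.L → CyT) (l : Fin E.L) :
    (clJitE η p Qs ζ E tsq).m l = E.m l := by
  have hG : IsMask (fun x : p.Om × (ℝ × ℝ × ℝ × ℝ × ℝ) => (Prod.snd ⁻¹' cyCube).indicator (fun y : p.Om × (ℝ × ℝ × ℝ × ℝ × ℝ) => E.th l y.1) x) := by
    refine ⟨((hE.th_meas l).comp measurable_fst).indicator (measurable_snd cy_cj_cube_meas), fun x => ?_⟩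
    beta_reduce
    by_cases hx : x ∈ (Prod.snd ⁻¹' cyCube : Set (p.Om × (ℝ × ℝ × ℝ × ℝ × ℝ)))
    · rw [Set.indicator_of_mem hx]
      exact (rt_pcw_th_mask E hE l).2 x.1
    · rw [Set.indicator_of_notMem hx]
      exact ⟨le_rfl, zero_le_one⟩
  have e1 := cy_cj_lift_run η p h Qs ((2 : ℝ)⁻¹ ^ E.k0) ζ (tmL E.k0 E.i0) E.kf (E.iv l) E.st (rt_pcw_stm E hE) E.v
  have e2 := cy_cj_fub η p h Qs ((2 : ℝ)⁻¹ ^ E.k0) ζ (tmL E.k0 E.i0) (tmL E.kf (E.iv l)) E.kf E.bT (tmL E.kf (E.iv l)) E.kf E.bT _ hG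
    (Xp.run (P := p.sys η) E.kf (E.iv l) E.st E.v)
  have e3 : (clJitE η p Qs ζ E tsq).m l = ((clJitP p Qs ((2 : ℝ)⁻¹ ^ E.k0) ζ (tmL E.k0 E.i0)).sys η).en (tmL E.kf (E.iv l)) E.kf E.bT
      (fun x : p.Om × (ℝ × ℝ × ℝ × ℝ × ℝ) => (Prod.snd ⁻¹' cyCube).indicator (fun y : p.Om × (ℝ × ℝ × ℝ × ℝ × ℝ) => E.th l y.1) x)
      (clLift p (Xp.run (P := p.sys η) E.kf (E.iv l) E.st E.v)) := by
    rw [← e1]
    rfl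
  rw [e3, e2]
  have e4 : ∫ θ in cyCube, (p.sys η).en (tmL E.kf (E.iv l)) E.kf E.bT
      (fun ω => (Prod.snd ⁻¹' cyCube).indicator (fun y : p.Om × (ℝ × ℝ × ℝ × ℝ × ℝ) => E.th l y.1) (ω, θ)) (Xp.run (P := p.sys η) E.kf (E.iv l) E.st E.v)
      = ∫ _θ in cyCube, E.m l := by
    refine setIntegral_congr_fun cy_cj_cube_meas fun θ hθ => ?_
    beta_reduce
    have e5 : (fun ω : p.Om => (Prod.snd ⁻¹' cyCube).indicator (fun y : p.Om × (ℝ × ℝ × ℝ × ℝ × ℝ) => E.th l y.1) (ω, θ)) = E.th l := by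
      funext ω
      exact Set.indicator_of_mem (s := (Prod.snd ⁻¹' cyCube : Set (p.Om × (ℝ × ℝ × ℝ × ℝ × ℝ)))) hθ _
    exact congrArg (fun f : p.Om → ℝ => (p.sys η).en (tmL E.kf (E.iv l)) E.kf E.bT f (Xp.run (P := p.sys η) E.kf (E.iv l) E.st E.v)) e5
  rw [e4, setIntegral_const, cy_cj_cube_vol, one_smul]

theorem rt_pcw_valid (η : ℝ) (p : CclPar) (h : p.Ok) (Qs : CyT) (ζ : ℝ) (E : Xp (p.sys η)) (hE : E.ValidW) (tsq : Fin E.L → CyT)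
    (htq : ∀ l, 0 < (tsq l).r ∧ 0 < (tsq l).f)
    (hin : ∀ l, ∀ θ ∈ cyCube, ∀ z, cyIn (E.ts l) ((2 : ℝ)⁻¹ ^ E.kf) z →
      cyIn (tsq l) ((2 : ℝ)⁻¹ ^ E.kf) (cyJit (cyExt Qs (tmL E.kf (E.iv l) - tmL E.k0 E.i0))
        (cyFlow (tmL E.kf (E.iv l) - tmL E.k0 E.i0) (cyJitPar Qs ((2 : ℝ)⁻¹ ^ E.k0) ζ θ)) z))
    (κ' : ℝ) (hκ : 0 < κ')
    (hreg : ((clJitP p Qs ((2 : ℝ)⁻¹ ^ E.k0) ζ (tmL E.k0 E.i0)).sys η).Reg (tmL E.k0 E.i0) E.k0 E.b0 κ' (clLift p E.v)) :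
    Xp.Valid { clJitE η p Qs ζ E tsq with ka := κ' } := by
  have hth : ∀ (l : Fin E.L) (x : p.Om × (ℝ × ℝ × ℝ × ℝ × ℝ)), x.2 ∈ cyCube →
      (Prod.snd ⁻¹' cyCube).indicator (fun y : p.Om × (ℝ × ℝ × ℝ × ℝ × ℝ) => E.th l y.1) x = E.th l x.1 := fun l x hx =>
    Set.indicator_of_mem (s := (Prod.snd ⁻¹' cyCube : Set (p.Om × (ℝ × ℝ × ℝ × ℝ × ℝ)))) hx _
  have hth0 : ∀ (l : Fin E.L) (x : p.Om × (ℝ × ℝ × ℝ × ℝ × ℝ)), x.2 ∉ cyCube →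
      (Prod.snd ⁻¹' cyCube).indicator (fun y : p.Om × (ℝ × ℝ × ℝ × ℝ × ℝ) => E.th l y.1) x = 0 := fun l x hx =>
    Set.indicator_of_notMem (s := (Prod.snd ⁻¹' cyCube : Set (p.Om × (ℝ × ℝ × ℝ × ℝ × ℝ)))) hx _
  refine ⟨hE.e_pos, hκ, ?_, ?_, hreg, ?_, ?_, ?_, ?_, hE.iv_in, fun l => htq l, ?_, ?_, ?_, ?_, ?_⟩
  · change ‖clLift p E.v‖ ^ 2 ≤ E.e
    rw [cy_cj_lift_norm p h]
    exact hE.budget
  · rw [cy_cl_pl]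
    exact Set.mem_univ _
  · intro σ hσ
    obtain ⟨τ, hτ, rfl⟩ := List.mem_map.1 hσ
    exact hE.st_dep τ hτ
  · exact List.pairwise_map.2 hE.st_mono
  · intro σ hσ i
    obtain ⟨τ, hτ, rfl⟩ := List.mem_map.1 hσ
    exact (hE.st_meas τ hτ i).comp measurable_fst
  · intro σ hσ i x
    obtain ⟨τ, hτ, rfl⟩ := List.mem_map.1 hσ
    exact hE.st_bd τ hτ i _
  · intro l
    exact mul_pos (Real.rpow_pos_of_pos (htq l).1 _) (Real.rpow_pos_of_pos (htq l).2 _)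
  · intro l
    exact ((hE.th_meas l).comp measurable_fst).indicator (measurable_snd cy_cj_cube_meas)
  · intro l x
    change 0 ≤ (Prod.snd ⁻¹' cyCube).indicator (fun y : p.Om × (ℝ × ℝ × ℝ × ℝ × ℝ) => E.th l y.1) x
    by_cases hx : (x : p.Om × (ℝ × ℝ × ℝ × ℝ × ℝ)).2 ∈ cyCube
    · rw [hth l x hx]
      exact hE.th_nn l _
    · rw [hth0 l x hx]
  · intro l x hx
    change (Prod.snd ⁻¹' cyCube).indicator (fun y : p.Om × (ℝ × ℝ × ℝ × ℝ × ℝ) => E.th l y.1) x ≠ 0 at hx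
    have hx2 : (x : p.Om × (ℝ × ℝ × ℝ × ℝ × ℝ)).2 ∈ cyCube := by
      by_contra hc
      exact hx (hth0 l x hc)
    rw [hth l x hx2] at hx
    have h1 : cyIn (E.ts l) ((2 : ℝ)⁻¹ ^ E.kf) (p.co (tmL E.kf (E.iv l)) (x : p.Om × (ℝ × ℝ × ℝ × ℝ × ℝ)).1) := hE.th_supp l _ hx
    have h2 := hin l _ hx2 _ h1
    have h3 := cy_cj_coT p Qs ((2 : ℝ)⁻¹ ^ E.k0) ζ (tmL E.k0 E.i0) (tmL E.kf (E.iv l)) x
    change cyIn (tsq l) ((2 : ℝ)⁻¹ ^ E.kf) ((clJitP p Qs ((2 : ℝ)⁻¹ ^ E.k0) ζ (tmL E.k0 E.i0)).co (tmL E.kf (E.iv l)) x)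
    exact h3 ▸ h2
  · intro i x
    change ∑ l, (if E.iv l = i then (Prod.snd ⁻¹' cyCube).indicator (fun y : p.Om × (ℝ × ℝ × ℝ × ℝ × ℝ) => E.th l y.1) x else 0) ≤ 1
    by_cases hx : (x : p.Om × (ℝ × ℝ × ℝ × ℝ × ℝ)).2 ∈ cyCube
    · simp only [hth _ x hx]
      exact hE.th_sum i _
    · simp only [hth0 _ x hx]
      simp

theorem rt_pcw_jit (η : ℝ) : CyJitW (sfCl η) := by
  intro p hp E hE Qs ζ _ _ _ tsq htq hin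
  refine ⟨clJitP p Qs ((2 : ℝ)⁻¹ ^ E.k0) ζ (tmL E.k0 E.i0), clJitE η p Qs ζ E tsq, cy_cj_ok p hp _ _ _ _, rfl, fun _ => rfl, rfl, rfl, rfl, rfl, rfl, rfl, ?_, ?_, ⟨rfl, ?_⟩, ?_, ?_⟩
  · exact List.length_map _
  · intro bm hb
    refine ⟨hb.1, hb.2.1, ?_⟩
    intro σ hσ
    obtain ⟨τ, hτ, rfl⟩ := List.mem_map.1 hσ
    exact hb.2.2 τ hτ
  · intro l
    exact ⟨rfl, rt_pcw_m η p hp Qs ζ E hE tsq l⟩
  · intro κ' hκ hreg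
    exact rt_pcw_valid η p hp Qs ζ E hE tsq (fun l => ⟨(htq l).1, (htq l).2.1⟩) hin κ' hκ hreg
  · intro U hU
    exact cy_cj_law η p hp Qs _ ζ _ E.k0 E.b0 E.v U hU

/-! ## copies of `Cyl/FcrLab.lean`, `Cyl/Fcr.lean` -/

theorem rt_pcw_lab_E {Y : SfCy} {p : Y.M.Par} (E : Xp (Y.M.sys p)) (hE : E.ValidW) (Qs : CyT) (hr : 0 < Qs.r) (hf : 0 < Qs.f) {Ds ζ : ℝ} (hDs : 0 ≤ Ds)
    (hζ0 : 0 ≤ ζ) (hζ : 22 * ζ ≤ E.s * (E.s ^ Ds) ^ 3)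
    (hlab : ∀ l, CyBdd (E.s ^ Ds) (cyNrm (tmL E.k0 E.i0) E.k0 Qs (tmL E.kf (E.iv l)) (Y.tq p (E.ts l)))) :
    ∀ l, ∀ θ ∈ cyCube, ∀ z, cyIn (Y.tq p (E.ts l)) ((2 : ℝ)⁻¹ ^ E.kf) z →
      cyIn (cyDbl (Y.tq p (E.ts l))) ((2 : ℝ)⁻¹ ^ E.kf) (cyJit (cyExt Qs (tmL E.kf (E.iv l) - tmL E.k0 E.i0))
        (cyFlow (tmL E.kf (E.iv l) - tmL E.k0 E.i0) (cyJitPar Qs ((2 : ℝ)⁻¹ ^ E.k0) ζ θ)) z) := by
  intro l θ hθ z hz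
  have hc : CutLe (tmL E.k0 (ancI E.kf E.k0 (E.iv l))) E.k0 (tmL E.kf (E.iv l)) E.kf := gn_cutle_anc (Nat.le_add_right E.k0 E.n) (E.iv l)
  rw [hE.iv_in l] at hc
  obtain ⟨-, hc1, hc2⟩ := hc
  have e : (2 : ℝ)⁻¹ ^ E.kf = E.s * (2 : ℝ)⁻¹ ^ E.k0 := by
    unfold Xp.kf Xp.s
    rw [pow_add, mul_comm]
  have hq := hlab l
  have e2 : tmL E.kf (E.iv l) = tmL E.k0 E.i0 + (tmL E.kf (E.iv l) - tmL E.k0 E.i0) := by ring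
  rw [e2] at hq
  rw [e] at hz ⊢
  exact cy_fc_lab (tmL E.k0 E.i0) E.k0 Qs hr hf _ (by linarith) (by linarith) _ (gn_s_pos E) (gn_s_le_one E)
    (Real.rpow_pos_of_pos (gn_s_pos E) _) (Real.rpow_le_one (gn_s_pos E).le (gn_s_le_one E) hDs) hζ0 hζ hq hθ z hz

theorem rt_pcw_copy {Y : SfCy} (H : CyHyp Y) (J : CyJitW Y) {p : Y.M.Par} (hp : Y.M.gd p) (E : Xp (Y.M.sys p)) (hE : E.ValidW) (Qs : CyT) (hr : 0 < Qs.r) (hf : 0 < Qs.f)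
    {b ζ Λ τ ρ1 ρ2 ρ3 Cs Ds : ℝ} (hS : CyFcSub Cs) (hN : CyFcNum Y.η ζ Λ (b * cyWt Y.η Qs) τ (Y.dl p E.k0 / Qs.f) ρ1 ρ2 ρ3 Cs) (hb : 0 < b) (hDs : 0 ≤ Ds)
    (hζ : 22 * ζ ≤ E.s * (E.s ^ Ds) ^ 3)
    (hsupp : (Y.M.sys p).ms (tmL E.k0 E.i0) E.k0 E.b0 {x | 1 < cyBaseSz Qs ((2 : ℝ)⁻¹ ^ E.k0) (Y.co p (tmL E.k0 E.i0) x)} E.v = 0)
    (htail : (Y.M.sys p).ms (tmL E.k0 E.i0) E.k0 E.b0 {x | Λ < cyNorSz Qs ((2 : ℝ)⁻¹ ^ E.k0) (Y.co p (tmL E.k0 E.i0) x)} E.v ≤ τ)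
    (hreg : ∀ Q, (Y.M.sys p).ok Q E.k0 → CyTr (tmL E.k0 E.i0) E.k0 Qs ρ1 (Y.tq p Q) →
        (Y.M.sys p).ms (tmL E.k0 E.i0) E.k0 E.b0 ((Y.M.sys p).cell Q (tmL E.k0 E.i0) E.k0) E.v ≤ b * (Y.M.sys p).wt Q)
    (hlab : ∀ l, CyBdd (E.s ^ Ds) (cyNrm (tmL E.k0 E.i0) E.k0 Qs (tmL E.kf (E.iv l)) (Y.tq p (E.ts l)))) :
    ∃ (p' : Y.M.Par) (E2 : Xp (Y.M.sys p')), Y.M.gd p' ∧ Y.H p' = Y.H p ∧ E2.Valid ∧ E2.k0 = E.k0 ∧ E2.i0 = E.i0 ∧ E2.n = E.n ∧ E2.e = E.e ∧ E2.ka = 17 * (Λ + 3) ^ 2 * b ∧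
      E2.st.length = E.st.length ∧ (∀ bm, E.GenLe bm → E2.GenLe bm) ∧ E.rd = 4 * E2.rd ∧ cyChM Y p' E2 Qs = cyJm ζ (cyChM Y p E Qs) := by
  have hok : ∀ l, 0 < (Y.tq p (E.ts l)).r ∧ 0 < (Y.tq p (E.ts l)).f ∧ Y.dl p E.kf ≤ (Y.tq p (E.ts l)).f := fun l => (H.ok p _ _).1 (hE.ts_ok l)
  obtain ⟨p', E', hp', hH, hdl, hk, hi, hn, he, hb0, hbT, hst, hgen, ⟨hL, hlabs⟩, hval, hJ⟩ := J p hp E hE Qs ζ hr hf hN.z0 (fun l => cyDbl (Y.tq p (E.ts l)))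
    (fun l => ⟨by have := (hok l).1; simp only [cyDbl]; linarith, by have := (hok l).2.1; simp only [cyDbl]; linarith,
      by have := (hok l).2.1; have := (hok l).2.2; simp only [cyDbl]; linarith⟩)
    (rt_pcw_lab_E E hE Qs hr hf hDs hN.z0.le hζ hlab)
  have hν := cy_fc_hyp H hp E Qs hr hf hN.r1 hsupp htail hreg
  have hjm : cyChM Y p' E' Qs = cyJm ζ (cyChM Y p E Qs) := cy_fc_nu_jit H hp hp' E E' Qs hr hf ζ hk hi hb0 hJ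
  have hκ : 0 < 17 * (Λ + 3) ^ 2 * b := by
    have := hN.L1
    positivity
  have hreg' : (Y.M.sys p').Reg (tmL E'.k0 E'.i0) E'.k0 E'.b0 (17 * (Λ + 3) ^ 2 * b) E'.v := by
    refine cy_fc_reg_of H hp' E' Qs hr hf fun q hqr hqf hqh => ?_
    rw [hjm]
    rw [hdl, hk] at hqh
    have := cy_fc_full hS hN hν q hqr hqf hqh
    calc (cyJm ζ (cyChM Y p E Qs)).real (cyCv q) ≤ 17 * (Λ + 3) ^ 2 * (b * cyWt Y.η Qs * cyWt Y.η q) := this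
      _ = 17 * (Λ + 3) ^ 2 * b * (cyWt Y.η Qs * cyWt Y.η q) := by ring
  refine ⟨p', { E' with ka := 17 * (Λ + 3) ^ 2 * b }, hp', hH, hval _ hκ hreg', hk, hi, hn, he, rfl, hst, hgen, ?_, hjm⟩
  -- the readout
  have hm : ∀ l : Fin E'.L, Xp.m { E' with ka := 17 * (Λ + 3) ^ 2 * b } l = E.m (Fin.cast hL l) := fun l => (hlabs l).2
  have hw : ∀ l : Fin E'.L, Xp.w { E' with ka := 17 * (Λ + 3) ^ 2 * b } l = 16 * E.w (Fin.cast hL l) := by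
    intro l
    have h1 : Xp.w { E' with ka := 17 * (Λ + 3) ^ 2 * b } l = (Y.M.sys p').wt (E'.ts l) := rfl
    rw [h1, H.wt, (hlabs l).1, cy_fc_dbl_wt _ _ (hok _).1 (hok _).2.1, Xp.w, H.wt]
  have h4 : ∀ x : ℝ, Real.sqrt (16 * x) = 4 * Real.sqrt x := by
    intro x
    rw [Real.sqrt_mul (by norm_num), show (16 : ℝ) = 4 ^ 2 by norm_num, Real.sqrt_sq (by norm_num)]
  have hrd : Xp.rd { E' with ka := 17 * (Λ + 3) ^ 2 * b } = ∑ l : Fin E'.L, E.m (Fin.cast hL l) ^ (3 / 2 : ℝ) / Real.sqrt (E.w (Fin.cast hL l)) / 4 := by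
    unfold Xp.rd
    refine Finset.sum_congr rfl fun l _ => ?_
    rw [hm, hw, h4]
    field_simp
  rw [hrd, ← Finset.sum_div]
  have hs : ∑ l : Fin E'.L, E.m (Fin.cast hL l) ^ (3 / 2 : ℝ) / Real.sqrt (E.w (Fin.cast hL l)) = E.rd :=
    Equiv.sum_comp (finCongr hL) fun l => E.m l ^ (3 / 2 : ℝ) / Real.sqrt (E.w l)
  rw [hs]
  ring

theorem rt_pcw_main (Y : SfCy) (H : CyHyp Y) (J : CyJitW Y) : CyTrRateXW Y := by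
  intro Ds hDs
  obtain ⟨Cs, hS⟩ := cy_fc_sub'
  refine ⟨cyFcD1 Y.η Ds, cy_fc_D1_pos H.eta.2 hDs, fun C ε hε => ?_⟩
  obtain ⟨s1, hs1, hnum⟩ := cy_fc_num H.eta hDs hS.1
  obtain ⟨s2, hs2, hnum2⟩ := cy_fc_num2 hDs
  obtain ⟨A2, n2, hrate⟩ := gn_rate_gam Y.M (1 + Y.η / 2) H.gen (C + 1 + ⌈5 * cyFcL Ds⌉₊) (ε / 2) (half_pos hε)
  obtain ⟨n3, hn3⟩ := gn_absorb 66 (ε / 3) (by positivity)
  obtain ⟨n4, hn4⟩ := cy_fc_small_s (lt_min hs1 hs2)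
  refine ⟨min (ε / 6) (1 / 8), max A2 (C + ⌈3 * cyFcL Ds + 4 * cyFcD2 Y.η Ds⌉₊ + 5), max n2 (max n3 n4), by positivity, ?_⟩
  intro p E Qs b hp hn hE hst hgen hr hf hb he1 he2 hPl hPh hsupp htail hreg hlab
  have hε1 : 0 < min (ε / 6) (1 / 8) := by positivity
  have hε18 : min (ε / 6) (1 / 8) ≤ 1 / 8 := min_le_right _ _
  have hε16 : min (ε / 6) (1 / 8) ≤ ε / 6 := min_le_left _ _
  generalize min (ε / 6) (1 / 8) = ε1 at *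
  have hA2 : A2 ≤ max A2 (C + ⌈3 * cyFcL Ds + 4 * cyFcD2 Y.η Ds⌉₊ + 5) := le_max_left _ _
  have hA : (C : ℝ) + 3 * cyFcL Ds + 4 * cyFcD2 Y.η Ds + 5 ≤ ((max A2 (C + ⌈3 * cyFcL Ds + 4 * cyFcD2 Y.η Ds⌉₊ + 5) : ℕ) : ℝ) := by
    have h1 : ((C + ⌈3 * cyFcL Ds + 4 * cyFcD2 Y.η Ds⌉₊ + 5 : ℕ) : ℝ) ≤ ((max A2 (C + ⌈3 * cyFcL Ds + 4 * cyFcD2 Y.η Ds⌉₊ + 5) : ℕ) : ℝ) :=
      Nat.cast_le.2 (le_max_right _ _)
    have h2 := Nat.le_ceil (3 * cyFcL Ds + 4 * cyFcD2 Y.η Ds)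
    have h3 : ((C + ⌈3 * cyFcL Ds + 4 * cyFcD2 Y.η Ds⌉₊ + 5 : ℕ) : ℝ) = (C : ℝ) + (⌈3 * cyFcL Ds + 4 * cyFcD2 Y.η Ds⌉₊ : ℝ) + 5 := by
      push_cast
      ring
    rw [h3] at h1
    linarith
  generalize max A2 (C + ⌈3 * cyFcL Ds + 4 * cyFcD2 Y.η Ds⌉₊ + 5) = A at *
  have hC2a : C + 1 ≤ C + 1 + ⌈5 * cyFcL Ds⌉₊ := Nat.le_add_right _ _
  have hC2b : 5 * cyFcL Ds ≤ ((C + 1 + ⌈5 * cyFcL Ds⌉₊ : ℕ) : ℝ) := by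
    have h2 := Nat.le_ceil (5 * cyFcL Ds)
    push_cast
    have : (0 : ℝ) ≤ C := Nat.cast_nonneg _
    linarith
  generalize C + 1 + ⌈5 * cyFcL Ds⌉₊ = C2 at *
  have hn2 : n2 ≤ E.n := (le_max_left _ _).trans hn
  have hn3' : n3 ≤ E.n := ((le_max_left _ _).trans (le_max_right _ _)).trans hn
  have hn4' : n4 ≤ E.n := ((le_max_right _ _).trans (le_max_right _ _)).trans hn
  have hs0 := gn_s_pos E
  have hss : E.s ≤ min s1 s2 := hn4 E.n hn4'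
  have hW : 0 < cyWt Y.η Qs := by
    unfold cyWt
    positivity
  -- the Planck floor
  have hh0 : 0 ≤ Y.dl p E.k0 / Qs.f := div_nonneg (H.dl_nn p _) hf.le
  have hh1 : Y.dl p E.k0 / Qs.f ≤ 1 := by
    rw [div_le_one hf]
    have h1 : Y.dl p E.k0 ^ 2 ≤ Qs.f ^ 2 := by
      rw [H.dl_sq p hp]
      have := (div_le_one (by positivity : (0 : ℝ) < Qs.f ^ 2)).1 hPh
      exact this
    exact (pow_le_pow_iff_left₀ (H.dl_nn p _) hf.le (by norm_num)).1 h1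
  have hN := hnum E.s C A ε1 (b * cyWt Y.η Qs) E.e (Y.dl p E.k0 / Qs.f) hs0 (hss.trans (min_le_left _ _)) hε1 hε18 (Nat.cast_nonneg _) hA (mul_pos hb hW)
    hE.e_pos.le he2 hh0 hh1
  obtain ⟨c1, c2, c3, c4, c5, c6⟩ := hnum2 E.s ε1 b (cyWt Y.η Qs) E.e C C2 hs0 (hss.trans (min_le_right _ _)) hε1 hε18 hC2a hC2b hb hW he1 he2
  obtain ⟨p', E2, hp', hH, hV, hk, hi, hn', he', hka, hst', hgen', hrd, hjm⟩ := rt_pcw_copy H J hp E hE Qs hr hf hS hN hb hDs.le c1 hsupp htail hreg hlab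
  have hs : E2.s = E.s := by
    unfold Xp.s
    rw [hn']
  have hν := cy_fc_hyp H hp E Qs hr hf hN.r1 hsupp htail hreg
  have hCC : (C : ℝ) ≤ C2 := Nat.cast_le.2 ((Nat.le_succ C).trans hC2a)
  have haf : Y.af C2 A2 p' E2 Qs := by
    refine cy_fc_adm H hp' E2 Qs hr hf hN hν hjm ?_ C2 A2 ?_ ?_ ?_ ?_ ?_ ?_ ?_
    · rw [he']
      exact (cy_fc_nu_univ H hp E Qs).trans hE.budget
    · rw [hs, hka, he']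
      exact c2
    · rw [hs, hka, he']
      exact c3
    · rw [hs]
      exact c4
    · rw [hs]
      exact c5
    · rw [hs, he']
      exact mul_le_mul_of_nonneg_right (gn_s_anti E (Nat.cast_le.2 hA2)) hE.e_pos.le
    · rw [hs]
      exact c6
    · intro hy
      rw [hs, hH, hk]
      exact ⟨(gn_s_anti E hCC).trans (hPl hy), hPh.trans (by linarith)⟩
  have hcls : Y.M.Cls C2 A2 p' E2 :=
    ⟨hp', hV, by rw [hst']; exact hst.trans ((Nat.le_succ C).trans hC2a), hgen' C2 (cy_fc_genle_mono hgen ((Nat.le_succ C).trans hC2a)), (H.af_iff C2 A2 p' E2 hp').2 ⟨Qs, haf⟩⟩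
  have hval := hrate p' E2 (by rw [hn']; exact hn2) hcls
  unfold Xp.val at hval
  rw [hn', he', hka] at hval
  exact cy_fc_fin rfl hε1 hε16 hE.e_pos hb (hn3 E.n hn3') hrd hval

/-- **EXIT** -/
theorem rt_pcw_trrate (η : ℝ) (h0 : 0 < η) (h1 : η < 1) : RtPcwRate η := by
  intro Ds hDs
  obtain ⟨D1, hD1, g1⟩ := rt_pcw_main (sfCl η) (cyClHyp η h0 h1) (rt_pcw_jit η) Ds hDs
  refine ⟨D1, hD1, fun C ε hε => ?_⟩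
  obtain ⟨ε1, A, n0, hε1, g2⟩ := g1 C ε hε
  refine ⟨ε1, A, n0, hε1, fun p E Qs b hp hn hE hst hgen hr hf hb he1 he2 hsupp htail hreg hlab => ?_⟩
  refine g2 p E Qs b hp hn hE hst hgen hr hf hb he1 he2 (fun hy => absurd hy (by simp [sfCl])) ?_ hsupp htail ?_ hlab
  · simp [sfCl]
  · intro Q hQ hT
    exact hreg Q hQ.1 hQ.2 hT

end Claimed.Agent.R256
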