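-- KEEP
import Claimed.Agent.R256.Rt.PatchDefs
import Claimed.Agent.R256.Rt.PclW

/-!
# Row 256 (LS paper), RT, block `rt_patch_cl`, unit RATE : constants and bookkeeping          (helper29; prefix `rt_pcr_`)

`rt_patch_cl` (`Rt/Patch.lean`; 07 l.855-990, classical base l.982-990)  =  **XFER** (the chart moves the rows of the patch to a cylinder experiment; architect helper157, REG helper144)  +  **W** (`Rt/PclW.lean`)  +  this file.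
## The interface `RtPclXfer η h0 h1`
 order of the constants:   `D1 ≥ 1`  |  `Ds K b1`  |  `Dt`  |  `Z`  |  `b0 ≤ b1`  |  `C`  |  `C' A n0`.
 * `Ds`  = exponent of the parameters of the NEW labels in the cylinder frame (`≈ D1 + 3`, needs `b1 ≤ 1/160`);      `K` = exponent of all polynomial losses `M^const`, `M = s^(-4 b0)`  (absolute);
 * `Dt`  = exponent of the truncated family, GIVEN by `RtPcwRate` after `Ds`;      `Z ≈ D1 + 43 Dt + 50`   (`rt_lift` needs `fs Λ^40 ≤ Q.r² Q.f`);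
 * output: a classical cylinder parameter `p1`, a FREE weakly valid experiment `E1`, a frame `Qs`, a truncated regularity `b` with: same energy, `n ≤ n1 ≤ n + 8`, energy window `C'`, base AND normal support in the unit box of the frame (exactly),
   `b`-regularity on `CyTr .. (s1^Dt)`, labels `CyBdd (s1^Ds)`, and the comparison of the readouts
        `rd E ≤ s^(-K b0) (√κ / √b) rd E1 + 2^(-n/2) e √κ`      (second term: rows outside the patch, `RtPd.Ok.root`).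
## EXIT   `rt_pcr_main : RtPclXfer η h0 h1 → (cylCl η).Rate Γc → 0 ≤ Γc → (rtMdCl η h0 h1).PatchRate Γc`      (proved here, no leaf).
-/

set_option autoImplicit false

namespace Claimed.Agent.R256

open MeasureTheory

/-- **XFER**: the transported experiment -/
def RtPclXfer (η : ℝ) (h0 : 0 < η) (h1 : η < 1) : Prop :=
  ∀ D1 : ℝ, 1 ≤ D1 → ∃ Ds K b1 : ℝ, 0 < Ds ∧ 0 ≤ K ∧ 0 < b1 ∧ ∀ Dt : ℝ, 0 < Dt → ∃ Z : ℝ, ∀ b0 : ℝ, 0 < b0 → b0 ≤ b1 → ∀ C : ℕ, ∃ C' A n0 : ℕ,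
    ∀ (p : (rtMdCl η h0 h1).M.Par) (E : Xp ((rtMdCl η h0 h1).M.sys p)) (d : RtPd), n0 ≤ E.n → (rtMdCl η h0 h1).M.Cls C A p E → E.st = [] →
      d.Ok (rtMdCl η h0 h1) p E C A D1 b0 → d.f ≤ E.s ^ Z →
      ∃ (p1 : CclPar) (E1 : Xp (p1.sys η)) (Qs : CyT) (b : ℝ), p1.Ok ∧ E.n ≤ E1.n ∧ E1.n ≤ E.n + 8 ∧ E1.e = E.e ∧ E1.ValidW ∧ E1.st = [] ∧ E1.GenLe C' ∧
        0 < Qs.r ∧ 0 < Qs.f ∧ 0 < b ∧
        E1.s ^ (C' : ℝ) * (b * cyWt η Qs) ≤ E1.e ∧ E1.e ≤ E1.s ^ (-(C' : ℝ)) * (b * cyWt η Qs) ∧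
        (p1.sys η).ms (tmL E1.k0 E1.i0) E1.k0 E1.b0 {x | 1 < cyBaseSz Qs ((2 : ℝ)⁻¹ ^ E1.k0) (p1.co (tmL E1.k0 E1.i0) x)} E1.v = 0 ∧
        (∀ Λ : ℝ, 1 ≤ Λ → (p1.sys η).ms (tmL E1.k0 E1.i0) E1.k0 E1.b0 {x | Λ < cyNorSz Qs ((2 : ℝ)⁻¹ ^ E1.k0) (p1.co (tmL E1.k0 E1.i0) x)} E1.v = 0) ∧
        (∀ Q : CyT, 0 < Q.r → 0 < Q.f → CyTr (tmL E1.k0 E1.i0) E1.k0 Qs (E1.s ^ Dt) Q →
          (p1.sys η).ms (tmL E1.k0 E1.i0) E1.k0 E1.b0 {x | cyIn Q ((2 : ℝ)⁻¹ ^ E1.k0) (p1.co (tmL E1.k0 E1.i0) x)} E1.v ≤ b * cyWt η Q) ∧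
        (∀ l, CyBdd (E1.s ^ Ds) (cyNrm (tmL E1.k0 E1.i0) E1.k0 Qs (tmL E1.kf (E1.iv l)) (E1.ts l))) ∧
        E.rd ≤ E.s ^ (-(K * b0)) * (Real.sqrt E.ka / Real.sqrt b) * E1.rd + 2 ^ (-((E.n : ℝ) / 2)) * E.e * Real.sqrt E.ka

theorem rt_pcr_eqns_cite : True := by
  have := @RtPclXfer.eq_1
  trivial

/-- the arithmetic of the exit -/
theorem rt_pcr_num {Γ Γc γ K b0 e κ b rd rd1 : ℝ} {n n1 : ℕ} (hΓ0 : 0 ≤ Γ) (hΓ : Γ ≤ Γc) (hγ : 0 < γ) (hKb : K * b0 ≤ γ / 4) (he : 0 < e) (hκ : 0 < κ) (hb : 0 < b)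
    (hn1 : n ≤ n1) (hn2 : n1 ≤ n + 8) (habs : (2 : ℝ) ^ (8 * (Γc + γ / 4)) + 1 ≤ 2 ^ (γ / 2 * n))
    (hrate : rd1 ≤ 2 ^ (-((1 / 2 - Γ - γ / 4) * n1)) * e * Real.sqrt b)
    (hcmp : rd ≤ 2 ^ (K * b0 * n) * (Real.sqrt κ / Real.sqrt b) * rd1 + 2 ^ (-((n : ℝ) / 2)) * e * Real.sqrt κ) :
    2 ^ ((n : ℝ) / 2) / (e * Real.sqrt κ) * rd ≤ 2 ^ ((Γc + γ) * n) := by
  have hsκ : 0 < Real.sqrt κ := Real.sqrt_pos.2 hκ
  have hsb : 0 < Real.sqrt b := Real.sqrt_pos.2 hb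
  have hN : (0 : ℝ) ≤ n := Nat.cast_nonneg _
  have hN1 : (n : ℝ) ≤ n1 := Nat.cast_le.2 hn1
  have hN2 : (n1 : ℝ) ≤ n + 8 := by exact_mod_cast hn2
  have hp : (0 : ℝ) < 2 ^ ((n : ℝ) / 2) := gn_two_pos _
  have hq : (0 : ℝ) < 2 ^ (K * b0 * n) := gn_two_pos _
  -- the main term
  have a1 : rd ≤ 2 ^ (K * b0 * n) * (Real.sqrt κ / Real.sqrt b) * (2 ^ (-((1 / 2 - Γ - γ / 4) * n1)) * e * Real.sqrt b) + 2 ^ (-((n : ℝ) / 2)) * e * Real.sqrt κ := by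
    refine hcmp.trans (add_le_add_left (mul_le_mul_of_nonneg_left hrate (by positivity)) _)
  have a2 : 2 ^ ((n : ℝ) / 2) / (e * Real.sqrt κ) * rd ≤ 2 ^ ((n : ℝ) / 2) / (e * Real.sqrt κ) *
      (2 ^ (K * b0 * n) * (Real.sqrt κ / Real.sqrt b) * (2 ^ (-((1 / 2 - Γ - γ / 4) * n1)) * e * Real.sqrt b) + 2 ^ (-((n : ℝ) / 2)) * e * Real.sqrt κ) :=
    mul_le_mul_of_nonneg_left a1 (by positivity)
  have a3 : 2 ^ ((n : ℝ) / 2) / (e * Real.sqrt κ) *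
      (2 ^ (K * b0 * n) * (Real.sqrt κ / Real.sqrt b) * (2 ^ (-((1 / 2 - Γ - γ / 4) * n1)) * e * Real.sqrt b) + 2 ^ (-((n : ℝ) / 2)) * e * Real.sqrt κ)
      = 2 ^ ((n : ℝ) / 2) * 2 ^ (K * b0 * n) * 2 ^ (-((1 / 2 - Γ - γ / 4) * n1)) + 2 ^ ((n : ℝ) / 2) * 2 ^ (-((n : ℝ) / 2)) := by
    field_simp
  have a4 : (2 : ℝ) ^ ((n : ℝ) / 2) * 2 ^ (-((n : ℝ) / 2)) = 1 := by
    rw [← gn_two_add]
    simp
  have a5 : (2 : ℝ) ^ ((n : ℝ) / 2) * 2 ^ (K * b0 * n) * 2 ^ (-((1 / 2 - Γ - γ / 4) * n1)) ≤ 2 ^ (8 * (Γc + γ / 4)) * 2 ^ ((Γc + γ / 2) * n) := by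
    rw [← gn_two_add, ← gn_two_add, ← gn_two_add]
    apply gn_two_mono
    have b1 : K * b0 * n ≤ γ / 4 * n := mul_le_mul_of_nonneg_right hKb hN
    have b2 : (Γ + γ / 4) * n1 ≤ (Γc + γ / 4) * (n + 8) := by
      apply mul_le_mul (by linarith) hN2 (by linarith) (by linarith)
    nlinarith
  have a6 : (1 : ℝ) ≤ 2 ^ ((Γc + γ / 2) * n) := Real.one_le_rpow (by norm_num) (by
    have : 0 ≤ Γc + γ / 2 := by linarith
    positivity)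
  have a7 : (2 : ℝ) ^ ((Γc + γ) * n) = 2 ^ (γ / 2 * n) * 2 ^ ((Γc + γ / 2) * n) := by
    rw [← gn_two_add]
    congr 1
    ring
  rw [a7]
  refine a2.trans ?_
  rw [a3, a4]
  calc (2 : ℝ) ^ ((n : ℝ) / 2) * 2 ^ (K * b0 * n) * 2 ^ (-((1 / 2 - Γ - γ / 4) * n1)) + 1
      ≤ 2 ^ (8 * (Γc + γ / 4)) * 2 ^ ((Γc + γ / 2) * n) + 1 * 2 ^ ((Γc + γ / 2) * n) := by
        rw [one_mul]
        exact add_le_add a5 a6
    _ = (2 ^ (8 * (Γc + γ / 4)) + 1) * 2 ^ ((Γc + γ / 2) * n) := by ring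
    _ ≤ 2 ^ (γ / 2 * n) * 2 ^ ((Γc + γ / 2) * n) := mul_le_mul_of_nonneg_right habs (gn_two_pos _).le

/-- **EXIT of the block**: `rt_patch_cl` from XFER -/
theorem rt_pcr_main (η Γc : ℝ) (h0 : 0 < η) (h1 : η < 1) (X : RtPclXfer η h0 h1) (hcl : (cylCl η).Rate Γc) (hc0 : 0 ≤ Γc) :
    (rtMdCl η h0 h1).PatchRate Γc := by
  intro γ D1 hγ hD1
  obtain ⟨Ds, K, b1, hDs, hK, hb1, X1⟩ := X D1 hD1
  obtain ⟨Dt, hDt, R1⟩ := rt_pcw_trrate η h0 h1 Ds hDs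
  obtain ⟨Z, X2⟩ := X1 Dt hDt
  refine ⟨min b1 (γ / (4 * (K + 1))), by positivity, fun b0 hb0 hb0' => ⟨Z, fun C => ?_⟩⟩
  obtain ⟨C', A, n0, X3⟩ := X2 b0 hb0 (hb0'.trans (min_le_left _ _)) C
  obtain ⟨ε1, A', n0', hε1, R2⟩ := R1 C' (γ / 4) (by positivity)
  obtain ⟨n2, hn2⟩ := gn_absorb ((2 : ℝ) ^ (8 * (Γc + γ / 4)) + 1) (γ / 2) (by positivity)
  refine ⟨A, max n0 (max n0' n2), fun p E d hn hcls hst hd hf => ?_⟩
  obtain ⟨p1, E1, Qs, b, hp1, hn1, hn1', he, hV, hst1, hgen, hr, hfq, hb, hw1, hw2, hsupp, hnor, hreg, hlab, hcmp⟩ :=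
    X3 p E d ((le_max_left _ _).trans hn) hcls hst hd hf
  have hrate := R2 p1 E1 Qs b hp1 ((((le_max_left _ _).trans (le_max_right _ _)).trans hn).trans hn1) hV (by rw [hst1]; exact Nat.zero_le _) hgen hr hfq hb hw1 hw2 hsupp
    (by
      rw [hnor _ (Real.one_le_rpow_of_pos_of_le_one_of_nonpos (gn_s_pos E1) (gn_s_le_one E1) (by linarith))]
      exact mul_nonneg (Real.rpow_pos_of_pos (gn_s_pos E1) _).le hV.e_pos.le) hreg hlab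
  have hKb : K * b0 ≤ γ / 4 := by
    have c1 : b0 ≤ γ / (4 * (K + 1)) := hb0'.trans (min_le_right _ _)
    rw [le_div_iff₀ (by positivity)] at c1
    nlinarith
  rw [he] at hrate
  rw [gn_s_rpow] at hcmp
  have e1 : -(-(K * b0) * (E.n : ℝ)) = K * b0 * E.n := by ring
  rw [e1] at hcmp
  exact rt_pcr_num (cylCl η).bs_gam_nonneg ((cylCl η).bs_gam_le hc0 hcl) hγ hKb hcls.2.1.e_pos hcls.2.1.ka_pos hb hn1 hn1'
    (hn2 E.n (((le_max_right _ _).trans (le_max_right _ _)).trans hn)) hrate hcmp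

end Claimed.Agent.R256
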