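-- KEEP
import Claimed.Agent.R256.Rt.PclDefs
import Claimed.Agent.R256.Rt.PclRate

/-!
# Row 256 (LS paper), RT, block `rt_patch_cl`, unit ASM 1 : comparison of the readouts, masses          (helper29; prefix `rt_pca_`)

 `rt_pca_cmp`      abstract comparison:  `m ≤ Kc m1 + o`, `w1 ≤ Wc w`, `o ≤ τ`, `Σ o ≤ N`, `wm ≤ w`   ⟹   `Σ m^(3/2)/√w ≤ 2 Kc^(3/2) √Wc Σ m1^(3/2)/√w1 + 2 √τ N / √wm`
 `rt_pca_out_sum`  the parts of the labels on a set `S` of rows:  `Σ_l en (1_S th_l) ≤ 2^n ms S`      (generic)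
 `rt_pca_m1`, `rt_pca_m_split`, `rt_pca_out_le`      masses of `rtPcE` against the masses of `E`
-/

set_option autoImplicit false

namespace Claimed.Agent.R256

open MeasureTheory

attribute [local implicit_reducible] CclPar.sys RdClPar.sys

/-! ## arithmetic -/

theorem rt_pca_pow32 {a b : ℝ} (ha : 0 ≤ a) (hb : 0 ≤ b) : (a + b) ^ (3 / 2 : ℝ) ≤ 2 * (a ^ (3 / 2 : ℝ) + b ^ (3 / 2 : ℝ)) := by
  have h := NNReal.rpow_add_le_mul_rpow_add_rpow ⟨a, ha⟩ ⟨b, hb⟩ (p := 3 / 2) (by norm_num)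
  have h' : (a + b) ^ (3 / 2 : ℝ) ≤ (2 : ℝ) ^ ((3 / 2 : ℝ) - 1) * (a ^ (3 / 2 : ℝ) + b ^ (3 / 2 : ℝ)) := by exact_mod_cast h
  refine h'.trans (mul_le_mul_of_nonneg_right ?_ (by positivity))
  calc (2 : ℝ) ^ ((3 / 2 : ℝ) - 1) ≤ 2 ^ (1 : ℝ) := gn_two_mono (by norm_num)
    _ = 2 := Real.rpow_one 2

theorem rt_pca_pow32_eq {a : ℝ} (ha : 0 ≤ a) : a ^ (3 / 2 : ℝ) = a * Real.sqrt a := by
  rw [show (3 / 2 : ℝ) = 1 + 1 / 2 by norm_num]
  rcases ha.eq_or_lt with h | h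
  · rw [← h, Real.zero_rpow (by norm_num)]
    simp
  · rw [Real.rpow_add h, Real.rpow_one, Real.sqrt_eq_rpow]

/-- **abstract comparison of two cubic readouts** -/
theorem rt_pca_cmp {L : ℕ} (m m1 o w w1 : Fin L → ℝ) {Kc Wc τ N wm : ℝ} (hm0 : ∀ l, 0 ≤ m l) (hm1 : ∀ l, 0 ≤ m1 l) (ho : ∀ l, 0 ≤ o l)
    (hm : ∀ l, m l ≤ Kc * m1 l + o l) (hK : 0 ≤ Kc) (hw : ∀ l, 0 < w l) (hw1 : ∀ l, 0 < w1 l) (hww : ∀ l, w1 l ≤ Wc * w l)
    (hoτ : ∀ l, o l ≤ τ) (hoN : ∑ l, o l ≤ N) (hwm0 : 0 < wm) (hwm : ∀ l, wm ≤ w l) :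
    ∑ l, m l ^ (3 / 2 : ℝ) / Real.sqrt (w l) ≤ 2 * Kc ^ (3 / 2 : ℝ) * Real.sqrt Wc * ∑ l, m1 l ^ (3 / 2 : ℝ) / Real.sqrt (w1 l) + 2 * Real.sqrt τ * N / Real.sqrt wm := by
  have hswm : 0 < Real.sqrt wm := Real.sqrt_pos.2 hwm0
  have key : ∀ l, m l ^ (3 / 2 : ℝ) / Real.sqrt (w l) ≤ 2 * Kc ^ (3 / 2 : ℝ) * Real.sqrt Wc * (m1 l ^ (3 / 2 : ℝ) / Real.sqrt (w1 l)) + 2 * Real.sqrt τ / Real.sqrt wm * o l := by
    intro l
    have hsw : 0 < Real.sqrt (w l) := Real.sqrt_pos.2 (hw l)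
    have hsw1 : 0 < Real.sqrt (w1 l) := Real.sqrt_pos.2 (hw1 l)
    have a1 : m l ^ (3 / 2 : ℝ) ≤ 2 * (Kc ^ (3 / 2 : ℝ) * m1 l ^ (3 / 2 : ℝ) + o l * Real.sqrt τ) := by
      calc m l ^ (3 / 2 : ℝ) ≤ (Kc * m1 l + o l) ^ (3 / 2 : ℝ) := Real.rpow_le_rpow (hm0 l) (hm l) (by norm_num)
        _ ≤ 2 * ((Kc * m1 l) ^ (3 / 2 : ℝ) + o l ^ (3 / 2 : ℝ)) := rt_pca_pow32 (mul_nonneg hK (hm1 l)) (ho l)
        _ ≤ 2 * (Kc ^ (3 / 2 : ℝ) * m1 l ^ (3 / 2 : ℝ) + o l * Real.sqrt τ) := by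
          rw [Real.mul_rpow hK (hm1 l), rt_pca_pow32_eq (ho l)]
          have := mul_le_mul_of_nonneg_left (Real.sqrt_le_sqrt (hoτ l)) (ho l)
          linarith
    have a2 : 1 / Real.sqrt (w l) ≤ Real.sqrt Wc / Real.sqrt (w1 l) := by
      rw [div_le_div_iff₀ hsw hsw1, one_mul, ← Real.sqrt_mul' _ (hw l).le]
      exact Real.sqrt_le_sqrt (hww l)
    have a3 : 1 / Real.sqrt (w l) ≤ 1 / Real.sqrt wm := one_div_le_one_div_of_le hswm (Real.sqrt_le_sqrt (hwm l))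
    have p1 : 0 ≤ Kc ^ (3 / 2 : ℝ) * m1 l ^ (3 / 2 : ℝ) := mul_nonneg (Real.rpow_nonneg hK _) (Real.rpow_nonneg (hm1 l) _)
    have p2 : 0 ≤ o l * Real.sqrt τ := mul_nonneg (ho l) (Real.sqrt_nonneg _)
    calc m l ^ (3 / 2 : ℝ) / Real.sqrt (w l) ≤ 2 * (Kc ^ (3 / 2 : ℝ) * m1 l ^ (3 / 2 : ℝ) + o l * Real.sqrt τ) / Real.sqrt (w l) :=
          div_le_div_of_nonneg_right a1 hsw.le
      _ = 2 * (Kc ^ (3 / 2 : ℝ) * m1 l ^ (3 / 2 : ℝ)) * (1 / Real.sqrt (w l)) + 2 * (o l * Real.sqrt τ) * (1 / Real.sqrt (w l)) := by ring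
      _ ≤ 2 * (Kc ^ (3 / 2 : ℝ) * m1 l ^ (3 / 2 : ℝ)) * (Real.sqrt Wc / Real.sqrt (w1 l)) + 2 * (o l * Real.sqrt τ) * (1 / Real.sqrt wm) :=
          add_le_add (mul_le_mul_of_nonneg_left a2 (by positivity)) (mul_le_mul_of_nonneg_left a3 (by positivity))
      _ = 2 * Kc ^ (3 / 2 : ℝ) * Real.sqrt Wc * (m1 l ^ (3 / 2 : ℝ) / Real.sqrt (w1 l)) + 2 * Real.sqrt τ / Real.sqrt wm * o l := by ring
  calc ∑ l, m l ^ (3 / 2 : ℝ) / Real.sqrt (w l)
      ≤ ∑ l, (2 * Kc ^ (3 / 2 : ℝ) * Real.sqrt Wc * (m1 l ^ (3 / 2 : ℝ) / Real.sqrt (w1 l)) + 2 * Real.sqrt τ / Real.sqrt wm * o l) := Finset.sum_le_sum fun l _ => key l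
    _ = 2 * Kc ^ (3 / 2 : ℝ) * Real.sqrt Wc * ∑ l, m1 l ^ (3 / 2 : ℝ) / Real.sqrt (w1 l) + 2 * Real.sqrt τ / Real.sqrt wm * ∑ l, o l := by
        rw [Finset.sum_add_distrib, Finset.mul_sum, Finset.mul_sum]
    _ ≤ 2 * Kc ^ (3 / 2 : ℝ) * Real.sqrt Wc * ∑ l, m1 l ^ (3 / 2 : ℝ) / Real.sqrt (w1 l) + 2 * Real.sqrt τ / Real.sqrt wm * N := by
        have : 0 ≤ 2 * Real.sqrt τ / Real.sqrt wm := by positivity
        linarith [mul_le_mul_of_nonneg_left hoN this]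
    _ = 2 * Kc ^ (3 / 2 : ℝ) * Real.sqrt Wc * ∑ l, m1 l ^ (3 / 2 : ℝ) / Real.sqrt (w1 l) + 2 * Real.sqrt τ * N / Real.sqrt wm := by ring

/-! ## the parts of the labels on a set of rows (generic) -/

theorem rt_pca_ind_mask {X : Type} [MeasurableSpace X] {S : Set X} (hS : MeasurableSet S) {θ : X → ℝ} (hθ : IsMask θ) : IsMask (S.indicator θ) := by
  refine ⟨hθ.1.indicator hS, fun x => ?_⟩
  by_cases hx : x ∈ S
  · rw [Set.indicator_of_mem hx]
    exact hθ.2 x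
  · rw [Set.indicator_of_notMem hx]
    exact ⟨le_rfl, zero_le_one⟩

theorem rt_pca_out_le {P : PkSys} (T : ℝ) (k b : ℕ) (v : P.Kc) {S : Set P.X} (hS : MeasurableSet S) {θ : P.X → ℝ} (hθ : IsMask θ) :
    P.en T k b (S.indicator θ) v ≤ P.ms T k b S v := by
  refine gn_en_mono T k b (rt_pca_ind_mask hS hθ) (gn_mask_ind hS) (fun x => ?_) v
  by_cases hx : x ∈ S
  · rw [Set.indicator_of_mem hx, Set.indicator_of_mem hx]
    exact (hθ.2 x).2
  · rw [Set.indicator_of_notMem hx, Set.indicator_of_notMem hx]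

/-- the labels of one final interval -/
theorem rt_pca_out_iv {P : PkSys} (E : Xp P) (hE : E.Valid) (T : ℝ) (k b : ℕ) (v : P.Kc) {S : Set P.X} (hS : MeasurableSet S) (i : ℕ) :
    ∑ l, (if E.iv l = i then P.en T k b (S.indicator (E.th l)) v else 0) ≤ P.ms T k b S v := by
  classical
  have h1 : ∀ l ∈ (Finset.univ : Finset (Fin E.L)), IsMask (fun x => if E.iv l = i then S.indicator (E.th l) x else 0) := by
    intro l _
    by_cases h : E.iv l = i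
    · simpa [h] using rt_pca_ind_mask hS (gn_th_mask E hE l)
    · simp only [h, if_false]
      exact ⟨measurable_const, fun _ => ⟨le_refl _, zero_le_one⟩⟩
  have h5 : ∀ x, ∑ l, (if E.iv l = i then S.indicator (E.th l) x else 0) ≤ S.indicator (fun _ => (1 : ℝ)) x := by
    intro x
    by_cases hx : x ∈ S
    · simp only [Set.indicator_of_mem hx]
      exact hE.th_sum i x
    · simp only [Set.indicator_of_notMem hx]
      simp
  have h2 : IsMask (fun x => ∑ l, (if E.iv l = i then S.indicator (E.th l) x else 0)) := by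
    refine ⟨Finset.measurable_fun_sum _ fun l hl => (h1 l hl).1, fun x => ⟨Finset.sum_nonneg fun l hl => ((h1 l hl).2 x).1, (h5 x).trans ((gn_mask_ind hS).2 x).2⟩⟩
  have h3 := gn_en_sum T k b Finset.univ (fun l x => if E.iv l = i then S.indicator (E.th l) x else 0) h1 v
  have h4 : ∀ l, (if E.iv l = i then P.en T k b (S.indicator (E.th l)) v else 0) = P.en T k b (fun x => if E.iv l = i then S.indicator (E.th l) x else 0) v := by
    intro l
    by_cases h : E.iv l = i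
    · simp only [h, if_true]
    · simp only [h, if_false]
      unfold PkSys.en
      simp
  rw [Finset.sum_congr rfl fun l _ => h4 l, ← h3]
  exact gn_en_mono T k b h2 (gn_mask_ind hS) h5 v

/-- **all labels** -/
theorem rt_pca_out_sum {P : PkSys} (E : Xp P) (hE : E.Valid) (T : ℝ) (k b : ℕ) (v : P.Kc) {S : Set P.X} (hS : MeasurableSet S) :
    ∑ l, P.en T k b (S.indicator (E.th l)) v ≤ 2 ^ E.n * P.ms T k b S v := by
  classical
  have hmem : ∀ l, E.iv l ∈ ivs E.k0 E.i0 E.kf := by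
    intro l
    have := gn_iv_anc E hE (k := E.kf) (Nat.le_add_right E.k0 E.n) le_rfl l
    unfold ancI at this
    rwa [Nat.sub_self, pow_zero, Nat.div_one] at this
  have e1 : ∀ l, P.en T k b (S.indicator (E.th l)) v = ∑ i ∈ ivs E.k0 E.i0 E.kf, (if E.iv l = i then P.en T k b (S.indicator (E.th l)) v else 0) := by
    intro l
    rw [Finset.sum_ite_eq, if_pos (hmem l)]
  rw [Finset.sum_congr rfl fun l _ => e1 l, Finset.sum_comm]
  calc ∑ i ∈ ivs E.k0 E.i0 E.kf, ∑ l, (if E.iv l = i then P.en T k b (S.indicator (E.th l)) v else 0)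
      ≤ ∑ _i ∈ ivs E.k0 E.i0 E.kf, P.ms T k b S v := Finset.sum_le_sum fun i _ => rt_pca_out_iv E hE T k b v hS i
    _ = 2 ^ E.n * P.ms T k b S v := by
        rw [Finset.sum_const, gn_ivs_card, nsmul_eq_mul]
        unfold Xp.kf
        simp

/-! ## masses of `rtPcE` -/

/-- the classical row energies do not see the cut -/
theorem rt_pca_en_cl (η : ℝ) (p : RdClPar) (T : ℝ) (k b : ℕ) (T' : ℝ) (k' b' : ℕ) (θ : p.Om → ℝ) (v : (p.sys η).Kc) :
    (p.sys η).en T k b θ v = (p.sys η).en T' k' b' θ v := rfl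

/-- the mass of a label of the cylinder experiment -/
theorem rt_pca_m1 (η : ℝ) (p : RdClPar) (E : Xp (p.sys η)) (d : RtPd) (P fs K : ℝ) (jv : Fin E.L → ℕ) (tsq : Fin E.L → CyT) (T : ℝ) (k b : ℕ) (l : Fin E.L) :
    (rtPcE η p E d P fs K jv tsq).m l = (p.sys η).en T k b ((rtPcGo p (d.N E) d P fs (tmL E.k0 E.i0)).indicator (E.th l)) E.v / K := by
  have e1 : (rtPcE η p E d P fs K jv tsq).m l
      = ∫ x, (rtPcGo p (d.N E) d P fs (tmL E.k0 E.i0)).indicator (fun ω => E.th l ω / K) x * ‖((show Lp p.Fb 2 p.m from E.v) : p.Om → p.Fb) x‖ ^ 2 ∂p.m := rfl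
  have e2 : (p.sys η).en T k b ((rtPcGo p (d.N E) d P fs (tmL E.k0 E.i0)).indicator (E.th l)) E.v
      = ∫ x, (rtPcGo p (d.N E) d P fs (tmL E.k0 E.i0)).indicator (E.th l) x * ‖((show Lp p.Fb 2 p.m from E.v) : p.Om → p.Fb) x‖ ^ 2 ∂p.m := rfl
  rw [e1, e2, ← integral_div]
  congr 1
  funext x
  by_cases hx : x ∈ rtPcGo p (d.N E) d P fs (tmL E.k0 E.i0)
  · rw [Set.indicator_of_mem hx, Set.indicator_of_mem hx]
    ring
  · rw [Set.indicator_of_notMem hx, Set.indicator_of_notMem hx]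
    ring

/-- the mass of a label of a free experiment splits along a measurable set of rows -/
theorem rt_pca_m_split (η : ℝ) (p : RdClPar) (E : Xp (p.sys η)) (hE : E.Valid) (hst : E.st = []) {S : Set p.Om} (hS : MeasurableSet S) (T : ℝ) (k b : ℕ) (l : Fin E.L) :
    E.m l = (p.sys η).en T k b (S.indicator (E.th l)) E.v + (p.sys η).en T k b (Sᶜ.indicator (E.th l)) E.v := by
  have e0 : E.m l = (p.sys η).en T k b (E.th l) E.v := by
    unfold Xp.m Xp.fin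
    rw [hst]
    rfl
  have hθ := gn_th_mask E hE l
  have h3 := gn_en_sum (P := p.sys η) T k b (Finset.univ : Finset Bool) (fun c => if c then S.indicator (E.th l) else Sᶜ.indicator (E.th l))
    (by
      intro c _
      cases c
      · exact rt_pca_ind_mask hS.compl hθ
      · exact rt_pca_ind_mask hS hθ) E.v
  rw [e0]
  simp only [Fintype.sum_bool, if_true, Bool.false_eq_true, if_false] at h3
  rw [← h3]
  congr 1
  funext x
  have := Set.indicator_self_add_compl_apply S (E.th l) x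
  exact this.symm

end Claimed.Agent.R256
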