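import Claimed.Agent.R256.Rt.PclGeo
import Claimed.Agent.R256.Cyl.Defs

/-!
# Row 256, folder Rt, file PclExp : PATCHCL, THE CYLINDER EXPERIMENT      (architect helper157; prefix `rt_pc_`)      CONTRACT FILE

Every `sorry` is a LEAF (subtask target `row256`, names `L-256-RT-PC-*`).   Prove IN PLACE, statement verbatim, auxiliary lemmas directly above.   The complete proof is in each docstring.
EXITS (consumed by the assembly `Rt/PclRate.lean`, helper29):
* `rt_pc_lab`      new intervals `jv` and cylinder tests `tsq` for all labels (`RtPcLab1`)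
* `rt_pc_ok`       the cylinder parameter is well formed;   `rt_pc_go_meas`
* **`rt_pc_validw`**   `rtPcE` is valid up to the regularity of the root state (`Xp.ValidW`)
* `rt_pc_supp_b`, `rt_pc_supp_n`   root rows: base in the unit box of `rtPcQs`, normal coordinates in the unit box of `rtPcQs`  (EXACTLY: the sets are empty)
* `rt_pc_bdd`      the labels are `CyBdd ρ` in the frame
* `rt_pc_mass`     `E.m l = K * E1.m l + (bad part)`,  `rt_pc_bad_le`, `rt_pc_bad_sum`   the bad parts;   `rt_pc_w`  the weights.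
-/

set_option autoImplicit false

namespace Claimed.Agent.R256

open MeasureTheory

attribute [local implicit_reducible] CclPar.sys RdClPar.sys

/-! ## 1. Labels -/

theorem rt_pc_lab {η : ℝ} {p : RdClPar} {E : Xp (p.sys η)} {d : RtPd} {P M fs : ℝ} (H : RtPcHyp η p E d P M fs) :
    ∃ (jv : Fin E.L → ℕ) (tsq : Fin E.L → CyT), ∀ l, RtPcLab1 E d P M fs l (jv l) (tsq l) := by
  choose jv tsq h using rt_pc_lab1 H
  exact ⟨jv, tsq, h⟩

/-! ## 2. Measurability -/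

/-- the five coordinates of a family of rows are measurable -/
abbrev RtPcMs {Ω : Type} [MeasurableSpace Ω] (R : Ω → RtRow) : Prop :=
  Measurable (fun ω => (R ω).A.1) ∧ Measurable (fun ω => (R ω).A.2) ∧ Measurable (fun ω => (R ω).b.1) ∧
    Measurable (fun ω => (R ω).b.2) ∧ Measurable (fun ω => (R ω).y)

theorem rt_pc_ms_co (p : RdClPar) (T : ℝ) : RtPcMs (fun ω => p.co T ω) := by
  have h := rt_md_cl_meas p T
  exact ⟨h.fst.fst, h.fst.snd, h.snd.fst.fst, h.snd.fst.snd, h.snd.snd⟩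

theorem rt_pc_ms_cen {Ω : Type} [MeasurableSpace Ω] {R : Ω → RtRow} (h : RtPcMs R) (p₀ : RtRow) : RtPcMs fun ω => rtCfRowCen p₀ (R ω) := by
  obtain ⟨h1, h2, h3, h4, h5⟩ := h
  refine ⟨?_, ?_, ?_, ?_, ?_⟩ <;>
    simp only [rtCfRowCen, rtIp, Prod.fst_sub, Prod.snd_sub] <;> fun_prop

theorem rt_pc_ms_rot {Ω : Type} [MeasurableSpace Ω] {R : Ω → RtRow} (h : RtPcMs R) (e : ℝ × ℝ) : RtPcMs fun ω => rtCfRowRot e (R ω) := by
  obtain ⟨h1, h2, h3, h4, h5⟩ := h
  refine ⟨?_, ?_, ?_, ?_, ?_⟩ <;>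
    simp only [rtCfRowRot, rtRot] <;> fun_prop

theorem rt_pc_ms_db {Ω : Type} [MeasurableSpace Ω] {R : Ω → RtRow} (h : RtPcMs R) (β : ℝ) : RtPcMs fun ω => rtCfRowDb β (R ω) := by
  obtain ⟨h1, h2, h3, h4, h5⟩ := h
  refine ⟨?_, ?_, ?_, ?_, ?_⟩ <;>
    simp only [rtCfRowDb, rtCfQ, rtCfT0, rtSq] <;> fun_prop

theorem rt_pc_ms_cf {Ω : Type} [MeasurableSpace Ω] {R : Ω → RtRow} (h : RtPcMs R) (vb : ℝ × ℝ) (vy : ℝ) : RtPcMs fun ω => rtCfRow vb vy (R ω) := by
  obtain ⟨h1, h2, h3, h4, h5⟩ := h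
  refine ⟨?_, ?_, ?_, ?_, ?_⟩ <;>
    simp only [rtCfRow, rtCfD0, rtCfD1, rtSq, rtIp, Prod.fst_sub, Prod.snd_sub, Prod.fst_add, Prod.snd_add, Prod.smul_fst, Prod.smul_snd,
      smul_eq_mul] <;> fun_prop

theorem rt_pc_ms_sc {Ω : Type} [MeasurableSpace Ω] {R : Ω → RtRow} (h : RtPcMs R) (l r : ℝ) : RtPcMs fun ω => (rtChSc l r).row (R ω) := by
  obtain ⟨h1, h2, h3, h4, h5⟩ := h
  refine ⟨?_, ?_, ?_, ?_, ?_⟩ <;>
    simp only [rtChSc, Prod.smul_fst, Prod.smul_snd, smul_eq_mul] <;> fun_prop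

theorem rt_pc_ms_flow {Ω : Type} [MeasurableSpace Ω] {R : Ω → RtRow} (h : RtPcMs R) (t : ℝ) : RtPcMs fun ω => (R ω).flow t := by
  obtain ⟨h1, h2, h3, h4, h5⟩ := h
  refine ⟨?_, ?_, ?_, ?_, ?_⟩ <;>
    simp only [RtRow.flow, rtSq, Prod.fst_add, Prod.snd_add, Prod.smul_fst, Prod.smul_snd, smul_eq_mul] <;> fun_prop

theorem rt_pc_ms_nrm {Ω : Type} [MeasurableSpace Ω] {R : Ω → RtRow} (h : RtPcMs R) (l r : ℝ) (c : RtRow) :
    RtPcMs fun ω => (rtNrm l r c).row (R ω) :=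
  rt_pc_ms_sc (rt_pc_ms_cen h c) l r

theorem rt_pc_ms_chart {Ω : Type} [MeasurableSpace Ω] {R : Ω → RtRow} (h : RtPcMs R) (p₀ : RtRow) (n : RtPoly) :
    RtPcMs fun ω => (rtChart p₀ n).row (R ω) :=
  rt_pc_ms_cf (rt_pc_ms_db (rt_pc_ms_rot (rt_pc_ms_cen h p₀) (n.g 0 p₀.b p₀.A)) n.be) (0, n.k) 0

/-- LEAF `L-256-RT-PC-MEAS` (1).   `rt_md_cl_meas p T0` : `ω ↦ ((co).A, (co).b, (co).y)` is measurable, hence the five real coordinates.   Unfold `rtPcGo, rtPcG, RtPd.In, rtBx, rtNrm, RtCh.comp, rtChSc, rtChCen, rtCfRowCen, RtPoly.F, RtPoly.G, rtSq, rtIp`: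
the set is a finite intersection of sets `{ω | f ω ≤ c}` with `f` measurable (`measurableSet_le`, `Measurable.abs` …, `fun_prop` / `measurability`). -/
theorem rt_pc_go_meas (p : RdClPar) (l r : ℝ) (c : RtRow) (d : RtPd) (P fs T0 : ℝ) : MeasurableSet (rtPcGo p (rtNrm l r c) d P fs T0) := by
  obtain ⟨h1, h2, h3, h4, h5⟩ := rt_pc_ms_nrm (rt_pc_ms_co p T0) l r c
  have e : rtPcGo p (rtNrm l r c) d P fs T0 =
      {ω | rtSq (((rtNrm l r c).row (p.co T0 ω)).b - d.p0.b) ≤ (rtChRho P / 2 * 1) ^ 2} ∩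
      ({ω | |((rtNrm l r c).row (p.co T0 ω)).y - d.p0.y - 2 * rtIp d.p0.A (((rtNrm l r c).row (p.co T0 ω)).b - d.p0.b)| ≤ rtChRho P / 2 * 1 ^ 2} ∩
      ({ω | rtSq (((rtNrm l r c).row (p.co T0 ω)).A - d.p0.A) ≤ (rtChRho P / 2 * 1) ^ 2} ∩
      ({ω | |d.nL.F 0 ((rtNrm l r c).row (p.co T0 ω)).b ((rtNrm l r c).row (p.co T0 ω)).y| ≤ fs} ∩
       {ω | |d.nL.G 0 ((rtNrm l r c).row (p.co T0 ω)).b ((rtNrm l r c).row (p.co T0 ω)).y ((rtNrm l r c).row (p.co T0 ω)).A| ≤ fs}))) := by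
    ext ω
    simp only [rtPcGo, rtPcG, RtPd.In, rtBx, Set.mem_ofPred_eq, Set.mem_inter_iff]
    tauto
  rw [e]
  refine MeasurableSet.inter (measurableSet_le ?_ measurable_const) (MeasurableSet.inter (measurableSet_le ?_ measurable_const)
    (MeasurableSet.inter (measurableSet_le ?_ measurable_const) (MeasurableSet.inter (measurableSet_le ?_ measurable_const)
      (measurableSet_le ?_ measurable_const)))) <;>
    simp only [rtSq, rtIp, RtPoly.F, RtPoly.G, Prod.fst_sub, Prod.snd_sub, Prod.smul_fst, Prod.smul_snd, smul_eq_mul] <;> fun_prop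

/-- LEAF `L-256-RT-PC-MEAS` (2).   `sf := p.sf`.   Each coordinate is `ω ↦ (if co ω ∈ G then rtPcZ .. (co ω) else 0).X` `= (rtPcGo ..).indicator (fun ω => (rtPcZ .. (co ω)).X) ω` (`apply_ite`): `Measurable.indicator _ (rt_pc_go_meas ..)`.
`rtPcZ` unfolds (`cySc8, rtFl, RtRow.flow, rtPcRow, rtChart, RtCh.comp, rtChCf, rtChDb, rtChRot, rtChCen, rtCfRow, rtCfRowDb, rtCfRowRot, rtCfRowCen, rtNrm, rtChSc`, …) to sums, products, quotients of the five measurable coordinates (`Measurable.div`: no condition on the denominator). -/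
theorem rt_pc_ok (p : RdClPar) (l r : ℝ) (c : RtRow) (d : RtPd) (P fs T0 : ℝ) : (rtPcP p (rtNrm l r c) d P fs T0).Ok := by
  have hG := rt_pc_go_meas p l r c d P fs T0
  obtain ⟨h1, h2, h3, h4, h5⟩ := rt_pc_ms_flow (rt_pc_ms_chart (rt_pc_ms_nrm (rt_pc_ms_co p T0) l r c) d.p0 d.nL) (-4)
  have key : ∀ φ : Cy5 → ℝ, φ ⟨0, 0, 0, 0, 0⟩ = 0 → Measurable (fun ω => φ (rtPcZ (rtNrm l r c) d fs (p.co T0 ω))) →
      Measurable fun ω => φ (rtPcZg (rtNrm l r c) d P fs (p.co T0 ω)) := by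
    intro φ h0 hm
    have e : (fun ω => φ (rtPcZg (rtNrm l r c) d P fs (p.co T0 ω)))
        = (rtPcGo p (rtNrm l r c) d P fs T0).indicator (fun ω => φ (rtPcZ (rtNrm l r c) d fs (p.co T0 ω))) := by
      funext ω
      by_cases h : p.co T0 ω ∈ rtPcG (rtNrm l r c) d P fs
      · have h' : ω ∈ rtPcGo p (rtNrm l r c) d P fs T0 := h
        rw [Set.indicator_of_mem h']
        unfold rtPcZg
        rw [if_pos h]
      · have h' : ω ∉ rtPcGo p (rtNrm l r c) d P fs T0 := h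
        rw [Set.indicator_of_notMem h']
        unfold rtPcZg
        rw [if_neg h, h0]
    rw [e]
    exact hm.indicator hG
  refine ⟨p.sf, key (fun z => z.X) rfl ?_, key (fun z => z.B) rfl ?_, key (fun z => z.Y) rfl ?_, key (fun z => z.N) rfl ?_,
    key (fun z => z.D) rfl ?_⟩
  · exact h1
  · exact h3.div_const 8
  · exact h5.div_const 8
  · exact h2.div_const fs
  · exact (h4.div_const fs).div_const 8

/-! ## 3. `th_sum` -/

/-- the flow of a particle -/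
theorem rt_pc_co_flow (p : RdClPar) (T0 T : ℝ) (ω : p.Om) : p.co T ω = (p.co T0 ω).flow (T - T0) := by
  simp only [RdClPar.co, RtRow.flow]
  ext <;> simp <;> ring

/-- a good particle that is seen by the label `l` -/
theorem rt_pc_mem_S {η : ℝ} {p : RdClPar} {E : Xp (p.sys η)} (hE : E.Valid) (d : RtPd) (P fs : ℝ) (l : Fin E.L) {ω : p.Om}
    (hω : ω ∈ rtPcGo p (d.N E) d P fs (tmL E.k0 E.i0)) (hth : E.th l ω ≠ 0) : p.co (tmL E.k0 E.i0) ω ∈ rtPcS E d P fs l := by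
  refine ⟨hω, ?_⟩
  have h1 : p.co (tmL E.kf (E.iv l)) ω ∈ (rtPcT E l).rows E.kf := hE.th_supp l ω hth
  rwa [rt_pc_co_flow p (tmL E.k0 E.i0)] at h1

/-- LEAF `L-256-RT-PC-SUMA` (finite combinatorics).   `I` = the image under `iv` of `{l | Sel l ∧ a l ≠ 0}` : a finite set of naturals of diameter `≤ R`, so `#I ≤ R + 1` (`I ⊆ Finset.Icc (min) (min + ⌊R⌋₊)`; empty case trivial).
`∑_l [Sel l] a l = ∑_{i ∈ I} ∑_l [iv l = i ∧ Sel l] a l ≤ ∑_{i ∈ I} ∑_l [iv l = i] a l ≤ #I`. -/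
theorem rt_pc_sum_abs {L : ℕ} (iv : Fin L → ℕ) (a : Fin L → ℝ) (Sel : Fin L → Prop) [DecidablePred Sel] (R : ℝ) (hR : 0 ≤ R)
    (ha : ∀ l, 0 ≤ a l) (hsum : ∀ i, ∑ l, (if iv l = i then a l else 0) ≤ 1)
    (hsep : ∀ l l', Sel l → Sel l' → a l ≠ 0 → a l' ≠ 0 → |(iv l : ℝ) - iv l'| ≤ R) :
    ∑ l, (if Sel l then a l else 0) ≤ R + 1 := by
  classical
  obtain ⟨T, hT⟩ : ∃ T : Finset (Fin L), T = Finset.univ.filter (fun l => Sel l ∧ a l ≠ 0) := ⟨_, rfl⟩
  have hTm : ∀ l, l ∈ T ↔ (Sel l ∧ a l ≠ 0) := by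
    intro l
    rw [hT]
    simp
  have e1 : ∑ l, (if Sel l then a l else 0) = ∑ l ∈ T, a l := by
    rw [hT, Finset.sum_filter]
    refine Finset.sum_congr rfl fun l _ => ?_
    by_cases h1 : Sel l
    · by_cases h2 : a l = 0
      · simp [h1, h2]
      · simp [h1, h2]
    · simp [h1]
  have e2 : ∑ l ∈ T, a l = ∑ i ∈ T.image iv, ∑ l ∈ T with iv l = i, a l :=
    (Finset.sum_fiberwise_of_maps_to (fun l hl => Finset.mem_image_of_mem iv hl) a).symm
  have e3 : ∀ i, ∑ l ∈ T with iv l = i, a l ≤ 1 := by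
    intro i
    refine le_trans ?_ (hsum i)
    rw [Finset.sum_filter]
    refine Finset.sum_le_sum_of_subset_of_nonneg (Finset.subset_univ _) fun l _ _ => ?_
    split_ifs
    · exact ha l
    · exact le_rfl
  have e4 : ∑ l ∈ T, a l ≤ ((T.image iv).card : ℝ) := by
    rw [e2]
    calc ∑ i ∈ T.image iv, ∑ l ∈ T with iv l = i, a l ≤ ∑ _i ∈ T.image iv, (1 : ℝ) := Finset.sum_le_sum fun i _ => e3 i
      _ = ((T.image iv).card : ℝ) := by simp
  have e5 : ((T.image iv).card : ℝ) ≤ R + 1 := by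
    by_cases hne : (T.image iv).Nonempty
    · have hsub : T.image iv ⊆ Finset.Icc ((T.image iv).min' hne) ((T.image iv).min' hne + ⌊R⌋₊) := by
        intro i hi
        rw [Finset.mem_Icc]
        refine ⟨Finset.min'_le _ _ hi, ?_⟩
        obtain ⟨l, hl, rfl⟩ := Finset.mem_image.1 hi
        obtain ⟨l', hl', hm⟩ := Finset.mem_image.1 (Finset.min'_mem _ hne)
        have h1 := hsep l l' ((hTm l).1 hl).1 ((hTm l').1 hl').1 ((hTm l).1 hl).2 ((hTm l').1 hl').2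
        rw [← hm]
        have h2 : (iv l : ℝ) - iv l' ≤ R := (le_abs_self _).trans h1
        by_cases hle : iv l ≤ iv l'
        · omega
        · push Not at hle
          have h3 : ((iv l - iv l' : ℕ) : ℝ) ≤ R := by
            rw [Nat.cast_sub hle.le]
            exact h2
          have h4 : iv l - iv l' ≤ ⌊R⌋₊ := Nat.le_floor h3
          omega
      have hc := Finset.card_le_card hsub
      rw [Nat.card_Icc] at hc
      have hc' : (T.image iv).card ≤ ⌊R⌋₊ + 1 := by omega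
      have h5 : ((T.image iv).card : ℝ) ≤ (⌊R⌋₊ : ℝ) + 1 := by exact_mod_cast hc'
      have h6 := Nat.floor_le hR
      linarith
    · rw [Finset.not_nonempty_iff_eq_empty] at hne
      rw [hne]
      simp
      linarith
  rw [e1]
  exact e4.trans e5

/-- LEAF `L-256-RT-PC-SEP`.   `x = p.co T0 ω ∈ rtPcS E d P fs l ∩ rtPcS E d P fs l'` (`rt_pc_mem_S`);  both new times are within `M s` of `rtPcTau E.n j`, so they differ by `≤ 2 M s`;  `rt_pc_rate_abs` (`rt_pc_thin` for the patch, `rt_pc_clk`: `θ ∈ [0,1]`) : `|θ_l - θ_l'| ≤ 10 M s`;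
`rt_pc_clk` : `θ_l - θ_l' = (iv l - iv l') s`;  divide by `s > 0`. -/
theorem rt_pc_sep {η : ℝ} {p : RdClPar} {E : Xp (p.sys η)} {d : RtPd} {P M fs : ℝ} (H : RtPcHyp η p E d P M fs) (j : ℕ) {l l' : Fin E.L} {x : RtRow}
    (hx : x ∈ rtPcS E d P fs l) (hx' : x ∈ rtPcS E d P fs l')
    (h : |rtPcTm (d.N E) d x (rtPcTh E l) - rtPcTau E.n j| ≤ M * E.s) (h' : |rtPcTm (d.N E) d x (rtPcTh E l') - rtPcTau E.n j| ≤ M * E.s) :
    |(E.iv l : ℝ) - E.iv l'| ≤ 10 * M := by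
  have hP1 : 1 ≤ P := by linarith [H.P2]
  have hq := (rt_pc_thin hP1 d H.chart hx.1).1
  obtain ⟨e1, a0, a1, -⟩ := rt_pc_clk E H.val.iv_in l
  obtain ⟨e2, b0, b1, -⟩ := rt_pc_clk E H.val.iv_in l'
  have r := rt_pc_rate_abs H.chart hq (t := rtPcTh E l') (t' := rtPcTh E l) (abs_le.2 ⟨by linarith, by linarith⟩)
    (abs_le.2 ⟨by linarith, by linarith⟩)
  have hd : |(rtChart d.p0 d.nL).tm ((d.N E).row x) (rtPcTh E l) - (rtChart d.p0 d.nL).tm ((d.N E).row x) (rtPcTh E l')| ≤ 2 * (M * E.s) := by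
    have h1 : |(rtChart d.p0 d.nL).tm ((d.N E).row x) (rtPcTh E l) - rtPcTau E.n j| ≤ M * E.s := h
    have h2 : |(rtChart d.p0 d.nL).tm ((d.N E).row x) (rtPcTh E l') - rtPcTau E.n j| ≤ M * E.s := h'
    rw [abs_le] at h1 h2 ⊢
    constructor <;> linarith [h1.1, h1.2, h2.1, h2.2]
  have hs : 0 < E.s := gn_s_pos E
  have e3 : rtPcTh E l - rtPcTh E l' = ((E.iv l : ℝ) - E.iv l') * E.s := by rw [e1, e2]; ring
  rw [e3, abs_mul, abs_of_pos hs] at r
  have : |(E.iv l : ℝ) - E.iv l'| * E.s ≤ 10 * M * E.s := by linarith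
  exact le_of_mul_le_mul_right this hs

/-- **`th_sum`** of the cylinder experiment -/
theorem rt_pc_sum {η : ℝ} {p : RdClPar} {E : Xp (p.sys η)} {d : RtPd} {P M fs K : ℝ} (H : RtPcHyp η p E d P M fs) (hK : 10 * M + 1 ≤ K)
    (jv : Fin E.L → ℕ) (tsq : Fin E.L → CyT) (hl : ∀ l, RtPcLab1 E d P M fs l (jv l) (tsq l)) (j : ℕ) (ω : p.Om) :
    ∑ l, (if jv l = j then (rtPcGo p (d.N E) d P fs (tmL E.k0 E.i0)).indicator (fun ω => E.th l ω / K) ω else 0) ≤ 1 := by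
  have hM : (0 : ℝ) ≤ M := (pow_nonneg (by linarith [H.P2]) 30).trans H.PM
  have hK0 : 0 < K := by linarith
  by_cases hω : ω ∈ rtPcGo p (d.N E) d P fs (tmL E.k0 E.i0)
  · simp only [Set.indicator_of_mem hω]
    have key := rt_pc_sum_abs E.iv (fun l => E.th l ω) (fun l => jv l = j) (10 * M) (by positivity) (fun l => H.val.th_nn l ω)
      (fun i => H.val.th_sum i ω) (by
        intro l l' hj hj' ha ha'
        have hx := rt_pc_mem_S H.val d P fs l hω ha
        have hx' := rt_pc_mem_S H.val d P fs l' hω ha'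
        have a := ((hl l).2.2.2.2.2.2.2 _ hx).1
        have a' := ((hl l').2.2.2.2.2.2.2 _ hx').1
        have hj1 : jv l = j := hj
        have hj2 : jv l' = j := hj'
        rw [hj1] at a
        rw [hj2] at a'
        exact rt_pc_sep H j hx hx' a a')
    have e : ∑ l, (if jv l = j then E.th l ω / K else 0) = (∑ l, (if jv l = j then E.th l ω else 0)) / K := by
      rw [Finset.sum_div]
      refine Finset.sum_congr rfl fun l _ => ?_
      split_ifs <;> simp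
    rw [e, div_le_one hK0]
    exact key.trans hK
  · simp only [Set.indicator_of_notMem hω]
    simp

/-! ## 4. Validity -/

/-- **the cylinder experiment is valid up to the regularity of its root state** -/
theorem rt_pc_validw {η : ℝ} {p : RdClPar} {E : Xp (p.sys η)} {d : RtPd} {P M fs K : ℝ} (H : RtPcHyp η p E d P M fs) (hK : 10 * M + 1 ≤ K)
    (jv : Fin E.L → ℕ) (tsq : Fin E.L → CyT) (hl : ∀ l, RtPcLab1 E d P M fs l (jv l) (tsq l)) : (rtPcE η p E d P fs K jv tsq).ValidW := by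
  have hP0 : (0 : ℝ) < P := by linarith [H.P2]
  have hM : (0 : ℝ) < M := (pow_pos hP0 30).trans_le H.PM
  have hK0 : 0 < K := by linarith
  have hfs : 0 < fs := H.f_pos.trans_le H.f_fs
  have hr : ∀ l, 0 < (tsq l).r := fun l => by rw [(hl l).2.1]; positivity
  have hf : ∀ l, 0 < (tsq l).f := fun l => by
    rw [(hl l).2.2.1]
    have : 0 < (rtPcT E l).f := (half_pos H.f_pos).trans_le (H.lab_f l).1
    positivity
  have hG := rt_pc_go_meas p (rdLen E.k0) d.ψ.r d.ψ.cen d P fs (tmL E.k0 E.i0)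
  refine ⟨H.val.e_pos, one_pos, H.val.budget, ?_, ?_, ?_, ?_, ?_, ?_, fun l => ⟨hr l, hf l⟩, ?_, ?_, ?_, ?_, ?_⟩
  · rw [cy_cl_pl]
    exact Set.mem_univ _
  · intro σ hσ
    exact absurd hσ (List.not_mem_nil)
  · exact List.Pairwise.nil
  · intro σ hσ
    exact absurd hσ (List.not_mem_nil)
  · intro σ hσ
    exact absurd hσ (List.not_mem_nil)
  · intro l
    show ancI (0 + (E.n + 3)) 0 (jv l) = 0
    unfold ancI
    exact Nat.div_eq_of_lt (by simpa using (hl l).1)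
  · intro l
    exact mul_pos (Real.rpow_pos_of_pos (hr l) _) (Real.rpow_pos_of_pos (hf l) _)
  · intro (l : Fin E.L)
    exact ((H.val.th_meas l).div_const K).indicator hG
  · intro (l : Fin E.L) (ω : p.Om)
    exact Set.indicator_nonneg (fun ω _ => div_nonneg (H.val.th_nn l ω) hK0.le) ω
  · intro (l : Fin E.L) (ω : p.Om) hω
    have hω' : (rtPcGo p (d.N E) d P fs (tmL E.k0 E.i0)).indicator (fun ω => E.th l ω / K) ω ≠ 0 := hω
    have hmem : ω ∈ rtPcGo p (d.N E) d P fs (tmL E.k0 E.i0) := by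
      by_contra hc
      exact hω' (Set.indicator_of_notMem hc _)
    rw [Set.indicator_of_mem hmem] at hω'
    have hth : E.th l ω ≠ 0 := fun h0 => hω' (by rw [h0, zero_div])
    have hx := rt_pc_mem_S H.val d P fs l hmem hth
    have h2 := ((hl l).2.2.2.2.2.2.2 _ hx).2
    show cyIn (tsq l) ((2 : ℝ)⁻¹ ^ (0 + (E.n + 3))) ((rtPcP p (d.N E) d P fs (tmL E.k0 E.i0)).co (tmL (0 + (E.n + 3)) (jv l)) ω)
    rw [rt_pc_co_good p (d.N E) d P fs (tmL E.k0 E.i0) _ hmem]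
    exact h2
  · intro j (ω : p.Om)
    exact rt_pc_sum H hK jv tsq hl j ω

end Claimed.Agent.R256
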