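import Claimed.Agent.R256.Rt.LiftPatch
import Claimed.Agent.R256.Cyl.Alg

/-!
# Row 256, folder Rt, file LiftReg: REG = regularity of the cylinder input of a patch experiment on TRUNCATED cylinder tests      (helper144; prefix `rt_lr_`)      SORRY-FREE

Generic over a round-type model `Y : RtMd η` (`H = 0`: classical).   All masses are masses of the ENERGY MEASURE `(Y.M.sys p).mu T k b v` (`= ms` on measurable sets, `gn_ms_eq_mu`; monotone on ALL sets), so no measurability of chart images is needed here.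
* `rt_lr_cover_mu`      a `κ`-regular state gives `μ {x | co x ∈ S} ≤ κ W` for `RtCover S (rdLen k) u η W`, `d_ℓ ≤ u`
* `rt_lr_bd`            the flattened coordinates of a row of `RtPd.In` at the new time `θ`, `|θ| ≤ 8`: base `≤ 1`, `|N| ≤ 24`, `|D| ≤ 204`
* `rt_lr_sh`            a test that contains such a point has `|c|, |d| ≤ 204 + f + 5 Λ₀`:  normal centres need no hypothesis
* **`rt_lr_reg`**       REG: `μ {x | N x ∈ In, cyIn Q 1 (rtFl fs ((Φ (N x)).flow θ))} ≤ κ r⁴ M^C fs^(1-η) cyWt η Q`, all centres free, shear `α, β, K ≤ Λ₀`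
* `rt_lr_ideal`         the ideal cylinder flow of the flattened coordinates differs from the flattened flow only by `(T'-θ) A₂²` in `Y`
* **`rt_endlift_ideal`**  (endlift) for the IDEAL cylinder flow started at the new time `θ₀`.
-/

set_option autoImplicit false

namespace Claimed.Agent.R256

open MeasureTheory

/-! ## 1. Coverings and regular states -/

theorem rt_lr_cover_mu {η : ℝ} (Y : RtMd η) (hY : Y.Ok) (p : Y.M.Par) (hp : Y.M.gd p) (T : ℝ) (k b : ℕ) {κ : ℝ} (hκ : 0 ≤ κ)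
    (v : (Y.M.sys p).Kc) (hreg : (Y.M.sys p).Reg T k b κ v) {S : Set RtRow} {u W : ℝ} (h : RtCover S (rdLen k) u η W)
    (hu : rdD (Y.H p) k ≤ u) : ((Y.M.sys p).mu T k b v).real {x | Y.co p T x ∈ S} ≤ κ * W := by
  have hfin := gn_mu_finite (P := Y.M.sys p) T k b v
  have hT := hY.gen.tight p hp
  refine rt_cover_mass h (fun S => ((Y.M.sys p).mu T k b v).real {x | Y.co p T x ∈ S}) hκ ?_ ?_ ?_
  · intro s t hst
    exact measureReal_mono (fun x hx => hst hx)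
  · intro m s
    have e : {x | Y.co p T x ∈ ⋃ i, s i} = ⋃ i, {x | Y.co p T x ∈ s i} := by
      ext x
      simp
    show ((Y.M.sys p).mu T k b v).real {x | Y.co p T x ∈ ⋃ i, s i} ≤ _
    rw [e]
    exact measureReal_iUnion_fintype_le _
  · intro τ hτ hl hun
    have e1 : (Y.tq p (Y.qt p ⟨τ.r, τ.f, τ.As, τ.bs, τ.ys, τ.n⟩)).toT k = τ := by
      rw [hY.tq_qt]
      show (⟨rdLen k, τ.r, τ.f, τ.As, τ.bs, τ.ys, τ.n⟩ : RtTest) = τ
      rw [← hl]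
    have e2 : (Y.M.sys p).cell (Y.qt p ⟨τ.r, τ.f, τ.As, τ.bs, τ.ys, τ.n⟩) T k = {x | Y.co p T x ∈ τ.set 1} := by
      rw [hY.cell_eq]
      unfold RdTst.rows
      rw [e1]
    have hok : (Y.M.sys p).ok (Y.qt p ⟨τ.r, τ.f, τ.As, τ.bs, τ.ys, τ.n⟩) k := by
      rw [hY.ok_iff, e1, hY.tq_qt]
      exact ⟨hτ, hu.trans hun⟩
    have h1 := hreg _ hok
    rw [gn_ms_eq_mu T k b (hT.cellM _ _ _), e2, hY.wt_eq, hY.tq_qt] at h1
    exact h1

/-! ## 2. The flattened coordinates of the rows of a patch -/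

/-- the thin rows of a patch (`RtPd.In` with the full patch) -/
def rtLrIn (P fs : ℝ) (n : RtPoly) (p₀ : RtRow) : Set RtRow :=
  {q | q ∈ rtBx p₀ 1 (rtChRho P) ∧ |n.F 0 q.b q.y| ≤ fs ∧ |n.G 0 q.b q.y q.A| ≤ fs}

theorem rt_lr_eqns_cite : True := by
  have := @rtLrIn.eq_1
  trivial

theorem rt_lr_bx_half {p₀ q : RtRow} {ρ : ℝ} (hρ : 0 ≤ ρ) (h : q ∈ rtBx p₀ 1 (ρ / 2)) : q ∈ rtBx p₀ 1 ρ := by
  obtain ⟨a1, a2, a3⟩ := h
  have e : (ρ / 2 * 1) ^ 2 ≤ (ρ * 1) ^ 2 := by nlinarith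
  exact ⟨a1.trans e, a2.trans (by nlinarith), a3.trans e⟩

theorem rt_lr_in_of (d : RtPd) {P fs : ℝ} (hP : 0 < P) {q : RtRow} (h : q ∈ d.In P fs) : q ∈ rtLrIn P fs d.nL d.p0 :=
  ⟨rt_lr_bx_half (by unfold rtChRho; positivity) h.1, h.2.1, h.2.2⟩

/-- base coordinates `≤ 1`, `|N| ≤ 24`, `|D| ≤ 204` -/
theorem rt_lr_bd {P fs θ : ℝ} {n : RtPoly} {p₀ q : RtRow} (hP : 1 ≤ P) (h : RtChartOk P n p₀) (hfs : 0 < fs) (hθ : |θ| ≤ 8)
    (hq : q ∈ rtLrIn P fs n p₀) :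
    cyBd 1 (rtFl fs (((rtChart p₀ n).row q).flow θ)) ∧ |(rtFl fs (((rtChart p₀ n).row q).flow θ)).N| ≤ 24 ∧
      |(rtFl fs (((rtChart p₀ n).row q).flow θ)).D| ≤ 204 ∧ |((rtChart p₀ n).row q).A.2| ≤ 24 * fs := by
  obtain ⟨hb, hF, hG⟩ := hq
  obtain ⟨s1, s2, s3⟩ := rt_lf_img hP h hb hθ
  obtain ⟨t1, t2⟩ := rt_chart_thin h hb
  have u1 : |((rtChart p₀ n).row q).b.2| ≤ 12 * fs := by linarith
  have u2 : |((rtChart p₀ n).row q).A.2| ≤ 24 * fs := by linarith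
  refine ⟨⟨?_, ?_, s3⟩, ?_, ?_, u2⟩
  · exact rt_chp_fst zero_le_one (by simpa using s1)
  · exact rt_chp_fst zero_le_one (by simpa using s2)
  · show |((rtChart p₀ n).row q).A.2 / fs| ≤ 24
    rw [abs_div, abs_of_pos hfs, div_le_iff₀ hfs]
    exact u2
  · show |(((rtChart p₀ n).row q).b + θ • ((rtChart p₀ n).row q).A).2 / fs| ≤ 204
    rw [abs_div, abs_of_pos hfs, div_le_iff₀ hfs]
    have e : (((rtChart p₀ n).row q).b + θ • ((rtChart p₀ n).row q).A).2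
        = ((rtChart p₀ n).row q).b.2 + θ * ((rtChart p₀ n).row q).A.2 := by simp
    rw [e]
    have k1 : |θ * ((rtChart p₀ n).row q).A.2| ≤ 8 * (24 * fs) := rt_lf_stab_m2 hθ u2
    have := abs_add_le ((rtChart p₀ n).row q).b.2 (θ * ((rtChart p₀ n).row q).A.2)
    linarith

/-- the normal centres of a test that contains a bounded point are bounded -/
theorem rt_lr_sh {Q : CyT} {Λ₀ : ℝ} {z : Cy5} (hz : cyBd 1 z) (hN : |z.N| ≤ 24) (hD : |z.D| ≤ 204) (hin : cyIn Q 1 z)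
    (hal : |Q.al| ≤ Λ₀) (hbe : |Q.be| ≤ Λ₀) (hK : |Q.K| ≤ Λ₀) : cySh Q (204 + Q.f + 5 * Λ₀) := by
  obtain ⟨zX, zB, zY⟩ := hz
  obtain ⟨-, -, -, i4, i5⟩ := hin
  have hΛ : 0 ≤ Λ₀ := (abs_nonneg _).trans hal
  have hf : 0 ≤ Q.f := (abs_nonneg _).trans i4
  unfold cyVel at i4
  unfold cyPos at i5
  have m1 : |Q.al * z.X| ≤ Λ₀ * 1 := rt_lf_stab_m2 hal zX
  have x2 : |z.X ^ 2| ≤ 1 := by
    rw [abs_pow]
    exact pow_le_one₀ (abs_nonneg _) zX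
  have b2 : |z.B ^ 2| ≤ 1 := by
    rw [abs_pow]
    exact pow_le_one₀ (abs_nonneg _) zB
  have m2 : |Q.be * z.X ^ 2| ≤ Λ₀ * 1 := rt_lf_stab_m2 hbe x2
  have xb : |z.X * z.B| ≤ 1 * 1 := rt_lf_stab_m2 zX zB
  have y3 : |z.Y - 2 * z.X * z.B| ≤ 3 := by
    have c1 := abs_le.1 zY
    have c2 := abs_le.1 xb
    rw [abs_le]
    constructor <;> nlinarith [c1.1, c1.2, c2.1, c2.2]
  have m3 : |Q.K * (z.Y - 2 * z.X * z.B)| ≤ Λ₀ * 3 := rt_lf_stab_m2 hK y3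
  have m4 : |Q.al * z.B| ≤ Λ₀ * 1 := rt_lf_stab_m2 hal zB
  have m5 : |Q.be * z.Y| ≤ Λ₀ * 1 := rt_lf_stab_m2 hbe zY
  have m6 : |Q.K * z.B ^ 2| ≤ Λ₀ * 1 := rt_lf_stab_m2 hK b2
  refine ⟨?_, ?_, by linarith, by linarith, by linarith⟩
  · have a1 := abs_le.1 i4
    have a2 := abs_le.1 hN
    have a3 := abs_le.1 m1
    have a4 := abs_le.1 m2
    have a5 := abs_le.1 m3
    rw [abs_le]
    constructor <;> linarith [a1.1, a1.2, a2.1, a2.2, a3.1, a3.2, a4.1, a4.2, a5.1, a5.2]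
  · have a1 := abs_le.1 i5
    have a2 := abs_le.1 hD
    have a3 := abs_le.1 m4
    have a4 := abs_le.1 m5
    have a5 := abs_le.1 m6
    rw [abs_le]
    constructor <;> linarith [a1.1, a1.2, a2.1, a2.2, a3.1, a3.2, a4.1, a4.2, a5.1, a5.2]

/-! ## 3. REG -/

/-- **REG**: the cylinder input of a patch is regular on truncated tests;   `C` depends only on `η` -/
theorem rt_lr_reg (η : ℝ) (h0 : 0 < η) (h1 : η < 1) :
    ∃ C : ℝ, 0 < C ∧ ∀ (Y : RtMd η), Y.Ok → ∀ (p : Y.M.Par), Y.M.gd p → ∀ (T : ℝ) (k b : ℕ) (κ : ℝ) (v : (Y.M.sys p).Kc), 0 ≤ κ →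
      (Y.M.sys p).Reg T k b κ v → ∀ (M Λ₀ P fs θ r : ℝ) (c : RtRow) (n : RtPoly) (p₀ : RtRow) (Q : CyT), 2 ≤ M → 1 ≤ P → P ≤ M →
      RtChartOk P n p₀ → |θ| ≤ 8 → 0 < fs → 0 < Q.r → Q.r ≤ M → 0 < Q.f → Q.f ≤ M → |Q.al| ≤ Λ₀ → |Q.be| ≤ Λ₀ → |Q.K| ≤ Λ₀ →
      fs * (204 + M + 5 * Λ₀) ^ 40 ≤ Q.r ^ 2 * Q.f → 0 < r → rdD (Y.H p) k ≤ r * (fs * Q.f) →
      ((Y.M.sys p).mu T k b v).real {x | (rtNrm (rdLen k) r c).row (Y.co p T x) ∈ rtLrIn P fs n p₀ ∧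
          cyIn Q 1 (rtFl fs (((rtChart p₀ n).row ((rtNrm (rdLen k) r c).row (Y.co p T x))).flow θ))}
        ≤ κ * (r ^ 4 * (M ^ C * (fs ^ (1 - η) * cyWt η Q))) := by
  obtain ⟨C, hC, H⟩ := rt_lift_frame η h0 h1
  refine ⟨C, hC, fun Y hY p hp T k b κ v hκ hreg M Λ₀ P fs θ r c n p₀ Q hM hP hPM hch hθ hfs hr0 hrM hf0 hfM hal hbe hK hthin hr hH => ?_⟩
  have hfin := gn_mu_finite (P := Y.M.sys p) T k b v
  have hΛ₀ : 0 ≤ Λ₀ := (abs_nonneg _).trans hal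
  by_cases hne : ∃ x, (rtNrm (rdLen k) r c).row (Y.co p T x) ∈ rtLrIn P fs n p₀ ∧
      cyIn Q 1 (rtFl fs (((rtChart p₀ n).row ((rtNrm (rdLen k) r c).row (Y.co p T x))).flow θ))
  · obtain ⟨x, hx1, hx2⟩ := hne
    obtain ⟨b1, b2, b3, -⟩ := rt_lr_bd hP hch hfs hθ hx1
    have hsh0 := rt_lr_sh b1 b2 b3 hx2 hal hbe hK
    have hsh : cySh Q (204 + M + 5 * Λ₀) := by
      obtain ⟨c1, c2, c3, c4, c5⟩ := hsh0
      exact ⟨by linarith, by linarith, by linarith, by linarith, by linarith⟩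
    have hcov := H M (204 + M + 5 * Λ₀) P fs θ (rdLen k) r c n p₀ Q hM (by linarith) hP hPM hch hθ hfs hr0 hrM hf0 hfM hsh hthin
      (rdLen_pos k) hr
    refine le_trans (measureReal_mono ?_) (rt_lr_cover_mu Y hY p hp T k b hκ v hreg hcov hH)
    intro y hy
    exact ⟨hy.1.1, hy.2⟩
  · have e : {x | (rtNrm (rdLen k) r c).row (Y.co p T x) ∈ rtLrIn P fs n p₀ ∧
        cyIn Q 1 (rtFl fs (((rtChart p₀ n).row ((rtNrm (rdLen k) r c).row (Y.co p T x))).flow θ))} = ∅ := by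
      ext x
      simp only [Set.mem_ofPred_eq, Set.mem_empty_iff_false, iff_false]
      exact fun hx => hne ⟨x, hx⟩
    rw [e, measureReal_empty]
    have hw : 0 ≤ cyWt η Q := by
      unfold cyWt
      positivity
    positivity

/-! ## 4. The ideal cylinder flow -/

/-- the ideal flow drops `(T'-θ) A₂²` in `Y` -/
theorem rt_lr_ideal (fs : ℝ) (q : RtRow) (θ T' : ℝ) :
    cyFlow (T' - θ) (rtFl fs (q.flow θ))
      = { rtFl fs (q.flow T') with Y := (rtFl fs (q.flow T')).Y - (T' - θ) * q.A.2 ^ 2 } := by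
  simp only [cyFlow, rtFl, RtRow.flow, rtSq, Prod.fst_add, Prod.snd_add, Prod.smul_fst, Prod.smul_snd, smul_eq_mul, Cy5.mk.injEq]
  refine ⟨trivial, by ring, by ring, trivial, by ring⟩

/-- **(endlift)** for the ideal cylinder flow started at the new time `θ₀` -/
theorem rt_endlift_ideal {M P fs T0 T T' θ₀ : ℝ} {k0 k : ℕ} (d : RtPd) (Q : RdTst) (hM : 2 ≤ M) (hP : 1 ≤ P) (hPM : P ≤ M)
    (h : RtChartOk P d.nL d.p0) (hr : 0 < d.ψ.r) (hQ : (Q.toT k).Adm 1) (hk : k0 ≤ k) (hQr : Q.r ≤ M * d.ψ.r)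
    (ht : |T - T0| ≤ 2 * rdLen k0) (hT : |T'| ≤ 3) (hT2 : |T' + rdLen k / rdLen k0| ≤ 3) (hθ₀ : |θ₀| ≤ 8) (hfs : 0 < fs) (hf : Q.f ≤ fs)
    (hcon : d.Con (rtNrm (rdLen k0) d.ψ.r d.ψ.cen) T0 k T Q fs) (hthin : fs ^ 3 * M ^ 100 ≤ rdLen k / rdLen k0 * Q.f) :
    ∃ Qc : CyT, Qc.r = 2 * M ^ 40 ∧ Qc.f = 2 * (M ^ 20 * Q.f / fs) ∧ cySh Qc (M ^ 20) ∧
      ∀ x : RtRow, (rtNrm (rdLen k0) d.ψ.r d.ψ.cen).row x ∈ rtLrIn P fs d.nL d.p0 → x.flow (T - T0) ∈ (Q.toT k).set M →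
        |(rtChart d.p0 d.nL).tm ((rtNrm (rdLen k0) d.ψ.r d.ψ.cen).row x) ((T - T0) / rdLen k0) - T'| ≤ M * (rdLen k / rdLen k0) →
        cyIn Qc (rdLen k / rdLen k0)
          (cyFlow (T' - θ₀) (rtFl fs (((rtChart d.p0 d.nL).row ((rtNrm (rdLen k0) d.ψ.r d.ψ.cen).row x)).flow θ₀))) := by
  obtain ⟨Qc, q1, q2, q3, q4⟩ := rt_endlift_con d Q hM hP hPM h hr hQ hk hQr ht hT hT2 hfs hf hcon hthin
  obtain ⟨δ, hδ⟩ : ∃ δ, δ = rdLen k / rdLen k0 := ⟨_, rfl⟩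
  rw [← hδ] at hthin q4 hT2 ⊢
  have hδ0 : 0 < δ := by
    rw [hδ]
    exact div_pos (rdLen_pos k) (rdLen_pos k0)
  have hδ1 : δ ≤ 1 := by
    rw [hδ, div_le_one (rdLen_pos k0)]
    unfold rdLen
    exact pow_le_pow_of_le_one (by norm_num) (by norm_num) hk
  have hf0 : 0 < Q.f := hQ.f_pos
  have hM1 : (1 : ℝ) ≤ M := by linarith
  have hM16 : (131072 : ℝ) ≤ M ^ 100 := by
    calc (131072 : ℝ) = 2 ^ 17 := by norm_num
      _ ≤ M ^ 17 := pow_le_pow_left₀ (by norm_num) hM 17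
      _ ≤ M ^ 100 := pow_le_pow_right₀ hM1 (by norm_num)
  have hM40 : (1 : ℝ) ≤ M ^ 40 := one_le_pow₀ hM1
  have hM20 : (1 : ℝ) ≤ M ^ 20 := one_le_pow₀ hM1
  -- the base error
  obtain ⟨eb, heb⟩ : ∃ eb, eb = 6336 * fs ^ 2 / δ := ⟨_, rfl⟩
  have heb0 : 0 ≤ eb := by
    rw [heb]
    positivity
  have k3 : 131072 * fs ^ 3 ≤ δ * Q.f := by
    have : 131072 * fs ^ 3 ≤ fs ^ 3 * M ^ 100 := by
      have : 0 ≤ fs ^ 3 := by positivity
      nlinarith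
    linarith
  have k2 : 131072 * fs ^ 2 ≤ δ := by
    have a1 : δ * Q.f ≤ δ * fs := mul_le_mul_of_nonneg_left hf hδ0.le
    have a2 : (131072 * fs ^ 2) * fs ≤ δ * fs := by
      calc (131072 * fs ^ 2) * fs = 131072 * fs ^ 3 := by ring
        _ ≤ _ := k3.trans a1
    exact le_of_mul_le_mul_right a2 hfs
  have heb1 : eb ≤ 1 := by
    rw [heb, div_le_one hδ0]
    have : 0 ≤ fs ^ 2 := by positivity
    linarith
  have hebf : 16 * eb ≤ Q.f / fs := by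
    rw [heb, le_div_iff₀ hfs]
    have : 16 * (6336 * fs ^ 2 / δ) * fs = 101376 * fs ^ 3 / δ := by ring
    rw [this, div_le_iff₀ hδ0]
    have : 0 ≤ fs ^ 3 := by positivity
    linarith
  refine ⟨{ Qc with r := 2 * M ^ 40, f := 2 * (M ^ 20 * Q.f / fs) }, rfl, rfl, q3, fun x hx hxQ htx => ?_⟩
  have hin := q4 x hx.1 hxQ htx
  obtain ⟨q, hq⟩ : ∃ q, q = (rtChart d.p0 d.nL).row ((rtNrm (rdLen k0) d.ψ.r d.ψ.cen).row x) := ⟨_, rfl⟩
  obtain ⟨b1, -, -, b4⟩ := rt_lr_bd hP h hfs (hT.trans (by norm_num) : |T'| ≤ 8) hx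
  obtain ⟨c1, -, -, -⟩ := rt_lr_bd hP h hfs hθ₀ hx
  rw [← hq] at hin b1 b4 c1 ⊢
  have hdT : |T' - θ₀| ≤ 11 := by
    have a1 := abs_le.1 hT
    have a2 := abs_le.1 hθ₀
    rw [abs_le]
    constructor <;> linarith [a1.1, a1.2, a2.1, a2.2]
  have hA2 : q.A.2 ^ 2 ≤ (24 * fs) ^ 2 := by
    rw [← sq_abs q.A.2]
    exact pow_le_pow_left₀ (abs_nonneg _) b4 2
  have herr : |(T' - θ₀) * q.A.2 ^ 2| ≤ δ * eb := by
    have e : δ * eb = 11 * (24 * fs) ^ 2 := by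
      rw [heb]
      field_simp
      ring
    rw [e, abs_mul, abs_of_nonneg (sq_nonneg q.A.2)]
    exact mul_le_mul hdT hA2 (sq_nonneg _) (by norm_num)
  have hY : |(rtFl fs (q.flow T')).Y - (T' - θ₀) * q.A.2 ^ 2| ≤ 2 := by
    have a1 := abs_le.1 b1.2.2
    have a2 := abs_le.1 herr
    have a3 : δ * eb ≤ 1 := by nlinarith
    rw [abs_le]
    constructor <;> linarith [a1.1, a1.2, a2.1, a2.2]
  rw [rt_lr_ideal]
  refine rt_lf_stab (Λ := M ^ 20) (W := 2) (eb := eb) (en := 0) hδ0.le hδ1 heb0 le_rfl (by positivity) (by norm_num) (by rw [q1]; positivity) q3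
    ⟨b1.1.trans (by norm_num), b1.2.1.trans (by norm_num), b1.2.2.trans (by norm_num)⟩
    ⟨b1.1.trans (by norm_num), b1.2.1.trans (by norm_num), hY⟩ ?_ hin ?_ ?_ ?_
  · refine ⟨by simpa using heb0, by simpa using mul_nonneg hδ0.le heb0, ?_, by simp, by simp⟩
    show |(rtFl fs (q.flow T')).Y - (T' - θ₀) * q.A.2 ^ 2 - (rtFl fs (q.flow T')).Y| ≤ δ * eb
    have e : (rtFl fs (q.flow T')).Y - (T' - θ₀) * q.A.2 ^ 2 - (rtFl fs (q.flow T')).Y = -((T' - θ₀) * q.A.2 ^ 2) := by ring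
    rw [e, abs_neg]
    exact herr
  · rw [q1]
    linarith
  · rw [q1]
    nlinarith
  · rw [q2]
    have e : M ^ 20 * (16 * eb) ≤ M ^ 20 * (Q.f / fs) := mul_le_mul_of_nonneg_left hebf (by positivity)
    have e2 : M ^ 20 * Q.f / fs = M ^ 20 * (Q.f / fs) := by ring
    rw [e2]
    linarith

end Claimed.Agent.R256
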