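import Claimed.Agent.R256.Rt.PclDefs
import Claimed.Agent.R256.Rt.LiftReg
import Claimed.Agent.R256.Cyl.Defs

/-!
# Row 256, folder Rt, file PclReg : block PATCHCL, unit REG = the truncated regularity of the cylinder input `rtPcP`, `rtPcE`, frame `rtPcQs`      (helper144; prefix `rt_pcg_`)      SORRY-FREE

* `rt_pcg_tr`      dictionary: `CyTr (tmL 0 0) 0 rtPcQs ρ Q` ⟹ `ρ ≤ r ≤ 1`, `32 ρ ≤ f ≤ 32`, `|α|, |β|, |K| ≤ 32/ρ`  (centres free)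
* `rt_pcg_root`    a root test (length `1`, position units `8`) lies in the test `rtPcgQ Q` of length `1` in flattened units (widths `8 r`, `8 f`), weight `4096 cyWt η Q`
* **`rt_pcg_reg`**   `ms (cell Q) ≤ 4096 κ r⁴ M^C fs^(1-η) cyWt η Q + τ`,  `τ` = mass of the bad rows (they sit at the origin);   `C = C(η)`
* **`rt_pcg_reg'`**  the clause of `RtPclXfer` with `b = rtPcgB η C M κ r fs`, if `τ ≤ 4096 κ r⁴ M^C fs^(1-η) ρ⁴`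
* **`rt_pcg_supp`**, **`rt_pcg_nor`**   the two support clauses of `RtPclXfer` (exact).
-/

set_option autoImplicit false

namespace Claimed.Agent.R256

open MeasureTheory

attribute [local implicit_reducible] CclPar.sys RdClPar.sys

/-- the root test in flattened units, length `1` -/
noncomputable def rtPcgQ (Q : CyT) : CyT := { cyT8i Q with r := 8 * Q.r, f := 8 * Q.f }

/-- the truncated regularity -/
noncomputable def rtPcgB (η C M κ r fs : ℝ) : ℝ := 8192 * (κ * (r ^ 4 * (M ^ C * fs ^ (1 - η))))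

theorem rt_pcg_eqns_cite : True := by
  have := @rtPcgQ.eq_1
  have := @rtPcgB.eq_1
  trivial

theorem rt_pcg_tr {ρ : ℝ} {Q : CyT} (h : CyTr (tmL 0 0) 0 rtPcQs ρ Q) :
    ρ ≤ Q.r ∧ Q.r ≤ 1 ∧ 32 * ρ ≤ Q.f ∧ Q.f ≤ 32 ∧ |Q.al| ≤ 32 * ρ⁻¹ ∧ |Q.be| ≤ 32 * ρ⁻¹ ∧ |Q.K| ≤ 32 * ρ⁻¹ := by
  obtain ⟨a1, a2, a3, a4, a5, a6, a7⟩ := h
  simp only [cyNrm, sfFrameOf, SfFrame.tst, sfTestAt, rtPcQs, SfTest.beAt, SfFrame.bc, tmL] at a1 a2 a3 a4 a5 a6 a7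
  norm_num at a1 a2 a3 a4 a5 a6 a7
  have h32 : ∀ x : ℝ, |x / 32| ≤ ρ⁻¹ → |x| ≤ 32 * ρ⁻¹ := by
    intro x hx
    rw [abs_div, abs_of_pos (by norm_num : (0 : ℝ) < 32)] at hx
    linarith
  exact ⟨a1, a2, by linarith, by linarith, h32 _ a5, h32 _ a6, h32 _ a7⟩

theorem rt_pcg_root {Q : CyT} (hr : 0 ≤ Q.r) (hf : 0 ≤ Q.f) {z : Cy5} (h : cyIn Q 1 (cySc8 z)) : cyIn (rtPcgQ Q) 1 z := by
  have h1 : cyIn (cyT8i Q) 8 z := by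
    rw [← rt_pc_sc8_in, rt_pc_t8_inv]
    norm_num
    exact h
  exact rt_lf_len (cyT8i Q) (by norm_num) hr hf h1

theorem rt_pcg_wt (η : ℝ) {Q : CyT} (hr : 0 ≤ Q.r) (hf : 0 ≤ Q.f) : cyWt η (rtPcgQ Q) = 4096 * cyWt η Q := by
  show (8 * Q.r) ^ (3 + η) * (8 * Q.f) ^ (1 - η) = 4096 * (Q.r ^ (3 + η) * Q.f ^ (1 - η))
  rw [Real.mul_rpow (by norm_num) hr, Real.mul_rpow (by norm_num) hf]
  have e : (8 : ℝ) ^ (3 + η) * 8 ^ (1 - η) = 4096 := by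
    rw [← Real.rpow_add (by norm_num)]
    have : (3 + η + (1 - η) : ℝ) = (4 : ℕ) := by
      push_cast
      ring
    rw [this, Real.rpow_natCast]
    norm_num
  calc (8 : ℝ) ^ (3 + η) * Q.r ^ (3 + η) * (8 ^ (1 - η) * Q.f ^ (1 - η))
      = ((8 : ℝ) ^ (3 + η) * 8 ^ (1 - η)) * (Q.r ^ (3 + η) * Q.f ^ (1 - η)) := by ring
    _ = _ := by rw [e]

/-- the weight floor of the truncated family -/
theorem rt_pcg_floor {η ρ : ℝ} (h0 : 0 < η) (h1 : η < 1) (hρ : 0 < ρ) {Q : CyT} (hr : ρ ≤ Q.r) (hf : 32 * ρ ≤ Q.f) :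
    ρ ^ 4 ≤ cyWt η Q := by
  have e : ρ ^ 4 = ρ ^ (3 + η) * ρ ^ (1 - η) := by
    rw [← Real.rpow_add hρ]
    have : (3 + η + (1 - η) : ℝ) = (4 : ℕ) := by
      push_cast
      ring
    rw [this, Real.rpow_natCast]
  rw [e]
  unfold cyWt
  exact mul_le_mul (Real.rpow_le_rpow hρ.le hr (by linarith)) (Real.rpow_le_rpow hρ.le (by linarith) (by linarith))
    (Real.rpow_pos_of_pos hρ _).le (Real.rpow_nonneg (hρ.le.trans hr) _)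

/-- **REG** -/
theorem rt_pcg_reg (η : ℝ) (h0 : 0 < η) (h1 : η < 1) :
    ∃ C : ℝ, 0 < C ∧ ∀ (p : RdClPar) (E : Xp (p.sys η)) (d : RtPd) (M P fs ρ τ : ℝ), 0 ≤ E.ka →
      (p.sys η).Reg (tmL E.k0 E.i0) E.k0 E.b0 E.ka E.v → (rtPcP p (d.N E) d P fs (tmL E.k0 E.i0)).Ok →
      MeasurableSet (rtPcGo p (d.N E) d P fs (tmL E.k0 E.i0)) → 256 ≤ M → 1 ≤ P → P ≤ M → RtChartOk P d.nL d.p0 → 0 < fs → 0 < d.ψ.r →
      0 < ρ → fs * (204 + M + 160 * ρ⁻¹) ^ 40 ≤ 16384 * ρ ^ 3 →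
      (p.sys η).ms (tmL E.k0 E.i0) E.k0 E.b0 (rtPcGo p (d.N E) d P fs (tmL E.k0 E.i0))ᶜ E.v ≤ τ →
      ∀ Q : CyT, 0 < Q.r → 0 < Q.f → CyTr (tmL 0 0) 0 rtPcQs ρ Q →
        ((rtPcP p (d.N E) d P fs (tmL E.k0 E.i0)).sys η).ms (tmL 0 0) 0 0
            {x | cyIn Q ((2 : ℝ)⁻¹ ^ 0) ((rtPcP p (d.N E) d P fs (tmL E.k0 E.i0)).co (tmL 0 0) x)} E.v
          ≤ 4096 * (E.ka * (d.ψ.r ^ 4 * (M ^ C * fs ^ (1 - η)))) * cyWt η Q + τ := by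
  obtain ⟨C, hC, H⟩ := rt_lr_reg η h0 h1
  refine ⟨C, hC, fun p E d M P fs ρ τ hκ hreg hp1 hG hM hP hPM hch hfs hr hρ hthin hbad Q hQr hQf hQ => ?_⟩
  obtain ⟨t1, t2, t3, t4, t5, t6, t7⟩ := rt_pcg_tr hQ
  obtain ⟨T0, hT0⟩ : ∃ T0, T0 = tmL E.k0 E.i0 := ⟨_, rfl⟩
  rw [← hT0] at hreg hp1 hG hbad ⊢
  have hfin := gn_mu_finite (P := p.sys η) T0 E.k0 E.b0 E.v
  have hcell := cy_cl_cell_meas (rtPcP p (d.N E) d P fs T0) hp1 Q ((2 : ℝ)⁻¹ ^ 0) (tmL 0 0)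
  -- masses are masses of the energy measure of the round system
  have e1 : ((rtPcP p (d.N E) d P fs T0).sys η).ms (tmL 0 0) 0 0
      {x | cyIn Q ((2 : ℝ)⁻¹ ^ 0) ((rtPcP p (d.N E) d P fs T0).co (tmL 0 0) x)} E.v
      = ((p.sys η).mu T0 E.k0 E.b0 E.v).real {x | cyIn Q ((2 : ℝ)⁻¹ ^ 0) ((rtPcP p (d.N E) d P fs T0).co (tmL 0 0) x)} :=
    gn_ms_eq_mu (P := (rtPcP p (d.N E) d P fs T0).sys η) (tmL 0 0) 0 0 hcell E.v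
  have e2 : (p.sys η).ms T0 E.k0 E.b0 (rtPcGo p (d.N E) d P fs T0)ᶜ E.v
      = ((p.sys η).mu T0 E.k0 E.b0 E.v).real (rtPcGo p (d.N E) d P fs T0)ᶜ := gn_ms_eq_mu T0 E.k0 E.b0 hG.compl E.v
  rw [e1]
  rw [e2] at hbad
  -- the good part
  have hρi : 0 < ρ⁻¹ := inv_pos.2 hρ
  have hK8 : |(rtPcgQ Q).K| ≤ 32 * ρ⁻¹ := by
    show |Q.K / 8| ≤ 32 * ρ⁻¹
    rw [abs_div, abs_of_pos (by norm_num : (0 : ℝ) < 8)]
    have := abs_nonneg Q.K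
    linarith
  have hth : fs * (204 + M + 5 * (32 * ρ⁻¹)) ^ 40 ≤ (rtPcgQ Q).r ^ 2 * (rtPcgQ Q).f := by
    have a1 : (204 + M + 5 * (32 * ρ⁻¹) : ℝ) = 204 + M + 160 * ρ⁻¹ := by ring
    rw [a1]
    refine hthin.trans ?_
    show 16384 * ρ ^ 3 ≤ (8 * Q.r) ^ 2 * (8 * Q.f)
    have a2 : ρ ^ 2 ≤ Q.r ^ 2 := pow_le_pow_left₀ hρ.le t1 2
    have a3 : ρ ^ 2 * (32 * ρ) ≤ Q.r ^ 2 * Q.f := mul_le_mul a2 t3 (by positivity) (by positivity)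
    calc 16384 * ρ ^ 3 = 512 * (ρ ^ 2 * (32 * ρ)) := by ring
      _ ≤ 512 * (Q.r ^ 2 * Q.f) := by linarith
      _ = _ := by ring
  have hgood := H (rtMdCl η h0 h1) (rt_md_cl_ok η h0 h1) p p.ok T0 E.k0 E.b0 E.ka E.v hκ hreg M (32 * ρ⁻¹) P fs (-4) d.ψ.r d.ψ.cen
    d.nL d.p0 (rtPcgQ Q) (by linarith) hP hPM hch (by norm_num) hfs (by show 0 < 8 * Q.r; linarith) (by show 8 * Q.r ≤ M; linarith)
    (by show 0 < 8 * Q.f; linarith) (by show 8 * Q.f ≤ M; linarith) t5 t6 hK8 hth hr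
    (by
      show rdD 0 E.k0 ≤ _
      have : rdD 0 E.k0 = 0 := by simp [rdD]
      rw [this]
      have : 0 < (rtPcgQ Q).f := by show 0 < 8 * Q.f; linarith
      positivity)
  rw [rt_pcg_wt η hQr.le hQf.le] at hgood
  have hsub : {x | cyIn Q ((2 : ℝ)⁻¹ ^ 0) ((rtPcP p (d.N E) d P fs T0).co (tmL 0 0) x)}
      ⊆ {x | (rtNrm (rdLen E.k0) d.ψ.r d.ψ.cen).row ((rtMdCl η h0 h1).co p T0 x) ∈ rtLrIn P fs d.nL d.p0 ∧
          cyIn (rtPcgQ Q) 1 (rtFl fs (((rtChart d.p0 d.nL).row ((rtNrm (rdLen E.k0) d.ψ.r d.ψ.cen).row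
            ((rtMdCl η h0 h1).co p T0 x))).flow (-4)))} ∪ (rtPcGo p (d.N E) d P fs T0)ᶜ := by
    intro ω hω
    by_cases hg : ω ∈ rtPcGo p (d.N E) d P fs T0
    · left
      have hω' : cyIn Q ((2 : ℝ)⁻¹ ^ 0) ((rtPcP p (d.N E) d P fs T0).co (tmL 0 0) ω) := hω
      rw [rt_pc_co_good p (d.N E) d P fs T0 _ hg] at hω'
      have ez : cyFlow (tmL 0 0) (rtPcZ (d.N E) d fs (p.co T0 ω)) = rtPcZ (d.N E) d fs (p.co T0 ω) := by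
        simp [cyFlow, tmL]
      rw [ez, pow_zero] at hω'
      exact ⟨rt_lr_in_of d (lt_of_lt_of_le one_pos hP) hg, rt_pcg_root hQr.le hQf.le hω'⟩
    · right
      exact hg
  calc ((p.sys η).mu T0 E.k0 E.b0 E.v).real {x | cyIn Q ((2 : ℝ)⁻¹ ^ 0) ((rtPcP p (d.N E) d P fs T0).co (tmL 0 0) x)}
      ≤ ((p.sys η).mu T0 E.k0 E.b0 E.v).real _ := measureReal_mono hsub
    _ ≤ _ := measureReal_union_le _ _
    _ ≤ E.ka * (d.ψ.r ^ 4 * (M ^ C * (fs ^ (1 - η) * (4096 * cyWt η Q)))) + τ := add_le_add hgood hbad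
    _ = _ := by ring

/-- **REG**, the clause of `RtPclXfer` -/
theorem rt_pcg_reg' (η : ℝ) (h0 : 0 < η) (h1 : η < 1) :
    ∃ C : ℝ, 0 < C ∧ ∀ (p : RdClPar) (E : Xp (p.sys η)) (d : RtPd) (M P fs ρ τ : ℝ), 0 ≤ E.ka →
      (p.sys η).Reg (tmL E.k0 E.i0) E.k0 E.b0 E.ka E.v → (rtPcP p (d.N E) d P fs (tmL E.k0 E.i0)).Ok →
      MeasurableSet (rtPcGo p (d.N E) d P fs (tmL E.k0 E.i0)) → 256 ≤ M → 1 ≤ P → P ≤ M → RtChartOk P d.nL d.p0 → 0 < fs → 0 < d.ψ.r →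
      0 < ρ → fs * (204 + M + 160 * ρ⁻¹) ^ 40 ≤ 16384 * ρ ^ 3 →
      (p.sys η).ms (tmL E.k0 E.i0) E.k0 E.b0 (rtPcGo p (d.N E) d P fs (tmL E.k0 E.i0))ᶜ E.v ≤ τ →
      τ ≤ 4096 * (E.ka * (d.ψ.r ^ 4 * (M ^ C * fs ^ (1 - η)))) * ρ ^ 4 →
      ∀ Q : CyT, 0 < Q.r → 0 < Q.f → CyTr (tmL 0 0) 0 rtPcQs ρ Q →
        ((rtPcP p (d.N E) d P fs (tmL E.k0 E.i0)).sys η).ms (tmL 0 0) 0 0
            {x | cyIn Q ((2 : ℝ)⁻¹ ^ 0) ((rtPcP p (d.N E) d P fs (tmL E.k0 E.i0)).co (tmL 0 0) x)} E.v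
          ≤ rtPcgB η C M E.ka d.ψ.r fs * cyWt η Q := by
  obtain ⟨C, hC, H⟩ := rt_pcg_reg η h0 h1
  refine ⟨C, hC, fun p E d M P fs ρ τ hκ hreg hp1 hG hM hP hPM hch hfs hr hρ hthin hbad hτ Q hQr hQf hQ => ?_⟩
  have key := H p E d M P fs ρ τ hκ hreg hp1 hG hM hP hPM hch hfs hr hρ hthin hbad Q hQr hQf hQ
  obtain ⟨t1, -, t3, -, -, -, -⟩ := rt_pcg_tr hQ
  have hfl := rt_pcg_floor h0 h1 hρ t1 t3
  have hb0 : 0 ≤ 4096 * (E.ka * (d.ψ.r ^ 4 * (M ^ C * fs ^ (1 - η)))) := by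
    have : 0 ≤ M := by linarith
    positivity
  have h2 : τ ≤ 4096 * (E.ka * (d.ψ.r ^ 4 * (M ^ C * fs ^ (1 - η)))) * cyWt η Q :=
    hτ.trans (mul_le_mul_of_nonneg_left hfl hb0)
  refine key.trans ?_
  unfold rtPcgB
  linarith

/-! ## the supports -/

theorem rt_pcg_pt {P fs : ℝ} (hP : 1 ≤ P) (hfs : 0 < fs) (p : RdClPar) (Nn : RtCh) (d : RtPd) (hch : RtChartOk P d.nL d.p0) (T0 : ℝ)
    (ω : p.Om) : cyBaseSz rtPcQs ((2 : ℝ)⁻¹ ^ 0) ((rtPcP p Nn d P fs T0).co (tmL 0 0) ω) ≤ 1 ∧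
      cyNorSz rtPcQs ((2 : ℝ)⁻¹ ^ 0) ((rtPcP p Nn d P fs T0).co (tmL 0 0) ω) ≤ 1 := by
  by_cases hg : ω ∈ rtPcGo p Nn d P fs T0
  · rw [rt_pc_co_good p Nn d P fs T0 _ hg]
    have ez : cyFlow (tmL 0 0) (rtPcZ Nn d fs (p.co T0 ω)) = rtPcZ Nn d fs (p.co T0 ω) := by
      simp [cyFlow, tmL]
    rw [ez]
    obtain ⟨⟨b1, b2, b3⟩, b4, b5, -⟩ := rt_lr_bd hP hch hfs (by norm_num : |(-4 : ℝ)| ≤ 8) (rt_lr_in_of d (lt_of_lt_of_le one_pos hP) hg)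
    obtain ⟨z, hz⟩ : ∃ z, z = rtFl fs (((rtChart d.p0 d.nL).row (Nn.row (p.co T0 ω))).flow (-4)) := ⟨_, rfl⟩
    rw [← hz] at b1 b2 b3 b4 b5
    have e : rtPcZ Nn d fs (p.co T0 ω) = cySc8 z := by
      rw [hz]
      rfl
    rw [e]
    have d8 : ∀ x a : ℝ, |x| ≤ a → |x / 8| ≤ a / 8 := by
      intro x a hx
      rw [abs_div, abs_of_pos (by norm_num : (0 : ℝ) < 8)]
      linarith
    constructor
    · simp only [cyBaseSz, cyBase, cyTilt, rtPcQs, cySc8]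
      norm_num
      exact ⟨b1, (d8 _ _ b2).trans (by norm_num), (d8 _ _ b3).trans (by norm_num)⟩
    · simp only [cyNorSz, cyNor, cyVel, cyPos, rtPcQs, cySc8]
      norm_num
      constructor
      · rw [abs_div, abs_of_pos (by norm_num : (0 : ℝ) < 32)]
        linarith
      · rw [abs_div, abs_of_pos (by norm_num : (0 : ℝ) < 32)]
        have := d8 _ _ b5
        linarith
  · rw [rt_pc_co_bad p Nn d P fs T0 _ hg]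
    constructor
    · simp [cyBaseSz, cyBase, cyTilt, rtPcQs]
    · simp [cyNorSz, cyNor, cyVel, cyPos, rtPcQs]

/-- base support in the unit box of the frame -/
theorem rt_pcg_supp {P fs : ℝ} (hP : 1 ≤ P) (hfs : 0 < fs) (η : ℝ) (p : RdClPar) (Nn : RtCh) (d : RtPd) (hch : RtChartOk P d.nL d.p0) (T0 : ℝ)
    (v : ((rtPcP p Nn d P fs T0).sys η).Kc) :
    ((rtPcP p Nn d P fs T0).sys η).ms (tmL 0 0) 0 0
      {x | 1 < cyBaseSz rtPcQs ((2 : ℝ)⁻¹ ^ 0) ((rtPcP p Nn d P fs T0).co (tmL 0 0) x)} v = 0 := by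
  have e : ({x | 1 < cyBaseSz rtPcQs ((2 : ℝ)⁻¹ ^ 0) ((rtPcP p Nn d P fs T0).co (tmL 0 0) x)} : Set ((rtPcP p Nn d P fs T0).sys η).X) = ∅ := by
    ext ω
    simp only [Set.mem_ofPred_eq, Set.mem_empty_iff_false, iff_false, not_lt]
    exact (rt_pcg_pt hP hfs p Nn d hch T0 ω).1
  rw [e]
  exact gn_ms_empty _ _ _ _

/-- normal support in the unit box of the frame -/
theorem rt_pcg_nor {P fs : ℝ} (hP : 1 ≤ P) (hfs : 0 < fs) (η : ℝ) (p : RdClPar) (Nn : RtCh) (d : RtPd) (hch : RtChartOk P d.nL d.p0) (T0 : ℝ)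
    (v : ((rtPcP p Nn d P fs T0).sys η).Kc) (Λ : ℝ) (hΛ : 1 ≤ Λ) :
    ((rtPcP p Nn d P fs T0).sys η).ms (tmL 0 0) 0 0
      {x | Λ < cyNorSz rtPcQs ((2 : ℝ)⁻¹ ^ 0) ((rtPcP p Nn d P fs T0).co (tmL 0 0) x)} v = 0 := by
  have e : ({x | Λ < cyNorSz rtPcQs ((2 : ℝ)⁻¹ ^ 0) ((rtPcP p Nn d P fs T0).co (tmL 0 0) x)} : Set ((rtPcP p Nn d P fs T0).sys η).X) = ∅ := by
    ext ω
    simp only [Set.mem_ofPred_eq, Set.mem_empty_iff_false, iff_false, not_lt]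
    exact (rt_pcg_pt hP hfs p Nn d hch T0 ω).2.trans hΛ
  rw [e]
  exact gn_ms_empty _ _ _ _

end Claimed.Agent.R256
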