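-- KEEP
import Claimed.Agent.R256.Rt.PclExp
import Claimed.Agent.R256.Rt.PclReg
import Claimed.Agent.R256.Rt.PclAsm

/-!
# Row 256 (LS paper), RT, block `rt_patch_cl`, unit ASM 2 : THE ASSEMBLY `rt_pca_xfer : RtPclXfer η h0 h1`          (helper29; prefixes `rt_pca_`, `rt_pcn_`)

ENTRIES: `Rt/PclGeo.lean`, `Rt/PclExp.lean` (helper157: `RtPcHyp`, `rt_pc_lab`, `rt_pc_ok`, `rt_pc_go_meas`, `rt_pc_validw`), `Rt/PclReg.lean` (helper144: `rt_pcg_reg'`, `rt_pcg_supp`, `rt_pcg_nor`), `Rt/PclAsm.lean` (masses, comparison).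
CONSTANTS:   `P = s^(-b0)`, `M = P^30`, `fs = s^(-D1) d.f`, `K = 10 M + 1`, `b = rtPcgB η CL M κ r fs`;      `Ds = D1 + 2`, `K_loss = 2820 + 15 CL`, `b1 = 1/2400`, `Z = 2 D1 + 86 Dt + 80`, `C' = C + ⌈CL⌉ + 1`, `A = C + ⌈8 Dt⌉ + 2`, `n0 = max 20 ⌈1/b0⌉`.
**EXIT**  `rt_pca_patch_cl` = the statement of `rt_patch_cl` (`Rt/Patch.lean`).
-/

set_option autoImplicit false

namespace Claimed.Agent.R256

open MeasureTheory

attribute [local implicit_reducible] CclPar.sys RdClPar.sys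

/-! ## labels and weights -/


theorem rt_pca_nrm (T : ℝ) (Q : CyT) :
    cyNrm (tmL 0 0) 0 rtPcQs T Q = ⟨T, Q.x, Q.b, Q.y, Q.c / 32, Q.d / 32, Q.al / 32, Q.be / 32, Q.K / 32, Q.r, Q.f / 32⟩ := by
  simp [cyNrm, SfFrame.tst, sfTestAt, sfFrameOf, rtPcQs, tmL, SfFrame.bc, SfFrame.yc, SfTest.beAt]

/-- the labels of the cylinder experiment are bounded in the frame -/
theorem rt_pca_bdd {η : ℝ} {p : RdClPar} {E : Xp (p.sys η)} {d : RtPd} {P M fs ρ : ℝ} {l : Fin E.L} {j : ℕ} {Qc : CyT} (h : RtPcLab1 E d P M fs l j Qc) (T : ℝ)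
    (hM : 1 ≤ M) (hρ0 : 0 < ρ) (h1 : 8 * M ^ 80 ≤ ρ⁻¹) (h2 : ρ ≤ M ^ 20 * (rtPcT E l).f / fs / 16) (h3 : M ^ 20 * (rtPcT E l).f / fs / 16 ≤ ρ⁻¹) :
    CyBdd ρ (cyNrm (tmL 0 0) 0 rtPcQs T Qc) := by
  obtain ⟨-, hr, hf, hx, hb, hy, ⟨hc, hd, hal, hbe, hK⟩, -⟩ := h
  rw [rt_pca_nrm]
  have m20 : (1 : ℝ) ≤ M ^ 20 := one_le_pow₀ hM
  have m40 : (1 : ℝ) ≤ M ^ 40 := one_le_pow₀ hM
  have m2080 : M ^ 20 ≤ M ^ 80 := pow_le_pow_right₀ hM (by norm_num)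
  have m4080 : M ^ 40 ≤ M ^ 80 := pow_le_pow_right₀ hM (by norm_num)
  have hρ1 : ρ ≤ 1 := by
    have : 1 ≤ ρ⁻¹ := by linarith
    exact (one_le_inv₀ hρ0).1 this
  have q32 : ∀ a : ℝ, |a| ≤ 8 * M ^ 20 → |a / 32| ≤ ρ⁻¹ := by
    intro a ha
    rw [abs_div, abs_of_pos (by norm_num : (0 : ℝ) < 32)]
    have : |a| / 32 ≤ |a| := by
      have := abs_nonneg a
      linarith
    linarith
  refine ⟨?_, ?_, ?_, ?_, ?_⟩
  · simp only [SfTest.size]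
    refine max_le (hx.trans h1) (max_le (hb.trans h1) (max_le (hy.trans h1) (max_le (q32 _ hc) (max_le (q32 _ hd) (max_le (q32 _ hal) (max_le (q32 _ hbe) (q32 _ hK)))))))
  · show ρ ≤ Qc.r
    rw [hr]
    linarith
  · show Qc.r ≤ ρ⁻¹
    rw [hr]
    linarith
  · show ρ ≤ Qc.f / 32
    rw [hf]
    linarith
  · show Qc.f / 32 ≤ ρ⁻¹
    rw [hf]
    linarith


/-- the weight of the cylinder test of a label -/
theorem rt_pca_w {η : ℝ} (h0 : 0 < η) (h1 : η < 1) {p : RdClPar} {E : Xp (p.sys η)} {d : RtPd} {P M fs : ℝ} {l : Fin E.L} {j : ℕ} {Qc : CyT} (h : RtPcLab1 E d P M fs l j Qc)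
    (hM : 1 ≤ M) (hfs : 0 < fs) (hfl : 0 < (rtPcT E l).f) : cyWt η Qc ≤ 32 * M ^ 180 * ((rtPcT E l).f / fs) ^ (1 - η) := by
  obtain ⟨-, hr, hf, -⟩ := h
  unfold cyWt
  rw [hr, hf]
  have m20 : (1 : ℝ) ≤ M ^ 20 := one_le_pow₀ hM
  have m40 : (1 : ℝ) ≤ M ^ 40 := one_le_pow₀ hM
  have hx : 0 < (rtPcT E l).f / fs := div_pos hfl hfs
  have a1 : (2 * M ^ 40) ^ (3 + η) ≤ 16 * M ^ 160 := by
    calc (2 * M ^ 40) ^ (3 + η) ≤ (2 * M ^ 40) ^ ((4 : ℕ) : ℝ) := Real.rpow_le_rpow_of_exponent_le (by linarith) (by push_cast; linarith)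
      _ = 16 * M ^ 160 := by
        rw [Real.rpow_natCast]
        ring
  have a2 : (2 * (M ^ 20 * (rtPcT E l).f / fs)) ^ (1 - η) ≤ 2 * M ^ 20 * ((rtPcT E l).f / fs) ^ (1 - η) := by
    have e : 2 * (M ^ 20 * (rtPcT E l).f / fs) = (2 * M ^ 20) * ((rtPcT E l).f / fs) := by ring
    rw [e, Real.mul_rpow (by positivity) hx.le]
    refine mul_le_mul_of_nonneg_right ?_ (Real.rpow_nonneg hx.le _)
    calc (2 * M ^ 20) ^ (1 - η) ≤ (2 * M ^ 20) ^ (1 : ℝ) := Real.rpow_le_rpow_of_exponent_le (by linarith) (by linarith)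
      _ = 2 * M ^ 20 := Real.rpow_one _
  calc (2 * M ^ 40) ^ (3 + η) * (2 * (M ^ 20 * (rtPcT E l).f / fs)) ^ (1 - η)
      ≤ (16 * M ^ 160) * (2 * M ^ 20 * ((rtPcT E l).f / fs) ^ (1 - η)) :=
        mul_le_mul a1 a2 (Real.rpow_nonneg (by positivity) _) (by positivity)
    _ = 32 * M ^ 180 * ((rtPcT E l).f / fs) ^ (1 - η) := by ring

/-- comparison with the round weight -/
theorem rt_pca_ww {η : ℝ} (h0 : 0 < η) (h1 : η < 1) {p : RdClPar} {E : Xp (p.sys η)} {d : RtPd} {P M fs : ℝ} {l : Fin E.L} {j : ℕ} {Qc : CyT} (h : RtPcLab1 E d P M fs l j Qc)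
    (hM : 1 ≤ M) (hfs : 0 < fs) (hr : 0 < d.ψ.r) (hfl : 0 < (rtPcT E l).f) (hrl : d.ψ.r / 2 ≤ (rtPcT E l).r) :
    cyWt η Qc ≤ 512 * M ^ 180 / (d.ψ.r ^ 4 * fs ^ (1 - η)) * E.w l := by
  refine (rt_pca_w h0 h1 h hM hfs hfl).trans ?_
  have e : E.w l = (rtPcT E l).r ^ 4 * (rtPcT E l).f ^ (1 - η) := rfl
  rw [e, Real.div_rpow hfl.le hfs.le]
  have p1 : 0 < fs ^ (1 - η) := Real.rpow_pos_of_pos hfs _
  have p2 : 0 < (rtPcT E l).f ^ (1 - η) := Real.rpow_pos_of_pos hfl _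
  have a1 : d.ψ.r ^ 4 ≤ 16 * (rtPcT E l).r ^ 4 := by
    have : (d.ψ.r / 2) ^ 4 ≤ (rtPcT E l).r ^ 4 := pow_le_pow_left₀ (by positivity) hrl 4
    have e2 : (d.ψ.r / 2) ^ 4 = d.ψ.r ^ 4 / 16 := by ring
    linarith
  rw [div_mul_eq_mul_div, le_div_iff₀ (by positivity)]
  calc 32 * M ^ 180 * ((rtPcT E l).f ^ (1 - η) / fs ^ (1 - η)) * (d.ψ.r ^ 4 * fs ^ (1 - η))
      = 32 * M ^ 180 * (rtPcT E l).f ^ (1 - η) * d.ψ.r ^ 4 := by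
        field_simp
    _ ≤ 32 * M ^ 180 * (rtPcT E l).f ^ (1 - η) * (16 * (rtPcT E l).r ^ 4) := mul_le_mul_of_nonneg_left a1 (by positivity)
    _ = 512 * M ^ 180 * ((rtPcT E l).r ^ 4 * (rtPcT E l).f ^ (1 - η)) := by ring

/-- lower bound of the round weights -/
theorem rt_pca_wm {η : ℝ} (h0 : 0 < η) (h1 : η < 1) {p : RdClPar} (E : Xp (p.sys η)) (d : RtPd) (l : Fin E.L) (hr : 0 < d.ψ.r) (hf : 0 < d.f)
    (hrl : d.ψ.r / 2 ≤ (rtPcT E l).r) (hfl : d.f / 2 ≤ (rtPcT E l).f) : d.ψ.r ^ 4 * d.f ^ (1 - η) / 32 ≤ E.w l := by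
  have e : E.w l = (rtPcT E l).r ^ 4 * (rtPcT E l).f ^ (1 - η) := rfl
  rw [e]
  have a1 : d.ψ.r ^ 4 / 16 ≤ (rtPcT E l).r ^ 4 := by
    have : (d.ψ.r / 2) ^ 4 ≤ (rtPcT E l).r ^ 4 := pow_le_pow_left₀ (by positivity) hrl 4
    have e2 : (d.ψ.r / 2) ^ 4 = d.ψ.r ^ 4 / 16 := by ring
    linarith
  have a2 : d.f ^ (1 - η) / 2 ≤ (rtPcT E l).f ^ (1 - η) := by
    have b1 : (d.f / 2) ^ (1 - η) ≤ (rtPcT E l).f ^ (1 - η) := Real.rpow_le_rpow (by positivity) hfl (by linarith)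
    rw [Real.div_rpow hf.le (by norm_num)] at b1
    have b2 : (2 : ℝ) ^ (1 - η) ≤ 2 := by
      calc (2 : ℝ) ^ (1 - η) ≤ 2 ^ (1 : ℝ) := gn_two_mono (by linarith)
        _ = 2 := Real.rpow_one 2
    have b3 : d.f ^ (1 - η) / 2 ≤ d.f ^ (1 - η) / 2 ^ (1 - η) :=
      div_le_div_of_nonneg_left (Real.rpow_nonneg hf.le _) (gn_two_pos _) b2
    linarith
  calc d.ψ.r ^ 4 * d.f ^ (1 - η) / 32 = (d.ψ.r ^ 4 / 16) * (d.f ^ (1 - η) / 2) := by ring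
    _ ≤ (rtPcT E l).r ^ 4 * (rtPcT E l).f ^ (1 - η) := mul_le_mul a1 a2 (by have := Real.rpow_nonneg hf.le (1 - η); positivity) (by positivity)


/-! ## numerics: powers of the scale -/

theorem rt_pcn_anti {s y z : ℝ} (hs : 0 < s) (hs1 : s ≤ 1) (h : z ≤ y) : s ^ y ≤ s ^ z := Real.rpow_le_rpow_of_exponent_ge hs hs1 h

theorem rt_pcn_npow {s : ℝ} (hs : 0 < s) (x : ℝ) (k : ℕ) : (s ^ x) ^ k = s ^ (x * k) := by
  rw [← Real.rpow_natCast, ← Real.rpow_mul hs.le]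

/-- a constant is absorbed by one power of `s` -/
theorem rt_pcn_abs {s c x y : ℝ} (hs : 0 < s) (hs1 : s ≤ 1) (hc : c * s ≤ 1) (hc0 : 0 ≤ c) (h : y + 1 ≤ x) : c * s ^ x ≤ s ^ y := by
  calc c * s ^ x ≤ c * s ^ (y + 1) := mul_le_mul_of_nonneg_left (rt_pcn_anti hs hs1 h) hc0
    _ = (c * s) * s ^ y := by rw [Real.rpow_add hs, Real.rpow_one]; ring
    _ ≤ 1 * s ^ y := mul_le_mul_of_nonneg_right hc (Real.rpow_pos_of_pos hs _).le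
    _ = s ^ y := one_mul _

/-- the scale `s / 8` of the cylinder experiment -/
theorem rt_pcn_s8 {s x : ℝ} (hs : 0 < s) (hs8 : s ≤ 1 / 8) (hx : 0 ≤ x) : s ^ (2 * x) ≤ (s / 8) ^ x ∧ (s / 8) ^ x ≤ s ^ x ∧ s ^ (-x) ≤ (s / 8) ^ (-x) ∧ (s / 8) ^ (-x) ≤ s ^ (-(2 * x)) := by
  have h8 : 0 < s / 8 := by positivity
  have a1 : s ^ (2 * x) ≤ (s / 8) ^ x := by
    rw [Real.rpow_mul hs.le]
    refine Real.rpow_le_rpow (Real.rpow_nonneg hs.le _) ?_ hx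
    rw [Real.rpow_two]
    nlinarith
  have a2 : (s / 8) ^ x ≤ s ^ x := Real.rpow_le_rpow h8.le (by linarith) hx
  refine ⟨a1, a2, ?_, ?_⟩
  · rw [Real.rpow_neg hs.le, Real.rpow_neg h8.le]
    exact inv_anti₀ (Real.rpow_pos_of_pos h8 _) a2
  · rw [Real.rpow_neg hs.le, Real.rpow_neg h8.le]
    exact inv_anti₀ (Real.rpow_pos_of_pos hs _) a1

/-- the comparison constant `M = P^30`, `P = s^(-b0)`, `b0 ≤ 1/2400` -/
theorem rt_pcn_M {s b0 : ℝ} (hs : 0 < s) (hs1 : s ≤ 1) (hb0 : 0 < b0) (hb1 : b0 ≤ 1 / 2400) (hP : 2 ≤ s ^ (-b0)) :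
    (s ^ (-b0)) ^ 30 = s ^ (-(30 * b0)) ∧ 2 ^ 30 ≤ (s ^ (-b0)) ^ 30 ∧ ((s ^ (-b0)) ^ 30) ^ 80 ≤ s ^ (-(1 : ℝ)) ∧ ((s ^ (-b0)) ^ 30) ^ 100 ≤ s ^ (-(5 / 4 : ℝ)) ∧
      (s ^ (-b0)) ^ 30 ≤ s ^ (-(1 / 80 : ℝ)) ∧ s ^ (-b0) ≤ (s ^ (-b0)) ^ 30 := by
  have e : (s ^ (-b0)) ^ 30 = s ^ (-(30 * b0)) := by
    rw [rt_pcn_npow hs]
    congr 1
    push_cast
    ring
  refine ⟨e, pow_le_pow_left₀ (by norm_num) hP 30, ?_, ?_, ?_, ?_⟩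
  · rw [e, rt_pcn_npow hs]
    apply rt_pcn_anti hs hs1
    push_cast
    linarith
  · rw [e, rt_pcn_npow hs]
    apply rt_pcn_anti hs hs1
    push_cast
    linarith
  · rw [e]
    apply rt_pcn_anti hs hs1
    linarith
  · exact le_self_pow₀ (by linarith) (by norm_num)

/-- (rt:very-thin) -/
theorem rt_pcn_thin {s M D1 Z f : ℝ} (hs : 0 < s) (hs2 : s ≤ 1 / 2) (hM0 : 0 ≤ M) (hM100 : M ^ 100 ≤ s ^ (-(5 / 4 : ℝ))) (hf0 : 0 < f) (hf : f ≤ s ^ Z) (hZ : 3 * D1 + 4 ≤ 2 * Z) :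
    (s ^ (-D1) * f) ^ 3 * M ^ 100 ≤ s * (f / 2) := by
  have hs1 : s ≤ 1 := by linarith
  have pos : ∀ y : ℝ, 0 < s ^ y := fun y => Real.rpow_pos_of_pos hs y
  have a1 : f ^ 2 ≤ s ^ (2 * Z) := by
    calc f ^ 2 ≤ (s ^ Z) ^ 2 := pow_le_pow_left₀ hf0.le hf 2
      _ = s ^ (2 * Z) := by rw [rt_pcn_npow hs]; congr 1; push_cast; ring
  have a2 : (s ^ (-D1)) ^ 3 = s ^ (-(3 * D1)) := by rw [rt_pcn_npow hs]; congr 1; push_cast; ring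
  have a3 : 2 * s ^ (-(3 * D1) + 2 * Z + -(5 / 4 : ℝ)) ≤ s ^ (1 : ℝ) := rt_pcn_abs hs hs1 (by linarith) (by norm_num) (by linarith)
  rw [Real.rpow_one] at a3
  calc (s ^ (-D1) * f) ^ 3 * M ^ 100 = (s ^ (-D1)) ^ 3 * f ^ 2 * M ^ 100 * f := by ring
    _ ≤ s ^ (-(3 * D1)) * s ^ (2 * Z) * s ^ (-(5 / 4 : ℝ)) * f := by
        rw [a2]
        refine mul_le_mul_of_nonneg_right ?_ hf0.le
        exact mul_le_mul (mul_le_mul_of_nonneg_left a1 (pos _).le) hM100 (by positivity) (mul_pos (pos _) (pos _)).le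
    _ = s ^ (-(3 * D1) + 2 * Z + -(5 / 4 : ℝ)) * f := by rw [Real.rpow_add hs, Real.rpow_add hs]
    _ ≤ s / 2 * f := mul_le_mul_of_nonneg_right (by linarith) hf0.le
    _ = s * (f / 2) := by ring

theorem rt_pcn_small {s M : ℝ} (hs : 0 < s) (hs2 : s ≤ 1 / 2 ^ 20) (hMs : M ≤ s ^ (-(1 / 80 : ℝ))) : M * s ≤ 1 / 100 := by
  have hs1 : s ≤ 1 := hs2.trans (by norm_num)
  calc M * s ≤ s ^ (-(1 / 80 : ℝ)) * s := mul_le_mul_of_nonneg_right hMs hs.le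
    _ = s ^ (-(1 / 80 : ℝ) + 1) := by rw [Real.rpow_add hs, Real.rpow_one]
    _ ≤ s ^ (1 / 2 : ℝ) := rt_pcn_anti hs hs1 (by norm_num)
    _ = Real.sqrt s := (Real.sqrt_eq_rpow s).symm
    _ ≤ 1 / 100 := by
        rw [Real.sqrt_le_left (by norm_num)]
        exact hs2.trans (by norm_num)

/-- the thinness asked by REG -/
theorem rt_pcn_regthin {s M D1 Dt Z f : ℝ} (hs : 0 < s) (hs2 : s ≤ 1 / 2 ^ 20) (hM0 : 0 ≤ M) (hMs : M ≤ s ^ (-(1 / 80 : ℝ))) (hDt : 0 < Dt) (hD1 : 0 ≤ D1) (hf0 : 0 < f) (hf : f ≤ s ^ Z)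
    (hZ : D1 + 86 * Dt + 80 ≤ Z) : (s ^ (-D1) * f) * (204 + M + 160 * ((s / 8) ^ Dt)⁻¹) ^ 40 ≤ 16384 * ((s / 8) ^ Dt) ^ 3 := by
  have hs1 : s ≤ 1 := hs2.trans (by norm_num)
  have pos : ∀ y : ℝ, 0 < s ^ y := fun y => Real.rpow_pos_of_pos hs y
  obtain ⟨b1, -, -, b4⟩ := rt_pcn_s8 hs (hs2.trans (by norm_num)) hDt.le
  have h8 : 0 < s / 8 := by positivity
  have hρ : 0 < (s / 8) ^ Dt := Real.rpow_pos_of_pos h8 _
  rw [← Real.rpow_neg h8.le]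
  have hinv : s⁻¹ = s ^ (-(1 : ℝ)) := by rw [Real.rpow_neg hs.le, Real.rpow_one]
  have hbig : (2 : ℝ) ^ 20 ≤ s ^ (-(1 : ℝ)) := by
    rw [← hinv, le_inv_comm₀ (by positivity) hs]
    simpa using hs2
  have c0 : s ^ (-(1 : ℝ)) ≤ s ^ (-(1 + 2 * Dt)) := rt_pcn_anti hs hs1 (by linarith)
  have c1 : (204 : ℝ) ≤ s ^ (-(1 + 2 * Dt)) := le_trans (by norm_num) (hbig.trans c0)
  have c2 : M ≤ s ^ (-(1 + 2 * Dt)) := hMs.trans (rt_pcn_anti hs hs1 (by linarith))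
  have c3 : 160 * (s / 8) ^ (-Dt) ≤ s ^ (-(1 + 2 * Dt)) := by
    calc 160 * (s / 8) ^ (-Dt) ≤ s ^ (-(1 : ℝ)) * s ^ (-(2 * Dt)) := mul_le_mul (le_trans (by norm_num) hbig) b4 (Real.rpow_pos_of_pos h8 _).le (pos _).le
      _ = s ^ (-(1 + 2 * Dt)) := by rw [← Real.rpow_add hs]; congr 1; ring
  have c4 : 204 + M + 160 * (s / 8) ^ (-Dt) ≤ s ^ (-(2 + 2 * Dt)) := by
    calc 204 + M + 160 * (s / 8) ^ (-Dt) ≤ 3 * s ^ (-(1 + 2 * Dt)) := by linarith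
      _ ≤ s ^ (-(1 : ℝ)) * s ^ (-(1 + 2 * Dt)) := mul_le_mul_of_nonneg_right (le_trans (by norm_num) hbig) (pos _).le
      _ = s ^ (-(2 + 2 * Dt)) := by rw [← Real.rpow_add hs]; congr 1; ring
  have c5 : (204 + M + 160 * (s / 8) ^ (-Dt)) ^ 40 ≤ s ^ (-(80 + 80 * Dt)) := by
    calc (204 + M + 160 * (s / 8) ^ (-Dt)) ^ 40 ≤ (s ^ (-(2 + 2 * Dt))) ^ 40 :=
          pow_le_pow_left₀ (by have := (Real.rpow_pos_of_pos h8 (-Dt)).le; positivity) c4 40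
      _ = s ^ (-(80 + 80 * Dt)) := by rw [rt_pcn_npow hs]; congr 1; push_cast; ring
  have c6 : s ^ (6 * Dt) ≤ ((s / 8) ^ Dt) ^ 3 := by
    calc s ^ (6 * Dt) = (s ^ (2 * Dt)) ^ 3 := by rw [rt_pcn_npow hs]; congr 1; push_cast; ring
      _ ≤ ((s / 8) ^ Dt) ^ 3 := pow_le_pow_left₀ (pos _).le b1 3
  calc (s ^ (-D1) * f) * (204 + M + 160 * (s / 8) ^ (-Dt)) ^ 40 ≤ (s ^ (-D1) * s ^ Z) * s ^ (-(80 + 80 * Dt)) :=
        mul_le_mul (mul_le_mul_of_nonneg_left hf (pos _).le) c5 (by have := (Real.rpow_pos_of_pos h8 (-Dt)).le; positivity) (mul_pos (pos _) (pos _)).le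
    _ = s ^ (-D1 + Z + -(80 + 80 * Dt)) := by rw [Real.rpow_add hs, Real.rpow_add hs]
    _ ≤ s ^ (6 * Dt) := rt_pcn_anti hs hs1 (by linarith)
    _ ≤ ((s / 8) ^ Dt) ^ 3 := c6
    _ ≤ 16384 * ((s / 8) ^ Dt) ^ 3 := by
        have := pow_pos hρ 3
        linarith

/-- the atom of the bad rows -/
theorem rt_pcn_atom {s Dt e G MC : ℝ} {C A : ℕ} (hs : 0 < s) (hs8 : s ≤ 1 / 8) (hDt : 0 < Dt) (hG : 0 ≤ G) (hMC : 1 ≤ MC) (he : e ≤ s ^ (-(C : ℝ)) * G) (hA : (C : ℝ) + 8 * Dt ≤ A) :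
    s ^ (A : ℝ) * e ≤ 4096 * (MC * G) * ((s / 8) ^ Dt) ^ 4 := by
  have hs1 : s ≤ 1 := by linarith
  have pos : ∀ y : ℝ, 0 < s ^ y := fun y => Real.rpow_pos_of_pos hs y
  obtain ⟨b1, -, -, -⟩ := rt_pcn_s8 hs hs8 hDt.le
  have c6 : s ^ (8 * Dt) ≤ ((s / 8) ^ Dt) ^ 4 := by
    calc s ^ (8 * Dt) = (s ^ (2 * Dt)) ^ 4 := by rw [rt_pcn_npow hs]; congr 1; push_cast; ring
      _ ≤ ((s / 8) ^ Dt) ^ 4 := pow_le_pow_left₀ (pos _).le b1 4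
  calc s ^ (A : ℝ) * e ≤ s ^ (A : ℝ) * (s ^ (-(C : ℝ)) * G) := mul_le_mul_of_nonneg_left he (pos _).le
    _ = s ^ ((A : ℝ) + -(C : ℝ)) * G := by rw [Real.rpow_add hs]; ring
    _ ≤ s ^ (8 * Dt) * G := mul_le_mul_of_nonneg_right (rt_pcn_anti hs hs1 (by linarith)) hG
    _ ≤ ((s / 8) ^ Dt) ^ 4 * G := mul_le_mul_of_nonneg_right c6 hG
    _ = 1 * (1 * G) * ((s / 8) ^ Dt) ^ 4 := by ring
    _ ≤ 4096 * (MC * G) * ((s / 8) ^ Dt) ^ 4 := by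
        refine mul_le_mul_of_nonneg_right ?_ (by positivity)
        exact mul_le_mul (by norm_num) (mul_le_mul_of_nonneg_right hMC hG) (by positivity) (by norm_num)

/-- the numerical hypotheses of `rt_pca_bdd` -/
theorem rt_pcn_bdd {s M D1 Ds f fl : ℝ} (hs : 0 < s) (hs2 : s ≤ 1 / 2 ^ 20) (hM1 : 1 ≤ M) (hM80 : M ^ 80 ≤ s ^ (-(1 : ℝ))) (hD1 : 0 ≤ D1) (hDs : D1 + 2 ≤ Ds) (hf0 : 0 < f)
    (hfl : f / 2 ≤ fl) (hfl2 : fl ≤ f) :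
    8 * M ^ 80 ≤ ((s / 8) ^ Ds)⁻¹ ∧ (s / 8) ^ Ds ≤ M ^ 20 * fl / (s ^ (-D1) * f) / 16 ∧ M ^ 20 * fl / (s ^ (-D1) * f) / 16 ≤ ((s / 8) ^ Ds)⁻¹ := by
  have hs1 : s ≤ 1 := hs2.trans (by norm_num)
  have pos : ∀ y : ℝ, 0 < s ^ y := fun y => Real.rpow_pos_of_pos hs y
  have hDs0 : 0 ≤ Ds := by linarith
  obtain ⟨-, b2, b3, -⟩ := rt_pcn_s8 hs (hs2.trans (by norm_num)) hDs0
  have h8 : 0 < s / 8 := by positivity
  rw [← Real.rpow_neg h8.le]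
  have m20 : (1 : ℝ) ≤ M ^ 20 := one_le_pow₀ hM1
  have m2080 : M ^ 20 ≤ M ^ 80 := pow_le_pow_right₀ hM1 (by norm_num)
  have a1 : 8 * M ^ 80 ≤ (s / 8) ^ (-Ds) := by
    calc 8 * M ^ 80 ≤ 8 * s ^ (-(1 : ℝ)) := by linarith
      _ ≤ s ^ (-(2 : ℝ)) := rt_pcn_abs hs hs1 (by linarith [hs2, (by norm_num : (1 : ℝ) / 2 ^ 20 ≤ 1 / 8)]) (by norm_num) (by norm_num)
      _ ≤ s ^ (-Ds) := rt_pcn_anti hs hs1 (by linarith)
      _ ≤ (s / 8) ^ (-Ds) := b3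
  have hfs : 0 < s ^ (-D1) * f := mul_pos (pos _) hf0
  have hge1 : 1 ≤ s ^ (-D1) := Real.one_le_rpow_of_pos_of_le_one_of_nonpos hs hs1 (by linarith)
  refine ⟨a1, ?_, ?_⟩
  · have e1 : s ^ D1 / 32 ≤ M ^ 20 * fl / (s ^ (-D1) * f) / 16 := by
      rw [Real.rpow_neg hs.le]
      have hp := pos D1
      have e0 : M ^ 20 * fl / ((s ^ D1)⁻¹ * f) / 16 = s ^ D1 * (M ^ 20 * (fl / f)) / 16 := by field_simp
      rw [e0]
      have hq : 1 / 2 ≤ fl / f := by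
        rw [le_div_iff₀ hf0]
        linarith
      have hq2 : 1 / 2 ≤ M ^ 20 * (fl / f) := by nlinarith
      nlinarith
    refine le_trans ?_ e1
    calc (s / 8) ^ Ds ≤ s ^ Ds := b2
      _ ≤ s ^ (D1 + 1) := rt_pcn_anti hs hs1 (by linarith)
      _ = s ^ D1 * s := by rw [Real.rpow_add hs, Real.rpow_one]
      _ ≤ s ^ D1 * (1 / 32) := mul_le_mul_of_nonneg_left (hs2.trans (by norm_num)) (pos _).le
      _ = s ^ D1 / 32 := by ring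
  · refine le_trans ?_ a1
    have e2 : fl / (s ^ (-D1) * f) ≤ 1 := by
      rw [div_le_one hfs]
      nlinarith
    calc M ^ 20 * fl / (s ^ (-D1) * f) / 16 = M ^ 20 * (fl / (s ^ (-D1) * f)) / 16 := by ring
      _ ≤ M ^ 20 * 1 / 16 := by
          apply div_le_div_of_nonneg_right _ (by norm_num)
          exact mul_le_mul_of_nonneg_left e2 (by positivity)
      _ ≤ 8 * M ^ 80 := by linarith

/-- the energy window of the cylinder experiment -/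
theorem rt_pcn_window {s e G0 F MC W cM : ℝ} {C C' : ℕ} (hs : 0 < s) (hs2 : s ≤ 1 / 2 ^ 20) (hG0 : 0 < G0) (hF0 : 0 < F) (hF1 : F ≤ 1) (hMC1 : 1 ≤ MC) (hMC : MC ≤ s ^ (-cM))
    (hW1 : 1 ≤ W) (hW2 : W ≤ 32) (hhi : e ≤ s ^ (-(C : ℝ)) * (G0 * F)) (hlo : s ^ (C : ℝ) * G0 ≤ e) (hC' : (C : ℝ) + cM + 1 ≤ C') (hcM : 0 ≤ cM) :
    (s / 8) ^ (C' : ℝ) * (8192 * (G0 * (MC * F)) * W) ≤ e ∧ e ≤ (s / 8) ^ (-(C' : ℝ)) * (8192 * (G0 * (MC * F)) * W) := by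
  have hs1 : s ≤ 1 := hs2.trans (by norm_num)
  have pos : ∀ y : ℝ, 0 < s ^ y := fun y => Real.rpow_pos_of_pos hs y
  obtain ⟨-, b2, b3, -⟩ := rt_pcn_s8 hs (hs2.trans (by norm_num)) (Nat.cast_nonneg C')
  constructor
  · refine le_trans ?_ hlo
    have a1 : 8192 * (G0 * (MC * F)) * W ≤ 2 ^ 18 * s ^ (-cM) * G0 := by
      have : MC * F ≤ s ^ (-cM) * 1 := mul_le_mul hMC hF1 hF0.le (pos _).le
      calc 8192 * (G0 * (MC * F)) * W ≤ 8192 * (G0 * (s ^ (-cM) * 1)) * 32 := by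
            apply mul_le_mul _ hW2 (by linarith) (by have := pos (-cM); positivity)
            apply mul_le_mul_of_nonneg_left _ (by norm_num)
            exact mul_le_mul_of_nonneg_left this hG0.le
        _ = 2 ^ 18 * s ^ (-cM) * G0 := by ring
    calc (s / 8) ^ (C' : ℝ) * (8192 * (G0 * (MC * F)) * W) ≤ s ^ (C' : ℝ) * (2 ^ 18 * s ^ (-cM) * G0) :=
          mul_le_mul b2 a1 (by positivity) (pos _).le
      _ = (2 ^ 18 * s ^ ((C' : ℝ) + -cM)) * G0 := by rw [Real.rpow_add hs]; ring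
      _ ≤ s ^ (C : ℝ) * G0 := by
          apply mul_le_mul_of_nonneg_right _ hG0.le
          apply rt_pcn_abs hs hs1 _ (by norm_num) (by linarith)
          calc (2 : ℝ) ^ 18 * s ≤ 2 ^ 18 * (1 / 2 ^ 20) := mul_le_mul_of_nonneg_left hs2 (by norm_num)
            _ ≤ 1 := by norm_num
  · refine hhi.trans ?_
    have a1 : G0 * F ≤ 8192 * (G0 * (MC * F)) * W := by
      have h1 : G0 * F ≤ G0 * (MC * F) := mul_le_mul_of_nonneg_left (le_mul_of_one_le_left hF0.le hMC1) hG0.le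
      have h2 : 0 < G0 * (MC * F) := by positivity
      nlinarith
    have a2 : s ^ (-(C : ℝ)) ≤ (s / 8) ^ (-(C' : ℝ)) := (rt_pcn_anti hs hs1 (by linarith)).trans b3
    exact mul_le_mul a2 a1 (by positivity) (Real.rpow_nonneg (by positivity) _)

/-- all polynomial losses -/
theorem rt_pcn_factor {s b0 M CL : ℝ} (hs : 0 < s) (hM : M = s ^ (-(30 * b0))) (hM30 : 2 ^ 30 ≤ M) :
    2 * (10 * M + 1) ^ (3 / 2 : ℝ) * Real.sqrt (2 ^ 22 * M ^ 180 * M ^ CL) ≤ s ^ (-((2820 + 15 * CL) * b0)) := by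
  have hM0 : 0 < M := lt_of_lt_of_le (by norm_num) hM30
  have a1 : (10 * M + 1) ^ (3 / 2 : ℝ) ≤ M ^ 3 := by
    calc (10 * M + 1) ^ (3 / 2 : ℝ) ≤ (M ^ 2) ^ (3 / 2 : ℝ) := by
          apply Real.rpow_le_rpow (by positivity) _ (by norm_num)
          nlinarith
      _ = M ^ 3 := by
          rw [← Real.rpow_natCast M 2, ← Real.rpow_mul hM0.le, ← Real.rpow_natCast M 3]
          norm_num
  have a2 : Real.sqrt (2 ^ 22 * M ^ 180 * M ^ CL) = 2 ^ 11 * M ^ 90 * M ^ (CL / 2) := by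
    have e : (2 : ℝ) ^ 22 * M ^ 180 * M ^ CL = (2 ^ 11 * M ^ 90 * M ^ (CL / 2)) ^ 2 := by
      have : M ^ CL = (M ^ (CL / 2)) ^ 2 := by
        rw [← Real.rpow_natCast, ← Real.rpow_mul hM0.le]
        congr 1
        push_cast
        ring
      rw [this]
      ring
    rw [e, Real.sqrt_sq (by positivity)]
  rw [a2]
  have hp : 0 < M ^ (CL / 2) := Real.rpow_pos_of_pos hM0 _
  have a3 : s ^ (-((2820 + 15 * CL) * b0)) = M ^ 94 * M ^ (CL / 2) := by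
    rw [hM, rt_pcn_npow hs, ← Real.rpow_mul hs.le, ← Real.rpow_add hs]
    congr 1
    push_cast
    ring
  rw [a3]
  calc 2 * (10 * M + 1) ^ (3 / 2 : ℝ) * (2 ^ 11 * M ^ 90 * M ^ (CL / 2)) ≤ 2 * M ^ 3 * (2 ^ 11 * M ^ 90 * M ^ (CL / 2)) := by
        apply mul_le_mul_of_nonneg_right _ (by positivity)
        linarith
    _ = 2 ^ 12 * (M ^ 93 * M ^ (CL / 2)) := by ring
    _ ≤ M * (M ^ 93 * M ^ (CL / 2)) := mul_le_mul_of_nonneg_right (le_trans (by norm_num) hM30) (by positivity)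
    _ = M ^ 94 * M ^ (CL / 2) := by ring

/-- the rows outside the patch -/
theorem rt_pcn_tiny {s e κ r f F η : ℝ} {C A : ℕ} (hs : 0 < s) (hs2 : s ≤ 1 / 2 ^ 20) (h0 : 0 < η) (h1 : η < 1) (he : 0 < e) (hκ : 0 < κ) (hr : 0 < r) (hf0 : 0 < f) (hf1 : f ≤ 1)
    (hfC : s ^ (C : ℝ) ≤ f) (hF0 : 0 ≤ F) (hF1 : F ≤ 1) (hhi : e ≤ s ^ (-(C : ℝ)) * (κ * r ^ 4 * F)) (hA : C + 2 ≤ A) :
    2 * Real.sqrt (s ^ (A : ℝ) * e) * (s ^ (-(1 : ℝ)) * (s ^ (A : ℝ) * e)) / Real.sqrt (r ^ 4 * f ^ (1 - η) / 32) ≤ s ^ (1 / 2 : ℝ) * e * Real.sqrt κ := by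
  have hs1 : s ≤ 1 := hs2.trans (by norm_num)
  have pos : ∀ y : ℝ, 0 < s ^ y := fun y => Real.rpow_pos_of_pos hs y
  have hAC : (C : ℝ) + 2 ≤ A := by exact_mod_cast hA
  have hC0 : (0 : ℝ) ≤ C := Nat.cast_nonneg _
  have hsκ : 0 < Real.sqrt κ := Real.sqrt_pos.2 hκ
  -- the smallest weight
  have w1 : s ^ (C : ℝ) ≤ f ^ (1 - η) := by
    refine hfC.trans ?_
    calc f = f ^ (1 : ℝ) := (Real.rpow_one f).symm
      _ ≤ f ^ (1 - η) := Real.rpow_le_rpow_of_exponent_ge hf0 hf1 (by linarith)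
  have hwm : 0 < r ^ 4 * f ^ (1 - η) / 32 := by
    have := Real.rpow_pos_of_pos hf0 (1 - η)
    positivity
  have hswm : 0 < Real.sqrt (r ^ 4 * f ^ (1 - η) / 32) := Real.sqrt_pos.2 hwm
  -- the quotient
  have q1 : s ^ (A : ℝ) * e ≤ (6 * Real.sqrt κ * s ^ (((A : ℝ) - 2 * C) / 2)) ^ 2 * (r ^ 4 * f ^ (1 - η) / 32) := by
    have e1 : (6 * Real.sqrt κ * s ^ (((A : ℝ) - 2 * C) / 2)) ^ 2 = 36 * κ * s ^ ((A : ℝ) - 2 * C) := by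
      rw [mul_pow, mul_pow, Real.sq_sqrt hκ.le, rt_pcn_npow hs]
      norm_num
    rw [e1]
    have e2 : s ^ (A : ℝ) * e ≤ s ^ ((A : ℝ) - C) * (κ * r ^ 4) := by
      calc s ^ (A : ℝ) * e ≤ s ^ (A : ℝ) * (s ^ (-(C : ℝ)) * (κ * r ^ 4 * 1)) := by
            apply mul_le_mul_of_nonneg_left _ (pos _).le
            refine hhi.trans (mul_le_mul_of_nonneg_left ?_ (pos _).le)
            exact mul_le_mul_of_nonneg_left hF1 (by positivity)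
        _ = s ^ ((A : ℝ) - C) * (κ * r ^ 4) := by rw [sub_eq_add_neg, Real.rpow_add hs]; ring
    refine e2.trans ?_
    have e3 : s ^ ((A : ℝ) - C) = s ^ ((A : ℝ) - 2 * C) * s ^ (C : ℝ) := by
      rw [← Real.rpow_add hs]
      congr 1
      ring
    rw [e3]
    have hp := pos ((A : ℝ) - 2 * C)
    calc s ^ ((A : ℝ) - 2 * C) * s ^ (C : ℝ) * (κ * r ^ 4) ≤ s ^ ((A : ℝ) - 2 * C) * f ^ (1 - η) * (κ * r ^ 4) := by
          apply mul_le_mul_of_nonneg_right _ (by positivity)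
          exact mul_le_mul_of_nonneg_left w1 hp.le
      _ ≤ 36 * κ * s ^ ((A : ℝ) - 2 * C) * (r ^ 4 * f ^ (1 - η) / 32) := by
          have : 0 ≤ s ^ ((A : ℝ) - 2 * C) * f ^ (1 - η) * (κ * r ^ 4) := by
            have := Real.rpow_pos_of_pos hf0 (1 - η)
            positivity
          nlinarith
  have q2 : Real.sqrt (s ^ (A : ℝ) * e) ≤ 6 * Real.sqrt κ * s ^ (((A : ℝ) - 2 * C) / 2) * Real.sqrt (r ^ 4 * f ^ (1 - η) / 32) := by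
    calc Real.sqrt (s ^ (A : ℝ) * e) ≤ Real.sqrt ((6 * Real.sqrt κ * s ^ (((A : ℝ) - 2 * C) / 2)) ^ 2 * (r ^ 4 * f ^ (1 - η) / 32)) := Real.sqrt_le_sqrt q1
      _ = 6 * Real.sqrt κ * s ^ (((A : ℝ) - 2 * C) / 2) * Real.sqrt (r ^ 4 * f ^ (1 - η) / 32) := by
          rw [Real.sqrt_mul (by positivity), Real.sqrt_sq (by have := pos (((A : ℝ) - 2 * C) / 2); positivity)]
  rw [div_le_iff₀ hswm]
  have q3 : 12 * s ^ (((A : ℝ) - 2 * C) / 2 + -(1 : ℝ) + A) ≤ s ^ (1 / 2 : ℝ) := by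
    apply rt_pcn_abs hs hs1 _ (by norm_num) (by linarith)
    calc (12 : ℝ) * s ≤ 12 * (1 / 2 ^ 20) := mul_le_mul_of_nonneg_left hs2 (by norm_num)
      _ ≤ 1 := by norm_num
  calc 2 * Real.sqrt (s ^ (A : ℝ) * e) * (s ^ (-(1 : ℝ)) * (s ^ (A : ℝ) * e))
      ≤ 2 * (6 * Real.sqrt κ * s ^ (((A : ℝ) - 2 * C) / 2) * Real.sqrt (r ^ 4 * f ^ (1 - η) / 32)) * (s ^ (-(1 : ℝ)) * (s ^ (A : ℝ) * e)) := by
        apply mul_le_mul_of_nonneg_right _ (by have := pos (-(1 : ℝ)); have := pos (A : ℝ); positivity)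
        linarith
    _ = (12 * s ^ (((A : ℝ) - 2 * C) / 2 + -(1 : ℝ) + A)) * (e * Real.sqrt κ * Real.sqrt (r ^ 4 * f ^ (1 - η) / 32)) := by
        rw [Real.rpow_add hs, Real.rpow_add hs]
        ring
    _ ≤ s ^ (1 / 2 : ℝ) * (e * Real.sqrt κ * Real.sqrt (r ^ 4 * f ^ (1 - η) / 32)) := mul_le_mul_of_nonneg_right q3 (by positivity)
    _ = s ^ (1 / 2 : ℝ) * e * Real.sqrt κ * Real.sqrt (r ^ 4 * f ^ (1 - η) / 32) := by ring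

/-! ## the assembly -/

theorem rt_pca_qs_wt {η : ℝ} (h0 : 0 < η) (h1 : η < 1) : 1 ≤ cyWt η rtPcQs ∧ cyWt η rtPcQs ≤ 32 := by
  have e : cyWt η rtPcQs = (32 : ℝ) ^ (1 - η) := by
    simp [cyWt, rtPcQs]
  rw [e]
  constructor
  · exact Real.one_le_rpow (by norm_num) (by linarith)
  · calc (32 : ℝ) ^ (1 - η) ≤ 32 ^ (1 : ℝ) := Real.rpow_le_rpow_of_exponent_le (by norm_num) (by linarith)
      _ = 32 := Real.rpow_one _

theorem rt_pca_s8 {P : PkSys} {P' : PkSys} (E : Xp P) (E1 : Xp P') (h : E1.n = E.n + 3) : E1.s = E.s / 8 := by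
  unfold Xp.s
  rw [h, pow_add]
  norm_num
  ring

theorem rt_pcn_X {CL M κ r4 F : ℝ} (hκ : 0 < κ) (hr4 : 0 < r4) (hF : 0 < F) (hMC : 0 < M ^ CL) :
    (512 : ℝ) * M ^ 180 / (r4 * F) = 2 ^ 22 * M ^ 180 * M ^ CL * (κ / (8192 * (κ * (r4 * (M ^ CL * F))))) := by
  field_simp
  ring

/-- **comparison of the readouts** of `E` and of the cylinder experiment -/
theorem rt_pca_rd {η : ℝ} (h0 : 0 < η) (h1 : η < 1) {p : RdClPar} {E : Xp (p.sys η)} {d : RtPd} {P M fs : ℝ} (H : RtPcHyp η p E d P M fs)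
    (jv : Fin E.L → ℕ) (tsq : Fin E.L → CyT) (hr1 : ∀ l, 0 < (tsq l).r) (hf1 : ∀ l, 0 < (tsq l).f) {τ Wc : ℝ}
    (hbad : (p.sys η).ms (tmL E.k0 E.i0) E.k0 E.b0 (rtPcGo p (d.N E) d P fs (tmL E.k0 E.i0))ᶜ E.v ≤ τ)
    (hww : ∀ l, cyWt η (tsq l) ≤ Wc * E.w l) :
    E.rd ≤ 2 * (10 * M + 1) ^ (3 / 2 : ℝ) * Real.sqrt Wc * (rtPcE η p E d P fs (10 * M + 1) jv tsq).rd
        + 2 * Real.sqrt τ * (2 ^ E.n * τ) / Real.sqrt (d.ψ.r ^ 4 * d.f ^ (1 - η) / 32) ∧ 0 ≤ (rtPcE η p E d P fs (10 * M + 1) jv tsq).rd := by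
  have hV := H.val
  have hM0 : 0 ≤ M := (pow_nonneg (by linarith [H.P2]) 30).trans H.PM
  have hK0 : (0 : ℝ) < 10 * M + 1 := by positivity
  have hG : MeasurableSet (rtPcGo p (d.N E) d P fs (tmL E.k0 E.i0)) := rt_pc_go_meas p (rdLen E.k0) d.ψ.r d.ψ.cen d P fs (tmL E.k0 E.i0)
  have hm1 : ∀ l : Fin E.L, (rtPcE η p E d P fs (10 * M + 1) jv tsq).m l
      = (p.sys η).en (tmL E.k0 E.i0) E.k0 E.b0 ((rtPcGo p (d.N E) d P fs (tmL E.k0 E.i0)).indicator (E.th l)) E.v / (10 * M + 1) :=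
    fun l => rt_pca_m1 η p E d P fs (10 * M + 1) jv tsq (tmL E.k0 E.i0) E.k0 E.b0 l
  have hin : ∀ l : Fin E.L, 0 ≤ (p.sys η).en (tmL E.k0 E.i0) E.k0 E.b0 ((rtPcGo p (d.N E) d P fs (tmL E.k0 E.i0)).indicator (E.th l)) E.v := fun l =>
    gn_en_nonneg (P := p.sys η) _ _ _ (fun x => ((rt_pca_ind_mask hG (gn_th_mask E hV l)).2 x).1) _
  have hout : ∀ l : Fin E.L, 0 ≤ (p.sys η).en (tmL E.k0 E.i0) E.k0 E.b0 ((rtPcGo p (d.N E) d P fs (tmL E.k0 E.i0))ᶜ.indicator (E.th l)) E.v := fun l =>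
    gn_en_nonneg (P := p.sys η) _ _ _ (fun x => ((rt_pca_ind_mask hG.compl (gn_th_mask E hV l)).2 x).1) _
  have hm1nn : ∀ l : Fin E.L, 0 ≤ (rtPcE η p E d P fs (10 * M + 1) jv tsq).m l := by
    intro l
    rw [hm1 l]
    exact div_nonneg (hin l) hK0.le
  have hm : ∀ l : Fin E.L, E.m l ≤ (10 * M + 1) * (rtPcE η p E d P fs (10 * M + 1) jv tsq).m l
      + (p.sys η).en (tmL E.k0 E.i0) E.k0 E.b0 ((rtPcGo p (d.N E) d P fs (tmL E.k0 E.i0))ᶜ.indicator (E.th l)) E.v := by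
    intro l
    rw [rt_pca_m_split η p E hV H.free hG (tmL E.k0 E.i0) E.k0 E.b0 l, hm1 l, mul_div_cancel₀ _ hK0.ne']
  have hτ0 : 0 ≤ τ := (gn_ms_nonneg (P := p.sys η) _ _ _ _ _).trans hbad
  have hwm0 : 0 < d.ψ.r ^ 4 * d.f ^ (1 - η) / 32 := div_pos (mul_pos (pow_pos H.r_pos 4) (Real.rpow_pos_of_pos H.f_pos _)) (by norm_num)
  have hw1 : ∀ l : Fin E.L, 0 < (rtPcE η p E d P fs (10 * M + 1) jv tsq).w l := fun l =>
    mul_pos (Real.rpow_pos_of_pos (hr1 l) _) (Real.rpow_pos_of_pos (hf1 l) _)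
  have hcmp := rt_pca_cmp E.m (rtPcE η p E d P fs (10 * M + 1) jv tsq).m
    (fun l => (p.sys η).en (tmL E.k0 E.i0) E.k0 E.b0 ((rtPcGo p (d.N E) d P fs (tmL E.k0 E.i0))ᶜ.indicator (E.th l)) E.v) E.w
    (rtPcE η p E d P fs (10 * M + 1) jv tsq).w (gn_m_nonneg' E hV) hm1nn hout hm hK0.le hV.w_pos hw1 hww
    (fun l => (rt_pca_out_le (P := p.sys η) _ _ _ _ hG.compl (gn_th_mask E hV l)).trans hbad)
    ((rt_pca_out_sum E hV _ _ _ _ hG.compl).trans (mul_le_mul_of_nonneg_left hbad (by positivity))) hwm0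
    (fun l => rt_pca_wm h0 h1 E d l H.r_pos H.f_pos (H.lab_r l).1 (H.lab_f l).1)
  exact ⟨hcmp, Finset.sum_nonneg fun l _ => div_nonneg (Real.rpow_nonneg (hm1nn l) _) (Real.sqrt_nonneg _)⟩

/-- **XFER** -/
theorem rt_pca_xfer (η : ℝ) (h0 : 0 < η) (h1 : η < 1) : RtPclXfer η h0 h1 := by
  obtain ⟨CL, hCL, REG⟩ := rt_pcg_reg' η h0 h1
  intro D1 hD1
  refine ⟨D1 + 2, 2820 + 15 * CL, 1 / 2400, by linarith, by positivity, by norm_num, fun Dt hDt => ⟨2 * D1 + 86 * Dt + 80, fun b0 hb0 hb1 C => ?_⟩⟩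
  refine ⟨C + ⌈CL⌉₊ + 1, C + ⌈8 * Dt⌉₊ + 2, max 20 ⌈1 / b0⌉₊, ?_⟩
  intro (p : RdClPar) (E : Xp (p.sys η)) d hn hcls hst hd hf
  have hV : E.Valid := hcls.2.1
  have hchart : RtChartOk (E.s ^ (-b0)) d.nL d.p0 := hd.chart
  have hroot : (p.sys η).ms (tmL E.k0 E.i0) E.k0 E.b0 (rtPcGo p (d.N E) d (E.s ^ (-b0)) (E.s ^ (-D1) * d.f) (tmL E.k0 E.i0))ᶜ E.v
      ≤ E.s ^ ((C + ⌈8 * Dt⌉₊ + 2 : ℕ) : ℝ) * E.e := hd.root
  have hehi : E.e ≤ E.s ^ (-(C : ℝ)) * (E.ka * d.ψ.r ^ 4 * (E.s ^ (-D1) * d.f) ^ (1 - η)) := hd.e_hi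
  have helo : E.s ^ (C : ℝ) * (E.ka * d.ψ.r ^ 4) ≤ E.e := hd.e_lo
  have hlabn : ∀ l, d.Con (d.N E) (tmL E.k0 E.i0) E.kf (tmL E.kf (E.iv l)) (rtPcT E l) (E.s ^ (-D1) * d.f) := hd.lab_n
  have hlabr : ∀ l, d.ψ.r / 2 ≤ (rtPcT E l).r ∧ (rtPcT E l).r ≤ 2 * d.ψ.r := hd.lab_r
  have hlabf : ∀ l, d.f / 2 ≤ (rtPcT E l).f ∧ (rtPcT E l).f ≤ d.f := hd.lab_f
  have hflo : E.s ^ (C : ℝ) ≤ d.f := hd.f_lo
  have hr : 0 < d.ψ.r := hd.r_pos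
  have hκ : 0 < E.ka := hV.ka_pos
  clear hd
  -- the scale
  have hs : 0 < E.s := gn_s_pos E
  have hs2 : E.s ≤ 1 / 2 ^ 20 := by
    have h20 : 20 ≤ E.n := (le_max_left _ _).trans hn
    unfold Xp.s
    calc (2 : ℝ)⁻¹ ^ E.n ≤ (2 : ℝ)⁻¹ ^ 20 := pow_le_pow_of_le_one (by norm_num) (by norm_num) h20
      _ = 1 / 2 ^ 20 := by norm_num
  have hs1 : E.s ≤ 1 := hs2.trans (by norm_num)
  have hs8 : E.s ≤ 1 / 8 := hs2.trans (by norm_num)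
  have pos : ∀ y : ℝ, 0 < E.s ^ y := fun y => Real.rpow_pos_of_pos hs y
  have hP2 : 2 ≤ E.s ^ (-b0) := by
    rw [gn_s_rpow]
    have hb : 1 ≤ b0 * E.n := by
      have c1 : (⌈1 / b0⌉₊ : ℝ) ≤ E.n := Nat.cast_le.2 ((le_max_right _ _).trans hn)
      have c2 := Nat.le_ceil (1 / b0)
      have c3 : 1 / b0 ≤ E.n := c2.trans c1
      rw [div_le_iff₀ hb0] at c3
      linarith
    calc (2 : ℝ) = 2 ^ (1 : ℝ) := (Real.rpow_one 2).symm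
      _ ≤ 2 ^ (-(-b0 * (E.n : ℝ))) := gn_two_mono (by linarith)
  obtain ⟨hMe, hM30, hM80, hM100, hMs, hPM⟩ := rt_pcn_M hs hs1 hb0 hb1 hP2
  generalize hPd : E.s ^ (-b0) = P at *
  generalize hMd : P ^ 30 = M at *
  have hM0 : 0 < M := lt_of_lt_of_le (by norm_num) hM30
  have hM1 : 1 ≤ M := le_trans (by norm_num) hM30
  have hP1 : 1 ≤ P := by linarith
  -- the thickness
  have hf0 : 0 < d.f := (pos _).trans_le hflo
  have hge1 : 1 ≤ E.s ^ (-D1) := Real.one_le_rpow_of_pos_of_le_one_of_nonpos hs hs1 (by linarith)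
  have hf1 : d.f ≤ 1 := hf.trans (Real.rpow_le_one hs.le hs1 (by linarith))
  have hfs1 : E.s ^ (-D1) * d.f ≤ 1 := by
    calc E.s ^ (-D1) * d.f ≤ E.s ^ (-D1) * E.s ^ (2 * D1 + 86 * Dt + 80) := mul_le_mul_of_nonneg_left hf (pos _).le
      _ = E.s ^ (-D1 + (2 * D1 + 86 * Dt + 80)) := (Real.rpow_add hs _ _).symm
      _ ≤ 1 := Real.rpow_le_one hs.le hs1 (by linarith)
  have hthin := rt_pcn_thin (D1 := D1) hs (hs2.trans (by norm_num)) hM0.le hM100 hf0 hf (by linarith)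
  have hregthin := rt_pcn_regthin (D1 := D1) hs hs2 hM0.le hMs hDt (by linarith) hf0 hf (by linarith)
  generalize hfsd : E.s ^ (-D1) * d.f = fs at *
  have hfs0 : 0 < fs := by rw [← hfsd]; exact mul_pos (pos _) hf0
  have hffs : d.f ≤ fs := by rw [← hfsd]; exact le_mul_of_one_le_left hf0.le hge1
  have H : RtPcHyp η p E d P M fs :=
    ⟨hV, hst, hP2, hMd.le, hr, hchart, hf0, hffs, hlabr, hlabf, hlabn, hthin, rt_pcn_small hs hs2 hMs⟩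
  obtain ⟨jv, tsq, hl⟩ := rt_pc_lab H
  have hK : (10 : ℝ) * M + 1 ≤ 10 * M + 1 := le_rfl
  have hK0 : (0 : ℝ) < 10 * M + 1 := by positivity
  have hG : MeasurableSet (rtPcGo p (d.N E) d P fs (tmL E.k0 E.i0)) := rt_pc_go_meas p (rdLen E.k0) d.ψ.r d.ψ.cen d P fs (tmL E.k0 E.i0)
  have hp1 : (rtPcP p (d.N E) d P fs (tmL E.k0 E.i0)).Ok := rt_pc_ok p (rdLen E.k0) d.ψ.r d.ψ.cen d P fs (tmL E.k0 E.i0)
  have hVW := rt_pc_validw H hK jv tsq hl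
  have hs81 : (rtPcE η p E d P fs (10 * M + 1) jv tsq).s = E.s / 8 := rt_pca_s8 E _ rfl
  have hF0 : 0 < fs ^ (1 - η) := Real.rpow_pos_of_pos hfs0 _
  have hF1 : fs ^ (1 - η) ≤ 1 := Real.rpow_le_one hfs0.le hfs1 (by linarith)
  have hMC1 : 1 ≤ M ^ CL := Real.one_le_rpow hM1 hCL.le
  have hr4 : 0 < d.ψ.r ^ 4 := pow_pos hr 4
  have hG0 : 0 < E.ka * d.ψ.r ^ 4 := mul_pos hκ hr4
  have hb : 0 < rtPcgB η CL M E.ka d.ψ.r fs := by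
    unfold rtPcgB
    exact mul_pos (by norm_num) (mul_pos hκ (mul_pos hr4 (mul_pos (by linarith) hF0)))
  have hMC : M ^ CL ≤ E.s ^ (-((⌈CL⌉₊ : ℕ) : ℝ)) := by
    rw [hMe, ← Real.rpow_mul hs.le]
    apply rt_pcn_anti hs hs1
    have c1 := Nat.le_ceil CL
    have c2 : 30 * b0 * CL ≤ 1 * CL := mul_le_mul_of_nonneg_right (by linarith) hCL.le
    linarith
  obtain ⟨hW1, hW2⟩ := rt_pca_qs_wt h0 h1
  have hwin := rt_pcn_window (C := C) (C' := C + ⌈CL⌉₊ + 1) (cM := ((⌈CL⌉₊ : ℕ) : ℝ)) hs hs2 (G0 := E.ka * d.ψ.r ^ 4) hG0 hF0 hF1 hMC1 hMC hW1 hW2 hehi helo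
    (by push_cast; linarith) (Nat.cast_nonneg _)
  have hbW : rtPcgB η CL M E.ka d.ψ.r fs * cyWt η rtPcQs = 8192 * (E.ka * d.ψ.r ^ 4 * (M ^ CL * fs ^ (1 - η))) * cyWt η rtPcQs := by
    unfold rtPcgB
    ring
  have hbad : (p.sys η).ms (tmL E.k0 E.i0) E.k0 E.b0 (rtPcGo p (d.N E) d P fs (tmL E.k0 E.i0))ᶜ E.v ≤ E.s ^ ((C + ⌈8 * Dt⌉₊ + 2 : ℕ) : ℝ) * E.e := hroot
  have hA8 : (C : ℝ) + 8 * Dt ≤ ((C + ⌈8 * Dt⌉₊ + 2 : ℕ) : ℝ) := by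
    have := Nat.le_ceil (8 * Dt)
    push_cast
    linarith
  have hatom := rt_pcn_atom (C := C) (A := C + ⌈8 * Dt⌉₊ + 2) (G := E.ka * d.ψ.r ^ 4 * fs ^ (1 - η)) hs hs8 hDt (mul_pos hG0 hF0).le hMC1 hehi hA8
  refine ⟨rtPcP p (d.N E) d P fs (tmL E.k0 E.i0), rtPcE η p E d P fs (10 * M + 1) jv tsq, rtPcQs, rtPcgB η CL M E.ka d.ψ.r fs, hp1, Nat.le_add_right _ _,
    Nat.add_le_add_left (by norm_num) _, rfl, hVW, rfl, ⟨Nat.zero_le _, Nat.zero_le _, fun σ hσ => absurd hσ List.not_mem_nil⟩, by norm_num [rtPcQs], by norm_num [rtPcQs], hb,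
    ?_, ?_, rt_pcg_supp hP1 hfs0 η p (d.N E) d hchart (tmL E.k0 E.i0) E.v, rt_pcg_nor hP1 hfs0 η p (d.N E) d hchart (tmL E.k0 E.i0) E.v, ?_, ?_, ?_⟩
  · rw [hs81, hbW]
    exact hwin.1
  · rw [hs81, hbW]
    exact hwin.2
  · rw [hs81]
    refine REG p E d M P fs ((E.s / 8) ^ Dt) (E.s ^ ((C + ⌈8 * Dt⌉₊ + 2 : ℕ) : ℝ) * E.e) hκ.le hV.reg hp1 hG (le_trans (by norm_num) hM30) hP1 hPM hchart hfs0 hr
      (Real.rpow_pos_of_pos (by positivity) _) hregthin hbad ?_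
    refine hatom.trans (le_of_eq ?_)
    ring
  · intro l
    rw [hs81]
    obtain ⟨c1, c2, c3⟩ := rt_pcn_bdd (D1 := D1) (Ds := D1 + 2) hs hs2 hM1 hM80 (by linarith) le_rfl hf0 (hlabf l).1 (hlabf l).2
    rw [hfsd] at c2 c3
    exact rt_pca_bdd (hl l) _ hM1 (Real.rpow_pos_of_pos (by positivity) _) c1 c2 c3
  · have hX : (512 : ℝ) * M ^ 180 / (d.ψ.r ^ 4 * fs ^ (1 - η)) = 2 ^ 22 * M ^ 180 * M ^ CL * (E.ka / rtPcgB η CL M E.ka d.ψ.r fs) :=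
      rt_pcn_X hκ hr4 hF0 (lt_of_lt_of_le one_pos hMC1)
    have hww : ∀ l : Fin E.L, cyWt η (tsq l) ≤ 2 ^ 22 * M ^ 180 * M ^ CL * (E.ka / rtPcgB η CL M E.ka d.ψ.r fs) * E.w l := by
      intro l
      rw [← hX]
      exact rt_pca_ww h0 h1 (hl l) hM1 hfs0 hr ((half_pos hf0).trans_le (hlabf l).1) (hlabr l).1
    obtain ⟨hcmp, hrd1⟩ := rt_pca_rd h0 h1 H jv tsq (fun l => (hVW.ts_ok l).1) (fun l => (hVW.ts_ok l).2) hbad hww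
    refine hcmp.trans (add_le_add ?_ ?_)
    · refine mul_le_mul_of_nonneg_right ?_ hrd1
      rw [Real.sqrt_mul (mul_nonneg (mul_nonneg (by norm_num) (pow_nonneg hM0.le _)) (by linarith)), Real.sqrt_div hκ.le, ← mul_assoc]
      exact mul_le_mul_of_nonneg_right (rt_pcn_factor hs hMe hM30) (div_nonneg (Real.sqrt_nonneg _) (Real.sqrt_nonneg _))
    · have e1 : (2 : ℝ) ^ E.n = E.s ^ (-(1 : ℝ)) := by
        rw [gn_s_rpow, ← Real.rpow_natCast]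
        congr 1
        ring
      have e2 : (2 : ℝ) ^ (-((E.n : ℝ) / 2)) = E.s ^ (1 / 2 : ℝ) := by
        rw [gn_s_rpow]
        congr 1
        ring
      rw [e1, e2]
      exact rt_pcn_tiny hs hs2 h0 h1 hV.e_pos hκ hr hf0 hf1 hflo hF0.le hF1 hehi (by omega)

/-- **EXIT of the block PATCHCL** = the statement of `rt_patch_cl` -/
theorem rt_pca_patch_cl (η Γc : ℝ) (h0 : 0 < η) (h1 : η < 1) (hcl : (cylCl η).Rate Γc) (hc0 : 0 ≤ Γc) : (rtMdCl η h0 h1).PatchRate Γc :=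
  rt_pcr_main η Γc h0 h1 (rt_pca_xfer η h0 h1) hcl hc0

end Claimed.Agent.R256
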