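import Claimed.Agent.R256.Rt.PwDat

/-!
# Row 256, folder Rt, file PwInSc : INPUT HALF OF THE GLUE OF `rt_patch_wv`, THE SCALAR FIELDS      (helper225, for helper22 / helper167; prefix `rt_px_`)      SORRY-FREE

The flat datum without labels `D0 = rtPwD0 p1 (E.n + 2) G E.e (d.bq E η D1 g) (d.fs E D1) b1 bT1` of a patch experiment `(p, E, d)`:      `D0.s = s / 4`.
* `rt_px_scal`   the eight scalar fields `e_pos, bq_pos, fs_pos, budget, e_lo, e_hi, H_lo, H_hi` of `FzDat.Ok η C' ..` from `E.Valid`, `RtPd.Ok`, `RtPwI1` (only `H_eq`, `norm`), ONE label (`0 < E.L`), `1 ≤ D1`, `0 ≤ g`, `f_* ≤ 1`, `1 ≤ n`,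
                 for every `C'` with `C + g + 1 ≤ C'`.
* `rt_px_ok`     wrapper: the scalar fields + `spec` (from `RtPwI1`) + the void label fields; what is left to the caller: `gen`, `root`, `reg`.
-/

set_option autoImplicit false

namespace Claimed.Agent.R256

open MeasureTheory

theorem rt_px_s_pos {P : PkSys} (E : Xp P) : 0 < E.s := by
  unfold Xp.s
  positivity

theorem rt_px_s_half {P : PkSys} (E : Xp P) (hn : 1 ≤ E.n) : E.s ≤ 1 / 2 := by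
  unfold Xp.s
  calc (2 : ℝ)⁻¹ ^ E.n ≤ (2 : ℝ)⁻¹ ^ 1 := pow_le_pow_of_le_one (by norm_num) (by norm_num) hn
    _ = 1 / 2 := by norm_num

/-- the scale of the flat datum -/
theorem rt_px_s (p1 : RdWvPar) {P : PkSys} (E : Xp P) (G : RtKc) (e bq fs : ℝ) (b1 bT1 : ℕ) : (rtPwD0 p1 (E.n + 2) G e bq fs b1 bT1).s = E.s / 4 := by
  show (2 : ℝ)⁻¹ ^ (E.n + 2) = (2 : ℝ)⁻¹ ^ E.n / 4
  rw [pow_add]
  norm_num
  ring

theorem rt_px_two {P : PkSys} (E : Xp P) (g : ℝ) : (2 : ℝ) ^ (g * E.n) = E.s ^ (-g) := by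
  unfold Xp.s
  rw [← Real.rpow_natCast, ← Real.rpow_mul (by norm_num), Real.inv_rpow (by norm_num), ← Real.rpow_neg (by norm_num)]
  congr 1
  ring

/-- `(s/4)^C' ≤ s^x / 4` for `x ≤ C'`, `1 ≤ C'` -/
theorem rt_px_pow_le {s x : ℝ} (hs : 0 < s) (hs1 : s ≤ 1) (C' : ℕ) (hx : x ≤ C') (h1 : 1 ≤ C') : (s / 4) ^ (C' : ℝ) ≤ s ^ x / 4 := by
  rw [Real.div_rpow hs.le (by norm_num)]
  have a1 : s ^ (C' : ℝ) ≤ s ^ x := Real.rpow_le_rpow_of_exponent_ge hs hs1 hx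
  have a2 : (4 : ℝ) ≤ 4 ^ (C' : ℝ) := by
    calc (4 : ℝ) = 4 ^ (1 : ℝ) := (Real.rpow_one 4).symm
      _ ≤ 4 ^ (C' : ℝ) := Real.rpow_le_rpow_of_exponent_le (by norm_num) (by exact_mod_cast h1)
  exact div_le_div₀ (Real.rpow_nonneg hs.le _) a1 (by norm_num) a2

/-- `s^(-x) ≤ (s/4)^(-C')` for `x ≤ C'` -/
theorem rt_px_pow_ge {s x : ℝ} (hs : 0 < s) (hs1 : s ≤ 1) (C' : ℕ) (hx : x ≤ C') : s ^ (-x) ≤ (s / 4) ^ (-(C' : ℝ)) := by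
  have a1 : s ^ (-x) ≤ s ^ (-(C' : ℝ)) := Real.rpow_le_rpow_of_exponent_ge hs hs1 (by linarith)
  refine a1.trans ?_
  exact Real.rpow_le_rpow_of_nonpos (by positivity) (by linarith) (by simp)

/-- **the scalar fields of `FzDat.Ok` for the flat datum of a patch experiment** -/
theorem rt_px_scal {η : ℝ} (h0 : 0 < η) (h1 : η < 1) {p : RdWvPar} {E : Xp (p.sys η)} {d : RtPd} {C A : ℕ} {D1 b0 g P fs' Λ Aa ε : ℝ} {p1 : RdWvPar} {G : RtKc}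
    {b1 bT1 : ℕ} (hV : E.Valid) (hd : d.Ok (rtMdWv η h0 h1) p E C A D1 b0) (hI : RtPwI1 p E d P fs' Λ Aa ε p1 G b1 bT1) (hL : 0 < E.L) (hD1 : 1 ≤ D1)
    (hg : 0 ≤ g) (hfs : d.fs E D1 ≤ 1) (hn : 1 ≤ E.n) (C' : ℕ) (hC' : (C : ℝ) + g + 1 ≤ C') :
    0 < (rtPwD0 p1 (E.n + 2) G E.e (d.bq E η D1 g) (d.fs E D1) b1 bT1).e ∧
    0 < (rtPwD0 p1 (E.n + 2) G E.e (d.bq E η D1 g) (d.fs E D1) b1 bT1).bq ∧
    0 < (rtPwD0 p1 (E.n + 2) G E.e (d.bq E η D1 g) (d.fs E D1) b1 bT1).fs ∧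
    ‖(rtPwD0 p1 (E.n + 2) G E.e (d.bq E η D1 g) (d.fs E D1) b1 bT1).G‖ ^ 2 ≤ (rtPwD0 p1 (E.n + 2) G E.e (d.bq E η D1 g) (d.fs E D1) b1 bT1).e ∧
    (rtPwD0 p1 (E.n + 2) G E.e (d.bq E η D1 g) (d.fs E D1) b1 bT1).s ^ (C' : ℝ) * (rtPwD0 p1 (E.n + 2) G E.e (d.bq E η D1 g) (d.fs E D1) b1 bT1).bq
      ≤ (rtPwD0 p1 (E.n + 2) G E.e (d.bq E η D1 g) (d.fs E D1) b1 bT1).e ∧
    (rtPwD0 p1 (E.n + 2) G E.e (d.bq E η D1 g) (d.fs E D1) b1 bT1).e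
      ≤ (rtPwD0 p1 (E.n + 2) G E.e (d.bq E η D1 g) (d.fs E D1) b1 bT1).s ^ (-(C' : ℝ)) * (rtPwD0 p1 (E.n + 2) G E.e (d.bq E η D1 g) (d.fs E D1) b1 bT1).bq ∧
    (rtPwD0 p1 (E.n + 2) G E.e (d.bq E η D1 g) (d.fs E D1) b1 bT1).s ^ (C' : ℝ)
      ≤ (rtPwD0 p1 (E.n + 2) G E.e (d.bq E η D1 g) (d.fs E D1) b1 bT1).p.H / (rtPwD0 p1 (E.n + 2) G E.e (d.bq E η D1 g) (d.fs E D1) b1 bT1).fs ^ 2 ∧
    (rtPwD0 p1 (E.n + 2) G E.e (d.bq E η D1 g) (d.fs E D1) b1 bT1).p.H / (rtPwD0 p1 (E.n + 2) G E.e (d.bq E η D1 g) (d.fs E D1) b1 bT1).fs ^ 2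
      ≤ (rtPwD0 p1 (E.n + 2) G E.e (d.bq E η D1 g) (d.fs E D1) b1 bT1).s := by
  rw [rt_px_s]
  show 0 < E.e ∧ 0 < d.bq E η D1 g ∧ 0 < d.fs E D1 ∧ ‖G‖ ^ 2 ≤ E.e ∧ (E.s / 4) ^ (C' : ℝ) * d.bq E η D1 g ≤ E.e ∧
    E.e ≤ (E.s / 4) ^ (-(C' : ℝ)) * d.bq E η D1 g ∧ (E.s / 4) ^ (C' : ℝ) ≤ p1.H / d.fs E D1 ^ 2 ∧ p1.H / d.fs E D1 ^ 2 ≤ E.s / 4
  have hs := rt_px_s_pos E
  have hs2 := rt_px_s_half E hn
  have hs1 : E.s ≤ 1 := hs2.trans (by norm_num)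
  have he := hV.e_pos
  have hka := hV.ka_pos
  have hr := hd.r_pos
  have hf : 0 < d.f := lt_of_lt_of_le (Real.rpow_pos_of_pos hs _) hd.f_lo
  have hfs0 : 0 < d.fs E D1 := by
    unfold RtPd.fs
    exact mul_pos (Real.rpow_pos_of_pos hs _) hf
  have hl := rdLen_pos E.k0
  have hC0 : (0 : ℝ) ≤ C := Nat.cast_nonneg C
  have hC1 : 1 ≤ C' := by
    have : (1 : ℝ) ≤ C' := by linarith
    exact_mod_cast this
  obtain ⟨X, hX⟩ : ∃ X : ℝ, X = E.ka * d.ψ.r ^ 4 := ⟨_, rfl⟩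
  have hX0 : 0 < X := by rw [hX]; positivity
  obtain ⟨Fp, hFp⟩ : ∃ Fp : ℝ, Fp = d.fs E D1 ^ (1 - η) := ⟨_, rfl⟩
  have hFp0 : 0 < Fp := by rw [hFp]; exact Real.rpow_pos_of_pos hfs0 _
  have hFp1 : Fp ≤ 1 := by rw [hFp]; exact Real.rpow_le_one hfs0.le hfs (by linarith)
  have hbq : d.bq E η D1 g = E.s ^ (-g) * (X * Fp) := by
    unfold RtPd.bq
    rw [rt_px_two, hX, hFp]
  have hsg : 0 < E.s ^ (-g) := Real.rpow_pos_of_pos hs _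
  have hbq0 : 0 < d.bq E η D1 g := by rw [hbq]; positivity
  refine ⟨he, hbq0, hfs0, ?_, ?_, ?_, ?_, ?_⟩
  · calc ‖G‖ ^ 2 ≤ ‖E.v‖ ^ 2 := pow_le_pow_left₀ (norm_nonneg _) hI.norm 2
      _ ≤ E.e := hV.budget
  · -- e_lo
    have a1 : (E.s / 4) ^ (C' : ℝ) ≤ E.s ^ ((C : ℝ) + g) / 4 := rt_px_pow_le hs hs1 C' (by linarith) hC1
    have a2 : E.s ^ ((C : ℝ) + g) * E.s ^ (-g) = E.s ^ (C : ℝ) := by
      rw [← Real.rpow_add hs]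
      congr 1
      ring
    have a3 : E.s ^ (C : ℝ) * X ≤ E.e := by rw [hX]; exact hd.e_lo
    have a4 : 0 < E.s ^ ((C : ℝ) + g) := Real.rpow_pos_of_pos hs _
    have a5 : 0 < E.s ^ (C : ℝ) := Real.rpow_pos_of_pos hs _
    rw [hbq]
    calc (E.s / 4) ^ (C' : ℝ) * (E.s ^ (-g) * (X * Fp)) ≤ (E.s ^ ((C : ℝ) + g) / 4) * (E.s ^ (-g) * (X * Fp)) :=
          mul_le_mul_of_nonneg_right a1 (by positivity)
      _ = (E.s ^ ((C : ℝ) + g) * E.s ^ (-g)) * X * (Fp / 4) := by ring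
      _ = E.s ^ (C : ℝ) * X * (Fp / 4) := by rw [a2]
      _ ≤ E.s ^ (C : ℝ) * X * 1 := mul_le_mul_of_nonneg_left (by linarith) (by positivity)
      _ ≤ E.e := by rw [mul_one]; exact a3
  · -- e_hi
    have a1 : E.s ^ (-(C : ℝ)) ≤ (E.s / 4) ^ (-(C' : ℝ)) := rt_px_pow_ge hs hs1 C' (by linarith)
    have a2 : (1 : ℝ) ≤ E.s ^ (-g) := Real.one_le_rpow_of_pos_of_le_one_of_nonpos hs hs1 (by linarith)
    have a3 : E.e ≤ E.s ^ (-(C : ℝ)) * (X * Fp) := by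
      have := hd.e_hi
      rw [hX, hFp]
      exact this
    rw [hbq]
    calc E.e ≤ E.s ^ (-(C : ℝ)) * (X * Fp) := a3
      _ ≤ (E.s / 4) ^ (-(C' : ℝ)) * (X * Fp) := mul_le_mul_of_nonneg_right a1 (by positivity)
      _ = (E.s / 4) ^ (-(C' : ℝ)) * (1 * (X * Fp)) := by rw [one_mul]
      _ ≤ (E.s / 4) ^ (-(C' : ℝ)) * (E.s ^ (-g) * (X * Fp)) :=
          mul_le_mul_of_nonneg_left (mul_le_mul_of_nonneg_right a2 (by positivity)) (Real.rpow_nonneg (by positivity) _)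
  · -- H_lo
    have a0 : E.s ^ (C : ℝ) ≤ p.H / (rdLen E.k0 * d.ψ.r ^ 2) := by
      rcases hd.H_lo with h | h
      · exact absurd h (ne_of_gt p.H_pos)
      · exact h
    have a1 : (E.s / 4) ^ (C' : ℝ) ≤ E.s ^ (C : ℝ) / 4 := rt_px_pow_le hs hs1 C' (by linarith) hC1
    have a2 : p1.H = p.H / (rdLen E.k0 * d.ψ.r ^ 2) / 4 := by
      rw [hI.H_eq]
      field_simp
    have a3 : d.fs E D1 ^ 2 ≤ 1 := pow_le_one₀ hfs0.le hfs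
    rw [le_div_iff₀ (by positivity)]
    have a4 : 0 ≤ (E.s / 4) ^ (C' : ℝ) := Real.rpow_nonneg (by positivity) _
    calc (E.s / 4) ^ (C' : ℝ) * d.fs E D1 ^ 2 ≤ (E.s / 4) ^ (C' : ℝ) * 1 := mul_le_mul_of_nonneg_left a3 a4
      _ ≤ p1.H := by rw [mul_one, a2]; linarith
  · -- H_hi
    obtain ⟨-, hunc⟩ := hV.ts_ok ⟨0, hL⟩
    have hr2 := (hd.lab_r ⟨0, hL⟩).2
    have hf2 := (hd.lab_f ⟨0, hL⟩).2
    have hr1 := (hd.lab_r ⟨0, hL⟩).1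
    have hf1 := (hd.lab_f ⟨0, hL⟩).1
    obtain ⟨Q, hQ⟩ : ∃ Q : RdTst, Q = E.ts ⟨0, hL⟩ := ⟨_, rfl⟩
    have hr2' : Q.r ≤ 2 * d.ψ.r := by rw [hQ]; exact hr2
    have hf2' : Q.f ≤ d.f := by rw [hQ]; exact hf2
    have hr1' : 0 ≤ Q.r := by
      have : d.ψ.r / 2 ≤ Q.r := by rw [hQ]; exact hr1
      linarith
    have hunc' : rdD p.H E.kf ≤ Q.r * Q.f := by rw [hQ]; exact hunc
    have b1' : rdD p.H E.kf ≤ 2 * d.ψ.r * d.f := hunc'.trans (mul_le_mul hr2' hf2' (by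
      have : d.f / 2 ≤ Q.f := by rw [hQ]; exact hf1
      linarith) (by positivity))
    have hlf : rdLen E.kf = rdLen E.k0 * E.s := by
      unfold rdLen Xp.kf Xp.s
      rw [pow_add]
    have hlf0 : 0 < rdLen E.kf := rdLen_pos _
    have b2 : p.H / rdLen E.kf ≤ (2 * d.ψ.r * d.f) ^ 2 := by
      have c1 : Real.sqrt (p.H / rdLen E.kf) ≤ 2 * d.ψ.r * d.f := b1'
      have c2 : 0 ≤ p.H / rdLen E.kf := (div_pos p.H_pos hlf0).le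
      calc p.H / rdLen E.kf = Real.sqrt (p.H / rdLen E.kf) ^ 2 := (Real.sq_sqrt c2).symm
        _ ≤ (2 * d.ψ.r * d.f) ^ 2 := pow_le_pow_left₀ (Real.sqrt_nonneg _) c1 2
    have b3 : p1.H ≤ E.s * d.f ^ 2 := by
      rw [hI.H_eq, div_le_iff₀ (by positivity)]
      rw [div_le_iff₀ hlf0, hlf] at b2
      calc p.H ≤ (2 * d.ψ.r * d.f) ^ 2 * (rdLen E.k0 * E.s) := b2
        _ = E.s * d.f ^ 2 * (4 * rdLen E.k0 * d.ψ.r ^ 2) := by ring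
    have b4 : E.s⁻¹ * d.f ≤ d.fs E D1 := by
      unfold RtPd.fs
      refine mul_le_mul_of_nonneg_right ?_ hf.le
      rw [← Real.rpow_neg_one]
      exact Real.rpow_le_rpow_of_exponent_ge hs hs1 (by linarith)
    have b5 : (E.s⁻¹ * d.f) ^ 2 ≤ d.fs E D1 ^ 2 := pow_le_pow_left₀ (by positivity) b4 2
    rw [div_le_iff₀ (by positivity)]
    have b6 : E.s * d.f ^ 2 = E.s ^ 3 * (E.s⁻¹ * d.f) ^ 2 := by
      field_simp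
    have b7 : E.s ^ 3 ≤ E.s / 4 := by nlinarith [mul_pos hs hs]
    calc p1.H ≤ E.s * d.f ^ 2 := b3
      _ = E.s ^ 3 * (E.s⁻¹ * d.f) ^ 2 := b6
      _ ≤ (E.s / 4) * d.fs E D1 ^ 2 := mul_le_mul b7 b5 (by positivity) (by positivity)

/-- **wrapper**: `FzDat.Ok` of the flat datum without labels from `gen`, `root`, `reg` -/
theorem rt_px_ok {η : ℝ} (h0 : 0 < η) (h1 : η < 1) {p : RdWvPar} {E : Xp (p.sys η)} {d : RtPd} {C A : ℕ} {D1 b0 g P fs' Λ Aa ε : ℝ} {p1 : RdWvPar} {G : RtKc}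
    {b1 bT1 : ℕ} (hV : E.Valid) (hd : d.Ok (rtMdWv η h0 h1) p E C A D1 b0) (hI : RtPwI1 p E d P fs' Λ Aa ε p1 G b1 bT1) (hL : 0 < E.L) (hD1 : 1 ≤ D1)
    (hg : 0 ≤ g) (hfs : d.fs E D1 ≤ 1) (hn : 1 ≤ E.n) (C' A' : ℕ) (hC' : (C : ℝ) + g + 1 ≤ C') (Ds Dt g0 : ℝ) (hgen : b1 ≤ C' ∧ bT1 ≤ C')
    (hroot : (rtPwD0 p1 (E.n + 2) G E.e (d.bq E η D1 g) (d.fs E D1) b1 bT1).ms0
        (fzIn (d.fs E D1) ((rtPwD0 p1 (E.n + 2) G E.e (d.bq E η D1 g) (d.fs E D1) b1 bT1).s ^ (-(g0 / 2))))ᶜ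
      ≤ (rtPwD0 p1 (E.n + 2) G E.e (d.bq E η D1 g) (d.fs E D1) b1 bT1).s ^ (A' : ℝ) * E.e)
    (hreg : ∀ Q : CyT, (rtPwD0 p1 (E.n + 2) G E.e (d.bq E η D1 g) (d.fs E D1) b1 bT1).s ^ Dt ≤ Q.r →
      Q.r ≤ (rtPwD0 p1 (E.n + 2) G E.e (d.bq E η D1 g) (d.fs E D1) b1 bT1).s ^ (-g0) →
      (rtPwD0 p1 (E.n + 2) G E.e (d.bq E η D1 g) (d.fs E D1) b1 bT1).s ^ Dt ≤ Q.f →
      Q.f ≤ (rtPwD0 p1 (E.n + 2) G E.e (d.bq E η D1 g) (d.fs E D1) b1 bT1).s ^ (-g0) →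
      cySh Q ((rtPwD0 p1 (E.n + 2) G E.e (d.bq E η D1 g) (d.fs E D1) b1 bT1).s ^ (-Dt)) → rdD p1.H 0 ≤ d.fs E D1 * Q.f →
      (rtPwD0 p1 (E.n + 2) G E.e (d.bq E η D1 g) (d.fs E D1) b1 bT1).ms0 {x | cyIn Q 1 (fzFl (d.fs E D1) x)} ≤ d.bq E η D1 g * cyWt η Q) :
    (rtPwD0 p1 (E.n + 2) G E.e (d.bq E η D1 g) (d.fs E D1) b1 bT1).Ok η C' A' Ds Dt g0 := by
  obtain ⟨a1, a2, a3, a4, a5, a6, a7, a8⟩ := rt_px_scal h0 h1 hV hd hI hL hD1 hg hfs hn C' hC'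
  exact
  { e_pos := a1
    bq_pos := a2
    fs_pos := a3
    budget := a4
    spec := hI.spec
    gen := hgen
    e_lo := a5
    e_hi := a6
    H_lo := a7
    H_hi := a8
    root := hroot
    reg := hreg
    iv_in := fun l => l.elim0
    th_meas := fun l => l.elim0
    th_nn := fun l => l.elim0
    th_sum := fun i x => by
      show ∑ l : Fin 0, _ ≤ (1 : ℝ)
      simp
    th_supp := fun l => l.elim0
    tc_bd := fun l => l.elim0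
    tc_unc := fun l => l.elim0 }

end Claimed.Agent.R256
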