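import Mathlib

/-!
# Row 256 (LS paper), folder Rt, file PwCube : THE CUBE SUMS OF THE FINAL GLUE OF `rt_patch_wv`          (BP-256-RT-PWV, helper167; prefix `rt_pw_`)          SORRY-FREE, Mathlib only

07 l.1196-1215.      Old labels `l : Fin L` (masses `m`, weights `w ≥ wm`), new labels `l' : Fin L'` (masses `m'`, cylinder weights `w'`), `lab l'` = the old label of `l'`.
If every old label has `≤ Lo` new labels,  `w' R ≤ Lo w`,  `m_l ≤ Lo Σ_(lab l' = l) m'_l' + er l`,  `Σ er ≤ εo`,  then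
      `Σ m^(3/2) / √w ≤ 2 Lo³ / √R · Σ m'^(3/2) / √w' + 2 εo^(3/2) / √wm`.
-/

set_option autoImplicit false

namespace Claimed.Agent.R256

theorem rt_pw_add_rpow {a b : ℝ} (ha : 0 ≤ a) (hb : 0 ≤ b) : (a + b) ^ (3 / 2 : ℝ) ≤ 2 * (a ^ (3 / 2 : ℝ) + b ^ (3 / 2 : ℝ)) := by
  have h := Real.rpow_sum_le_const_mul_sum_rpow_of_nonneg (s := (Finset.univ : Finset (Fin 2))) (f := ![a, b]) (p := 3 / 2) (by norm_num)
    (by intro i _; fin_cases i <;> simp [ha, hb])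
  simp only [Fin.sum_univ_two, Matrix.cons_val_zero, Matrix.cons_val_one, Finset.card_univ, Fintype.card_fin] at h
  refine h.trans (mul_le_mul_of_nonneg_right ?_ (add_nonneg (Real.rpow_nonneg ha _) (Real.rpow_nonneg hb _)))
  calc ((2 : ℕ) : ℝ) ^ ((3 / 2 : ℝ) - 1) ≤ ((2 : ℕ) : ℝ) ^ (1 : ℝ) := Real.rpow_le_rpow_of_exponent_le (by norm_num) (by norm_num)
    _ = 2 := by norm_num

theorem rt_pw_sum_rpow {ι : Type*} (s : Finset ι) (f : ι → ℝ) (hf : ∀ i ∈ s, 0 ≤ f i) :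
    ∑ i ∈ s, f i ^ (3 / 2 : ℝ) ≤ (∑ i ∈ s, f i) ^ (3 / 2 : ℝ) := by
  have hS : 0 ≤ ∑ i ∈ s, f i := Finset.sum_nonneg hf
  have e : ∀ x : ℝ, 0 ≤ x → x ^ (3 / 2 : ℝ) = x * x ^ (1 / 2 : ℝ) := by
    intro x hx
    rcases hx.eq_or_lt with h | h
    · rw [← h]
      rw [Real.zero_rpow (by norm_num), zero_mul]
    · rw [show (3 / 2 : ℝ) = 1 + 1 / 2 by norm_num, Real.rpow_add h, Real.rpow_one]
  rw [e _ hS, Finset.sum_mul]
  refine Finset.sum_le_sum fun i hi => ?_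
  rw [e _ (hf i hi)]
  exact mul_le_mul_of_nonneg_left (Real.rpow_le_rpow (hf i hi) (Finset.single_le_sum hf hi) (by norm_num)) (hf i hi)

/-- **the cube sums** -/
theorem rt_pw_cube_gen {L L' : ℕ} (lab : Fin L' → Fin L) (m w er : Fin L → ℝ) (m' w' : Fin L' → ℝ) (Lo R wm εo : ℝ)
    (hLo : 1 ≤ Lo) (hR : 0 < R) (hwm : 0 < wm) (hm : ∀ l, 0 ≤ m l) (hm' : ∀ l, 0 ≤ m' l) (hw' : ∀ l, 0 < w' l) (hw : ∀ l, wm ≤ w l)
    (her : ∀ l, 0 ≤ er l) (cnt : ∀ l0, ((Finset.univ.filter fun l => lab l = l0).card : ℝ) ≤ Lo)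
    (wt : ∀ l, w' l * R ≤ Lo * w (lab l))
    (mass : ∀ l0, m l0 ≤ Lo * ∑ l ∈ Finset.univ.filter (fun l => lab l = l0), m' l + er l0) (hε : ∑ l0, er l0 ≤ εo) :
    ∑ l, m l ^ (3 / 2 : ℝ) / Real.sqrt (w l)
      ≤ 2 * Lo ^ 3 / Real.sqrt R * ∑ l, m' l ^ (3 / 2 : ℝ) / Real.sqrt (w' l) + 2 * εo ^ (3 / 2 : ℝ) / Real.sqrt wm := by
  classical
  have hLo0 : 0 < Lo := by linarith
  have hsR : 0 < Real.sqrt R := Real.sqrt_pos.2 hR
  have hswm : 0 < Real.sqrt wm := Real.sqrt_pos.2 hwm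
  have hw0 : ∀ l, 0 < w l := fun l => lt_of_lt_of_le hwm (hw l)
  -- one old label
  have key : ∀ l0, m l0 ^ (3 / 2 : ℝ) / Real.sqrt (w l0)
      ≤ 2 * Lo ^ 3 / Real.sqrt R * ∑ l ∈ Finset.univ.filter (fun l => lab l = l0), m' l ^ (3 / 2 : ℝ) / Real.sqrt (w' l)
        + 2 * er l0 ^ (3 / 2 : ℝ) / Real.sqrt wm := by
    intro l0
    set F := Finset.univ.filter (fun l => lab l = l0) with hF
    have hS : 0 ≤ ∑ l ∈ F, m' l := Finset.sum_nonneg fun l _ => hm' l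
    have hsw : 0 < Real.sqrt (w l0) := Real.sqrt_pos.2 (hw0 l0)
    have h1 : m l0 ^ (3 / 2 : ℝ) ≤ 2 * ((Lo * ∑ l ∈ F, m' l) ^ (3 / 2 : ℝ) + er l0 ^ (3 / 2 : ℝ)) :=
      (Real.rpow_le_rpow (hm l0) (mass l0) (by norm_num)).trans (rt_pw_add_rpow (mul_nonneg hLo0.le hS) (her l0))
    have h2 : (∑ l ∈ F, m' l) ^ (3 / 2 : ℝ) ≤ Lo ^ (1 / 2 : ℝ) * ∑ l ∈ F, m' l ^ (3 / 2 : ℝ) := by
      refine (Real.rpow_sum_le_const_mul_sum_rpow_of_nonneg (s := F) (f := m') (p := 3 / 2) (by norm_num) fun l _ => hm' l).trans ?_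
      refine mul_le_mul_of_nonneg_right ?_ (Finset.sum_nonneg fun l _ => Real.rpow_nonneg (hm' l) _)
      rw [show (3 / 2 : ℝ) - 1 = 1 / 2 by norm_num]
      exact Real.rpow_le_rpow (Nat.cast_nonneg _) (cnt l0) (by norm_num)
    have h3 : (Lo * ∑ l ∈ F, m' l) ^ (3 / 2 : ℝ) ≤ Lo ^ 2 * ∑ l ∈ F, m' l ^ (3 / 2 : ℝ) := by
      rw [Real.mul_rpow hLo0.le hS]
      calc Lo ^ (3 / 2 : ℝ) * (∑ l ∈ F, m' l) ^ (3 / 2 : ℝ)
          ≤ Lo ^ (3 / 2 : ℝ) * (Lo ^ (1 / 2 : ℝ) * ∑ l ∈ F, m' l ^ (3 / 2 : ℝ)) :=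
            mul_le_mul_of_nonneg_left h2 (Real.rpow_nonneg hLo0.le _)
        _ = Lo ^ 2 * ∑ l ∈ F, m' l ^ (3 / 2 : ℝ) := by
            rw [← mul_assoc, ← Real.rpow_add hLo0]
            norm_num
    -- the weights
    have h4 : ∀ l ∈ F, m' l ^ (3 / 2 : ℝ) / Real.sqrt (w l0) ≤ Lo / Real.sqrt R * (m' l ^ (3 / 2 : ℝ) / Real.sqrt (w' l)) := by
      intro l hl
      have hl' : lab l = l0 := (Finset.mem_filter.1 hl).2
      have hwt := wt l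
      rw [hl'] at hwt
      have hsw' : 0 < Real.sqrt (w' l) := Real.sqrt_pos.2 (hw' l)
      have e1 : Real.sqrt (w' l) * Real.sqrt R ≤ Lo * Real.sqrt (w l0) := by
        rw [← Real.sqrt_mul (hw' l).le]
        calc Real.sqrt (w' l * R) ≤ Real.sqrt (Lo * w l0) := Real.sqrt_le_sqrt hwt
          _ = Real.sqrt Lo * Real.sqrt (w l0) := Real.sqrt_mul hLo0.le _
          _ ≤ Lo * Real.sqrt (w l0) := by
            refine mul_le_mul_of_nonneg_right ?_ hsw.le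
            rw [Real.sqrt_le_left hLo0.le]
            nlinarith
      have hx : 0 ≤ m' l ^ (3 / 2 : ℝ) := Real.rpow_nonneg (hm' l) _
      rw [div_mul_div_comm, div_le_div_iff₀ hsw (mul_pos hsR hsw')]
      calc m' l ^ (3 / 2 : ℝ) * (Real.sqrt R * Real.sqrt (w' l)) = m' l ^ (3 / 2 : ℝ) * (Real.sqrt (w' l) * Real.sqrt R) := by ring
        _ ≤ m' l ^ (3 / 2 : ℝ) * (Lo * Real.sqrt (w l0)) := mul_le_mul_of_nonneg_left e1 hx
        _ = Lo * m' l ^ (3 / 2 : ℝ) * Real.sqrt (w l0) := by ring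
    have h5 : (∑ l ∈ F, m' l ^ (3 / 2 : ℝ)) / Real.sqrt (w l0) ≤ Lo / Real.sqrt R * ∑ l ∈ F, m' l ^ (3 / 2 : ℝ) / Real.sqrt (w' l) := by
      rw [Finset.sum_div, Finset.mul_sum]
      exact Finset.sum_le_sum h4
    have h6 : er l0 ^ (3 / 2 : ℝ) / Real.sqrt (w l0) ≤ er l0 ^ (3 / 2 : ℝ) / Real.sqrt wm :=
      div_le_div_of_nonneg_left (Real.rpow_nonneg (her l0) _) hswm (Real.sqrt_le_sqrt (hw l0))
    calc m l0 ^ (3 / 2 : ℝ) / Real.sqrt (w l0)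
        ≤ 2 * (Lo ^ 2 * ∑ l ∈ F, m' l ^ (3 / 2 : ℝ) + er l0 ^ (3 / 2 : ℝ)) / Real.sqrt (w l0) := by
          refine div_le_div_of_nonneg_right (h1.trans ?_) hsw.le
          linarith
      _ = 2 * Lo ^ 2 * ((∑ l ∈ F, m' l ^ (3 / 2 : ℝ)) / Real.sqrt (w l0)) + 2 * (er l0 ^ (3 / 2 : ℝ) / Real.sqrt (w l0)) := by ring
      _ ≤ 2 * Lo ^ 2 * (Lo / Real.sqrt R * ∑ l ∈ F, m' l ^ (3 / 2 : ℝ) / Real.sqrt (w' l)) + 2 * (er l0 ^ (3 / 2 : ℝ) / Real.sqrt wm) :=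
          add_le_add (mul_le_mul_of_nonneg_left h5 (by positivity)) (mul_le_mul_of_nonneg_left h6 (by norm_num))
      _ = _ := by ring
  have hfib : ∑ l0, ∑ l ∈ Finset.univ.filter (fun l => lab l = l0), m' l ^ (3 / 2 : ℝ) / Real.sqrt (w' l)
      = ∑ l, m' l ^ (3 / 2 : ℝ) / Real.sqrt (w' l) := Finset.sum_fiberwise_of_maps_to (fun l _ => Finset.mem_univ (lab l)) _
  have her2 : ∑ l0, er l0 ^ (3 / 2 : ℝ) ≤ εo ^ (3 / 2 : ℝ) :=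
    (rt_pw_sum_rpow _ _ fun l _ => her l).trans (Real.rpow_le_rpow (Finset.sum_nonneg fun l _ => her l) hε (by norm_num))
  calc ∑ l, m l ^ (3 / 2 : ℝ) / Real.sqrt (w l)
      ≤ ∑ l0, (2 * Lo ^ 3 / Real.sqrt R * ∑ l ∈ Finset.univ.filter (fun l => lab l = l0), m' l ^ (3 / 2 : ℝ) / Real.sqrt (w' l)
        + 2 * er l0 ^ (3 / 2 : ℝ) / Real.sqrt wm) := Finset.sum_le_sum fun l0 _ => key l0
    _ = 2 * Lo ^ 3 / Real.sqrt R * ∑ l, m' l ^ (3 / 2 : ℝ) / Real.sqrt (w' l) + 2 * (∑ l0, er l0 ^ (3 / 2 : ℝ)) / Real.sqrt wm := by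
        rw [Finset.sum_add_distrib, ← Finset.mul_sum, hfib, ← Finset.sum_div, ← Finset.mul_sum]
    _ ≤ _ := by
        refine add_le_add le_rfl (div_le_div_of_nonneg_right ?_ hswm.le)
        linarith

end Claimed.Agent.R256
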