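import Mathlib

/-!
# Row 256 (LS paper), folder Rt, file PwNum : THE ARITHMETIC OF THE FINAL GLUE OF `rt_patch_wv`          (BP-256-RT-PWV, helper167; prefix `rt_pw_num_`)          CONTRACT FILE, Mathlib only

Four independent leaves `L-256-RT-PW-NUM-{FS,A,B,T}`: real arithmetic with powers of `2`.   Prove IN PLACE, statements verbatim (aux lemmas above, prefix `rt_pw_num_aux_`).   `s = 2⁻¹ ^ n`.
-/

set_option autoImplicit false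

namespace Claimed.Agent.R256

/-- LEAF `L-256-RT-PW-NUM-FS`.   `f_* = s^-D1 f ≤ s^(Z - D1) ≤ s^(3|Zf|) ≤ (s/4)^Zf`      (`1/4 ≥ s²` for `n ≥ 1`; for `Zf ≤ 0` the right side is `≥ 1`) -/
theorem rt_pw_num_fs (n : ℕ) (hn : 1 ≤ n) (D1 Zf Z f : ℝ) (hZ : D1 + 3 * |Zf| ≤ Z) (hf : f ≤ ((2 : ℝ)⁻¹ ^ n) ^ Z) :
    ((2 : ℝ)⁻¹ ^ n) ^ (-D1) * f ≤ ((2 : ℝ)⁻¹ ^ (n + 2)) ^ Zf := by
  obtain ⟨s, hsdef⟩ : ∃ s : ℝ, s = (2 : ℝ)⁻¹ ^ n := ⟨_, rfl⟩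
  have hs : 0 < s := by rw [hsdef]; positivity
  have hs2 : s ≤ 1 / 2 := by
    rw [hsdef]
    calc ((2 : ℝ)⁻¹) ^ n ≤ ((2 : ℝ)⁻¹) ^ 1 := pow_le_pow_of_le_one (by norm_num) (by norm_num) hn
      _ = 1 / 2 := by norm_num
  have hs1 : s ≤ 1 := by linarith
  have e4 : (2 : ℝ)⁻¹ ^ (n + 2) = s / 4 := by
    rw [pow_add, ← hsdef]
    norm_num
    ring
  rw [e4, ← hsdef]
  rw [← hsdef] at hf
  have h1 : s ^ (-D1) * f ≤ s ^ (3 * |Zf|) := by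
    calc s ^ (-D1) * f ≤ s ^ (-D1) * s ^ Z := mul_le_mul_of_nonneg_left hf (Real.rpow_nonneg hs.le _)
      _ = s ^ (-D1 + Z) := (Real.rpow_add hs _ _).symm
      _ ≤ s ^ (3 * |Zf|) := Real.rpow_le_rpow_of_exponent_ge hs hs1 (by linarith)
  refine h1.trans ?_
  have hq : 0 < s / 4 := by positivity
  rcases le_total 0 Zf with hz | hz
  · rw [abs_of_nonneg hz]
    have h3 : s ^ 3 ≤ s / 4 := by nlinarith [mul_nonneg hs.le hs.le]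
    calc s ^ (3 * Zf) = (s ^ (3 : ℝ)) ^ Zf := Real.rpow_mul hs.le _ _
      _ = (s ^ 3) ^ Zf := by norm_num
      _ ≤ (s / 4) ^ Zf := Real.rpow_le_rpow (by positivity) h3 hz
  · have a1 : s ^ (3 * |Zf|) ≤ 1 := Real.rpow_le_one hs.le hs1 (by positivity)
    have a2 : 1 ≤ (s / 4) ^ Zf := Real.one_le_rpow_of_pos_of_le_one_of_nonpos hq (by linarith) hz
    linarith

/-- LEAF `L-256-RT-PW-NUM-A`.   `√(κ / (2^(γn/4) κ R)) = 2^(-γn/8) / √R`;   `1 + 3γn/4 ≤ γn - γn/8` -/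
theorem rt_pw_num_a (γ : ℝ) (n : ℕ) (hn : 8 ≤ γ * n) (κ R : ℝ) (hκ : 0 < κ) (hR : 0 < R) :
    2 * ((2 : ℝ) ^ (γ / 4 * n)) ^ 3 / Real.sqrt R ≤ 2 ^ (γ * n) * Real.sqrt (κ / (2 ^ (γ / 4 * n) * (κ * R))) := by
  have h2 : (0 : ℝ) < 2 := by norm_num
  have ha : (0 : ℝ) < 2 ^ (γ / 4 * n) := Real.rpow_pos_of_pos h2 _
  have hsR : 0 < Real.sqrt R := Real.sqrt_pos.2 hR
  have e1 : κ / (2 ^ (γ / 4 * n) * (κ * R)) = (2 ^ (γ / 4 * n))⁻¹ * R⁻¹ := by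
    field_simp
  have e2 : Real.sqrt ((2 : ℝ) ^ (γ / 4 * n))⁻¹ = 2 ^ (-(γ / 8 * n)) := by
    rw [← Real.rpow_neg h2.le, Real.sqrt_eq_rpow, ← Real.rpow_mul h2.le]
    congr 1
    ring
  have e3 : ((2 : ℝ) ^ (γ / 4 * n)) ^ 3 = 2 ^ (3 * γ / 4 * n) := by
    rw [← Real.rpow_natCast, ← Real.rpow_mul h2.le]
    congr 1
    push_cast
    ring
  rw [e1, Real.sqrt_mul (inv_pos.2 ha).le, e2, e3, Real.sqrt_inv, ← mul_assoc, ← div_eq_mul_inv]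
  refine div_le_div_of_nonneg_right ?_ hsR.le
  rw [← Real.rpow_add h2]
  calc 2 * (2 : ℝ) ^ (3 * γ / 4 * n) = 2 ^ (1 + 3 * γ / 4 * n) := by
        rw [Real.rpow_add h2, Real.rpow_one]
    _ ≤ 2 ^ (γ * n + -(γ / 8 * n)) := by
        refine Real.rpow_le_rpow_of_exponent_le (by norm_num) ?_
        linarith

/-- LEAF `L-256-RT-PW-NUM-B`.   `x^(3/2) = x √x`;   `εo = s^(C+2) e ≤ s² κ r⁴`;   `(f/2)^(1-η) ≥ f/2 ≥ s^C/2`, so `wm ≥ r⁴ s^C / 32`;   `2 εo √(εo/wm) ≤ 2 √32 s^(C/2+3) e √κ ≤ s^(1/2) e √κ` -/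
theorem rt_pw_num_b (η : ℝ) (h0 : 0 < η) (h1 : η < 1) (n : ℕ) (hn : 2 ≤ n) (C : ℕ) (e κ r f : ℝ) (he : 0 < e) (hκ : 0 < κ) (hr : 0 < r)
    (hf1 : ((2 : ℝ)⁻¹ ^ n) ^ (C : ℝ) ≤ f) (hf2 : f ≤ 1) (hek : e ≤ ((2 : ℝ)⁻¹ ^ n) ^ (-(C : ℝ)) * (κ * r ^ 4)) :
    2 * (((2 : ℝ)⁻¹ ^ n) ^ ((C : ℝ) + 2) * e) ^ (3 / 2 : ℝ) / Real.sqrt ((r / 2) ^ 4 * (f / 2) ^ (1 - η))
      ≤ 2 ^ (-((n : ℝ) / 2)) * e * Real.sqrt κ := by
  have h2 : (0 : ℝ) < 2 := by norm_num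
  obtain ⟨s, hs⟩ : ∃ s : ℝ, s = (2 : ℝ)⁻¹ ^ n := ⟨_, rfl⟩
  have hs0 : 0 < s := by rw [hs]; positivity
  have hs4 : s ≤ 1 / 4 := by
    rw [hs]
    calc (2 : ℝ)⁻¹ ^ n ≤ (2 : ℝ)⁻¹ ^ 2 := pow_le_pow_of_le_one (by norm_num) (by norm_num) hn
      _ = 1 / 4 := by norm_num
  have hs2n : ((2 : ℝ) ^ (-((n : ℝ) / 2))) ^ 2 = s := by
    rw [← Real.rpow_natCast, ← Real.rpow_mul h2.le, hs, inv_pow, ← Real.rpow_natCast 2 n, ← Real.rpow_neg h2.le]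
    congr 1
    push_cast
    ring
  rw [← hs] at hf1 hek ⊢
  obtain ⟨u, hu⟩ : ∃ u : ℝ, u = s ^ C := ⟨_, rfl⟩
  have hu0 : 0 < u := by rw [hu]; positivity
  have hu1 : u ≤ 1 := by rw [hu]; exact pow_le_one₀ hs0.le (by linarith)
  have eC : s ^ (C : ℝ) = u := by rw [hu, Real.rpow_natCast]
  have eC2 : s ^ ((C : ℝ) + 2) = u * s ^ 2 := by
    rw [Real.rpow_add hs0, eC]
    congr 1
    exact_mod_cast Real.rpow_natCast s 2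
  have eCn : s ^ (-(C : ℝ)) = u⁻¹ := by rw [Real.rpow_neg hs0.le, eC]
  rw [eC] at hf1
  rw [eCn] at hek
  rw [eC2]
  have hf0 : 0 < f := lt_of_lt_of_le hu0 hf1
  have hue : u * e ≤ κ * r ^ 4 := by
    have := mul_le_mul_of_nonneg_left hek hu0.le
    rwa [← mul_assoc, mul_inv_cancel₀ hu0.ne', one_mul] at this
  -- the weight
  have hfp : f / 2 ≤ (f / 2) ^ (1 - η) := by
    have := Real.rpow_le_rpow_of_exponent_ge (by positivity : 0 < f / 2) (by linarith : f / 2 ≤ 1) (by linarith : 1 - η ≤ 1)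
    rwa [Real.rpow_one] at this
  obtain ⟨wm, hwm⟩ : ∃ wm : ℝ, wm = (r / 2) ^ 4 * (f / 2) ^ (1 - η) := ⟨_, rfl⟩
  have hwm0 : 0 < wm := by rw [hwm]; positivity
  have hwml : r ^ 4 * u / 32 ≤ wm := by
    rw [hwm]
    calc r ^ 4 * u / 32 = (r / 2) ^ 4 * (u / 2) := by ring
      _ ≤ (r / 2) ^ 4 * (f / 2) ^ (1 - η) := mul_le_mul_of_nonneg_left (le_trans (by linarith) hfp) (by positivity)
  rw [← hwm]
  obtain ⟨x, hx⟩ : ∃ x : ℝ, x = u * s ^ 2 * e := ⟨_, rfl⟩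
  have hx0 : 0 < x := by rw [hx]; positivity
  rw [← hx]
  have ex : (x ^ (3 / 2 : ℝ)) ^ 2 = x ^ 3 := by
    rw [← Real.rpow_natCast, ← Real.rpow_mul hx0.le]
    have : (3 / 2 : ℝ) * ((2 : ℕ) : ℝ) = ((3 : ℕ) : ℝ) := by push_cast; norm_num
    rw [this, Real.rpow_natCast]
  refine (pow_le_pow_iff_left₀ (by positivity) (by positivity) (by norm_num : (2 : ℕ) ≠ 0)).1 ?_
  rw [div_pow, mul_pow, ex, Real.sq_sqrt hwm0.le, mul_pow, mul_pow, hs2n, Real.sq_sqrt hκ.le, div_le_iff₀ hwm0]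
  -- `4 x³ ≤ s e² κ wm`
  have k1 : s ^ 5 ≤ 1 / 1024 := by
    calc s ^ 5 ≤ (1 / 4 : ℝ) ^ 5 := pow_le_pow_left₀ hs0.le hs4 5
      _ = 1 / 1024 := by norm_num
  have k2 : 128 * (u * s ^ 5) ≤ 1 := by
    have : u * s ^ 5 ≤ 1 * (1 / 1024) := mul_le_mul hu1 k1 (by positivity) (by norm_num)
    linarith
  calc (2 : ℝ) ^ 2 * x ^ 3 = (128 * (u * s ^ 5)) * (u * e) * (s * e ^ 2 * u / 32) := by rw [hx]; ring
    _ ≤ 1 * (κ * r ^ 4) * (s * e ^ 2 * u / 32) := by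
        refine mul_le_mul_of_nonneg_right ?_ (by positivity)
        exact mul_le_mul k2 hue (by positivity) (by norm_num)
    _ = s * e ^ 2 * κ * (r ^ 4 * u / 32) := by ring
    _ ≤ s * e ^ 2 * κ * wm := mul_le_mul_of_nonneg_left hwml (by positivity)

/-- LEAF `L-256-RT-PW-NUM-T`.   `√(κ/bq) √bq = √κ`;   exponent `n/2 + γn/4 - (1/2 - Γc - γ/4)(n+2) = (Γc + γ/2) n + 2Γc + γ/2 - 1 ≤ (Γc + γ) n - 1`;   `1 ≤ 2^((Γc+γ) n - 1)` -/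
theorem rt_pw_num_t (Γc γ : ℝ) (n : ℕ) (hc0 : 0 ≤ Γc) (hγ : 0 < γ) (hn : 4 * Γc + γ + 2 ≤ γ * n) (e κ bq rd rdF : ℝ) (he : 0 < e) (hκ : 0 < κ)
    (hbq : 0 < bq) (h1 : rd ≤ 2 ^ (γ / 4 * n) * Real.sqrt (κ / bq) * rdF + 2 ^ (-((n : ℝ) / 2)) * e * Real.sqrt κ)
    (h2 : rdF ≤ 2 ^ (-((1 / 2 - Γc - γ / 4) * ((n + 2 : ℕ) : ℝ))) * e * Real.sqrt bq) :
    2 ^ ((n : ℝ) / 2) / (e * Real.sqrt κ) * rd ≤ 2 ^ ((Γc + γ) * n) := by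
  have hsk : 0 < Real.sqrt κ := Real.sqrt_pos.2 hκ
  have hsb : 0 < Real.sqrt bq := Real.sqrt_pos.2 hbq
  have hq : Real.sqrt (κ / bq) * Real.sqrt bq = Real.sqrt κ := by
    rw [← Real.sqrt_mul (div_pos hκ hbq).le, div_mul_cancel₀ _ hbq.ne']
  have hn0 : (0 : ℝ) ≤ n := Nat.cast_nonneg n
  have h20 : (0 : ℝ) < 2 := by norm_num
  obtain ⟨a, ha⟩ : ∃ a : ℝ, a = (2 : ℝ) ^ (γ / 4 * n) := ⟨_, rfl⟩
  obtain ⟨b, hb⟩ : ∃ b : ℝ, b = (2 : ℝ) ^ (-((1 / 2 - Γc - γ / 4) * ((n + 2 : ℕ) : ℝ))) := ⟨_, rfl⟩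
  obtain ⟨c, hc⟩ : ∃ c : ℝ, c = (2 : ℝ) ^ (-((n : ℝ) / 2)) := ⟨_, rfl⟩
  obtain ⟨d, hd⟩ : ∃ d : ℝ, d = (2 : ℝ) ^ ((n : ℝ) / 2) := ⟨_, rfl⟩
  have ha0 : 0 < a := by rw [ha]; exact Real.rpow_pos_of_pos h20 _
  have hd0 : 0 < d := by rw [hd]; exact Real.rpow_pos_of_pos h20 _
  rw [← ha, ← hc] at h1
  rw [← hb] at h2
  rw [← hd]
  have hsq : 0 ≤ Real.sqrt (κ / bq) := Real.sqrt_nonneg _
  have k1 : rd ≤ (a * b + c) * (e * Real.sqrt κ) := by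
    calc rd ≤ a * Real.sqrt (κ / bq) * rdF + c * e * Real.sqrt κ := h1
      _ ≤ a * Real.sqrt (κ / bq) * (b * e * Real.sqrt bq) + c * e * Real.sqrt κ := by
          have := mul_le_mul_of_nonneg_left h2 (mul_nonneg ha0.le hsq)
          linarith
      _ = a * b * e * (Real.sqrt (κ / bq) * Real.sqrt bq) + c * e * Real.sqrt κ := by ring
      _ = (a * b + c) * (e * Real.sqrt κ) := by rw [hq]; ring
  have hek : 0 < e * Real.sqrt κ := mul_pos he hsk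
  have k2 : d / (e * Real.sqrt κ) * rd ≤ d * a * b + d * c := by
    calc d / (e * Real.sqrt κ) * rd ≤ d / (e * Real.sqrt κ) * ((a * b + c) * (e * Real.sqrt κ)) :=
          mul_le_mul_of_nonneg_left k1 (div_pos hd0 hek).le
      _ = d * a * b + d * c := by
          have := hek.ne'
          field_simp
  have e1 : d * c = 1 := by
    rw [hd, hc, ← Real.rpow_add h20]
    simp
  have e2 : d * a * b = (2 : ℝ) ^ ((Γc + γ / 2) * n + 2 * Γc + γ / 2 - 1) := by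
    rw [hd, ha, hb, ← Real.rpow_add h20, ← Real.rpow_add h20]
    congr 1
    push_cast
    ring
  have hΓn : 0 ≤ Γc * n := mul_nonneg hc0 hn0
  have m1 : (2 : ℝ) ^ ((Γc + γ / 2) * n + 2 * Γc + γ / 2 - 1) ≤ (2 : ℝ) ^ ((Γc + γ) * n - 1) :=
    Real.rpow_le_rpow_of_exponent_le (by norm_num) (by nlinarith)
  have m2 : (1 : ℝ) ≤ (2 : ℝ) ^ ((Γc + γ) * n - 1) :=
    Real.one_le_rpow (by norm_num) (by nlinarith)
  have m3 : (2 : ℝ) ^ ((Γc + γ) * n) = 2 * (2 : ℝ) ^ ((Γc + γ) * n - 1) := by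
    rw [Real.rpow_sub h20, Real.rpow_one]
    ring
  rw [e1, e2] at k2
  rw [m3]
  linarith

end Claimed.Agent.R256
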