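import Claimed.Agent.R256.Rt.PwDat
import Claimed.Agent.R256.Rt.PwCube
import Claimed.Agent.R256.Rt.PwNum

/-!
# Row 256 (LS paper), folder Rt, file PwTop : THE FINAL GLUE OF `rt_patch_wv`  (07 l.1185-1235)          (BP-256-RT-PWV, helper167; chief Rt helper216; prefix `rt_pw_`)          CONTRACT FILE (one leaf: `rt_pw_ok_mono`)

**`rt_pw_main : FzFlatRate η Γc → RtPwX → RtPwI → RtPwO → (rtMdWv η h0 h1).PatchRate Γc`**   PROVED here (modulo the leaves `L-256-RT-PW-MONO`, `L-256-RT-PW-NUM-*`).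
THE THREE UNITS AS `Prop`s (the owners prove exactly these; `RtPwHyp η h0 h1 C A D1 b0 Z n0 p E d` = the hypotheses of PATCH on `(p, E, d)` + `0 < E.L`; always `1 ≤ D1`):
* `RtPwX`   **ASYMPTOTIC I1** (Lemma rt:wave-transport).      Order `g, D1 | b1 | b0 ≤ b1 | Z | C | bm | N | A, n0`:   there are `Λ ∈ [1, s^-g]`, `Aa ≤ s^-g`, `ε ≤ s^N e`, generations `c1, cT ≤ bm`, `p1`, `G` with
            `RtPwI1 p E d (s^-b0) (d.fs E D1) Λ Aa ε p1 G c1 cT`      (`Rt/PwDefs.lean`).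
* `RtPwI`   **IN** (helper22).      Order `g, D1, Dt | g', g0 ≤ 1, b1 | b0 ≤ b1 | Z | C, bm | C' | A' | N, A, n0`:   every `RtPwI1` with `Λ, Aa ≤ s^-g'`, `ε ≤ s^N e`, `c1, cT ≤ bm` gives `(rtPwD0 p1 (n+2) G e (d.bq E η D1 g) (d.fs E D1) c1 cT).Ok η C' A' 1 Dt g0`.
* `RtPwO`   **OUT** (helper236).      Order `g, D1 | g', b1 | b0 ≤ b1 | Z | C, bm | N, A, n0`:   every such `RtPwI1` gives labels with `RtPwOut η E d (rtPwD ..) lab (D1 + 1) (2^(g n)) (s^(C+2) e)`.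
LAYERS:   `rt_pw_io : X + I + O ⟹ RtPwIO` (logic: `g = min`, `b1 = min`, `Z = max`, `N = max`, `A = max`),   `rt_pw_real : RtPwIO ⟹ RtPwReal` (cube sums `Rt/PwCube`, `g = γ/4`, `Z ≥ D1 + 3|Zf|`),
          `rt_pw_top : FzFlatRate + RtPwReal ⟹ PatchRate` (`D1 ↦ max D1 1` by `rt_pw_ok_mono`, `Ds = D1 + 1`, losses `γ/4`, case `E.L = 0`).
-/

set_option autoImplicit false

namespace Claimed.Agent.R256

open MeasureTheory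

/-! ## 1. The hypotheses on a patch experiment -/

/-- the hypotheses of PATCH on `(p, E, d)`, and at least one label -/
structure RtPwHyp (η : ℝ) (h0 : 0 < η) (h1 : η < 1) (C A : ℕ) (D1 b0 Z : ℝ) (n0 : ℕ) (p : RdWvPar) (E : Xp (p.sys η)) (d : RtPd) : Prop where
  n_ge : n0 ≤ E.n
  cls : (rndWav η).Cls C A p E
  free : E.st = []
  lab : 0 < E.L
  ok : d.Ok (rtMdWv η h0 h1) p E C A D1 b0
  thin : d.f ≤ E.s ^ Z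

/-- the tail order may be lowered -/
theorem rt_pw_ok_anti {η : ℝ} {h0 : 0 < η} {h1 : η < 1} {p : RdWvPar} {E : Xp (p.sys η)} {d : RtPd} {C A A' : ℕ} {D1 b0 : ℝ} (hE : E.Valid)
    (hA : A' ≤ A) (h : d.Ok (rtMdWv η h0 h1) p E C A D1 b0) : d.Ok (rtMdWv η h0 h1) p E C A' D1 b0 :=
  ⟨h.r_pos, h.f_lo, h.disc, h.bd, h.chart,
    h.root.trans (mul_le_mul_of_nonneg_right (gn_s_anti E (Nat.cast_le.2 hA)) hE.e_pos.le), h.e_hi, h.e_lo, h.H_lo, h.lab_r, h.lab_f, h.lab_n⟩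

/-- the normalised patch in the five coordinates is measurable -/
theorem rt_pw_mono_ms (d : RtPd) (l r : ℝ) (cen : RtRow) (Pp fs : ℝ) :
    MeasurableSet {w : (ℝ × ℝ) × (ℝ × ℝ) × ℝ | (rtNrm l r cen).row (⟨w.1, w.2.1, w.2.2⟩ : RtRow) ∈ d.In Pp fs} := by
  have h1 : Measurable fun w : (ℝ × ℝ) × (ℝ × ℝ) × ℝ => rtSq (((rtNrm l r cen).row (⟨w.1, w.2.1, w.2.2⟩ : RtRow)).b - d.p0.b) := by
    simp only [rtNrm, RtCh.comp, rtChSc, rtChCen, rtCfRowCen, rtSq, rtIp, Prod.smul_fst, Prod.smul_snd, Prod.fst_sub, Prod.snd_sub, smul_eq_mul]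
    fun_prop
  have h2 : Measurable fun w : (ℝ × ℝ) × (ℝ × ℝ) × ℝ => ((rtNrm l r cen).row (⟨w.1, w.2.1, w.2.2⟩ : RtRow)).y - d.p0.y
      - 2 * rtIp d.p0.A (((rtNrm l r cen).row (⟨w.1, w.2.1, w.2.2⟩ : RtRow)).b - d.p0.b) := by
    simp only [rtNrm, RtCh.comp, rtChSc, rtChCen, rtCfRowCen, rtSq, rtIp, Prod.smul_fst, Prod.smul_snd, Prod.fst_sub, Prod.snd_sub, smul_eq_mul]
    fun_prop
  have h3 : Measurable fun w : (ℝ × ℝ) × (ℝ × ℝ) × ℝ => rtSq (((rtNrm l r cen).row (⟨w.1, w.2.1, w.2.2⟩ : RtRow)).A - d.p0.A) := by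
    simp only [rtNrm, RtCh.comp, rtChSc, rtChCen, rtCfRowCen, rtSq, rtIp, Prod.smul_fst, Prod.smul_snd, Prod.fst_sub, Prod.snd_sub, smul_eq_mul]
    fun_prop
  have h4 : Measurable fun w : (ℝ × ℝ) × (ℝ × ℝ) × ℝ => d.nL.F 0 ((rtNrm l r cen).row (⟨w.1, w.2.1, w.2.2⟩ : RtRow)).b
      ((rtNrm l r cen).row (⟨w.1, w.2.1, w.2.2⟩ : RtRow)).y := by
    simp only [RtPoly.F, rtNrm, RtCh.comp, rtChSc, rtChCen, rtCfRowCen, rtSq, rtIp, Prod.smul_fst, Prod.smul_snd, Prod.fst_sub, Prod.snd_sub,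
      smul_eq_mul]
    fun_prop
  have h5 : Measurable fun w : (ℝ × ℝ) × (ℝ × ℝ) × ℝ => d.nL.G 0 ((rtNrm l r cen).row (⟨w.1, w.2.1, w.2.2⟩ : RtRow)).b
      ((rtNrm l r cen).row (⟨w.1, w.2.1, w.2.2⟩ : RtRow)).y ((rtNrm l r cen).row (⟨w.1, w.2.1, w.2.2⟩ : RtRow)).A := by
    simp only [RtPoly.G, rtNrm, RtCh.comp, rtChSc, rtChCen, rtCfRowCen, rtSq, rtIp, Prod.smul_fst, Prod.smul_snd, Prod.fst_sub, Prod.snd_sub,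
      smul_eq_mul]
    fun_prop
  exact ((measurableSet_le h1 measurable_const).inter ((measurableSet_le h2.abs measurable_const).inter
    (measurableSet_le h3 measurable_const))).inter ((measurableSet_le h4.abs measurable_const).inter
      (measurableSet_le h5.abs measurable_const))

/-- LEAF `L-256-RT-PW-MONO`.   **the group exponent may be raised**: `f_* = s^-D1 f` increases with `D1`.      `root`: `d.In P fs ⊆ d.In P fs'`, `gn_ms_mono` (both sets are measurable: polynomial inequalities in the coordinates of `x`;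
`(rtMdWv ..).co p T x = ⟨x.1, x.2.1, x.2.2⟩`, `(d.N E).row = rtCfRowCen` followed by a scaling);   `e_hi`: `Real.rpow_le_rpow`, `κ r⁴ ≥ 0`;   `lab_n`: `rt_chp_bd_mono` (`0 ≤ f_*` by `f_lo`). -/
theorem rt_pw_ok_mono {η : ℝ} {h0 : 0 < η} {h1 : η < 1} {p : RdWvPar} {E : Xp (p.sys η)} {d : RtPd} {C A : ℕ} {D1 D1' b0 : ℝ} (hE : E.Valid)
    (hD : D1 ≤ D1') (h : d.Ok (rtMdWv η h0 h1) p E C A D1 b0) : d.Ok (rtMdWv η h0 h1) p E C A D1' b0 := by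
  have hs := gn_s_pos E
  have hf0 : 0 < d.f := lt_of_lt_of_le (Real.rpow_pos_of_pos hs _) h.f_lo
  have hfs : E.s ^ (-D1) * d.f ≤ E.s ^ (-D1') * d.f := mul_le_mul_of_nonneg_right (gn_s_anti E (neg_le_neg hD)) hf0.le
  have hfs0 : 0 ≤ E.s ^ (-D1) * d.f := mul_nonneg (Real.rpow_pos_of_pos hs _).le hf0.le
  refine ⟨h.r_pos, h.f_lo, h.disc, h.bd, h.chart, ?_, ?_, h.e_lo, h.H_lo, h.lab_r, h.lab_f, ?_⟩
  · refine le_trans (gn_ms_mono _ _ _ ?_ ?_ ?_ _) h.root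
    · exact (rt_pw_mono_ms d (rdLen E.k0) d.ψ.r d.ψ.cen (E.s ^ (-b0)) (E.s ^ (-D1') * d.f)).compl
    · exact (rt_pw_mono_ms d (rdLen E.k0) d.ψ.r d.ψ.cen (E.s ^ (-b0)) (E.s ^ (-D1) * d.f)).compl
    · intro x hx hx'
      exact hx ⟨hx'.1, hx'.2.1.trans hfs, hx'.2.2.trans hfs⟩
  · refine h.e_hi.trans ?_
    have hk : 0 ≤ E.ka * d.ψ.r ^ 4 := mul_nonneg hE.ka_pos.le (pow_nonneg h.r_pos.le 4)
    exact mul_le_mul_of_nonneg_left (mul_le_mul_of_nonneg_left (Real.rpow_le_rpow hfs0 hfs (by linarith)) hk) (Real.rpow_pos_of_pos hs _).le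
  · intro l
    obtain ⟨m, hm, hc⟩ := h.lab_n l
    exact ⟨m, hm, hc.imp (rt_chp_bd_mono hfs0 hfs) (rt_chp_bd_mono hfs0 hfs)⟩

theorem RtPwHyp.mono {η : ℝ} {h0 : 0 < η} {h1 : η < 1} {C A A' : ℕ} {D1 b0 Z Z' : ℝ} {n0 n0' : ℕ} {p : RdWvPar} {E : Xp (p.sys η)} {d : RtPd}
    (h : RtPwHyp η h0 h1 C A D1 b0 Z n0 p E d) (hA : A' ≤ A) (hZ : Z' ≤ Z) (hn : n0' ≤ n0) : RtPwHyp η h0 h1 C A' D1 b0 Z' n0' p E d :=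
  ⟨hn.trans h.n_ge, gn_cls_anti (rndWav η) (rt_scale_wv η) hA h.cls, h.free, h.lab, rt_pw_ok_anti h.cls.2.1 hA h.ok, h.thin.trans (gn_s_anti E hZ)⟩

/-! ## 2. The units as `Prop`s -/

/-- **ASYMPTOTIC I1** -/
def RtPwX (η : ℝ) (h0 : 0 < η) (h1 : η < 1) : Prop :=
  ∀ g D1 : ℝ, 0 < g → 1 ≤ D1 → ∃ b1 : ℝ, 0 < b1 ∧ ∀ b0 : ℝ, 0 < b0 → b0 ≤ b1 → ∃ Z : ℝ, ∀ C : ℕ, ∃ bm : ℕ, ∀ N : ℕ, ∃ A n0 : ℕ,
    ∀ (p : RdWvPar) (E : Xp (p.sys η)) (d : RtPd), RtPwHyp η h0 h1 C A D1 b0 Z n0 p E d →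
      ∃ (Λ Aa ε : ℝ) (p1 : RdWvPar) (G : RtKc) (c1 cT : ℕ), 1 ≤ Λ ∧ Λ ≤ E.s ^ (-g) ∧ Aa ≤ E.s ^ (-g) ∧ ε ≤ E.s ^ (N : ℝ) * E.e ∧ c1 ≤ bm ∧ cT ≤ bm ∧
        RtPwI1 p E d (E.s ^ (-b0)) (d.fs E D1) Λ Aa ε p1 G c1 cT

/-- **IN** -/
def RtPwI (η : ℝ) (h0 : 0 < η) (h1 : η < 1) : Prop :=
  ∀ g D1 Dt : ℝ, 0 < g → 1 ≤ D1 → 0 < Dt → ∃ g' g0 b1 : ℝ, 0 < g' ∧ 0 < g0 ∧ g0 ≤ 1 ∧ 0 < b1 ∧ ∀ b0 : ℝ, 0 < b0 → b0 ≤ b1 → ∃ Z : ℝ,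
    ∀ C bm : ℕ, ∃ C' : ℕ, ∀ A' : ℕ, ∃ N A n0 : ℕ,
    ∀ (p : RdWvPar) (E : Xp (p.sys η)) (d : RtPd), RtPwHyp η h0 h1 C A D1 b0 Z n0 p E d →
      ∀ (Λ Aa ε : ℝ) (p1 : RdWvPar) (G : RtKc) (c1 cT : ℕ), 1 ≤ Λ → Λ ≤ E.s ^ (-g') → Aa ≤ E.s ^ (-g') → ε ≤ E.s ^ (N : ℝ) * E.e → c1 ≤ bm → cT ≤ bm →
        RtPwI1 p E d (E.s ^ (-b0)) (d.fs E D1) Λ Aa ε p1 G c1 cT →
        (rtPwD0 p1 (E.n + 2) G E.e (d.bq E η D1 g) (d.fs E D1) c1 cT).Ok η C' A' 1 Dt g0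

/-- **OUT** -/
def RtPwO (η : ℝ) (h0 : 0 < η) (h1 : η < 1) : Prop :=
  ∀ g D1 : ℝ, 0 < g → 1 ≤ D1 → ∃ g' b1 : ℝ, 0 < g' ∧ 0 < b1 ∧ ∀ b0 : ℝ, 0 < b0 → b0 ≤ b1 → ∃ Z : ℝ, ∀ C bm : ℕ, ∃ N A n0 : ℕ,
    ∀ (p : RdWvPar) (E : Xp (p.sys η)) (d : RtPd), RtPwHyp η h0 h1 C A D1 b0 Z n0 p E d →
      ∀ (Λ Aa ε : ℝ) (p1 : RdWvPar) (G : RtKc) (c1 cT : ℕ), 1 ≤ Λ → Λ ≤ E.s ^ (-g') → Aa ≤ E.s ^ (-g') → ε ≤ E.s ^ (N : ℝ) * E.e → c1 ≤ bm → cT ≤ bm →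
        RtPwI1 p E d (E.s ^ (-b0)) (d.fs E D1) Λ Aa ε p1 G c1 cT → ∀ e bq : ℝ,
        ∃ (L : ℕ) (iv : Fin L → ℕ) (tc : Fin L → CyT) (th : Fin L → RdWvPar.Ph → ℝ) (lab : Fin L → Fin E.L),
          RtPwOut η E d (rtPwD p1 (E.n + 2) G e bq (d.fs E D1) c1 cT L iv tc th) lab (D1 + 1) (2 ^ (g * E.n)) (E.s ^ ((C : ℝ) + 2) * E.e)

/-- I1 + IN + OUT -/
def RtPwIO (η : ℝ) (h0 : 0 < η) (h1 : η < 1) : Prop :=
  ∀ g D1 Dt : ℝ, 0 < g → 1 ≤ D1 → 0 < Dt → ∃ g0 b1 : ℝ, 0 < g0 ∧ g0 ≤ 1 ∧ 0 < b1 ∧ ∀ b0 : ℝ, 0 < b0 → b0 ≤ b1 → ∃ Z : ℝ,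
    ∀ C : ℕ, ∃ C' : ℕ, ∀ A' : ℕ, ∃ A n0 : ℕ,
    ∀ (p : RdWvPar) (E : Xp (p.sys η)) (d : RtPd), RtPwHyp η h0 h1 C A D1 b0 Z n0 p E d →
      ∃ (p1 : RdWvPar) (G : RtKc) (c1 cT : ℕ), (rtPwD0 p1 (E.n + 2) G E.e (d.bq E η D1 g) (d.fs E D1) c1 cT).Ok η C' A' 1 Dt g0 ∧
        ∃ (L : ℕ) (iv : Fin L → ℕ) (tc : Fin L → CyT) (th : Fin L → RdWvPar.Ph → ℝ) (lab : Fin L → Fin E.L),
          RtPwOut η E d (rtPwD p1 (E.n + 2) G E.e (d.bq E η D1 g) (d.fs E D1) c1 cT L iv tc th) lab (D1 + 1) (2 ^ (g * E.n))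
            (E.s ^ ((C : ℝ) + 2) * E.e)

/-- **FLAT REALISATION**: a patch experiment is dominated by a flat datum -/
def RtPwReal (η : ℝ) (h0 : 0 < η) (h1 : η < 1) : Prop :=
  ∀ γ D1 Dt Zf : ℝ, 0 < γ → 1 ≤ D1 → 0 < Dt → ∃ g0 b1 : ℝ, 0 < g0 ∧ g0 ≤ 1 ∧ 0 < b1 ∧ ∀ b0 : ℝ, 0 < b0 → b0 ≤ b1 → ∃ Z : ℝ,
    ∀ C : ℕ, ∃ C' : ℕ, ∀ A' : ℕ, ∃ A n0 : ℕ,
    ∀ (p : RdWvPar) (E : Xp (p.sys η)) (d : RtPd), RtPwHyp η h0 h1 C A D1 b0 Z n0 p E d →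
      ∃ D : FzDat, D.n = E.n + 2 ∧ D.Ok η C' A' (D1 + 1) Dt g0 ∧ D.fs ≤ D.s ^ Zf ∧ D.e = E.e ∧
        E.rd ≤ 2 ^ (γ * E.n) * Real.sqrt (E.ka / D.bq) * D.rd η + 2 ^ (-((E.n : ℝ) / 2)) * E.e * Real.sqrt E.ka

theorem rt_pw_top_eqns_cite : True := by
  have := @RtPwX.eq_1
  have := @RtPwI.eq_1
  have := @RtPwO.eq_1
  have := @RtPwIO.eq_1
  have := @RtPwReal.eq_1
  trivial

/-! ## 3. Layer 3 : logic -/

theorem rt_pw_io {η : ℝ} {h0 : 0 < η} {h1 : η < 1} (hX : RtPwX η h0 h1) (hI : RtPwI η h0 h1) (hO : RtPwO η h0 h1) : RtPwIO η h0 h1 := by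
  intro g D1 Dt hg hD1 hDt
  obtain ⟨gI, g0, bI, hgI, hg0, hg01, hbI, HI⟩ := hI g D1 Dt hg hD1 hDt
  obtain ⟨gO, bO, hgO, hbO, HO⟩ := hO g D1 hg hD1
  obtain ⟨bX, hbX, HX⟩ := hX (min gI gO) D1 (lt_min hgI hgO) hD1
  refine ⟨g0, min (min bI bO) bX, hg0, hg01, lt_min (lt_min hbI hbO) hbX, fun b0 hb0 hb01 => ?_⟩
  obtain ⟨ZI, HI⟩ := HI b0 hb0 (hb01.trans ((min_le_left _ _).trans (min_le_left _ _)))
  obtain ⟨ZO, HO⟩ := HO b0 hb0 (hb01.trans ((min_le_left _ _).trans (min_le_right _ _)))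
  obtain ⟨ZX, HX⟩ := HX b0 hb0 (hb01.trans (min_le_right _ _))
  refine ⟨max (max ZI ZO) ZX, fun C => ?_⟩
  obtain ⟨bm, HX⟩ := HX C
  obtain ⟨C', HI⟩ := HI C bm
  refine ⟨C', fun A' => ?_⟩
  obtain ⟨NI, AI, nI, HI⟩ := HI A'
  obtain ⟨NO, AO, nO, HO⟩ := HO C bm
  obtain ⟨AX, nX, HX⟩ := HX (max NI NO)
  refine ⟨max (max AI AO) AX, max (max nI nO) nX, fun p E d h => ?_⟩
  obtain ⟨Λ, Aa, ε, p1, G, c1, cT, a1, a2, a3, a4, a5, a6, a7⟩ :=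
    HX p E d (h.mono (le_max_right _ _) (le_max_right _ _) (le_max_right _ _))
  have he : 0 ≤ E.e := h.cls.2.1.e_pos.le
  have m1 : E.s ^ (-(min gI gO)) ≤ E.s ^ (-gI) := gn_s_anti E (neg_le_neg (min_le_left _ _))
  have m2 : E.s ^ (-(min gI gO)) ≤ E.s ^ (-gO) := gn_s_anti E (neg_le_neg (min_le_right _ _))
  have m3 : E.s ^ ((max NI NO : ℕ) : ℝ) * E.e ≤ E.s ^ (NI : ℝ) * E.e :=
    mul_le_mul_of_nonneg_right (gn_s_anti E (Nat.cast_le.2 (le_max_left _ _))) he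
  have m4 : E.s ^ ((max NI NO : ℕ) : ℝ) * E.e ≤ E.s ^ (NO : ℝ) * E.e :=
    mul_le_mul_of_nonneg_right (gn_s_anti E (Nat.cast_le.2 (le_max_right _ _))) he
  refine ⟨p1, G, c1, cT, ?_, ?_⟩
  · exact HI p E d (h.mono ((le_max_left _ _).trans (le_max_left _ _)) ((le_max_left _ _).trans (le_max_left _ _))
      ((le_max_left _ _).trans (le_max_left _ _))) Λ Aa ε p1 G c1 cT a1 (a2.trans m1) (a3.trans m1) (a4.trans m3) a5 a6 a7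
  · exact HO p E d (h.mono ((le_max_right _ _).trans (le_max_left _ _)) ((le_max_right _ _).trans (le_max_left _ _))
      ((le_max_right _ _).trans (le_max_left _ _))) Λ Aa ε p1 G c1 cT a1 (a2.trans m2) (a3.trans m2) (a4.trans m4) a5 a6 a7 _ _

end Claimed.Agent.R256
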