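import Claimed.Agent.R256.Rt.PwInPw
import Claimed.Agent.R256.Rt.PwInSc
import Claimed.Agent.R256.Rt.PwTop

/-!
# Row 256, folder Rt, file PwInTop : **IN** = `RtPwI` (`Rt/PwTop.lean`)      (helper22; prefix `rt_pi_`)      SORRY-FREE

`rt_pi_in : RtPwI η h0 h1`.      `reg`, `root`: `Rt/PwInPw.lean`;   scalar fields: `Rt/PwInSc.lean` (helper225);   `RtPwI1` is monotone in `Λ, Aa, ε` (`rt_pi_i1_mono`).
CONSTANTS:   `g0 = min 1 (g / (12 (CL + 1)))`, `g' = g0/4`, `b1 = g0`, `Z = D1 + 40 (b0 + g' + 3 g0 + 2 Dt + 4) + 6 Dt`, `C' = max ⌈C + g + 1⌉ bm`, `N = ⌈max (C + 8 Dt + 1) (2 A')⌉`, `A = 0`.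
-/

set_option autoImplicit false

namespace Claimed.Agent.R256

open MeasureTheory

theorem rt_pi_near_mono {M M' dd q H : ℝ} {x x' : RtRow} (hM : 0 ≤ M) (hMM : M ≤ M') (hd : 0 ≤ dd) (hq : 0 ≤ q) (hH : 0 ≤ H)
    (h : RtNear M dd q H x x') : RtNear M' dd q H x x' := by
  obtain ⟨a1, a2, a3⟩ := h
  refine ⟨a1.trans ?_, a2.trans ?_, a3.trans ?_⟩
  · exact pow_le_pow_left₀ (mul_nonneg hM hd) (mul_le_mul_of_nonneg_right hMM hd) 2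
  · exact pow_le_pow_left₀ (mul_nonneg hM hq) (mul_le_mul_of_nonneg_right hMM hq) 2
  · exact mul_le_mul_of_nonneg_right hMM hH

/-- the I1 exit is monotone in the nearness constant, the constant and the error -/
theorem rt_pi_i1_mono {η : ℝ} {p : RdWvPar} {E : Xp (p.sys η)} {d : RtPd} {P fs Λ Aa ε Λ' Aa' ε' : ℝ} {p1 : RdWvPar} {G : RtKc} {b1 bT1 : ℕ}
    (h : RtPwI1 p E d P fs Λ Aa ε p1 G b1 bT1) (hΛ0 : 0 ≤ Λ) (hΛ : Λ ≤ Λ') (hA : Aa ≤ Aa') (hε : ε ≤ ε') :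
    RtPwI1 p E d P fs Λ' Aa' ε' p1 G b1 bT1 where
  H_eq := h.H_eq
  spec := h.spec
  norm := h.norm
  inn := rt_xa_mono h.inn (fun z _ z' hR => ⟨hR.1, rt_pi_near_mono hΛ0 hΛ (Real.sqrt_nonneg _) (Real.sqrt_nonneg _) p1.H_pos.le hR.2⟩)
    (Set.subset_univ _) (ENNReal.ofReal_le_ofReal hA) (ENNReal.ofReal_le_ofReal hε)
  out := rt_xa_mono h.out (fun z _ z' hR => ⟨hR.1, hR.2.1.trans (mul_le_mul_of_nonneg_right hΛ (mul_nonneg (by norm_num) (rdLen_pos _).le)),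
      rt_pi_near_mono hΛ0 hΛ (Real.sqrt_nonneg _) (Real.sqrt_nonneg _) p1.H_pos.le hR.2.2⟩)
    (Set.subset_univ _) (ENNReal.ofReal_le_ofReal hA) (ENNReal.ofReal_le_ofReal hε)

/-- **IN** -/
theorem rt_pi_in (η : ℝ) (h0 : 0 < η) (h1 : η < 1) : RtPwI η h0 h1 := by
  obtain ⟨CL, hCL, HR⟩ := rt_pi_reg_pw η h0 h1
  intro g D1 Dt hg hD1 hDt
  obtain ⟨g0, hg0d⟩ : ∃ g0, g0 = min 1 (g / (12 * (CL + 1))) := ⟨_, rfl⟩
  have hg0 : 0 < g0 := by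
    rw [hg0d]
    exact lt_min one_pos (by positivity)
  have hg01 : g0 ≤ 1 := by
    rw [hg0d]
    exact min_le_left _ _
  have hg0g : 12 * (CL + 1) * g0 ≤ g := by
    have : g0 ≤ g / (12 * (CL + 1)) := by
      rw [hg0d]
      exact min_le_right _ _
    rw [le_div_iff₀ (by positivity)] at this
    linarith
  refine ⟨g0 / 4, g0, g0, by positivity, hg0, hg01, hg0, fun b0 hb0 hb01 => ?_⟩
  obtain ⟨W, hW⟩ : ∃ W, W = 40 * (b0 + g0 / 4 + 3 * g0 + 2 * Dt + 4) + 6 * Dt := ⟨_, rfl⟩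
  have hW0 : 0 ≤ W := by
    rw [hW]
    positivity
  refine ⟨D1 + W, fun C bm => ⟨max ⌈(C : ℝ) + g + 1⌉₊ bm, fun A' => ?_⟩⟩
  have hcond : g0 / 4 + g0 / 4 + CL * (b0 + g0 / 4 + 3 * g0) < g := by
    have t1 : CL * (b0 + g0 / 4 + 3 * g0) ≤ CL * (5 * g0) := mul_le_mul_of_nonneg_left (by linarith) hCL.le
    nlinarith
  obtain ⟨n1, H1⟩ := HR g Dt g0 b0 (g0 / 4) (g0 / 4) C hDt hg0 hb0 (by positivity) (by positivity) hcond
  obtain ⟨n2, H2⟩ := rt_pi_root_pw g0 (g0 / 4) A' (by positivity) (by linarith)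
  refine ⟨⌈max ((C : ℝ) + 8 * Dt + 1) (2 * (A' : ℝ))⌉₊, 0, max 2 (max n1 n2), fun p E d h Λ Aa ε p1 G c1 cT hΛ1 hΛ hAa hε hc1 hcT hI => ?_⟩
  have hn_2 : 2 ≤ E.n := (le_max_left _ _).trans h.n_ge
  have hn_1 : n1 ≤ E.n := ((le_max_left _ _).trans (le_max_right _ _)).trans h.n_ge
  have hn_3 : n2 ≤ E.n := ((le_max_right _ _).trans (le_max_right _ _)).trans h.n_ge
  have hV : E.Valid := h.cls.2.1
  have hs := gn_s_pos E
  have hs1 := gn_s_le_one E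
  obtain ⟨Ae, hAe⟩ : ∃ Ae : ℝ, Ae = ((⌈max ((C : ℝ) + 8 * Dt + 1) (2 * (A' : ℝ))⌉₊ : ℕ) : ℝ) := ⟨_, rfl⟩
  have hAe1 : max ((C : ℝ) + 8 * Dt + 1) (2 * (A' : ℝ)) ≤ Ae := by
    rw [hAe]
    exact Nat.le_ceil _
  rw [← hAe] at hε
  have hI' := rt_pi_i1_mono hI (by linarith) hΛ hAa hε
  have hf0 : 0 < d.f := (Real.rpow_pos_of_pos hs _).trans_le h.ok.f_lo
  have hfs0 : 0 < d.fs E D1 := by
    unfold RtPd.fs
    exact mul_pos (Real.rpow_pos_of_pos hs _) hf0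
  have hfsW : d.fs E D1 ≤ E.s ^ W := by
    unfold RtPd.fs
    calc E.s ^ (-D1) * d.f ≤ E.s ^ (-D1) * E.s ^ (D1 + W) := mul_le_mul_of_nonneg_left h.thin (Real.rpow_pos_of_pos hs _).le
      _ = E.s ^ W := by
          rw [rt_pi_s_add hs]
          congr 1
          ring
  have hfs1 : d.fs E D1 ≤ 1 := hfsW.trans (Real.rpow_le_one hs.le hs1 hW0)
  have hC' : (C : ℝ) + g + 1 ≤ ((max ⌈(C : ℝ) + g + 1⌉₊ bm : ℕ) : ℝ) :=
    (Nat.le_ceil _).trans (Nat.cast_le.2 (le_max_left _ _))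
  obtain ⟨-, -, -, -, -, -, -, a8⟩ := rt_px_scal h0 h1 hV h.ok hI h.lab hD1 hg.le hfs1 (by omega) _ hC'
  have hunc : rdD p1.H 0 ≤ d.fs E D1 := by
    have a8' : p1.H / d.fs E D1 ^ 2 ≤ E.s / 4 := by
      rw [← rt_px_s p1 E G E.e (d.bq E η D1 g) (d.fs E D1) c1 cT]
      exact a8
    rw [rt_pi_rdD0]
    have t1 : p1.H ≤ d.fs E D1 ^ 2 := by
      rw [div_le_iff₀ (by positivity)] at a8'
      have : E.s / 4 * d.fs E D1 ^ 2 ≤ 1 * d.fs E D1 ^ 2 := mul_le_mul_of_nonneg_right (by linarith) (by positivity)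
      linarith
    calc Real.sqrt p1.H ≤ Real.sqrt (d.fs E D1 ^ 2) := Real.sqrt_le_sqrt t1
      _ = d.fs E D1 := Real.sqrt_sq hfs0.le
  refine rt_px_ok h0 h1 hV h.ok hI h.lab hD1 hg.le hfs1 (by omega) _ A' hC' 1 Dt g0
    ⟨hc1.trans (le_max_right _ _), hcT.trans (le_max_right _ _)⟩ ?_ ?_
  · exact H2 η p E d (d.fs E D1) b0 (g0 / 4) p1 G c1 cT Ae hn_3 hV hb0.le h.ok.chart hfs0 hfs1 hunc ((le_max_right _ _).trans hAe1) hI'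
  · rw [hW] at hfsW
    exact H1 p E d (d.fs E D1) p1 G c1 cT Ae hn_1 hV h.ok.chart h.ok.r_pos hfs0 h.ok.e_hi ((le_max_left _ _).trans hAe1) hfsW hI'

end Claimed.Agent.R256
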