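import Claimed.Agent.R256.Rt.PwTop

/-!
# Row 256 (LS paper), folder Rt, file PwMain : THE FINAL GLUE OF `rt_patch_wv`, layers 2 and 1  (07 l.1185-1235)          (BP-256-RT-PWV, helper167; chief Rt helper216; prefix `rt_pw_`)          SORRY-FREE (leaves: `Rt/PwNum.lean`, `rt_pw_ok_mono`)

* `rt_pw_real : RtPwIO ⟹ RtPwReal`      cube sums (`Rt/PwCube.lean`), `g = γ/4`, `Z = max Z_IO (D1 + 3|Zf|)`, `n ≥ 8/γ + 2`.
* `rt_pw_top  : FzFlatRate + RtPwReal ⟹ PatchRate`      `D1 ↦ max D1 1`, `Ds = D1 + 1`, losses `γ/4`, case `E.L = 0`.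
* **`rt_pw_main : FzFlatRate η Γc → RtPwX → RtPwI → RtPwO → (rtMdWv η h0 h1).PatchRate Γc`**.      LINK in `Rt/Patch.lean`:  `rt_patch_wv := rt_pw_main η Γc h0 h1 hc0 (fz_flat_rate ..) (X) (IN) (OUT)`.
-/

set_option autoImplicit false

namespace Claimed.Agent.R256

open MeasureTheory

theorem rt_pw_ceil {a γ : ℝ} (hγ : 0 < γ) {n : ℕ} (hn : ⌈a / γ⌉₊ ≤ n) : a ≤ γ * n := by
  have h1 : a / γ ≤ (n : ℝ) := (Nat.le_ceil _).trans (by exact_mod_cast hn)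
  rw [div_le_iff₀ hγ] at h1
  linarith

theorem rt_pw_cywt_pos {η M : ℝ} {Q : CyT} (hM : 0 < M) (h : fzBd M Q) : 0 < cyWt η Q := by
  obtain ⟨-, -, -, h4, -, h6, -, -⟩ := h
  have hM' : 0 < M⁻¹ := inv_pos.2 hM
  unfold cyWt
  exact mul_pos (Real.rpow_pos_of_pos (lt_of_lt_of_le hM' h4) _) (Real.rpow_pos_of_pos (lt_of_lt_of_le hM' h6) _)

/-- **layer 2** -/
theorem rt_pw_real {η : ℝ} {h0 : 0 < η} {h1 : η < 1} (hIO : RtPwIO η h0 h1) : RtPwReal η h0 h1 := by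
  intro γ D1 Dt Zf hγ hD1 hDt
  obtain ⟨g0, b1, hg0, hg01, hb1, H⟩ := hIO (γ / 4) D1 Dt (by linarith) hD1 hDt
  refine ⟨g0, b1, hg0, hg01, hb1, fun b0 hb0 hb01 => ?_⟩
  obtain ⟨Z0, H⟩ := H b0 hb0 hb01
  refine ⟨max Z0 (D1 + 3 * |Zf|), fun C => ?_⟩
  obtain ⟨C', H⟩ := H C
  refine ⟨C', fun A' => ?_⟩
  obtain ⟨A, n0, H⟩ := H A'
  refine ⟨A, max n0 (⌈8 / γ⌉₊ + 2), fun p E d h => ?_⟩
  obtain ⟨p1, G, c1, cT, hI, L, iv, tc, th, lab, hO⟩ := H p E d (h.mono le_rfl (le_max_left _ _) (le_max_left _ _))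
  have hV : E.Valid := h.cls.2.1
  have hnn : ⌈8 / γ⌉₊ + 2 ≤ E.n := (le_max_right _ _).trans h.n_ge
  have hn2 : 2 ≤ E.n := (Nat.le_add_left _ _).trans hnn
  have hn8 : 8 ≤ γ * E.n := rt_pw_ceil hγ ((Nat.le_add_right _ _).trans hnn)
  have hs0 := gn_s_pos E
  have hr : 0 < d.ψ.r := h.ok.r_pos
  have hf0 : 0 < d.f := lt_of_lt_of_le (Real.rpow_pos_of_pos hs0 _) h.ok.f_lo
  have hfs0 : 0 < d.fs E D1 := mul_pos (Real.rpow_pos_of_pos hs0 _) hf0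
  have hZ1 : D1 + 3 * |Zf| ≤ max Z0 (D1 + 3 * |Zf|) := le_max_right _ _
  have hZf := abs_nonneg Zf
  have hfs1 : d.fs E D1 ≤ 1 := by
    have := rt_pw_num_fs E.n (by omega) D1 0 _ d.f (by rw [abs_zero, mul_zero, add_zero]; linarith) h.thin
    rw [Real.rpow_zero] at this
    exact this
  have hf1 : d.f ≤ 1 := h.thin.trans (Real.rpow_le_one hs0.le (gn_s_le_one E) (by linarith))
  have hη : 0 < 1 - η := by linarith
  obtain ⟨R, hRd⟩ : ∃ R, R = d.ψ.r ^ 4 * d.fs E D1 ^ (1 - η) := ⟨_, rfl⟩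
  obtain ⟨wm, hwmd⟩ : ∃ wm, wm = (d.ψ.r / 2) ^ 4 * (d.f / 2) ^ (1 - η) := ⟨_, rfl⟩
  have hR : 0 < R := by
    rw [hRd]
    exact mul_pos (by positivity) (Real.rpow_pos_of_pos hfs0 _)
  have hwm : 0 < wm := by
    rw [hwmd]
    exact mul_pos (by positivity) (Real.rpow_pos_of_pos (by linarith) _)
  have hw : ∀ l, wm ≤ E.w l := by
    intro l
    have a1 : d.ψ.r / 2 ≤ (E.ts l : RdTst).r := (h.ok.lab_r l).1
    have a2 : d.f / 2 ≤ (E.ts l : RdTst).f := (h.ok.lab_f l).1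
    show wm ≤ (E.ts l : RdTst).r ^ 4 * (E.ts l : RdTst).f ^ (1 - η)
    rw [hwmd]
    exact mul_le_mul (pow_le_pow_left₀ (by positivity) a1 4) (Real.rpow_le_rpow (by positivity) a2 hη.le)
      (Real.rpow_nonneg (by positivity) _) (pow_nonneg ((by positivity : (0 : ℝ) ≤ d.ψ.r / 2).trans a1) 4)
  obtain ⟨D, hDd⟩ : ∃ D, D = rtPwD p1 (E.n + 2) G E.e (d.bq E η D1 (γ / 4)) (d.fs E D1) c1 cT L iv tc th := ⟨_, rfl⟩
  obtain ⟨er, her, hmass, hε⟩ := hO.mass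
  have hm' : ∀ l, 0 ≤ (rtPwD p1 (E.n + 2) G E.e (d.bq E η D1 (γ / 4)) (d.fs E D1) c1 cT L iv tc th).m l :=
    fun l => gn_en_nonneg _ _ _ (hO.th_nn l) _
  have hDs : 0 < (rtPwD p1 (E.n + 2) G E.e (d.bq E η D1 (γ / 4)) (d.fs E D1) c1 cT L iv tc th).s := by
    unfold FzDat.s
    positivity
  have hw' : ∀ l, 0 < cyWt η ((rtPwD p1 (E.n + 2) G E.e (d.bq E η D1 (γ / 4)) (d.fs E D1) c1 cT L iv tc th).tc l) :=
    fun l => rt_pw_cywt_pos (Real.rpow_pos_of_pos hDs _) (hO.tc_bd l)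
  have hLo : (1 : ℝ) ≤ 2 ^ (γ / 4 * E.n) := Real.one_le_rpow (by norm_num) (by positivity)
  have key := rt_pw_cube_gen lab E.m E.w er _ (fun l => cyWt η ((rtPwD p1 (E.n + 2) G E.e (d.bq E η D1 (γ / 4)) (d.fs E D1) c1 cT L iv tc th).tc l))
    (2 ^ (γ / 4 * E.n)) R wm _ hLo hR hwm (gn_m_nonneg' E hV) hm' hw' hw her hO.cnt (by rw [hRd]; exact hO.wt) hmass hε
  have hrd0 : 0 ≤ (rtPwD p1 (E.n + 2) G E.e (d.bq E η D1 (γ / 4)) (d.fs E D1) c1 cT L iv tc th).rd η :=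
    Finset.sum_nonneg fun l _ => div_nonneg (Real.rpow_nonneg (hm' l) _) (Real.sqrt_nonneg _)
  have hbq : d.bq E η D1 (γ / 4) = 2 ^ (γ / 4 * E.n) * (E.ka * R) := by
    rw [hRd]
    unfold RtPd.bq
    ring
  have hek : E.e ≤ E.s ^ (-(C : ℝ)) * (E.ka * d.ψ.r ^ 4) := by
    refine h.ok.e_hi.trans (mul_le_mul_of_nonneg_left ?_ (Real.rpow_nonneg hs0.le _))
    have : (E.s ^ (-D1) * d.f) ^ (1 - η) ≤ 1 := Real.rpow_le_one hfs0.le hfs1 hη.le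
    have hk : 0 ≤ E.ka * d.ψ.r ^ 4 := mul_nonneg hV.ka_pos.le (by positivity)
    calc E.ka * d.ψ.r ^ 4 * (E.s ^ (-D1) * d.f) ^ (1 - η) ≤ E.ka * d.ψ.r ^ 4 * 1 := mul_le_mul_of_nonneg_left this hk
      _ = E.ka * d.ψ.r ^ 4 := mul_one _
  refine ⟨rtPwD p1 (E.n + 2) G E.e (d.bq E η D1 (γ / 4)) (d.fs E D1) c1 cT L iv tc th, rfl, rt_pw_ok hI hO, ?_, rfl, ?_⟩
  · exact rt_pw_num_fs E.n (by omega) D1 Zf _ d.f hZ1 h.thin
  · refine key.trans (add_le_add (mul_le_mul_of_nonneg_right ?_ hrd0) ?_)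
    · have := rt_pw_num_a γ E.n hn8 E.ka R hV.ka_pos hR
      rw [← hbq] at this
      exact this
    · rw [hwmd]
      exact rt_pw_num_b η h0 h1 E.n hn2 C E.e E.ka d.ψ.r d.f hV.e_pos hV.ka_pos hr h.ok.f_lo hf1 hek

/-- **layer 1** -/
theorem rt_pw_top {η Γc : ℝ} {h0 : 0 < η} {h1 : η < 1} (hc0 : 0 ≤ Γc) (hF : FzFlatRate η Γc) (hR : RtPwReal η h0 h1) :
    (rtMdWv η h0 h1).PatchRate Γc := by
  intro γ D1 hγ _
  have hD1 : (1 : ℝ) ≤ max D1 1 := le_max_right _ _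
  obtain ⟨Dt, Zf, hDt, HF⟩ := hF (γ / 4) (max D1 1 + 1) (by linarith) (by linarith)
  obtain ⟨g0, b1, hg0, hg01, hb1, HR⟩ := hR (γ / 4) (max D1 1) Dt Zf (by linarith) hD1 hDt
  refine ⟨b1, hb1, fun b0 hb0 hb01 => ?_⟩
  obtain ⟨Z, HR⟩ := HR b0 hb0 hb01
  refine ⟨Z, fun C => ?_⟩
  obtain ⟨C', HR⟩ := HR C
  obtain ⟨A', n1, HF⟩ := HF g0 hg0 hg01 C'
  obtain ⟨A, n0, HR⟩ := HR A'
  refine ⟨A, max (max n0 n1) ⌈(4 * Γc + γ + 2) / γ⌉₊, fun p E d hn hE hst hd hf => ?_⟩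
  have hV : E.Valid := hE.2.1
  have hnγ : 4 * Γc + γ + 2 ≤ γ * E.n := rt_pw_ceil hγ ((le_max_right _ _).trans hn)
  rcases Nat.eq_zero_or_pos E.L with hL | hL
  · have h0' : E.rd = 0 := by
      unfold Xp.rd
      have : IsEmpty (Fin E.L) := by
        rw [hL]
        infer_instance
      exact Finset.sum_of_isEmpty _
    unfold Xp.val
    rw [h0', mul_zero]
    positivity
  · obtain ⟨D, hDn, hDok, hDfs, hDe, hrd⟩ := HR p E d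
      ⟨((le_max_left _ _).trans (le_max_left _ _)).trans hn, hE, hst, hL, rt_pw_ok_mono hV (le_max_left _ _) hd, hf⟩
    have h2 := HF D (by rw [hDn]; exact (((le_max_right _ _).trans (le_max_left _ _)).trans hn).trans (Nat.le_add_right _ _)) hDok hDfs
    rw [hDn, hDe] at h2
    exact rt_pw_num_t Γc γ E.n hc0 hγ hnγ E.e E.ka D.bq E.rd (D.rd η) hV.e_pos hV.ka_pos hDok.bq_pos hrd h2

/-- **THE GLUE** -/
theorem rt_pw_main (η Γc : ℝ) (h0 : 0 < η) (h1 : η < 1) (hc0 : 0 ≤ Γc) (hF : FzFlatRate η Γc) (hX : RtPwX η h0 h1) (hI : RtPwI η h0 h1)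
    (hO : RtPwO η h0 h1) : (rtMdWv η h0 h1).PatchRate Γc :=
  rt_pw_top hc0 hF (rt_pw_real (rt_pw_io hX hI hO))

end Claimed.Agent.R256
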