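import Claimed.Agent.R256.Rt.PwDefs

/-!
# Row 256 (LS paper), folder Rt, file PwDat : THE FLAT DATUM AND THE TARGETS OF THE TWO HALVES OF THE GLUE OF `rt_patch_wv`          (BP-256-RT-PWV, helper167; chief Rt helper216; prefix `rt_pw_`, defs `rtPw*`, `RtPw*`)          SORRY-FREE

07 l.1185-1235.      `rt_patch_wv` = I1 (helper76, `Rt/XoContract`; clean form `RtPwI1` of `Rt/PwDefs.lean`, helper22) + IN (helper22, `Rt/PwIn*`) + OUT (helper236, `Rt/PwOut*`) + FLAT-RATE (helper207, `Fz/Flat.lean`) + cube sums, constants (`Rt/PwCube`, `Rt/PwTop`).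
THE FLAT DATUM of a patch experiment `(p, E, d)`, group exponent `D1 ≥ 1`, loss exponent `g`:      `rtPwD p1 (E.n + 2) G E.e (d.bq E η D1 g) (d.fs E D1) b1 bT1 L iv tc th : FzDat`
* `p1, G, b1, bT1`   the data of `RtPwI1` (flat picture: time unit 4 old root lengths, physical clock, `H1 = H / (4 ℓ₀ r²)`);   depth `E.n + 2`, root time `0`
* budget `E.e`;   `d.fs E D1 = s^-D1 f = f_*`;   cylinder regularity `d.bq E η D1 g = 2^(g n) κ r⁴ f_*^(1-η)`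
* labels `l' : Fin L` with the old label `lab l' : Fin E.L` (one new label for every old label and every rounded time that occurs).
TARGET OF IN      `(rtPwD0 ..).Ok η C' A' 1 Dt g0`  = `FzDat.Ok` of the datum WITHOUT labels (all label fields are void; `Ds` plays no role).
TARGET OF OUT     `RtPwOut η E d D lab Ds Lo εo`:  the seven label fields of `FzDat.Ok` +  `cnt` (each old label has `≤ Lo` new labels),  `wt` (`cyWt (tc l') r⁴ f_*^(1-η) ≤ Lo w_(lab l')`),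
                  `mass` (`m_l ≤ Lo Σ_(lab l' = l) m'_l' + er l`, `Σ er ≤ εo`).      In the glue `Lo = 2^(g n)`, `Ds = D1 + 1`, `εo = s^(C+2) e`.
`rt_pw_ok`        IN + OUT ⟹ `FzDat.Ok` of the full datum.
-/

set_option autoImplicit false

namespace Claimed.Agent.R256

open MeasureTheory

/-- the group thickness `f_* = s^-D1 f` -/
noncomputable def RtPd.fs (d : RtPd) {P : PkSys} (E : Xp P) (D1 : ℝ) : ℝ := E.s ^ (-D1) * d.f

/-- the cylinder regularity of the flat datum: `2^(g n) κ r⁴ f_*^(1-η)` -/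
noncomputable def RtPd.bq (d : RtPd) {P : PkSys} (E : Xp P) (η D1 g : ℝ) : ℝ :=
  2 ^ (g * E.n) * (E.ka * d.ψ.r ^ 4 * d.fs E D1 ^ (1 - η))

/-- the flat datum -/
noncomputable def rtPwD (p1 : RdWvPar) (n : ℕ) (G : RtKc) (e bq fs : ℝ) (b1 bT1 L : ℕ) (iv : Fin L → ℕ) (tc : Fin L → CyT)
    (th : Fin L → RdWvPar.Ph → ℝ) : FzDat := ⟨p1, n, G, e, bq, fs, b1, bT1, L, iv, tc, th⟩

/-- the flat datum without labels -/
noncomputable def rtPwD0 (p1 : RdWvPar) (n : ℕ) (G : RtKc) (e bq fs : ℝ) (b1 bT1 : ℕ) : FzDat :=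
  rtPwD p1 n G e bq fs b1 bT1 0 Fin.elim0 Fin.elim0 Fin.elim0

/-- **the target of OUT** -/
structure RtPwOut (η : ℝ) {p : RdWvPar} (E : Xp (p.sys η)) (d : RtPd) (D : FzDat) (lab : Fin D.L → Fin E.L) (Ds Lo εo : ℝ) : Prop where
  iv_in : ∀ l, D.iv l < 2 ^ D.n
  th_meas : ∀ l, Measurable (D.th l)
  th_nn : ∀ l x, 0 ≤ D.th l x
  th_sum : ∀ i x, ∑ l, (if D.iv l = i then D.th l x else 0) ≤ 1
  th_supp : ∀ l x, D.th l x ≠ 0 → cyIn (D.tc l) D.s (fzFl D.fs x)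
  tc_bd : ∀ l, fzBd (D.s ^ (-Ds)) (D.tc l)
  tc_unc : ∀ l, rdD D.p.H D.n ≤ D.fs * (D.tc l).f
  /-- every old label has at most `Lo` new labels -/
  cnt : ∀ l0 : Fin E.L, ((Finset.univ.filter fun l => lab l = l0).card : ℝ) ≤ Lo
  /-- (endlift): the cylinder weights -/
  wt : ∀ l, cyWt η (D.tc l) * (d.ψ.r ^ 4 * D.fs ^ (1 - η)) ≤ Lo * E.w (lab l)
  /-- (ii) of Lemma rt:wave-transport -/
  mass : ∃ er : Fin E.L → ℝ, (∀ l0, 0 ≤ er l0) ∧
    (∀ l0, E.m l0 ≤ Lo * ∑ l ∈ Finset.univ.filter (fun l => lab l = l0), D.m l + er l0) ∧ ∑ l0, er l0 ≤ εo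

theorem rt_pw_dat_eqns_cite : True := by
  have := @RtPd.fs.eq_1
  have := @RtPd.bq.eq_1
  have := @rtPwD.eq_1
  have := @rtPwD0.eq_1
  trivial

/-- IN + OUT ⟹ the hypotheses of FLAT-RATE -/
theorem rt_pw_ok {η : ℝ} {p : RdWvPar} {E : Xp (p.sys η)} {d : RtPd} {p1 : RdWvPar} {n : ℕ} {G : RtKc} {e bq fs : ℝ} {b1 bT1 L : ℕ}
    {iv : Fin L → ℕ} {tc : Fin L → CyT} {th : Fin L → RdWvPar.Ph → ℝ} {lab : Fin L → Fin E.L} {C A : ℕ} {Ds Ds' Dt g0 Lo εo : ℝ}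
    (hI : (rtPwD0 p1 n G e bq fs b1 bT1).Ok η C A Ds' Dt g0) (hO : RtPwOut η E d (rtPwD p1 n G e bq fs b1 bT1 L iv tc th) lab Ds Lo εo) :
    (rtPwD p1 n G e bq fs b1 bT1 L iv tc th).Ok η C A Ds Dt g0 where
  e_pos := hI.e_pos
  bq_pos := hI.bq_pos
  fs_pos := hI.fs_pos
  budget := hI.budget
  spec := hI.spec
  gen := hI.gen
  e_lo := hI.e_lo
  e_hi := hI.e_hi
  H_lo := hI.H_lo
  H_hi := hI.H_hi
  root := hI.root
  reg := hI.reg
  iv_in := hO.iv_in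
  th_meas := hO.th_meas
  th_nn := hO.th_nn
  th_sum := hO.th_sum
  th_supp := hO.th_supp
  tc_bd := hO.tc_bd
  tc_unc := hO.tc_unc

end Claimed.Agent.R256
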