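import Claimed.Agent.R256.Rt.XDefs
import Claimed.Agent.R256.Rt.XaContract
import Claimed.Agent.R256.Rt.Ker

/-!
# Row 256, folder Rt, block I1, unit XK : CUTS AND CHANGES OF CUT AS TRANSFERS      (architect helper76; prefix `rt_xk_`)      CONTRACT FILE

Corollaries of the unit KER (`Rt/Ker.lean`: `rt_k_rep`, `rt_k_bound`, `rt_k_gain`, `rt_k_sum_x`, `rt_k_sum_x'`, `rt_k_syn`, `rt_k_main`, `rt_k_mulR`, `rt_k_ms`), of W1 (`Rt/Wv1.lean`) and of the calculus `Rt/XaContract.lean`.   Every `sorry` is a leaf `L-256-RT-XK-*`; prove IN PLACE, statements verbatim.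
WHY.  The lens does not preserve the cone, no operator controls the far field.   After each such step the state is replaced by `rtCut .. S v = An^* 1_S An v`, `S` a bounded box of root rows.   NO smallness of `v - rtCut S v` is needed:
  * terminal views: on rows not connected to `Sᶜ` the difference is negligible (`rt_xk_far`, from `rt_k_main`);
  * root view: `An (rtCut S v) = (An An^*) (1_S An v)` is dominated by the kernel `rtKK` at equal cuts (`rt_xk_cut`).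
-/

set_option autoImplicit false

namespace Claimed.Agent.R256

open MeasureTheory
open scoped ENNReal

/-- LEAF `L-256-RT-XK-ST` -/
theorem rt_xk_cut_le (p : RdWvPar) (T : ℝ) (k b : ℕ) (S : Set RdWvPar.Ph) (hS : MeasurableSet S) (v : RtKc) : ‖rtCut p T k b S v‖ ≤ ‖v‖ := by
  exact gn_tz_norm_le (P := p.sys 0) (rt_w1_tight p 0) T k b (gn_mask_ind hS) v

/-- LEAF `L-256-RT-XK-ST`   (`rt_w1_syn_spec`) -/
theorem rt_xk_cut_band (p : RdWvPar) (T : ℝ) (k b : ℕ) (S : Set RdWvPar.Ph) (v : RtKc) : p.Spec (b + 1) (rtCut p T k b S v) := by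
  exact rt_w1_syn_spec p T k b _

/-- an `L²` function carried by a set of finite measure is integrable -/
theorem rt_xk_int_of_supp {X : Type} [MeasurableSpace X] {μ : Measure X} (S : Set X) (hS : MeasurableSet S) (hf : μ S ≠ ⊤) (F₁ : Lp ℂ 2 μ)
    (hsupp : ∀ᵐ x ∂μ, x ∉ S → (F₁ : X → ℂ) x = 0) : Integrable (F₁ : X → ℂ) μ := by
  have h1 := rt_k_l2_intOn F₁ (lt_top_iff_ne_top.2 hf)
  rw [← integrable_indicator_iff hS] at h1
  refine h1.congr ?_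
  filter_upwards [hsupp] with x hx
  by_cases hxS : x ∈ S
  · rw [Set.indicator_of_mem hxS]
  · rw [Set.indicator_of_notMem hxS]
    exact (hx hxS).symm

/-- the row measure of a set of finite volume -/
theorem rt_xk_rw_fin (p : RdWvPar) (k : ℕ) (S : Set RdWvPar.Ph) (hf : volume S ≠ ⊤) : p.rw k S ≠ ⊤ := by
  unfold RdWvPar.rw
  rw [Measure.smul_apply, smul_eq_mul]
  exact ENNReal.mul_ne_top ENNReal.ofReal_ne_top hf

/-- the masked row function on a set of finite volume is integrable -/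
theorem rt_xk_mulR_int (p : RdWvPar) (k : ℕ) (S : Set RdWvPar.Ph) (hS : MeasurableSet S) (hf : volume S ≠ ⊤) (F : Lp ℂ 2 (p.rw k)) :
    Integrable ((p.sys 0).mulR k (S.indicator fun _ => 1) F : RdWvPar.Ph → ℂ) (p.rw k) :=
  rt_xk_int_of_supp S hS (rt_xk_rw_fin p k S hf) _ (rt_k_mulR p 0 k S hS F).1

/-- the triangle inequality behind the cone of a cut -/
theorem rt_xk_cone_num {a d : ℝ} (ha : 0 ≤ a) (hd : 0 ≤ d) (u A : ℝ × ℝ) (h1 : rtSq (u - A) ≤ 2 * d ^ 2) (h2 : rtSq A ≤ a ^ 2) : rtSq u ≤ (a + 2 * d) ^ 2 := by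
  have hcs : (rtIp (u - A) A) ^ 2 ≤ rtSq (u - A) * rtSq A := by
    unfold rtIp rtSq
    nlinarith [sq_nonneg ((u - A).1 * A.2 - (u - A).2 * A.1)]
  have h0 : 0 ≤ rtSq (u - A) := by unfold rtSq; positivity
  have h3 : (rtIp (u - A) A) ^ 2 ≤ (2 * d * a) ^ 2 := by
    calc (rtIp (u - A) A) ^ 2 ≤ rtSq (u - A) * rtSq A := hcs
      _ ≤ (2 * d ^ 2) * a ^ 2 := mul_le_mul h1 h2 (by unfold rtSq; positivity) (by positivity)
      _ ≤ (2 * d * a) ^ 2 := by nlinarith [mul_nonneg (sq_nonneg d) (sq_nonneg a)]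
  have h4 : rtIp (u - A) A ≤ 2 * d * a := (le_abs_self _).trans (abs_le_of_sq_le_sq h3 (by positivity))
  have e : rtSq u = rtSq (u - A) + 2 * rtIp (u - A) A + rtSq A := by
    simp only [rtSq, rtIp, Prod.fst_sub, Prod.snd_sub]
    ring
  rw [e]
  nlinarith [sq_nonneg d]

/-- the cone of a state synthesised from an integrable row function carried by `S` -/
theorem rt_xk_syn_cone (p : RdWvPar) (T : ℝ) (k b : ℕ) (S : Set RdWvPar.Ph) {a : ℝ} (ha : 0 ≤ a)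
    (hA : ∀ x ∈ S, rtSq x.1 ≤ a ^ 2) (F₁ : Lp ℂ 2 (p.rw k)) (hint : Integrable (F₁ : RdWvPar.Ph → ℂ) (p.rw k))
    (hsupp : ∀ᵐ x ∂(p.rw k), x ∉ S → (F₁ : RdWvPar.Ph → ℂ) x = 0) : RtCone (a + 2 * rdD p.H k) (ContinuousLinearMap.adjoint (p.an T k b) F₁) := by
  have hsyn := rt_k_syn p T k b F₁ hint
  obtain ⟨hd, hd2⟩ := rt_k_d_pos p.H_pos k
  unfold RtCone
  filter_upwards [hsyn] with q hq hne
  rw [hq] at hne
  have hex : ∃ x ∈ S, p.pk T k b x q ≠ 0 := by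
    by_contra hno
    push Not at hno
    apply hne
    refine integral_eq_zero_of_ae ?_
    filter_upwards [hsupp] with x hx
    show (starRingEnd ℂ) (p.pk T k b x q) * (F₁ : RdWvPar.Ph → ℂ) x = 0
    by_cases hxS : x ∈ S
    · rw [hno x hxS, map_zero, zero_mul]
    · rw [hx hxS, mul_zero]
  obtain ⟨x, hxS, hpk⟩ := hex
  unfold RdWvPar.pk at hpk
  have h1 := (mul_ne_zero_iff.1 hpk).1
  rw [Complex.ofReal_ne_zero] at h1
  obtain ⟨h2, hpsi⟩ := mul_ne_zero_iff.1 h1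
  obtain ⟨-, hchi⟩ := mul_ne_zero_iff.1 h2
  have hρ : 0 < q.2 := by
    have := (rd_chi_supp hchi).1
    have h3 : 0 < p.H * q.2 := lt_trans (by positivity) this
    exact (mul_pos_iff_of_pos_left p.H_pos).1 h3
  refine ⟨hρ, ?_⟩
  have h4 := rd_psi_supp hpsi
  rw [rt_k_sq_smul] at h4
  have h5 : rtSq ((2 * q.2)⁻¹ • q.1 - x.1) ≤ 2 * rdD p.H k ^ 2 := by
    rw [inv_pow, inv_mul_lt_iff₀ (by positivity)] at h4
    linarith
  have h6 := rt_xk_cone_num ha hd.le _ _ h5 (hA x hxS)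
  rw [rt_k_sq_smul, inv_pow, inv_mul_le_iff₀ (by positivity)] at h6
  calc rtSq q.1 ≤ (2 * q.2) ^ 2 * (a + 2 * rdD p.H k) ^ 2 := h6
    _ = _ := by ring

/-- LEAF `L-256-RT-XK-ST`.   (`1_S An v` is integrable; `rt_k_syn`; `pk x q ≠ 0` forces `0 < ρ` (`rd_chi_supp`) and `|ξ/2ρ - A|² < 2 d²` (`rd_psi_supp`)) -/
theorem rt_xk_cut_cone (p : RdWvPar) (T : ℝ) (k b : ℕ) (S : Set RdWvPar.Ph) (hS : MeasurableSet S) (hf : volume S ≠ ⊤) {a : ℝ} (ha : 0 ≤ a)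
    (hA : ∀ x ∈ S, rtSq x.1 ≤ a ^ 2) (v : RtKc) : RtCone (a + 2 * rdD p.H k) (rtCut p T k b S v) := by
  exact rt_xk_syn_cone p T k b S ha hA _ (rt_xk_mulR_int p k S hS hf (p.an T k b v)) (rt_k_mulR p 0 k S hS (p.an T k b v)).1

/-- the two halves of an `L²` function -/
theorem rt_xk_ind_add {X : Type} [MeasurableSpace X] {μ : Measure X} (S : Set X) (F F₁ F₂ : Lp ℂ 2 μ)
    (a1 : (F₁ : X → ℂ) =ᵐ[μ] S.indicator (F : X → ℂ)) (a2 : (F₂ : X → ℂ) =ᵐ[μ] Sᶜ.indicator (F : X → ℂ)) : F₁ + F₂ = F := by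
  apply Lp.ext
  filter_upwards [Lp.coeFn_add F₁ F₂, a1, a2] with x h1 h2 h3
  rw [h1, Pi.add_apply, h2, h3]
  by_cases hx : x ∈ S
  · rw [Set.indicator_of_mem hx, Set.indicator_of_notMem (show x ∉ Sᶜ from fun h => h hx), add_zero]
  · rw [Set.indicator_of_notMem hx, Set.indicator_of_mem (show x ∈ Sᶜ from hx), zero_add]

/-- LEAF `L-256-RT-XK-ST`.   (`An^* An v = v` on the plateau class: `‖An‖ ≤ 1`, `‖An v‖ = ‖v‖`; linearity of `mulR` for indicators) -/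
theorem rt_xk_cut_compl (p : RdWvPar) (T : ℝ) (k b : ℕ) (S : Set RdWvPar.Ph) (hS : MeasurableSet S) (v : RtKc) (hv : p.Spec b v) :
    v - rtCut p T k b S v = ContinuousLinearMap.adjoint (p.an T k b) ((p.sys 0).mulR k (Sᶜ.indicator fun _ => 1) (p.an T k b v)) := by
  have hpl : v ∈ (p.sys 0).Pl b := (rt_w1_pl p 0 b v).2 hv
  have h0 : ContinuousLinearMap.adjoint (p.an T k b) (p.an T k b v) = v := gn_adj_an (P := p.sys 0) (rt_w1_tight p 0) T k b hpl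
  have key : ∀ F₁ F₂ : Lp ℂ 2 (p.rw k), F₁ + F₂ = p.an T k b v →
      v - ContinuousLinearMap.adjoint (p.an T k b) F₁ = ContinuousLinearMap.adjoint (p.an T k b) F₂ := by
    intro F₁ F₂ h
    rw [sub_eq_iff_eq_add', ← map_add, h, h0]
  exact key _ _ (rt_xk_ind_add S (p.an T k b v) _ _ (rt_k_mulR_coe p 0 k S hS _) (rt_k_mulR_coe p 0 k Sᶜ hS.compl _))

/-- LEAF `L-256-RT-XK-ST` -/
theorem rt_xk_cut_err (p : RdWvPar) (T : ℝ) (k b : ℕ) (S : Set RdWvPar.Ph) (hS : MeasurableSet S) (v : RtKc) (hv : p.Spec b v) :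
    ‖v - rtCut p T k b S v‖ ^ 2 ≤ (p.sys 0).ms T k b Sᶜ v := by
  have e := rt_xk_cut_compl p T k b S hS v hv
  have hms := (rt_k_ms p 0 T k b Sᶜ hS.compl v).1
  have h1 := gn_mulR_ind_normsq (P := p.sys 0) k hS.compl (p.an T k b v)
  have h2 := rt_k_adj_le p T k b ((p.sys 0).mulR k (Sᶜ.indicator fun _ => 1) (p.an T k b v))
  calc ‖v - rtCut p T k b S v‖ ^ 2
      = ‖ContinuousLinearMap.adjoint (p.an T k b) ((p.sys 0).mulR k (Sᶜ.indicator fun _ => 1) (p.an T k b v))‖ ^ 2 := by rw [e]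
    _ ≤ ‖(p.sys 0).mulR k (Sᶜ.indicator fun _ => 1) (p.an T k b v)‖ ^ 2 := pow_le_pow_left₀ (norm_nonneg _) h2 2
    _ = _ := h1
    _ = _ := hms.symm

/-- integrals over `(counting measure on {j < n}) × μ` are finite sums -/
theorem rt_xk_lint_gen {X : Type} [MeasurableSpace X] (μ : Measure X) [SFinite μ] (n : ℕ) (f : ℕ × X → ℝ≥0∞) (hf : Measurable f) :
    ∫⁻ z, f z ∂(((Measure.count : Measure ℕ).restrict (Set.Iio n)).prod μ) = ∑ j ∈ Finset.range n, ∫⁻ x, f (j, x) ∂μ := by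
  rw [lintegral_prod f hf.aemeasurable, ← Finset.coe_range, lintegral_finset]
  simp

/-- **a transfer between the rows of two times is a transfer between the lattice views** -/
theorem rt_xk_lift {X X' : Type} [MeasurableSpace X] [MeasurableSpace X'] {μ : Measure X} {μ' : Measure X'} [SFinite μ] [SFinite μ']
    {D₀ : X → ℝ≥0∞} {D₀' : X' → ℝ≥0∞} {R : X → X' → Prop} {A ε : ℝ≥0∞} (h : RtXf μ D₀ μ' D₀' R Set.univ A ε)
    (n n' j j' : ℕ) (hj' : j' < n') (D : ℕ × X → ℝ≥0∞) (D' : ℕ × X' → ℝ≥0∞) (hD : Measurable D) (hD' : Measurable D')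
    (h1 : ∀ᵐ x ∂μ, D (j, x) ≤ D₀ x) (h2 : ∀ᵐ x' ∂μ', D₀' x' ≤ D' (j', x')) :
    RtXf (((Measure.count : Measure ℕ).restrict (Set.Iio n)).prod μ) D (((Measure.count : Measure ℕ).restrict (Set.Iio n')).prod μ') D'
      (fun z z' => z'.1 = j' ∧ R z.2 z'.2) {z | z.1 = j} A ε := by
  intro L θ hθ hc
  have hθ₀ : RtAsg L (fun l x => θ l (j, x)) := ⟨fun l => (hθ.meas l).comp measurable_prodMk_left, fun x => hθ.sum_le (j, x)⟩
  obtain ⟨θ₀', e, a1, a2, a3, a4⟩ := h L (fun l x => θ l (j, x)) hθ₀ (fun _ _ _ => trivial)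
  have hm' : ∀ l, Measurable fun z' : ℕ × X' => if z'.1 = j' then θ₀' l z'.2 else 0 := by
    intro l
    refine measurable_from_prod_countable_right fun i => ?_
    by_cases hi : i = j'
    · simpa [hi] using a1.meas l
    · simp [hi]
  refine ⟨fun l z' => if z'.1 = j' then θ₀' l z'.2 else 0, e, ⟨hm', fun z' => ?_⟩, fun l z' hz' => ?_, fun l => ?_, a4⟩
  · by_cases hz : z'.1 = j'
    · simpa [hz] using a1.sum_le z'.2
    · simp [hz]
  · by_cases hz : z'.1 = j'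
    · beta_reduce at hz'
      rw [if_pos hz] at hz'
      obtain ⟨x, hx, hr⟩ := a2 l z'.2 hz'
      exact ⟨(j, x), hx, hz, hr⟩
    · exact absurd (if_neg hz) hz'
  · have e1 : ∫⁻ z, θ l z * D z ∂(((Measure.count : Measure ℕ).restrict (Set.Iio n)).prod μ) ≤ ∫⁻ x, θ l (j, x) * D₀ x ∂μ := by
      rw [rt_xk_lint_gen μ n (fun z => θ l z * D z) ((hθ.meas l).mul hD)]
      have hz : ∀ i ∈ Finset.range n, ∫⁻ x, θ l (i, x) * D (i, x) ∂μ = if i = j then ∫⁻ x, θ l (j, x) * D (j, x) ∂μ else 0 := by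
        intro i _
        by_cases hi : i = j
        · rw [if_pos hi, hi]
        · rw [if_neg hi]
          have : ∀ x, θ l (i, x) * D (i, x) = 0 := by
            intro x
            have : θ l (i, x) = 0 := by
              by_contra hne
              exact hi (hc l (i, x) hne)
            rw [this, zero_mul]
          simp [this]
      rw [Finset.sum_congr rfl hz, Finset.sum_ite_eq']
      split_ifs
      · refine lintegral_mono_ae ?_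
        filter_upwards [h1] with x hx
        gcongr
      · exact zero_le
    have e2 : ∫⁻ x', θ₀' l x' * D₀' x' ∂μ'
        ≤ ∫⁻ z', (if z'.1 = j' then θ₀' l z'.2 else 0) * D' z' ∂(((Measure.count : Measure ℕ).restrict (Set.Iio n')).prod μ') := by
      rw [rt_xk_lint_gen μ' n' (fun z' => (if z'.1 = j' then θ₀' l z'.2 else 0) * D' z') ((hm' l).mul hD')]
      refine le_trans ?_ (Finset.single_le_sum (f := fun i => ∫⁻ x', (if ((i, x') : ℕ × X').1 = j' then θ₀' l ((i, x') : ℕ × X').2 else 0) * D' (i, x') ∂μ')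
        (fun _ _ => zero_le) (Finset.mem_range.2 hj'))
      refine lintegral_mono_ae ?_
      filter_upwards [h2] with x' hx'
      simp only [if_true]
      gcongr
    calc _ ≤ _ := e1
      _ ≤ _ := a3 l
      _ ≤ _ := by gcongr

/-- the target assignment may be cut down to a measurable set which carries the target density -/
theorem rt_xk_carry {Z Z' : Type} [MeasurableSpace Z] [MeasurableSpace Z'] {ζ : Measure Z} {D : Z → ℝ≥0∞} {ζ' : Measure Z'} {D' : Z' → ℝ≥0∞}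
    {R : Z → Z' → Prop} {Z0 : Set Z} {A ε : ℝ≥0∞} (h : RtXf ζ D ζ' D' R Z0 A ε) {S : Set Z'} (hS : MeasurableSet S) (h0 : ∀ᵐ z' ∂ζ', z' ∉ S → D' z' = 0) :
    RtXf ζ D ζ' D' (fun z z' => z' ∈ S ∧ R z z') Z0 A ε := by
  intro L θ hθ hc
  obtain ⟨θ', e, a1, a2, a3, a4⟩ := h L θ hθ hc
  refine ⟨fun l => S.indicator (θ' l), e, ⟨fun l => (a1.meas l).indicator hS, fun z' => ?_⟩, fun l z' hz' => ?_, fun l => ?_, a4⟩
  · exact le_trans (Finset.sum_le_sum fun l _ => Set.indicator_le_self _ _ _) (a1.sum_le z')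
  · have hm : z' ∈ S := by
      by_contra hn
      exact hz' (Set.indicator_of_notMem hn _)
    beta_reduce at hz'
    rw [Set.indicator_of_mem hm] at hz'
    obtain ⟨z, hz, hr⟩ := a2 l z' hz'
    exact ⟨z, hz, hm, hr⟩
  · refine (a3 l).trans (le_of_eq ?_)
    congr 2
    refine lintegral_congr_ae ?_
    filter_upwards [h0] with z' hz'
    by_cases hm : z' ∈ S
    · rw [Set.indicator_of_mem hm]
    · rw [hz' hm, mul_zero, mul_zero]

/-- the correspondence is a measurable relation -/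
theorem rt_xk_near_meas (Λ d q H u : ℝ) :
    MeasurableSet {z : RdWvPar.Ph × RdWvPar.Ph | RtNear Λ d q H ((RdWvPar.co 0 z.2).flow u) (RdWvPar.co 0 z.1)} := by
  simp only [RtNear, RdWvPar.co, RtRow.flow, Set.ofPred_and]
  refine (measurableSet_le ?_ measurable_const).inter ((measurableSet_le ?_ measurable_const).inter (measurableSet_le ?_ measurable_const))
  all_goals (unfold rtSq; try unfold rtIp); fun_prop

/-- the density of a lattice view is measurable (the time index is discrete) -/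
theorem rt_xk_vd_meas (p : RdWvPar) (k b : ℕ) (v : RtKc) : Measurable (rtVd p k b v) := by
  refine measurable_from_prod_countable_right fun j => ?_
  exact ((Lp.stronglyMeasurable (p.an (rtTm k j) k b v)).measurable.enorm).pow_const 2

/-- **near/far splitting of the kernel of `An' An^*`** with its four Schur sums (`k ≤ k' ≤ k + 2`) -/
theorem rt_xk_kern (bm N : ℕ) : ∃ C : ℝ, 3 ≤ C ∧ ∀ (p : RdWvPar) (T : ℝ) (k : ℕ) (T' : ℝ) (k' b b' : ℕ) (Λ : ℝ), CutLe T k T' k' → k' ≤ k + 2 → b ≤ bm → b' ≤ bm → C ≤ Λ →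
    ∃ Kn Kf : RdWvPar.Ph → RdWvPar.Ph → ℝ≥0∞, Measurable (Function.uncurry Kn) ∧ Measurable (Function.uncurry Kf) ∧
      (∀ x' x, ‖rtKK p T k b T' k' b' x' x‖ₑ ≤ Kn x' x + Kf x' x) ∧
      (∀ x' x, Kn x' x ≠ 0 → RtNear Λ (rdD p.H k') (rdQ p.H k) p.H ((RdWvPar.co 0 x).flow (T' - T)) (RdWvPar.co 0 x')) ∧
      (∀ x', ∫⁻ x, Kn x' x ∂(p.rw k) ≤ ENNReal.ofReal C) ∧ (∀ x, ∫⁻ x', Kn x' x ∂(p.rw k') ≤ ENNReal.ofReal C) ∧
      (∀ x', ∫⁻ x, Kf x' x ∂(p.rw k) ≤ ENNReal.ofReal (C * Λ ^ (-(N : ℝ)))) ∧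
      (∀ x, ∫⁻ x', Kf x' x ∂(p.rw k') ≤ ENNReal.ofReal (C * Λ ^ (-(N : ℝ)))) := by
  obtain ⟨C4, hC4, hb4⟩ := rt_k_bound bm 4
  obtain ⟨CN, hCN, hbN⟩ := rt_k_bound bm (N + 4)
  obtain ⟨C0, hC0, hs⟩ := rt_k_sum_x
  obtain ⟨C0', hC0', hs'⟩ := rt_k_sum_x'
  refine ⟨3 + (C4 + CN) * (C0 * 4 + C0'), by nlinarith [mul_nonneg (add_nonneg hC4 hCN) (add_nonneg (mul_nonneg hC0 (by norm_num : (0:ℝ) ≤ 4)) hC0')], ?_⟩
  intro p T k T' k' b b' Λ hcut hk2 hb hb' hΛ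
  set C : ℝ := 3 + (C4 + CN) * (C0 * 4 + C0') with hC
  have hP : 0 ≤ (C4 + CN) * (C0 * 4 + C0') := by positivity
  have hΛ3 : 3 ≤ Λ := by linarith
  have h0 : 0 < Λ := by linarith
  have h8 : 8 ≤ Λ ^ 2 := by nlinarith
  have hΛN : 0 < Λ ^ (-(N : ℝ)) := by positivity
  set u : ℝ := T' - T with hu
  set Nr : Set (RdWvPar.Ph × RdWvPar.Ph) := {z | RtNear Λ (rdD p.H k') (rdQ p.H k) p.H ((RdWvPar.co 0 z.2).flow u) (RdWvPar.co 0 z.1)} with hNr
  have hNrm : MeasurableSet Nr := rt_xk_near_meas _ _ _ _ _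
  set M : RdWvPar.Ph × RdWvPar.Ph → ℝ≥0∞ := fun z => ENNReal.ofReal (rtKM p.H k k' u 4 z.1 z.2) with hM
  have hMm : Measurable M := ENNReal.measurable_ofReal.comp (rt_k_m_meas p.H k k' u 4)
  have h24 : (2 : ℝ) ^ ((k' : ℝ) - k) ≤ 4 := by
    have h1 : (k' : ℝ) ≤ k + 2 := by exact_mod_cast hk2
    calc (2 : ℝ) ^ ((k' : ℝ) - k) ≤ 2 ^ (2 : ℝ) := Real.rpow_le_rpow_of_exponent_le (by norm_num) (by linarith)
      _ = 4 := by norm_num
  -- Schur sums of a masked multiple of `M`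
  have hsx : ∀ (E : Set (RdWvPar.Ph × RdWvPar.Ph)) (c : ℝ), 0 ≤ c → ∀ x', ∫⁻ x, E.indicator (fun z => ENNReal.ofReal c * M z) (x', x) ∂(p.rw k) ≤ ENNReal.ofReal (c * (C0 * 4)) := by
    intro E c hc x'
    calc ∫⁻ x, E.indicator (fun z => ENNReal.ofReal c * M z) (x', x) ∂(p.rw k) ≤ ∫⁻ x, ENNReal.ofReal c * M (x', x) ∂(p.rw k) :=
          lintegral_mono fun x => Set.indicator_le_self _ _ _
      _ = ENNReal.ofReal c * ∫⁻ x, M (x', x) ∂(p.rw k) := lintegral_const_mul' _ _ ENNReal.ofReal_ne_top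
      _ ≤ ENNReal.ofReal c * ENNReal.ofReal (C0 * 4) := by
          gcongr
          exact (hs p k k' u x').trans (ENNReal.ofReal_le_ofReal (by gcongr))
      _ = _ := (ENNReal.ofReal_mul hc).symm
  have hsx' : ∀ (E : Set (RdWvPar.Ph × RdWvPar.Ph)) (c : ℝ), 0 ≤ c → ∀ x, ∫⁻ x', E.indicator (fun z => ENNReal.ofReal c * M z) (x', x) ∂(p.rw k') ≤ ENNReal.ofReal (c * C0') := by
    intro E c hc x
    calc ∫⁻ x', E.indicator (fun z => ENNReal.ofReal c * M z) (x', x) ∂(p.rw k') ≤ ∫⁻ x', ENNReal.ofReal c * M (x', x) ∂(p.rw k') :=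
          lintegral_mono fun x' => Set.indicator_le_self _ _ _
      _ = ENNReal.ofReal c * ∫⁻ x', M (x', x) ∂(p.rw k') := lintegral_const_mul' _ _ ENNReal.ofReal_ne_top
      _ ≤ ENNReal.ofReal c * ENNReal.ofReal C0' := by
          gcongr
          exact hs' p k k' u x
      _ = _ := (ENNReal.ofReal_mul hc).symm
  refine ⟨fun x' x => Nr.indicator (fun z => ENNReal.ofReal C4 * M z) (x', x), fun x' x => Nrᶜ.indicator (fun z => ENNReal.ofReal (CN * Λ ^ (-(N : ℝ))) * M z) (x', x),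
    (measurable_const.mul hMm).indicator hNrm, (measurable_const.mul hMm).indicator hNrm.compl, fun x' x => ?_, fun x' x hne => ?_,
    fun x' => ?_, fun x => ?_, fun x' => ?_, fun x => ?_⟩
  · beta_reduce
    by_cases hz : (x', x) ∈ Nr
    · rw [Set.indicator_of_mem hz, Set.indicator_of_notMem (show (x', x) ∉ Nrᶜ from fun h => h hz), add_zero, ← ofReal_norm, ← ENNReal.ofReal_mul hC4]
      exact ENNReal.ofReal_le_ofReal (hb4 p T k T' k' b b' hcut hb hb' x' x)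
    · rw [Set.indicator_of_notMem hz, Set.indicator_of_mem (show (x', x) ∈ Nrᶜ from hz), zero_add, ← ofReal_norm, ← ENNReal.ofReal_mul (by positivity)]
      refine ENNReal.ofReal_le_ofReal ((hbN p T k T' k' b b' hcut hb hb' x' x).trans ?_)
      rw [mul_assoc]
      exact mul_le_mul_of_nonneg_left (rt_k_gain p.H_pos k k' u 0 0 N h0 h8 x' x hz) hCN
  · by_contra hn
    exact hne (Set.indicator_of_notMem (show (x', x) ∉ Nr from hn) _)
  · refine (hsx Nr C4 hC4 x').trans (ENNReal.ofReal_le_ofReal ?_)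
    rw [hC]
    nlinarith [mul_nonneg hC4 hC0', mul_nonneg hCN hC0', mul_nonneg hCN hC0]
  · refine (hsx' Nr C4 hC4 x).trans (ENNReal.ofReal_le_ofReal ?_)
    rw [hC]
    nlinarith [mul_nonneg hC4 hC0, mul_nonneg hCN hC0', mul_nonneg hCN hC0]
  · refine (hsx Nrᶜ _ (by positivity) x').trans (ENNReal.ofReal_le_ofReal ?_)
    have : CN * (C0 * 4) ≤ C := by
      rw [hC]
      nlinarith [mul_nonneg hC4 hC0, mul_nonneg hCN hC0', mul_nonneg hC4 hC0']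
    calc CN * Λ ^ (-(N : ℝ)) * (C0 * 4) = CN * (C0 * 4) * Λ ^ (-(N : ℝ)) := by ring
      _ ≤ _ := by gcongr
  · refine (hsx' Nrᶜ _ (by positivity) x).trans (ENNReal.ofReal_le_ofReal ?_)
    have : CN * C0' ≤ C := by
      rw [hC]
      nlinarith [mul_nonneg hC4 hC0, mul_nonneg hCN hC0, mul_nonneg hC4 hC0']
    calc CN * Λ ^ (-(N : ℝ)) * C0' = CN * C0' * Λ ^ (-(N : ℝ)) := by ring
      _ ≤ _ := by gcongr

/-- the kernel of the adjoint operator -/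
theorem rt_xk_kk_symm (p : RdWvPar) (T : ℝ) (k b : ℕ) (T' : ℝ) (k' b' : ℕ) (x' x : RdWvPar.Ph) :
    rtKK p T' k' b' T k b x x' = (starRingEnd ℂ) (rtKK p T k b T' k' b' x' x) := by
  unfold rtKK
  rw [← integral_conj]
  refine integral_congr_ae (Filter.Eventually.of_forall fun q => ?_)
  simp [mul_comm]

/-- **an operator with a dominated kernel is a transfer** (`rt_xa_ext` + `rt_xa_ker`) -/
theorem rt_xk_op {X X' : Type} [MeasurableSpace X] [MeasurableSpace X'] {μ : Measure X} {μ' : Measure X'} [SigmaFinite μ] [SigmaFinite μ']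
    (Cop : Lp ℂ 2 μ' →L[ℂ] Lp ℂ 2 μ) (K : X → X' → ℂ)
    (hrep : ∀ F : Lp ℂ 2 μ', Integrable (F : X' → ℂ) μ' → (Cop F : X → ℂ) =ᵐ[μ] fun x => ∫ x', K x x' * (F : X' → ℂ) x' ∂μ')
    (Kn Kf : X → X' → ℝ≥0∞) (hn : Measurable (Function.uncurry Kn)) (hf : Measurable (Function.uncurry Kf))
    (hK : ∀ x x', ‖K x x'‖ₑ ≤ Kn x x' + Kf x x') (c t : ℝ) (hc : 0 < c) (ht : 0 ≤ t)
    (h1 : ∀ x, ∫⁻ x', Kn x x' ∂μ' ≤ ENNReal.ofReal c) (h2 : ∀ x', ∫⁻ x, Kn x x' ∂μ ≤ ENNReal.ofReal c)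
    (h3 : ∀ x, ∫⁻ x', Kf x x' ∂μ' ≤ ENNReal.ofReal t) (h4 : ∀ x', ∫⁻ x, Kf x x' ∂μ ≤ ENNReal.ofReal t) (F : Lp ℂ 2 μ') :
    RtXf μ (fun x => ‖(Cop F : X → ℂ) x‖ₑ ^ 2) μ' (fun x' => ‖(F : X' → ℂ) x'‖ₑ ^ 2) (fun x x' => Kn x x' ≠ 0) Set.univ
      (ENNReal.ofReal (2 * c ^ 2)) (ENNReal.ofReal (2 * t ^ 2 * ‖F‖ ^ 2)) := by
  have hI : ∀ G : Lp ℂ 2 μ', Integrable (G : X' → ℂ) μ' → ∀ᵐ x ∂μ, ‖(Cop G : X → ℂ) x‖ₑ ≤ ∫⁻ x', (Kn x x' + Kf x x') * ‖(G : X' → ℂ) x'‖ₑ ∂μ' := by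
    intro G hG
    filter_upwards [hrep G hG] with x hx
    rw [hx]
    refine (enorm_integral_le_lintegral_enorm _).trans (lintegral_mono fun x' => ?_)
    rw [enorm_mul]
    gcongr
    exact hK x x'
  have hdom := rt_xa_ext Cop (fun x x' => Kn x x' + Kf x x') hI F
  have hW : AEMeasurable (fun x' => ‖(F : X' → ℂ) x'‖ₑ) μ' := (Lp.aestronglyMeasurable F).enorm
  have hker := rt_xa_ker (ζ := μ) (ζ' := μ') (fun x => ‖(Cop F : X → ℂ) x‖ₑ) (fun x' => ‖(F : X' → ℂ) x'‖ₑ) hW Kn Kf hn hf Set.univ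
    (hdom.mono fun x hx _ => hx) (ENNReal.ofReal c) (ENNReal.ofReal c) (ENNReal.ofReal t) (ENNReal.ofReal t) ENNReal.ofReal_ne_top
    (by simpa using hc) h1 h2 h3 h4
  refine rt_xa_mono hker (fun _ _ _ h => h) le_rfl (le_of_eq ?_) (le_of_eq ?_)
  · rw [ENNReal.ofReal_mul (by norm_num : (0 : ℝ) ≤ 2), sq, ENNReal.ofReal_mul hc.le, ENNReal.ofReal_ofNat, mul_assoc]
  · rw [rt_w1_lint_sq (Lp.memLp F), ← rt_k_norm_sq, ENNReal.ofReal_mul (by positivity : (0 : ℝ) ≤ 2 * t ^ 2), ENNReal.ofReal_mul (by norm_num : (0 : ℝ) ≤ 2), sq t,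
      ENNReal.ofReal_mul ht, ENNReal.ofReal_ofNat, mul_assoc 2]

/-- LEAF `L-256-RT-XK-CHG`.  **change of cut** (coarse source, fine target, `k ≤ k' ≤ k + 2`).   `An v = An An'^* An' v` (`Spec b v`), kernel `rtKK p T' k' b T k b₁ x x' = conj (rtKK p T k b₁ T' k' b x' x)`, `rt_k_rep` for integrable `F` + `rt_xa_ext`,
`rt_k_bound`, `rt_k_gain`, Schur sums (`2^(k'-k) ≤ 4`), `rt_xa_ker`.   ~300 l. -/
theorem rt_xk_chg (bm N : ℕ) : ∃ C : ℝ, 1 ≤ C ∧ ∀ (p : RdWvPar) (k j k' j' b b₁ : ℕ) (Λ : ℝ) (v : RtKc), b ≤ bm → b₁ ≤ bm → C ≤ Λ → j < 2 ^ k → j' < 2 ^ k' → k' ≤ k + 2 →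
    CutLe (rtTm k j) k (rtTm k' j') k' → p.Spec b v →
    RtXf (rtVm p k) (rtVd p k b₁ v) (rtVm p k') (rtVd p k' b v)
      (fun z z' => z'.1 = j' ∧ RtNear Λ (rdD p.H k') (rdQ p.H k) p.H ((RdWvPar.co 0 z.2).flow (rtTm k' j' - rtTm k j)) (RdWvPar.co 0 z'.2)) {z | z.1 = j}
      (ENNReal.ofReal C) (ENNReal.ofReal (C * Λ ^ (-(N : ℝ)) * ‖v‖ ^ 2)) := by
  obtain ⟨C, hC3, hk⟩ := rt_xk_kern bm N
  refine ⟨2 * C ^ 2, by nlinarith, ?_⟩
  intro p k j k' j' b b₁ Λ v hb hb₁ hΛ hj hj' hk2 hcut hv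
  have hCΛ : C ≤ Λ := by nlinarith
  have h1Λ : 1 ≤ Λ := by linarith
  have hΛN : 0 < Λ ^ (-(N : ℝ)) := by positivity
  obtain ⟨Kn, Kf, hn, hf, hK, hnear, s1, s2, s3, s4⟩ := hk p (rtTm k j) k (rtTm k' j') k' b₁ b Λ hcut hk2 hb₁ hb hCΛ
  have := rt_k_rw_sf p k
  have := rt_k_rw_sf p k'
  have hpl : v ∈ (p.sys 0).Pl b := (rt_w1_pl p 0 b v).2 hv
  have h0 : ContinuousLinearMap.adjoint (p.an (rtTm k' j') k' b) (p.an (rtTm k' j') k' b v) = v := gn_adj_an (P := p.sys 0) (rt_w1_tight p 0) (rtTm k' j') k' b hpl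
  have hrow := rt_xk_op (μ := p.rw k) (μ' := p.rw k') ((p.an (rtTm k j) k b₁).comp (ContinuousLinearMap.adjoint (p.an (rtTm k' j') k' b)))
    (fun x x' => rtKK p (rtTm k' j') k' b (rtTm k j) k b₁ x x') (fun F hF => rt_k_rep p (rtTm k' j') k' b (rtTm k j) k b₁ F hF)
    (fun x x' => Kn x' x) (fun x x' => Kf x' x) (hn.comp measurable_swap) (hf.comp measurable_swap)
    (fun x x' => by rw [rt_xk_kk_symm, RCLike.enorm_conj]; exact hK x' x) C (C * Λ ^ (-(N : ℝ))) (by linarith) (by positivity) s2 s1 s4 s3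
    (p.an (rtTm k' j') k' b v)
  rw [ContinuousLinearMap.comp_apply, h0] at hrow
  have hlift := rt_xk_lift hrow (2 ^ k) (2 ^ k') j j' hj' (rtVd p k b₁ v) (rtVd p k' b v) (rt_xk_vd_meas p k b₁ v) (rt_xk_vd_meas p k' b v)
    (Filter.Eventually.of_forall fun x => le_rfl) (Filter.Eventually.of_forall fun x => le_rfl)
  refine rt_xa_mono hlift (fun z _ z' h => ⟨h.1, hnear _ _ h.2⟩) le_rfl le_rfl (ENNReal.ofReal_le_ofReal ?_)
  have e1 : (Λ ^ (-(N : ℝ))) ^ 2 ≤ Λ ^ (-(N : ℝ)) := by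
    have h5 : Λ ^ (-(N : ℝ)) ≤ 1 := Real.rpow_le_one_of_one_le_of_nonpos h1Λ (by simp)
    nlinarith
  have e2 : ‖p.an (rtTm k' j') k' b v‖ ^ 2 ≤ ‖v‖ ^ 2 := pow_le_pow_left₀ (norm_nonneg _) (rt_w1c_an_le p _ k' b v) 2
  calc 2 * (C * Λ ^ (-(N : ℝ))) ^ 2 * ‖p.an (rtTm k' j') k' b v‖ ^ 2 = 2 * C ^ 2 * (Λ ^ (-(N : ℝ))) ^ 2 * ‖p.an (rtTm k' j') k' b v‖ ^ 2 := by ring
    _ ≤ 2 * C ^ 2 * Λ ^ (-(N : ℝ)) * ‖v‖ ^ 2 := by gcongr

/-- the density of a lattice view is measurable (the time index is discrete) -/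
theorem rt_xk_far_vd_meas (p : RdWvPar) (k b : ℕ) (v : RtKc) : Measurable (rtVd p k b v) := by
  unfold rtVd
  apply measurable_from_prod_countable_right
  intro j
  exact ((Lp.stronglyMeasurable (p.an (rtTm k j) k b v)).measurable.enorm).pow_const 2

/-- integrals over a lattice view are finite sums -/
theorem rt_xk_far_lint (p : RdWvPar) (k : ℕ) (f : RtZ → ℝ≥0∞) (hf : Measurable f) :
    ∫⁻ z, f z ∂(rtVm p k) = ∑ j ∈ Finset.range (2 ^ k), ∫⁻ x, f (j, x) ∂(p.rw k) := by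
  have hsf := rt_k_rw_sf p k
  unfold rtVm
  rw [lintegral_prod _ hf.aemeasurable]
  have e : (Set.Iio (2 ^ k) : Set ℕ) = ((Finset.range (2 ^ k) : Finset ℕ) : Set ℕ) := by
    ext j
    simp
  rw [e, lintegral_finset]
  refine Finset.sum_congr rfl fun j _ => ?_
  rw [Measure.count_singleton, mul_one]

/-- LEAF `L-256-RT-XK-FAR`.  **a state synthesised from the rows `S` of a root cut is negligible on the later rows which are not connected to `S`.**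
For each `j < 2^k`: `rt_k_main` with `S' = {x | (j, x) ∈ Z1}` (measurable section), `(CN Λ^-N 2^((k-k₀)/2))² ≤ CN² Λ^-N 2^k`; `rt_k_ms`; sum over `j` (`lintegral_prod`, `lintegral_count`/finite sum).   ~200 l. -/
theorem rt_xk_far (bm N : ℕ) : ∃ C : ℝ, 0 ≤ C ∧ ∀ (p : RdWvPar) (k₀ j₀ k b b' : ℕ) (Λ : ℝ) (S : Set RdWvPar.Ph) (Z1 : Set RtZ) (F : Lp ℂ 2 (p.rw k₀)), b ≤ bm → b' ≤ bm → 1 ≤ Λ →
    MeasurableSet S → MeasurableSet Z1 → (∀ z ∈ Z1, CutLe (rtTm k₀ j₀) k₀ (rtTm k z.1) k) →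
    (∀ z ∈ Z1, ∀ x ∈ S, ¬ RtNear Λ (rdD p.H k) (rdQ p.H k₀) p.H ((RdWvPar.co 0 x).flow (rtTm k z.1 - rtTm k₀ j₀)) (RdWvPar.co 0 z.2)) →
    ∫⁻ z in Z1, rtVd p k b' (ContinuousLinearMap.adjoint (p.an (rtTm k₀ j₀) k₀ b) ((p.sys 0).mulR k₀ (S.indicator fun _ => 1) F)) z ∂(rtVm p k)
      ≤ ENNReal.ofReal (C * Λ ^ (-(N : ℝ)) * 2 ^ (2 * k) * ‖F‖ ^ 2) := by
  obtain ⟨CN, hCN⟩ := rt_k_main
  refine ⟨CN bm N ^ 2, sq_nonneg _, ?_⟩
  intro p k₀ j₀ k b b' Λ S Z1 F hb hb' hΛ hS hZ1 hcut hfar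
  have h0 : 0 < Λ := by linarith
  set w : RtKc := ContinuousLinearMap.adjoint (p.an (rtTm k₀ j₀) k₀ b) ((p.sys 0).mulR k₀ (S.indicator fun _ => 1) F) with hw
  have hvm := rt_xk_far_vd_meas p k b' w
  rw [← lintegral_indicator hZ1, rt_xk_far_lint p k _ (hvm.indicator hZ1)]
  set B : ℝ := CN bm N ^ 2 * Λ ^ (-(N : ℝ)) * 2 ^ k * ‖F‖ ^ 2 with hB
  have hB0 : 0 ≤ B := by positivity
  have hterm : ∀ j ∈ Finset.range (2 ^ k), ∫⁻ x, Z1.indicator (rtVd p k b' w) (j, x) ∂(p.rw k) ≤ ENNReal.ofReal B := by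
    intro j _
    set S' : Set RdWvPar.Ph := {x | (j, x) ∈ Z1} with hS'
    have hS'm : MeasurableSet S' := measurable_prodMk_left hZ1
    have e1 : ∀ x, Z1.indicator (rtVd p k b' w) (j, x) = S'.indicator (fun x => ‖(p.an (rtTm k j) k b' w : RdWvPar.Ph → ℂ) x‖ₑ ^ 2) x := by
      intro x
      by_cases hx : (j, x) ∈ Z1
      · rw [Set.indicator_of_mem hx, Set.indicator_of_mem (show x ∈ S' from hx)]
        rfl
      · rw [Set.indicator_of_notMem hx, Set.indicator_of_notMem (show x ∉ S' from hx)]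
    simp only [e1]
    rw [lintegral_indicator hS'm]
    by_cases hne : S'.Nonempty
    · obtain ⟨x0, hx0⟩ := hne
      have hc : CutLe (rtTm k₀ j₀) k₀ (rtTm k j) k := hcut (j, x0) hx0
      have hfar' : ∀ x ∈ S, ∀ x' ∈ S', ¬ RtNear Λ (rdD p.H k) (rdQ p.H k₀) p.H ((RdWvPar.co (rtTm k₀ j₀) x).flow (rtTm k j - rtTm k₀ j₀)) (RdWvPar.co (rtTm k j) x') :=
        fun x hx x' hx' => hfar (j, x') hx' x hx
      have h1 := hCN 0 p bm N Λ hΛ (rtTm k₀ j₀) k₀ (rtTm k j) k b b' hc hb hb' S S' hS hS'm hfar' F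
      have h2 := (rt_k_ms p 0 (rtTm k j) k b' S' hS'm w).1
      have h3 : ∫ x in S', ‖(p.an (rtTm k j) k b' w : RdWvPar.Ph → ℂ) x‖ ^ 2 ∂(p.rw k) ≤ B := by
        rw [← h2]
        refine (show (p.sys 0).ms (rtTm k j) k b' S' w ≤ _ from h1).trans ?_
        have hk : (k₀ : ℝ) ≤ k := by exact_mod_cast hc.1
        have e2 : ((2 : ℝ) ^ ((1 / 2 : ℝ) * ((k : ℝ) - k₀))) ^ 2 = 2 ^ ((k : ℝ) - k₀) := by
          rw [← Real.rpow_natCast, ← Real.rpow_mul (by norm_num)]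
          congr 1
          push_cast
          ring
        have e3 : (2 : ℝ) ^ ((k : ℝ) - k₀) ≤ 2 ^ k := by
          rw [← Real.rpow_natCast 2 k]
          exact Real.rpow_le_rpow_of_exponent_le (by norm_num) (by linarith [(Nat.cast_nonneg k₀ : (0 : ℝ) ≤ k₀)])
        have e4 : (Λ ^ (-(N : ℝ))) ^ 2 ≤ Λ ^ (-(N : ℝ)) := by
          have h5 : Λ ^ (-(N : ℝ)) ≤ 1 := Real.rpow_le_one_of_one_le_of_nonpos hΛ (by simp)
          have h6 : 0 ≤ Λ ^ (-(N : ℝ)) := by positivity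
          nlinarith
        rw [mul_pow, mul_pow, e2, hB]
        gcongr
      have hint : Integrable (fun x => ‖(p.an (rtTm k j) k b' w : RdWvPar.Ph → ℂ) x‖ ^ 2) ((p.rw k).restrict S') :=
        (gn_sq_integrable _).restrict
      have e5 : ∫⁻ x in S', ‖(p.an (rtTm k j) k b' w : RdWvPar.Ph → ℂ) x‖ₑ ^ 2 ∂(p.rw k)
          = ENNReal.ofReal (∫ x in S', ‖(p.an (rtTm k j) k b' w : RdWvPar.Ph → ℂ) x‖ ^ 2 ∂(p.rw k)) := by
        rw [ofReal_integral_eq_lintegral_ofReal hint (Filter.Eventually.of_forall fun x => by positivity)]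
        refine lintegral_congr fun x => ?_
        rw [← ofReal_norm, ENNReal.ofReal_pow (norm_nonneg _)]
      rw [e5]
      exact ENNReal.ofReal_le_ofReal h3
    · rw [Set.not_nonempty_iff_eq_empty.1 hne]
      simp
  refine (Finset.sum_le_sum hterm).trans ?_
  rw [Finset.sum_const, Finset.card_range, nsmul_eq_mul]
  have e6 : ((2 ^ k : ℕ) : ℝ≥0∞) = ENNReal.ofReal (2 ^ k) := by
    rw [ENNReal.ofReal_pow (by norm_num)]
    simp
  rw [e6, ← ENNReal.ofReal_mul (by positivity)]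
  apply ENNReal.ofReal_le_ofReal
  rw [hB, pow_mul', sq]
  apply le_of_eq
  ring

/-- LEAF `L-256-RT-XK-V`.  integrals over a lattice view are finite sums -/
theorem rt_xk_lint (p : RdWvPar) (k : ℕ) (f : RtZ → ℝ≥0∞) (hf : Measurable f) :
    ∫⁻ z, f z ∂(rtVm p k) = ∑ j ∈ Finset.range (2 ^ k), ∫⁻ x, f (j, x) ∂(p.rw k) := by
  have := rt_k_rw_sf p k
  unfold rtVm
  rw [lintegral_prod f hf.aemeasurable, ← Finset.coe_range, lintegral_finset]
  simp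

/-- the density of a view is measurable -/
theorem rt_xk_aux_meas (p : RdWvPar) (k b : ℕ) (v : RtKc) : Measurable (rtVd p k b v) := by
  refine measurable_from_prod_countable_right fun j => ?_
  exact ((Lp.stronglyMeasurable (p.an (rtTm k j) k b v)).measurable.enorm).pow_const 2

/-- the square of the norm of an `L²` function -/
theorem rt_xk_aux_norm {α : Type} [MeasurableSpace α] {μ : Measure α} (F : Lp ℂ 2 μ) :
    ∫⁻ x, ‖(F : α → ℂ) x‖ₑ ^ 2 ∂μ = ENNReal.ofReal (‖F‖ ^ 2) := by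
  rw [rt_w1_lint_sq (Lp.memLp F), rt_k_norm_sq]

/-- LEAF `L-256-RT-XK-V`.  the total energy of a lattice view -/
theorem rt_xk_total (p : RdWvPar) (k b : ℕ) (v : RtKc) : ∫⁻ z, rtVd p k b v z ∂(rtVm p k) ≤ ENNReal.ofReal (2 ^ k * ‖v‖ ^ 2) := by
  rw [rt_xk_lint p k _ (rt_xk_aux_meas p k b v)]
  have h : ∀ j ∈ Finset.range (2 ^ k), ∫⁻ x, rtVd p k b v (j, x) ∂(p.rw k) ≤ ENNReal.ofReal (‖v‖ ^ 2) := by
    intro j _
    have e : ∫⁻ x, rtVd p k b v (j, x) ∂(p.rw k) = ENNReal.ofReal (‖p.an (rtTm k j) k b v‖ ^ 2) := by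
      rw [← rt_xk_aux_norm (p.an (rtTm k j) k b v)]
      rfl
    rw [e]
    exact ENNReal.ofReal_le_ofReal (pow_le_pow_left₀ (norm_nonneg _) (rt_w1_contr p _ k b v) 2)
  refine (Finset.sum_le_sum h).trans (le_of_eq ?_)
  rw [Finset.sum_const, Finset.card_range, nsmul_eq_mul, ENNReal.ofReal_mul (by positivity)]
  congr 1
  rw [ENNReal.ofReal_pow (by norm_num)]
  simp

/-- LEAF `L-256-RT-XK-V`.  the density of a view is a.e. measurable -/
theorem rt_xk_meas (p : RdWvPar) (k b : ℕ) (v : RtKc) : AEMeasurable (rtVd p k b v) (rtVm p k) :=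
  (rt_xk_aux_meas p k b v).aemeasurable

/-- LEAF `L-256-RT-XK-V`.  `‖a + b‖² ≤ 2‖a‖² + 2‖b‖²` for views -/
theorem rt_xk_add (p : RdWvPar) (k b : ℕ) (v w : RtKc) : ∀ᵐ z ∂(rtVm p k), rtVd p k b v z ≤ 2 * rtVd p k b w z + 2 * rtVd p k b (v - w) z := by
  have := rt_k_rw_sf p k
  have hm : MeasurableSet {z : RtZ | rtVd p k b v z ≤ 2 * rtVd p k b w z + 2 * rtVd p k b (v - w) z} :=
    measurableSet_le (rt_xk_aux_meas p k b v) (((rt_xk_aux_meas p k b w).const_mul 2).add ((rt_xk_aux_meas p k b (v - w)).const_mul 2))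
  unfold rtVm
  rw [Measure.ae_prod_iff_ae_ae hm]
  refine Filter.Eventually.of_forall fun j => ?_
  have e : p.an (rtTm k j) k b v = p.an (rtTm k j) k b w + p.an (rtTm k j) k b (v - w) := by
    rw [← map_add]; congr 1; abel
  have h := Lp.coeFn_add (p.an (rtTm k j) k b w) (p.an (rtTm k j) k b (v - w))
  rw [← e] at h
  filter_upwards [h] with x hx
  show ‖(p.an (rtTm k j) k b v : RdWvPar.Ph → ℂ) x‖ₑ ^ 2 ≤ 2 * ‖(p.an (rtTm k j) k b w : RdWvPar.Ph → ℂ) x‖ₑ ^ 2 + 2 * ‖(p.an (rtTm k j) k b (v - w) : RdWvPar.Ph → ℂ) x‖ₑ ^ 2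
  rw [hx, Pi.add_apply]
  exact (pow_le_pow_left₀ (zero_le) (enorm_add_le _ _) 2).trans (rt_xa_ker_sq _ _)

theorem rt_xk_flow_zero (r : RtRow) : r.flow 0 = r := by
  unfold RtRow.flow
  ext <;> simp

theorem rt_xk_flow_back (r : RtRow) (T : ℝ) : (((r.flow (-T)).flow 0).flow T) = r := by
  unfold RtRow.flow
  ext <;> simp

theorem rt_xk_tr_tm (r : RtRow) (t : ℝ) : (rtChTr 0).tm r t = t := by
  simp [RtCh.tm, RtCh.dn, rtChTr]

/-- at equal times the association through the trivial chart is nearness -/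
theorem rt_xk_as_of_near (k : ℕ) (H Λ : ℝ) (hΛ : 0 ≤ Λ) (z z' : RtZ) (hz : z.1 = z'.1)
    (h : RtNear Λ (rdD H k) (rdQ H k) H ((RdWvPar.co 0 z'.2).flow 0) (RdWvPar.co 0 z.2)) : RtAs (rtChTr 0) k H k Λ z z' := by
  unfold RtAs RtAsR
  rw [rt_xk_tr_tm, hz, sub_self, abs_zero]
  refine ⟨mul_nonneg hΛ (rdLen_pos k).le, ?_⟩
  have e : ((rtChTr 0).row (rtRay (rtTm k z'.1) z.2)).flow (rtTm k z'.1) = RdWvPar.co 0 z.2 :=
    rt_xk_flow_back (RdWvPar.co 0 z.2) (rtTm k z'.1)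
  rw [e]
  exact h

/-- nearness is a closed condition -/
theorem rt_xk_cut_near_meas (Λ d q H : ℝ) :
    MeasurableSet {w : RtZ × RtZ | RtNear Λ d q H ((RdWvPar.co 0 w.2.2).flow 0) (RdWvPar.co 0 w.1.2)} := by
  have hcl : IsClosed {y : RdWvPar.Ph × RdWvPar.Ph | RtNear Λ d q H ((RdWvPar.co 0 y.2).flow 0) (RdWvPar.co 0 y.1)} := by
    have e : {y : RdWvPar.Ph × RdWvPar.Ph | RtNear Λ d q H ((RdWvPar.co 0 y.2).flow 0) (RdWvPar.co 0 y.1)}
        = {y : RdWvPar.Ph × RdWvPar.Ph | rtSq (y.1.1 - y.2.1) ≤ (Λ * d) ^ 2} ∩ ({y : RdWvPar.Ph × RdWvPar.Ph | rtSq (y.1.2.1 - (y.2.2.1 + (0 : ℝ) • y.2.1)) ≤ (Λ * q) ^ 2}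
          ∩ {y : RdWvPar.Ph × RdWvPar.Ph | |y.1.2.2 - (y.2.2.2 + 0 * rtSq y.2.1) - 2 * rtIp y.2.1 (y.1.2.1 - (y.2.2.1 + (0 : ℝ) • y.2.1))| ≤ Λ * H}) := rfl
    rw [e]
    unfold rtSq rtIp
    refine IsClosed.inter (isClosed_le ?_ ?_) (IsClosed.inter (isClosed_le ?_ ?_) (isClosed_le ?_ ?_))
    all_goals fun_prop
  have hm : Measurable fun w : RtZ × RtZ => (w.1.2, w.2.2) := by fun_prop
  exact hm hcl.measurableSet

/-- an integral over a lattice view of a function carried by one time -/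
theorem rt_xk_lint_le (p : RdWvPar) (k j : ℕ) (M : RtZ → ℝ≥0∞) (hM : Measurable M) (g : RdWvPar.Ph → ℝ≥0∞)
    (h0 : ∀ z, z.1 ≠ j → M z = 0) (hle : ∀ x, M (j, x) ≤ g x) : ∫⁻ z, M z ∂(rtVm p k) ≤ ∫⁻ x, g x ∂(p.rw k) := by
  rw [rt_xk_lint p k M hM]
  calc ∑ j' ∈ Finset.range (2 ^ k), ∫⁻ x, M (j', x) ∂(p.rw k)
      ≤ ∑ j' ∈ Finset.range (2 ^ k), if j' = j then ∫⁻ x, g x ∂(p.rw k) else 0 := by
        refine Finset.sum_le_sum fun j' _ => ?_
        by_cases hj : j' = j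
        · rw [if_pos hj, hj]
          exact lintegral_mono hle
        · rw [if_neg hj]
          simp [h0 (j', _) hj]
    _ ≤ ∫⁻ x, g x ∂(p.rw k) := by
        rw [Finset.sum_ite_eq']
        split_ifs
        · exact le_rfl
        · exact zero_le

/-- the term of one time in an integral over a lattice view -/
theorem rt_xk_le_lint (p : RdWvPar) (k j : ℕ) (hj : j < 2 ^ k) (M : RtZ → ℝ≥0∞) (hM : Measurable M) :
    ∫⁻ x, M (j, x) ∂(p.rw k) ≤ ∫⁻ z, M z ∂(rtVm p k) := by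
  rw [rt_xk_lint p k M hM]
  exact Finset.single_le_sum (f := fun j' => ∫⁻ x, M (j', x) ∂(p.rw k)) (fun _ _ => zero_le) (Finset.mem_range.2 hj)

/-- a.e. on one time of a lattice view -/
theorem rt_xk_ae_one (p : RdWvPar) (k j : ℕ) (P : RtZ → Prop) (h : ∀ᵐ x ∂(p.rw k), P (j, x)) : ∀ᵐ z ∂(rtVm p k), z ∈ {z : RtZ | z.1 = j} → P z := by
  have := rt_k_rw_sf p k
  rw [ae_iff] at h ⊢
  have e : {z : RtZ | ¬ (z ∈ {z : RtZ | z.1 = j} → P z)} = {j} ×ˢ {x : RdWvPar.Ph | ¬ P (j, x)} := by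
    ext ⟨j', x⟩
    simp only [Set.mem_ofPred_eq, Set.mem_prod, Set.mem_singleton_iff, Classical.not_imp]
    constructor
    · rintro ⟨rfl, h2⟩
      exact ⟨rfl, h2⟩
    · rintro ⟨rfl, h2⟩
      exact ⟨rfl, h2⟩
  rw [e]
  unfold rtVm
  rw [Measure.prod_prod, h, mul_zero]

/-- a transfer is monotone in the density of the target view -/
theorem rt_xk_xf_dens {Z Z' : Type} [MeasurableSpace Z] [MeasurableSpace Z'] {ζ : Measure Z} {D : Z → ℝ≥0∞} {ζ' : Measure Z'} {D' D'' : Z' → ℝ≥0∞}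
    {R : Z → Z' → Prop} {Z0 : Set Z} {A ε : ℝ≥0∞} (h : RtXf ζ D ζ' D' R Z0 A ε) (hD : ∀ z', D' z' ≤ D'' z') : RtXf ζ D ζ' D'' R Z0 A ε := by
  intro L θ hθ hc
  obtain ⟨θ', e, a1, a2, a3, a4⟩ := h L θ hθ hc
  refine ⟨θ', e, a1, a2, fun l => (a3 l).trans ?_, a4⟩
  gcongr
  exact hD _

theorem rt_xk_of2 {a b : ℝ} (ha : 0 ≤ a) : 2 * ENNReal.ofReal a * ENNReal.ofReal b = ENNReal.ofReal (2 * a * b) := by
  rw [ENNReal.ofReal_mul (show 0 ≤ 2 * a by positivity), ENNReal.ofReal_mul (show (0 : ℝ) ≤ 2 by norm_num), ENNReal.ofReal_ofNat]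

/-- the two kernels of the cut at equal cuts: measurability, supports, Schur sums -/
theorem rt_xk_cut_kers (p : RdWvPar) (k j : ℕ) (Λ : ℝ) (S : Set RdWvPar.Ph) (hS : MeasurableSet S) (ca cb Cx Cx' : ℝ) (hca : 0 ≤ ca) (hcb : 0 ≤ cb)
    (hx : ∀ x' : RdWvPar.Ph, ∫⁻ x, ENNReal.ofReal (rtKM p.H k k 0 4 x' x) ∂(p.rw k) ≤ ENNReal.ofReal Cx)
    (hx' : ∀ x : RdWvPar.Ph, ∫⁻ x', ENNReal.ofReal (rtKM p.H k k 0 4 x' x) ∂(p.rw k) ≤ ENNReal.ofReal Cx') :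
    ∃ Mn Mf : RtZ → RtZ → ℝ≥0∞, Measurable (Function.uncurry Mn) ∧ Measurable (Function.uncurry Mf) ∧
      (∀ z, ∫⁻ z', Mn z z' ∂(rtVm p k) ≤ ENNReal.ofReal (ca * Cx)) ∧ (∀ z', ∫⁻ z, Mn z z' ∂(rtVm p k) ≤ ENNReal.ofReal (ca * Cx')) ∧
      (∀ z, ∫⁻ z', Mf z z' ∂(rtVm p k) ≤ ENNReal.ofReal (cb * Cx)) ∧ (∀ z', ∫⁻ z, Mf z z' ∂(rtVm p k) ≤ ENNReal.ofReal (cb * Cx')) ∧
      (∀ z z', Mn z z' ≠ 0 → z.1 = j ∧ z'.1 = j ∧ z'.2 ∈ S ∧ RtNear Λ (rdD p.H k) (rdQ p.H k) p.H ((RdWvPar.co 0 z'.2).flow 0) (RdWvPar.co 0 z.2)) ∧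
      (∀ x x' : RdWvPar.Ph, x' ∈ S → RtNear Λ (rdD p.H k) (rdQ p.H k) p.H ((RdWvPar.co 0 x').flow 0) (RdWvPar.co 0 x) →
        Mn (j, x) (j, x') = ENNReal.ofReal (ca * rtKM p.H k k 0 4 x x')) ∧
      (∀ x x' : RdWvPar.Ph, x' ∈ S → ¬ RtNear Λ (rdD p.H k) (rdQ p.H k) p.H ((RdWvPar.co 0 x').flow 0) (RdWvPar.co 0 x) →
        Mf (j, x) (j, x') = ENNReal.ofReal (cb * rtKM p.H k k 0 4 x x')) := by
  have hproj : Measurable fun w : RtZ × RtZ => (w.1.2, w.2.2) := by fun_prop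
  have hKMm : Measurable fun w : RtZ × RtZ => rtKM p.H k k 0 4 w.1.2 w.2.2 := (rt_k_m_meas p.H k k 0 4).comp hproj
  obtain ⟨Nr, hNr⟩ : ∃ Nr : Set (RtZ × RtZ), Nr = {w | RtNear Λ (rdD p.H k) (rdQ p.H k) p.H ((RdWvPar.co 0 w.2.2).flow 0) (RdWvPar.co 0 w.1.2)} := ⟨_, rfl⟩
  have hNrm : MeasurableSet Nr := by rw [hNr]; exact rt_xk_cut_near_meas _ _ _ _
  obtain ⟨E0, hE0⟩ : ∃ E0 : Set (RtZ × RtZ), E0 = {w | w.1.1 = j ∧ w.2.1 = j ∧ w.2.2 ∈ S} := ⟨_, rfl⟩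
  have hE0m : MeasurableSet E0 := by
    have e : E0 = (fun w : RtZ × RtZ => w.1.1) ⁻¹' {j} ∩ ((fun w : RtZ × RtZ => w.2.1) ⁻¹' {j} ∩ (fun w : RtZ × RtZ => w.2.2) ⁻¹' S) := by rw [hE0]; rfl
    rw [e]
    exact ((measurableSet_singleton j).preimage (by fun_prop)).inter (((measurableSet_singleton j).preimage (by fun_prop)).inter (hS.preimage (by fun_prop)))
  -- one kernel
  have one : ∀ (c : ℝ) (E : Set (RtZ × RtZ)), 0 ≤ c → MeasurableSet E → E ⊆ E0 →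
      Measurable (Function.uncurry fun z z' : RtZ => E.indicator (fun w => ENNReal.ofReal (c * rtKM p.H k k 0 4 w.1.2 w.2.2)) (z, z')) ∧
      (∀ z, ∫⁻ z', E.indicator (fun w => ENNReal.ofReal (c * rtKM p.H k k 0 4 w.1.2 w.2.2)) (z, z') ∂(rtVm p k) ≤ ENNReal.ofReal (c * Cx)) ∧
      (∀ z', ∫⁻ z, E.indicator (fun w => ENNReal.ofReal (c * rtKM p.H k k 0 4 w.1.2 w.2.2)) (z, z') ∂(rtVm p k) ≤ ENNReal.ofReal (c * Cx')) := by
    intro c E hc hEm hE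
    have hM : Measurable (Function.uncurry fun z z' : RtZ => E.indicator (fun w => ENNReal.ofReal (c * rtKM p.H k k 0 4 w.1.2 w.2.2)) (z, z')) :=
      (hKMm.const_mul c).ennreal_ofReal.indicator hEm
    have h0 : ∀ z z' : RtZ, (z.1 ≠ j ∨ z'.1 ≠ j) → E.indicator (fun w => ENNReal.ofReal (c * rtKM p.H k k 0 4 w.1.2 w.2.2)) (z, z') = 0 := by
      intro z z' h
      refine Set.indicator_of_notMem (fun hm => ?_) _
      have hm' := hE hm
      rw [hE0] at hm'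
      rcases h with h | h
      · exact h hm'.1
      · exact h hm'.2.1
    have hle : ∀ z z' : RtZ, E.indicator (fun w => ENNReal.ofReal (c * rtKM p.H k k 0 4 w.1.2 w.2.2)) (z, z') ≤ ENNReal.ofReal (c * rtKM p.H k k 0 4 z.2 z'.2) :=
      fun z z' => Set.indicator_le_self _ _ (z, z')
    refine ⟨hM, fun z => ?_, fun z' => ?_⟩
    · refine (rt_xk_lint_le p k j _ (hM.comp measurable_prodMk_left) _ (fun z' h => h0 z z' (Or.inr h)) (fun x' => hle z (j, x'))).trans ?_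
      simp_rw [ENNReal.ofReal_mul hc]
      rw [lintegral_const_mul' _ _ ENNReal.ofReal_ne_top]
      have h := hx z.2
      gcongr
    · refine (rt_xk_lint_le p k j _ (hM.comp measurable_prodMk_right) _ (fun z h => h0 z z' (Or.inl h)) (fun x => hle (j, x) z')).trans ?_
      simp_rw [ENNReal.ofReal_mul hc]
      rw [lintegral_const_mul' _ _ ENNReal.ofReal_ne_top]
      have h := hx' z'.2
      gcongr
  obtain ⟨n1, n2, n3⟩ := one ca (E0 ∩ Nr) hca (hE0m.inter hNrm) Set.inter_subset_left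
  obtain ⟨f1, f2, f3⟩ := one cb (E0 ∩ Nrᶜ) hcb (hE0m.inter hNrm.compl) Set.inter_subset_left
  refine ⟨_, _, n1, f1, n2, n3, f2, f3, fun z z' hne => ?_, fun x x' hxS hn => ?_, fun x x' hxS hn => ?_⟩
  · have hmem : ((z, z') : RtZ × RtZ) ∈ E0 ∩ Nr := by
      by_contra h
      exact hne (Set.indicator_of_notMem h _)
    rw [hE0, hNr] at hmem
    obtain ⟨⟨a1, a2, a3⟩, a4⟩ := hmem
    exact ⟨a1, a2, a3, a4⟩
  · have hmem : (((j, x), (j, x')) : RtZ × RtZ) ∈ E0 ∩ Nr := by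
      rw [hE0, hNr]
      exact ⟨⟨rfl, rfl, hxS⟩, hn⟩
    exact Set.indicator_of_mem hmem _
  · have hmem : (((j, x), (j, x')) : RtZ × RtZ) ∈ E0 ∩ Nrᶜ := by
      rw [hE0, hNr]
      exact ⟨⟨rfl, rfl, hxS⟩, hn⟩
    exact Set.indicator_of_mem hmem _

/-- LEAF `L-256-RT-XK-CUT`.  **the cut at equal cuts.**   `F = 1_S An v` is integrable, `rt_k_rep` with `(T', k') = (T, k)`, `rt_k_bound` (`CutLe T k T k`), near/far by `rt_k_gain`, Schur sums `rt_k_sum_x`, `rt_k_sum_x'`; `rt_xa_ker` with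
`W z' = 1[z'.1 = j, z'.2 ∈ S] ‖An v z'.2‖ₑ`.   `RtAs (rtChTr 0)`: `te = T`, `(row p).flow te` = the source row; the tilt of `RtNear` is the one of the TARGET row = the earlier row of `rtKM`.   ~300 l. -/
theorem rt_xk_cut (bm N : ℕ) : ∃ C : ℝ, 1 ≤ C ∧ ∀ (p : RdWvPar) (k j b b' : ℕ) (Λ : ℝ) (S : Set RdWvPar.Ph) (v : RtKc), b ≤ bm → b' ≤ bm → C ≤ Λ → j < 2 ^ k →
    MeasurableSet S → volume S ≠ ⊤ →
    RtXf (rtVm p k) (rtVd p k b' (rtCut p (rtTm k j) k b S v)) (rtVm p k) (rtVd p k b v)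
      (fun z z' => z'.1 = j ∧ z'.2 ∈ S ∧ RtAs (rtChTr 0) k p.H k Λ z z') {z | z.1 = j}
      (ENNReal.ofReal C) (ENNReal.ofReal (C * Λ ^ (-(N : ℝ)) * ‖v‖ ^ 2)) := by
  obtain ⟨Ca, hCa, hba⟩ := rt_k_bound bm 4
  obtain ⟨Cb, hCb, hbb⟩ := rt_k_bound bm (N + 4)
  obtain ⟨Cx, hCx, hx⟩ := rt_k_sum_x
  obtain ⟨Cx', hCx', hx'⟩ := rt_k_sum_x'
  have hp1 : 0 ≤ 2 * (Ca * Cx) * (Ca * Cx' + 1) := by positivity
  have hp2 : 0 ≤ 2 * (Cb * Cx) * (Cb * Cx') := by positivity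
  refine ⟨3 + 2 * (Ca * Cx) * (Ca * Cx' + 1) + 2 * (Cb * Cx) * (Cb * Cx'), by linarith, ?_⟩
  intro p k j b b' Λ S v hb hb' hΛ hj hS hf
  have hsf := rt_k_rw_sf p k
  have hsfin : SFinite (rtVm p k) := by
    unfold rtVm
    infer_instance
  have hΛ3 : 3 ≤ Λ := by linarith
  have hΛ0 : 0 < Λ := by linarith
  have h8 : 8 ≤ Λ ^ 2 := by nlinarith
  obtain ⟨lam, hlam⟩ : ∃ lam : ℝ, lam = Λ ^ (-(N : ℝ)) := ⟨_, rfl⟩
  have hlam0 : 0 ≤ lam := by rw [hlam]; positivity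
  have hlam1 : lam ≤ 1 := by
    rw [hlam]
    exact Real.rpow_le_one_of_one_le_of_nonpos (by linarith) (by simp)
  rw [← hlam]
  obtain ⟨T, hT⟩ : ∃ T : ℝ, T = rtTm k j := ⟨_, rfl⟩
  have hcl : 0 ≤ Cb * lam := mul_nonneg hCb hlam0
  obtain ⟨Mn, Mf, hMn, hMf, h1, h2, h3, h4, hsup, hMnv, hMfv⟩ := rt_xk_cut_kers p k j Λ S hS Ca (Cb * lam) Cx Cx' hCa hcl
    (fun x' => by
      have h := hx p k k 0 x'
      rwa [sub_self, Real.rpow_zero, mul_one] at h) (fun x => hx' p k k 0 x)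
  have hU0m : Measurable fun z' : RtZ => ‖(p.an (rtTm k z'.1) k b v : RdWvPar.Ph → ℂ) z'.2‖ₑ :=
    measurable_from_prod_countable_right fun j' => (Lp.stronglyMeasurable (p.an (rtTm k j') k b v)).measurable.enorm
  have hJm : MeasurableSet {z' : RtZ | z'.1 = j} := (measurableSet_singleton j).preimage measurable_fst
  obtain ⟨W, hWd⟩ : ∃ W : RtZ → ℝ≥0∞, W = {z' : RtZ | z'.1 = j}.indicator (fun z' => ‖(p.an (rtTm k z'.1) k b v : RdWvPar.Ph → ℂ) z'.2‖ₑ) := ⟨_, rfl⟩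
  have hWm : Measurable W := by rw [hWd]; exact hU0m.indicator hJm
  -- the kernel bound
  have hKK : ∀ x x' : RdWvPar.Ph, x' ∈ S → ‖rtKK p T k b T k b' x x'‖ₑ ≤ Mn (j, x) (j, x') + Mf (j, x) (j, x') := by
    intro x x' hxS
    rw [← ofReal_norm]
    by_cases hn : RtNear Λ (rdD p.H k) (rdQ p.H k) p.H ((RdWvPar.co 0 x').flow 0) (RdWvPar.co 0 x)
    · refine le_trans ?_ le_self_add
      rw [hMnv x x' hxS hn]
      have h := hba p T k T k b b' (gn_cutle_refl T k) hb hb' x x'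
      rw [sub_self] at h
      exact ENNReal.ofReal_le_ofReal h
    · refine le_trans ?_ le_add_self
      rw [hMfv x x' hxS hn]
      have h := hbb p T k T k b b' (gn_cutle_refl T k) hb hb' x x'
      rw [sub_self] at h
      have hg := rt_k_gain p.H_pos k k 0 0 0 N hΛ0 h8 x x' hn
      rw [← hlam] at hg
      refine ENNReal.ofReal_le_ofReal (h.trans ?_)
      rw [mul_assoc]
      exact mul_le_mul_of_nonneg_left hg hCb
  -- domination
  have key : ∀ F₁ : Lp ℂ 2 (p.rw k), Integrable (F₁ : RdWvPar.Ph → ℂ) (p.rw k) → (F₁ : RdWvPar.Ph → ℂ) =ᵐ[p.rw k] S.indicator (p.an T k b v : RdWvPar.Ph → ℂ) →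
      ∀ᵐ x ∂(p.rw k), ‖(p.an T k b' (ContinuousLinearMap.adjoint (p.an T k b) F₁) : RdWvPar.Ph → ℂ) x‖ₑ
        ≤ ∫⁻ z', (Mn (j, x) z' + Mf (j, x) z') * W z' ∂(rtVm p k) := by
    intro F₁ hint hcoe
    filter_upwards [rt_k_rep p T k b T k b' F₁ hint] with x hxr
    rw [hxr]
    calc ‖∫ x', rtKK p T k b T k b' x x' * (F₁ : RdWvPar.Ph → ℂ) x' ∂(p.rw k)‖ₑ
        ≤ ∫⁻ x', ‖rtKK p T k b T k b' x x' * (F₁ : RdWvPar.Ph → ℂ) x'‖ₑ ∂(p.rw k) := enorm_integral_le_lintegral_enorm _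
      _ ≤ ∫⁻ x', (Mn (j, x) (j, x') + Mf (j, x) (j, x')) * W (j, x') ∂(p.rw k) := by
          refine lintegral_mono_ae ?_
          filter_upwards [hcoe] with x' hx'c
          rw [enorm_mul, hx'c]
          by_cases hxS : x' ∈ S
          · rw [Set.indicator_of_mem hxS]
            have hW : W (j, x') = ‖(p.an T k b v : RdWvPar.Ph → ℂ) x'‖ₑ := by
              rw [hWd, Set.indicator_of_mem (show ((j, x') : RtZ) ∈ {z' : RtZ | z'.1 = j} from rfl), hT]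
            rw [hW]
            gcongr
            exact hKK x x' hxS
          · rw [Set.indicator_of_notMem hxS, enorm_zero, mul_zero]
            exact zero_le
      _ ≤ ∫⁻ z', (Mn (j, x) z' + Mf (j, x) z') * W z' ∂(rtVm p k) :=
          rt_xk_le_lint p k j hj (fun z' => (Mn (j, x) z' + Mf (j, x) z') * W z')
            (((hMn.comp measurable_prodMk_left).add (hMf.comp measurable_prodMk_left)).mul hWm)
  have hdom : ∀ᵐ z ∂(rtVm p k), z ∈ {z : RtZ | z.1 = j} →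
      ‖(p.an (rtTm k z.1) k b' (rtCut p (rtTm k j) k b S v) : RdWvPar.Ph → ℂ) z.2‖ₑ ≤ ∫⁻ z', (Mn z z' + Mf z z') * W z' ∂(rtVm p k) := by
    refine rt_xk_ae_one p k j (fun z => ‖(p.an (rtTm k z.1) k b' (rtCut p (rtTm k j) k b S v) : RdWvPar.Ph → ℂ) z.2‖ₑ ≤ ∫⁻ z', (Mn z z' + Mf z z') * W z' ∂(rtVm p k)) ?_
    show ∀ᵐ x ∂(p.rw k), ‖(p.an (rtTm k j) k b' (rtCut p (rtTm k j) k b S v) : RdWvPar.Ph → ℂ) x‖ₑ ≤ ∫⁻ z', (Mn (j, x) z' + Mf (j, x) z') * W z' ∂(rtVm p k)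
    rw [← hT]
    obtain ⟨F₁, hF₁⟩ : ∃ F₁ : Lp ℂ 2 (p.rw k), F₁ = (p.sys 0).mulR k (S.indicator fun _ => 1) (p.an T k b v) := ⟨_, rfl⟩
    have hcut : rtCut p T k b S v = ContinuousLinearMap.adjoint (p.an T k b) F₁ := by rw [hF₁]; rfl
    have hint : Integrable (F₁ : RdWvPar.Ph → ℂ) (p.rw k) := by rw [hF₁]; exact rt_xk_mulR_int p k S hS hf (p.an T k b v)
    have hcoe : (F₁ : RdWvPar.Ph → ℂ) =ᵐ[p.rw k] S.indicator (p.an T k b v : RdWvPar.Ph → ℂ) := by rw [hF₁]; exact rt_k_mulR_coe p 0 k S hS (p.an T k b v)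
    rw [hcut]
    exact key F₁ hint hcoe
  have hker := rt_xa_ker (ζ := rtVm p k) (ζ' := rtVm p k)
    (fun z => ‖(p.an (rtTm k z.1) k b' (rtCut p (rtTm k j) k b S v) : RdWvPar.Ph → ℂ) z.2‖ₑ) W hWm.aemeasurable Mn Mf hMn hMf {z : RtZ | z.1 = j} hdom
    (ENNReal.ofReal (Ca * Cx)) (ENNReal.ofReal (Ca * Cx' + 1)) (ENNReal.ofReal (Cb * lam * Cx)) (ENNReal.ofReal (Cb * lam * Cx'))
    ENNReal.ofReal_ne_top (by
      rw [Ne, ENNReal.ofReal_eq_zero, not_le]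
      positivity) h1 (fun z' => (h2 z').trans (ENNReal.ofReal_le_ofReal (by linarith))) h3 h4
  have hWle : ∀ z', W z' ^ 2 ≤ rtVd p k b v z' := by
    intro z'
    rw [hWd]
    by_cases hz : z'.1 = j
    · rw [Set.indicator_of_mem (show z' ∈ {z' : RtZ | z'.1 = j} from hz)]
      exact le_rfl
    · rw [Set.indicator_of_notMem (show z' ∉ {z' : RtZ | z'.1 = j} from hz)]
      simp
  have hW2 : ∫⁻ z', W z' ^ 2 ∂(rtVm p k) ≤ ENNReal.ofReal (‖v‖ ^ 2) := by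
    refine (rt_xk_lint_le p k j (fun z' => W z' ^ 2) (hWm.pow_const 2) (fun x' => ‖(p.an (rtTm k j) k b v : RdWvPar.Ph → ℂ) x'‖ₑ ^ 2) ?_ ?_).trans ?_
    · intro z' hz
      rw [hWd, Set.indicator_of_notMem (show z' ∉ {z' : RtZ | z'.1 = j} from hz)]
      simp
    · intro x'
      exact hWle (j, x')
    · rw [rt_xk_aux_norm]
      exact ENNReal.ofReal_le_ofReal (pow_le_pow_left₀ (norm_nonneg _) (rt_w1_contr p _ k b v) 2)
  refine rt_xa_mono (rt_xk_xf_dens hker hWle) ?_ subset_rfl ?_ ?_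
  · intro z hz z' hne
    obtain ⟨a1, a2, a3, a4⟩ := hsup z z' hne
    exact ⟨a2, a3, rt_xk_as_of_near k p.H Λ hΛ0.le z z' (a1.trans a2.symm) a4⟩
  · rw [rt_xk_of2 (by positivity)]
    exact ENNReal.ofReal_le_ofReal (by linarith)
  · calc 2 * ENNReal.ofReal (Cb * lam * Cx) * ENNReal.ofReal (Cb * lam * Cx') * ∫⁻ z', W z' ^ 2 ∂(rtVm p k)
        ≤ 2 * ENNReal.ofReal (Cb * lam * Cx) * ENNReal.ofReal (Cb * lam * Cx') * ENNReal.ofReal (‖v‖ ^ 2) := by gcongr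
      _ = ENNReal.ofReal (2 * (Cb * lam * Cx) * (Cb * lam * Cx') * ‖v‖ ^ 2) := by
          rw [rt_xk_of2 (by positivity), ← ENNReal.ofReal_mul (by positivity)]
      _ ≤ _ := by
          refine ENNReal.ofReal_le_ofReal ?_
          have e : 2 * (Cb * lam * Cx) * (Cb * lam * Cx') * ‖v‖ ^ 2 = (2 * (Cb * Cx) * (Cb * Cx')) * (lam * lam) * ‖v‖ ^ 2 := by ring
          rw [e]
          have h5 : lam * lam ≤ lam := by nlinarith
          have h6 : (2 * (Cb * Cx) * (Cb * Cx')) * (lam * lam) ≤ (3 + 2 * (Ca * Cx) * (Ca * Cx' + 1) + 2 * (Cb * Cx) * (Cb * Cx')) * lam :=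
            mul_le_mul (by linarith) h5 (by positivity) (by linarith)
          exact mul_le_mul_of_nonneg_right h6 (by positivity)

end Claimed.Agent.R256
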