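-- KEEP
import Claimed.Agent.R256.Rt.PwDat
import Claimed.Agent.R256.Rt.XkContract

/-!
# Row 256 (LS paper), folder Rt, file PwOutAsg : OUTPUT HALF OF THE GLUE `rt_patch_wv`, ASSIGNMENTS AND LABELS          (architect helper236; prefix `rt_po_`, defs `rtPo*`)          CONTRACT FILE

Measure theory on views (time index × rows) and finite sums.   No geometry, no paper.      Every `sorry` is a LEAF `L-256-RT-PWO-*` (subtask target `row256`): prove IN PLACE, statement verbatim, auxiliary lemmas directly above with prefix `rt_po_<leaf>_`.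
* `rtPoTh p E l`      the fractional weight of the label `l` of the experiment `E` as a function on the terminal view: `(j, x) ↦ [j = iv l] th l x`.
      SRC:  it is an assignment (`RtAsg`), its energy in the physical view `(rtVmP p kf I, rtVdP p kf bT v)` is `m l` (free experiment).
* TGT:  the energy of a weight `θ ≤ 1` in the view `(rtVmP p1 k (Iio 2^k), rtVdP p1 k b G)` is the finite sum of the row energies `en` of its slices.
* FLATTENING.   New labels = pairs (old label `l`, offset `a < K`), `Fin (L * K)` through `finProdFinEquiv`:   `rtPoLab` (old label), `rtPoJ` (time index `j0 l + a`), `rtPoIv`, `rtPoThF`, `rtPoTcF` (void label if `j0 l + a ≥ N`).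
      FL1 (sum over the labels of one time), FL2 (fibres have `K` elements), FL3 (sum over a fibre = sum over the times).
TOOLS: `rt_xk_lint`, `rt_xk_aux_meas` (`Rt/XkContract.lean`: the same facts for the clock `rtTm`; copy the proofs), `rt_k_rw_sf` (σ-finiteness of the row measure), `gn_en_integrable`, `gn_sq_integrable`, `IsMask` (`Gen/BasA`, `Gen/BasB`).
-/

set_option autoImplicit false

namespace Claimed.Agent.R256

open MeasureTheory
open scoped ENNReal

/-- the weight of a label on the terminal view -/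
noncomputable def rtPoTh {η : ℝ} (p : RdWvPar) (E : Xp (p.sys η)) (l : Fin E.L) (z : RtZ) : ℝ≥0∞ :=
  if z.1 = E.iv l then ENNReal.ofReal (E.th l z.2) else 0

/-- the old label of a flattened label -/
def rtPoLab (L K : ℕ) (l' : Fin (L * K)) : Fin L := (finProdFinEquiv.symm l').1

/-- the time index of a flattened label -/
def rtPoJ (L K : ℕ) (j0 : Fin L → ℕ) (l' : Fin (L * K)) : ℕ := j0 (rtPoLab L K l') + ((finProdFinEquiv.symm l').2 : ℕ)

/-- the time index, `0` for void labels -/
def rtPoIv (L K N : ℕ) (j0 : Fin L → ℕ) (l' : Fin (L * K)) : ℕ := if rtPoJ L K j0 l' < N then rtPoJ L K j0 l' else 0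

/-- the weight, `0` for void labels -/
noncomputable def rtPoThF {X : Type} (L K N : ℕ) (j0 : Fin L → ℕ) (th : Fin L → ℕ → X → ℝ) (l' : Fin (L * K)) : X → ℝ :=
  if rtPoJ L K j0 l' < N then th (rtPoLab L K l') (rtPoJ L K j0 l') else fun _ => 0

/-- the test -/
def rtPoTcF (L K N : ℕ) (j0 : Fin L → ℕ) (tc : Fin L → ℕ → CyT) (l' : Fin (L * K)) : CyT := tc (rtPoLab L K l') (rtPoIv L K N j0 l')

theorem rt_po_asg_eqns_cite : True := by
  have := @rtPoTh.eq_1
  have := @rtPoLab.eq_1
  have := @rtPoJ.eq_1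
  have := @rtPoIv.eq_1
  have := @rtPoThF.eq_1
  have := @rtPoTcF.eq_1
  trivial

/-! ## 1. The source -/

/-- LEAF `L-256-RT-PWO-SRC1`.   Measurable: `measurable_from_prod_countable_right` (the time index is discrete), each slice is `ofReal ∘ th l` or `0` (`hV.th_meas`).
Sum: `∑_l [j = iv l] ofReal (th l x) = ofReal (∑_l [iv l = j] th l x) ≤ ofReal 1` (`ENNReal.ofReal_sum_of_nonneg`, `hV.th_nn`, `hV.th_sum j x`). -/
theorem rt_po_src_asg {η : ℝ} (p : RdWvPar) (E : Xp (p.sys η)) (hV : E.Valid) : RtAsg E.L (rtPoTh p E) := by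
  refine ⟨fun l => ?_, fun z => ?_⟩
  · refine measurable_from_prod_countable_right fun j => ?_
    have hthm : Measurable (fun x : RdWvPar.Ph => E.th l x) := hV.th_meas l
    unfold rtPoTh
    by_cases hj : j = E.iv l
    · simp only [hj, if_true]
      exact hthm.ennreal_ofReal
    · simp only [hj, if_false]
      exact measurable_const
  · have e : ∀ l, rtPoTh p E l z = ENNReal.ofReal (if E.iv l = z.1 then E.th l z.2 else 0) := by
      intro l
      unfold rtPoTh
      by_cases h : z.1 = E.iv l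
      · rw [if_pos h, if_pos h.symm]
      · rw [if_neg h, if_neg (fun h' => h h'.symm), ENNReal.ofReal_zero]
    simp only [e]
    rw [← ENNReal.ofReal_sum_of_nonneg]
    · rw [← ENNReal.ofReal_one]
      exact ENNReal.ofReal_le_ofReal (hV.th_sum z.1 z.2)
    · intro l _
      split_ifs
      · exact hV.th_nn l z.2
      · exact le_rfl

/-- a function on `ℕ` that vanishes off one point of `I` -/
theorem rt_po_src2_count (I : Set ℕ) (F : ℕ → ℝ≥0∞) (j0 : ℕ) (hj0 : j0 ∈ I) (hF : ∀ j, j ≠ j0 → F j = 0) :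
    ∫⁻ j in I, F j ∂(Measure.count : Measure ℕ) = F j0 := by
  rw [← lintegral_indicator (MeasurableSet.of_discrete), lintegral_count, tsum_eq_single j0]
  · exact Set.indicator_of_mem hj0 F
  · intro j hj
    by_cases h : j ∈ I
    · rw [Set.indicator_of_mem h, hF j hj]
    · exact Set.indicator_of_notMem h F

/-- LEAF `L-256-RT-PWO-SRC2`.   `rtVmP p k I = (count.restrict I).prod (p.rw k)`;   `lintegral_prod` (measurability as in `rt_xk_aux_meas`; `rt_k_rw_sf`);   the function of `j` vanishes off `{iv l}`: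
`∫⁻ j in I, F j ∂count = F (iv l)`  (write `F = {iv l}.indicator F`, `lintegral_indicator`, `Measure.restrict_restrict`, `I ∩ {iv l} = {iv l}`, `lintegral_singleton`/`Measure.restrict_singleton`, `Measure.count_singleton`).
Then `∫⁻ x, ofReal (th l x) * ‖An v x‖ₑ² ∂rw = ofReal (∫ x, th l x * ‖An v x‖² ∂rw)` (`ofReal_integral_eq_lintegral_ofReal`, `gn_en_integrable` with the mask `th l`: `th l x ≤ 1` by `hV.th_sum (iv l) x` and `Finset.single_le_sum`;
`ENNReal.ofReal_mul`, `ofReal_norm`, `ENNReal.ofReal_pow`).   `E.m l = en (tmL kf (iv l)) kf bT (th l) (E.fin (iv l))`, `E.fin i = E.v` because `E.st = []` (`Xp.fin`, `Xp.run`). -/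
theorem rt_po_src_int {η : ℝ} (p : RdWvPar) (E : Xp (p.sys η)) (hV : E.Valid) (hst : E.st = []) (I : Set ℕ) (l : Fin E.L) (hl : E.iv l ∈ I) :
    ∫⁻ z, rtPoTh p E l z * rtVdP p E.kf E.bT E.v z ∂(rtVmP p E.kf I) = ENNReal.ofReal (E.m l) := by
  have hsf := rt_k_rw_sf p E.kf
  have hmask := gn_th_mask E hV l
  have hthm : Measurable (fun x : RdWvPar.Ph => E.th l x) := hV.th_meas l
  have hm : Measurable (fun z : RtZ => rtPoTh p E l z * rtVdP p E.kf E.bT E.v z) := by
    refine measurable_from_prod_countable_right fun j => ?_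
    have h2 : Measurable (fun x : RdWvPar.Ph => rtVdP p E.kf E.bT E.v (j, x)) :=
      ((Lp.stronglyMeasurable (p.an (tmL E.kf j) E.kf E.bT E.v)).measurable.enorm).pow_const 2
    have h1 : Measurable (fun x : RdWvPar.Ph => rtPoTh p E l (j, x)) := by
      unfold rtPoTh
      by_cases hj : j = E.iv l
      · simp only [hj, if_true]
        exact hthm.ennreal_ofReal
      · simp only [hj, if_false]
        exact measurable_const
    exact h1.mul h2
  unfold rtVmP
  rw [lintegral_prod _ hm.aemeasurable]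
  rw [rt_po_src2_count I _ (E.iv l) hl (fun j hj => by
    have : ∀ x : RdWvPar.Ph, rtPoTh p E l (j, x) * rtVdP p E.kf E.bT E.v (j, x) = 0 := by
      intro x
      unfold rtPoTh
      rw [if_neg hj, zero_mul]
    simp only [this, lintegral_zero])]
  have hfin : E.fin (E.iv l) = E.v := by
    unfold Xp.fin
    rw [hst]
    rfl
  have hint := gn_en_integrable (P := p.sys η) (tmL E.kf (E.iv l)) E.kf E.bT hmask E.v
  have e1 : E.m l = ∫ x, E.th l x * ‖((p.sys η).An (tmL E.kf (E.iv l)) E.kf E.bT E.v : (p.sys η).X → (p.sys η).Fb) x‖ ^ 2 ∂((p.sys η).rho E.kf) := by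
    unfold Xp.m PkSys.en
    rw [hfin]
  rw [e1, ofReal_integral_eq_lintegral_ofReal hint (Filter.Eventually.of_forall fun x => mul_nonneg (hmask.2 x).1 (by positivity))]
  refine lintegral_congr fun x => ?_
  unfold rtPoTh rtVdP
  rw [if_pos rfl, ENNReal.ofReal_mul (hmask.2 x).1, ENNReal.ofReal_pow (norm_nonneg _), ofReal_norm]
  rfl

/-- the carrier of the weight of a label -/
theorem rt_po_src_supp {η : ℝ} (p : RdWvPar) (E : Xp (p.sys η)) (hV : E.Valid) (l : Fin E.L) (z : RtZ) (h : rtPoTh p E l z ≠ 0) :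
    z.1 = E.iv l ∧ RdWvPar.co 0 z.2 ∈ RdTst.rows (E.ts l) E.kf := by
  unfold rtPoTh at h
  by_cases h1 : z.1 = E.iv l
  · rw [if_pos h1] at h
    refine ⟨h1, hV.th_supp l z.2 fun h0 => h ?_⟩
    rw [h0]
    simp
  · rw [if_neg h1] at h
    exact absurd rfl h

/-! ## 2. The target -/

/-- the density of a view in the physical clock is measurable -/
theorem rt_po_tgt_meas (p : RdWvPar) (k b : ℕ) (v : RtKc) : Measurable (rtVdP p k b v) := by
  refine measurable_from_prod_countable_right fun j => ?_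
  exact ((Lp.stronglyMeasurable (p.an (tmL k j) k b v)).measurable.enorm).pow_const 2

/-- one slice: the weighted row energy -/
theorem rt_po_tgt_slice (p1 : RdWvPar) (T : ℝ) (k b : ℕ) (G : RtKc) (φ : RdWvPar.Ph → ℝ≥0∞) (hm : Measurable φ) (h1 : ∀ x, φ x ≤ 1) :
    ∫⁻ x, φ x * ‖(p1.an T k b G : RdWvPar.Ph → ℂ) x‖ₑ ^ 2 ∂(p1.rw k)
      = ENNReal.ofReal ((p1.sys 0).en T k b (fun x => (φ x).toReal) G) := by
  have hmask : IsMask (fun x : (p1.sys 0).X => (φ x).toReal) :=
    ⟨hm.ennreal_toReal, fun x => ⟨ENNReal.toReal_nonneg, by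
      have := ENNReal.toReal_mono ENNReal.one_ne_top (h1 x)
      simpa using this⟩⟩
  have hi : Integrable (fun x : RdWvPar.Ph => (φ x).toReal * ‖(p1.an T k b G : RdWvPar.Ph → ℂ) x‖ ^ 2) (p1.rw k) :=
    gn_en_integrable (P := p1.sys 0) T k b hmask G
  have e : (p1.sys 0).en T k b (fun x => (φ x).toReal) G
      = ∫ x, (φ x).toReal * ‖(p1.an T k b G : RdWvPar.Ph → ℂ) x‖ ^ 2 ∂(p1.rw k) := rfl
  rw [e, ofReal_integral_eq_lintegral_ofReal hi
    (Filter.Eventually.of_forall fun x => mul_nonneg ENNReal.toReal_nonneg (by positivity))]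
  refine lintegral_congr fun x => ?_
  rw [ENNReal.ofReal_mul ENNReal.toReal_nonneg, ENNReal.ofReal_toReal (ne_top_of_le_ne_top ENNReal.one_ne_top (h1 x)),
    ENNReal.ofReal_pow (norm_nonneg _), ofReal_norm]

/-- LEAF `L-256-RT-PWO-TGT`.   As `rt_xk_lint` (`lintegral_prod`, `Finset.coe_range`, `lintegral_finset`, `Measure.count_singleton`): `∫⁻ = ∑_{j < 2^k} ∫⁻ x, θ (j, x) * ‖An(tmL k j) G x‖ₑ² ∂rw`;
each term `= ofReal (en (tmL k j) k b (fun x => (θ (j, x)).toReal) G)` (as in SRC2: `θ = ofReal (toReal θ)` since `θ ≤ 1 < ⊤`; mask: `ENNReal.toReal_mono`, `Measurable.ennreal_toReal`);   `ENNReal.ofReal_sum_of_nonneg` (`gn_en_nonneg`). -/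
theorem rt_po_tgt_int (p1 : RdWvPar) (k b : ℕ) (G : RtKc) (θ : RtZ → ℝ≥0∞) (hm : Measurable θ) (h1 : ∀ z, θ z ≤ 1) :
    ∫⁻ z, θ z * rtVdP p1 k b G z ∂(rtVmP p1 k (Set.Iio (2 ^ k)))
      = ENNReal.ofReal (∑ j ∈ Finset.range (2 ^ k), (p1.sys 0).en (tmL k j) k b (fun x => (θ (j, x)).toReal) G) := by
  have := rt_k_rw_sf p1 k
  have e1 := rt_xk_lint_gen (p1.rw k) (2 ^ k) (fun z => θ z * rtVdP p1 k b G z) (hm.mul (rt_po_tgt_meas p1 k b G))
  have e2 := ENNReal.ofReal_sum_of_nonneg (s := Finset.range (2 ^ k))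
    (f := fun j => (p1.sys 0).en (tmL k j) k b (fun x => (θ (j, x)).toReal) G)
    fun j _ => gn_en_nonneg (P := p1.sys 0) (tmL k j) k b (fun x => ENNReal.toReal_nonneg) G
  refine e1.trans (Eq.trans ?_ e2.symm)
  refine Finset.sum_congr rfl fun j _ => ?_
  exact rt_po_tgt_slice p1 (tmL k j) k b G (fun x => θ (j, x)) (hm.comp measurable_prodMk_left) (fun x => h1 (j, x))

/-! ## 3. Flattening -/

/-- LEAF `L-256-RT-PWO-FL1`.   `Equiv.sum_comp finProdFinEquiv`, `Fintype.sum_prod_type`: the sum is `∑_l ∑_{a < K} …`;   for fixed `l` at most one `a` has `j0 l + a = i` (`Finset.sum_le_…`/`Finset.sum_ite_eq`-type argument: the filter has card `≤ 1`), void labels contribute `0`. -/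
theorem rt_po_fl1 (L K N : ℕ) (j0 : Fin L → ℕ) (h : Fin L → ℕ → ℝ) (hh : ∀ l j, 0 ≤ h l j) (i : ℕ) :
    ∑ l' : Fin (L * K), (if rtPoIv L K N j0 l' = i then (if rtPoJ L K j0 l' < N then h (rtPoLab L K l') (rtPoJ L K j0 l') else 0) else 0) ≤ ∑ l, h l i := by
  classical
  rw [← Equiv.sum_comp finProdFinEquiv, Fintype.sum_prod_type]
  refine Finset.sum_le_sum fun l _ => ?_
  have hterm : ∀ a : Fin K, (if rtPoIv L K N j0 (finProdFinEquiv (l, a)) = i then
      (if rtPoJ L K j0 (finProdFinEquiv (l, a)) < N then h (rtPoLab L K (finProdFinEquiv (l, a))) (rtPoJ L K j0 (finProdFinEquiv (l, a))) else 0) else 0)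
      ≤ if j0 l + (a : ℕ) = i then h l i else 0 := by
    intro a
    have e1 : rtPoLab L K (finProdFinEquiv (l, a)) = l := by
      unfold rtPoLab; rw [Equiv.symm_apply_apply]
    have e2 : rtPoJ L K j0 (finProdFinEquiv (l, a)) = j0 l + (a : ℕ) := by
      unfold rtPoJ; rw [e1, Equiv.symm_apply_apply]
    unfold rtPoIv
    rw [e1, e2]
    by_cases hN : j0 l + (a : ℕ) < N
    · simp only [hN, if_true]
      by_cases hi : j0 l + (a : ℕ) = i
      · rw [if_pos hi, if_pos hi, hi]
      · rw [if_neg hi, if_neg hi]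
    · simp only [hN, if_false, ite_self]
      split_ifs
      · exact hh l i
      · exact le_rfl
  refine (Finset.sum_le_sum fun a _ => hterm a).trans ?_
  -- at most one offset
  by_cases hex : ∃ a : Fin K, j0 l + (a : ℕ) = i
  · obtain ⟨a0, ha0⟩ := hex
    rw [Finset.sum_eq_single a0]
    · rw [if_pos ha0]
    · intro b _ hb
      rw [if_neg]
      intro hbi
      apply hb
      apply Fin.ext
      omega
    · intro hn
      exact absurd (Finset.mem_univ a0) hn
  · push Not at hex
    rw [Finset.sum_eq_zero]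
    · exact hh l i
    · intro a _
      rw [if_neg (hex a)]

/-- a sum over a fibre of `rtPoLab` -/
theorem rt_po_fl23_fib (L K : ℕ) (l0 : Fin L) (F : Fin (L * K) → ℝ) :
    ∑ l' ∈ Finset.univ.filter (fun l' : Fin (L * K) => rtPoLab L K l' = l0), F l' = ∑ a : Fin K, F (finProdFinEquiv (l0, a)) := by
  classical
  rw [Finset.sum_filter, ← Equiv.sum_comp finProdFinEquiv, Fintype.sum_prod_type]
  have h : ∀ (x : Fin L) (y : Fin K), rtPoLab L K (finProdFinEquiv (x, y)) = x := by
    intro x y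
    unfold rtPoLab
    rw [Equiv.symm_apply_apply]
  simp only [h]
  rw [Finset.sum_eq_single l0]
  · simp
  · intro b _ hb
    simp [hb]
  · intro hb
    exact absurd (Finset.mem_univ _) hb

/-- LEAF `L-256-RT-PWO-FL2`.   The fibre of `rtPoLab` over `l0` is the image of `a ↦ finProdFinEquiv (l0, a)`. -/
theorem rt_po_fl2 (L K : ℕ) (l0 : Fin L) : (Finset.univ.filter fun l' : Fin (L * K) => rtPoLab L K l' = l0).card = K := by
  have h := rt_po_fl23_fib L K l0 (fun _ => 1)
  simp only [Finset.sum_const, Finset.card_univ, Fintype.card_fin, nsmul_eq_mul, mul_one] at h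
  exact_mod_cast h

/-- LEAF `L-256-RT-PWO-FL3`.   The fibre is the image of `a ↦ finProdFinEquiv (l0, a)` (`Finset.sum_image`/`Finset.sum_bij`): the left side is `∑_{a < K} [j0 l0 + a < N] g (j0 l0 + a)`;
the right side: only `j ∈ [j0 l0, j0 l0 + K) ∩ [0, N)` contribute (`hg`); reindex `j = j0 l0 + a` (`Finset.sum_subset`, `Finset.sum_bij_ne_zero` or `Finset.sum_nbij'`). -/
theorem rt_po_fl3 (L K N : ℕ) (j0 : Fin L → ℕ) (l0 : Fin L) (g : ℕ → ℝ) (hg : ∀ j, j < N → g j ≠ 0 → j0 l0 ≤ j ∧ j < j0 l0 + K) :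
    ∑ l' ∈ Finset.univ.filter (fun l' : Fin (L * K) => rtPoLab L K l' = l0), (if rtPoJ L K j0 l' < N then g (rtPoJ L K j0 l') else 0)
      = ∑ j ∈ Finset.range N, g j := by
  classical
  rw [rt_po_fl23_fib]
  have h : ∀ a : Fin K, rtPoJ L K j0 (finProdFinEquiv (l0, a)) = j0 l0 + (a : ℕ) := by
    intro a
    unfold rtPoJ rtPoLab
    rw [Equiv.symm_apply_apply]
  simp only [h]
  rw [Fin.sum_univ_eq_sum_range (fun a => if j0 l0 + a < N then g (j0 l0 + a) else 0) K]
  -- both sides as sums over the interval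
  have e1 : ∑ a ∈ Finset.range K, (if j0 l0 + a < N then g (j0 l0 + a) else 0) = ∑ j ∈ Finset.Ico (j0 l0) (j0 l0 + K), (if j < N then g j else 0) := by
    rw [Finset.sum_Ico_eq_sum_range]
    simp
  rw [e1, ← Finset.sum_filter]
  symm
  refine Finset.sum_subset_zero_on_sdiff ?_ ?_ (fun _ _ => rfl) |>.symm
  · intro j hj
    rw [Finset.mem_filter] at hj
    exact Finset.mem_range.2 hj.2
  · intro j hj
    rw [Finset.mem_sdiff, Finset.mem_range, Finset.mem_filter, Finset.mem_Ico] at hj
    by_contra h0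
    exact hj.2 ⟨hg j hj.1 h0, hj.1⟩

end Claimed.Agent.R256
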