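import Claimed.Agent.R256.Rt.EndliftContract
import Claimed.Agent.R256.Rt.PatchDefs

/-!
# Row 256, folder Rt, file LiftPatch: (lift), (endlift) IN PHYSICAL UNITS, for the patch data of `Rt/Patch.lean`      (helper144; prefix `rt_lp_`)      SORRY-FREE

`Rt/LiftContract.lean`, `Rt/EndliftContract.lean` work with rows NORMALISED by the parent frame.   Here: parent frame `(l, r, c)` (`rtNrm l r c`, `= d.N E` for patch data), physical rows `x`, physical labels `σ : RtTest`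
(`= Q.toT k`) read at the physical time offset `t = T - T0`.
* `rt_lp_flow`          `((rtNrm l r c).row x).flow (t/l) = rtLfNrm l r (c.flow t) (x.flow t)`
* `rtLfNt l r c t σ`    the label in parent units: length `σ.l / l`, width `σ.r / r`, SAME normalised coordinates (`rt_lp_nt_set`), SAME polynomial `σ.n`
* `rt_lp_par`           if `m` is the polynomial of the label in physical units (`(rtLabCh …).pol m = σ.n`, as in `RtPd.Con`) then `(rtLfNt l r c t σ).par (t/l) = (rtNrm l r c).pol m`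
* `rt_endlift_pm`       (endlift) with the sign `±` of `RtPd.Con`
* **`rt_lift_frame`**, **`rt_lift_near`** (comparison errors), **`rt_endlift_frame`**, **`rt_endlift_con`** (hypothesis = `RtPd.Con`), `rt_endlift_near`.
-/

set_option autoImplicit false

namespace Claimed.Agent.R256

/-- the centre of a test -/
def RtTest.cen (σ : RtTest) : RtRow := ⟨σ.As, σ.bs, σ.ys⟩

/-- a physical test read at the time offset `t`, in the units of the parent frame `(l, r, c)` -/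
noncomputable def rtLfNt (l r : ℝ) (c : RtRow) (t : ℝ) (σ : RtTest) : RtTest :=
  ⟨σ.l / l, σ.r / r, σ.f, (rtLfNrm l r (c.flow t) σ.cen).A, (rtLfNrm l r (c.flow t) σ.cen).b, (rtLfNrm l r (c.flow t) σ.cen).y, σ.n⟩

/-- the test with the opposite polynomial -/
def RtTest.ngt (τ : RtTest) : RtTest := ⟨τ.l, τ.r, τ.f, τ.As, τ.bs, τ.ys, τ.n.sc (-1)⟩

theorem rt_lp_eqns_cite : True := by
  have := @RtTest.cen.eq_1
  have := @rtLfNt.eq_1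
  have := @RtTest.ngt.eq_1
  trivial

/-! ## 1. Rows and tests in parent units (exact) -/

theorem rt_lp_nrm_row (l r : ℝ) (c x : RtRow) : (rtNrm l r c).row x = rtLfNrm l r c x := rfl

theorem rt_lp_flow {l r : ℝ} (hl : l ≠ 0) (hr : r ≠ 0) (c x : RtRow) (t : ℝ) :
    (rtLfNrm l r c x).flow (t / l) = rtLfNrm l r (c.flow t) (x.flow t) := by
  ext <;> simp only [rtLfNrm, RtRow.flow, rtIp, rtSq, Prod.fst_add, Prod.snd_add, Prod.fst_sub, Prod.snd_sub, Prod.smul_fst,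
    Prod.smul_snd, smul_eq_mul] <;> field_simp <;> ring

theorem rt_lp_nt_x {l r : ℝ} (hl : l ≠ 0) (hr : r ≠ 0) (c : RtRow) (t : ℝ) (σ : RtTest) (y : RtRow) :
    (rtLfNt l r c t σ).x (rtLfNrm l r (c.flow t) y) = σ.x y := by
  ext <;> simp only [rtLfNt, RtTest.x, RtTest.cen, rtLfNrm, Prod.fst_sub, Prod.snd_sub, Prod.smul_fst, Prod.smul_snd, smul_eq_mul,
    mul_inv, inv_div] <;> field_simp <;> ring

theorem rt_lp_nt_V {l r : ℝ} (hr : r ≠ 0) (c : RtRow) (t : ℝ) (σ : RtTest) (y : RtRow) :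
    (rtLfNt l r c t σ).V (rtLfNrm l r (c.flow t) y) = σ.V y := by
  ext <;> simp only [rtLfNt, RtTest.V, RtTest.cen, rtLfNrm, Prod.fst_sub, Prod.snd_sub, Prod.smul_fst, Prod.smul_snd, smul_eq_mul,
    mul_inv, inv_div] <;> field_simp <;> ring

theorem rt_lp_nt_z {l r : ℝ} (hl : l ≠ 0) (hr : r ≠ 0) (c : RtRow) (t : ℝ) (σ : RtTest) (hσl : σ.l ≠ 0) (hσr : σ.r ≠ 0) (y : RtRow) :
    (rtLfNt l r c t σ).z (rtLfNrm l r (c.flow t) y) = σ.z y := by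
  simp only [rtLfNt, RtTest.z, RtTest.cen, rtLfNrm, rtIp, Prod.fst_sub, Prod.snd_sub, Prod.smul_fst, Prod.smul_snd, smul_eq_mul]
  field_simp
  ring

/-- the label in parent units contains the normalised rows of the label -/
theorem rt_lp_nt_set {l r : ℝ} (hl : l ≠ 0) (hr : r ≠ 0) (c : RtRow) (t : ℝ) (σ : RtTest) (hσl : σ.l ≠ 0) (hσr : σ.r ≠ 0) {M : ℝ}
    {y : RtRow} (hy : y ∈ σ.set M) : rtLfNrm l r (c.flow t) y ∈ (rtLfNt l r c t σ).set M := by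
  obtain ⟨⟨a1, a2, a3⟩, a4, a5⟩ := hy
  have ex := rt_lp_nt_x hl hr c t σ y
  have eV := rt_lp_nt_V (l := l) hr c t σ y
  have ez := rt_lp_nt_z hl hr c t σ hσl hσr y
  refine ⟨⟨?_, ?_, ?_⟩, ?_, ?_⟩
  · rw [ex]; exact a1
  · rw [ez]; exact a2
  · rw [eV]; exact a3
  · rw [RtTest.Fv, ex, ez]; exact a4
  · rw [RtTest.Gv, ex, ez, eV]; exact a5

theorem rt_lp_nt_adm {l r : ℝ} (hl : 0 < l) (hr : 0 < r) (c : RtRow) (t : ℝ) {σ : RtTest} {M : ℝ} (hσ : σ.Adm M) :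
    (rtLfNt l r c t σ).Adm M :=
  ⟨div_pos hσ.l_pos hl, div_pos hσ.r_pos hr, hσ.f_pos, hσ.f_le, hσ.disc, hσ.bd⟩

/-! ## 2. Polynomials in parent units (exact) -/

theorem rt_lp_unc_cen (p₀ : RtRow) (n : RtPoly) : (n.cen p₀).unc p₀ = n := by
  ext <;> simp only [RtPoly.cen, RtPoly.unc, RtPoly.F, RtPoly.G, RtPoly.g, rtIp, rtSq, Prod.fst_add, Prod.snd_add, Prod.fst_sub,
    Prod.snd_sub, Prod.smul_fst, Prod.smul_snd, smul_eq_mul] <;> ring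

/-- `par` is a left inverse of the normalising coefficient map of the test -/
theorem rt_lp_par_left (τ : RtTest) (hl : τ.l ≠ 0) (hr : τ.r ≠ 0) (θ : ℝ) (m : RtPoly)
    (h : ((rtNrm τ.l τ.r τ.cen).comp (rtChTr θ)).pol m = τ.n) : τ.par θ = m := by
  have h' : (rtChSc τ.l τ.r).pol (((rtChTr θ).pol m).cen τ.cen) = τ.n := h
  have e1 : (⟨τ.n.c * (τ.l * τ.r), τ.n.d * τ.r, τ.n.al, τ.n.be / τ.r, τ.n.k / (τ.l * τ.r)⟩ : RtPoly)
      = ((rtChTr θ).pol m).cen τ.cen := by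
    rw [← h']
    ext <;> simp only [rtChSc] <;> field_simp
  show (rtChTr (-θ)).pol (RtPoly.unc τ.cen _) = m
  rw [e1, rt_lp_unc_cen]
  ext <;> simp [rtChTr]

/-- the normalising coefficient map of a physical test factors through the parent frame -/
theorem rt_lp_pol_comp {l r : ℝ} (hl : l ≠ 0) (hr : r ≠ 0) (c : RtRow) (t : ℝ) (σ : RtTest) (hσl : σ.l ≠ 0) (hσr : σ.r ≠ 0)
    (m : RtPoly) :
    ((rtNrm (rtLfNt l r c t σ).l (rtLfNt l r c t σ).r (rtLfNt l r c t σ).cen).comp (rtChTr (t / l))).pol ((rtNrm l r c).pol m)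
      = ((rtNrm σ.l σ.r σ.cen).comp (rtChTr t)).pol m := by
  show (rtChSc (σ.l / l) (σ.r / r)).pol (((rtChTr (t / l)).pol ((rtChSc l r).pol (m.cen c))).cen (rtLfNt l r c t σ).cen)
    = (rtChSc σ.l σ.r).pol (((rtChTr t).pol m).cen σ.cen)
  ext <;> simp only [rtChSc, rtChTr, RtPoly.cen, RtTest.cen, rtLfNt, rtLfNrm, RtRow.flow, RtPoly.F, RtPoly.G, RtPoly.g, rtIp, rtSq,
    Prod.fst_add, Prod.snd_add, Prod.fst_sub, Prod.snd_sub, Prod.smul_fst, Prod.smul_snd, smul_eq_mul] <;> field_simp <;> ring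

/-- **the parent polynomial of `RtPd.Con` is `par`** -/
theorem rt_lp_par {l r : ℝ} (hl : 0 < l) (hr : 0 < r) (c : RtRow) (t : ℝ) (σ : RtTest) (hσl : 0 < σ.l) (hσr : 0 < σ.r) (m : RtPoly)
    (hm : ((rtNrm σ.l σ.r σ.cen).comp (rtChTr t)).pol m = σ.n) : (rtLfNt l r c t σ).par (t / l) = (rtNrm l r c).pol m :=
  rt_lp_par_left _ (div_pos hσl hl).ne' (div_pos hσr hr).ne' _ _
    ((rt_lp_pol_comp hl.ne' hr.ne' c t σ hσl.ne' hσr.ne' m).trans hm)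

/-! ## 3. The sign -/

theorem rt_lp_ngt_set (τ : RtTest) (M : ℝ) : τ.ngt.set M = τ.set M := by
  ext p
  have eF : τ.ngt.Fv p = -τ.Fv p := by
    show (τ.n.sc (-1)).F 0 (τ.x p) (τ.z p) = _
    rw [rt_lf_sc_F]
    simp [RtTest.Fv]
  have eG : τ.ngt.Gv p = -τ.Gv p := by
    show (τ.n.sc (-1)).G 0 (τ.x p) (τ.z p) (τ.V p) = _
    rw [rt_lf_sc_G]
    simp [RtTest.Gv]
  show (p ∈ τ.box M ∧ |τ.ngt.Fv p| ≤ M * τ.f ∧ |τ.ngt.Gv p| ≤ M * τ.f) ↔ _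
  rw [eF, eG, abs_neg, abs_neg]
  rfl

theorem rt_lp_sc_bd {n : RtPoly} {B : ℝ} (h : n.Bd B) : (n.sc (-1)).Bd B := by
  obtain ⟨a1, a2, a3, a4, a5⟩ := h
  refine ⟨by simpa [RtPoly.sc] using a1, by simpa [RtPoly.sc] using a2, ?_, by simpa [RtPoly.sc] using a4,
    by simpa [RtPoly.sc] using a5⟩
  have : rtSq (n.sc (-1)).al = rtSq n.al := by
    simp [RtPoly.sc, rtSq]
  rw [this]
  exact a3

theorem rt_lp_ngt_adm {τ : RtTest} {M : ℝ} (h : τ.Adm M) : τ.ngt.Adm M :=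
  ⟨h.l_pos, h.r_pos, h.f_pos, h.f_le, by
    show (τ.n.sc (-1)).disc = 1
    rw [rt_lf_sc_disc, h.disc]
    norm_num, rt_lp_sc_bd h.bd⟩

theorem rt_lp_ngt_par (τ : RtTest) (θ : ℝ) : τ.ngt.par θ = (τ.par θ).sc (-1) := by
  ext <;> simp only [RtTest.par, RtTest.ngt, RtPoly.sc, rtChTr, RtPoly.unc, rtIp, rtSq, Prod.fst_add, Prod.snd_add, Prod.fst_sub,
    Prod.snd_sub, Prod.smul_fst, Prod.smul_snd, smul_eq_mul] <;> ring

/-- **(endlift)** with the sign -/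
theorem rt_endlift_pm {M P fs δ θ T' : ℝ} {n : RtPoly} {p₀ : RtRow} (τ : RtTest) (hM : 2 ≤ M) (hP : 1 ≤ P) (hPM : P ≤ M)
    (h : RtChartOk P n p₀) (hδ0 : 0 < δ) (hδ1 : δ ≤ 1) (hθ : |θ| ≤ 2) (hT : |T'| ≤ 3) (hT2 : |T' + δ| ≤ 3) (hτ : τ.Adm 1) (hl : τ.l = δ) (hr : τ.r ≤ M)
    (hfs : 0 < fs) (hf : τ.f ≤ fs)
    (hcon : (RtPoly.comb 1 (τ.par θ) (-1) n).Bd (M * fs) ∨ (RtPoly.comb 1 (τ.par θ) 1 n).Bd (M * fs))
    (hthin : fs ^ 3 * M ^ 100 ≤ δ * τ.f) :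
    ∃ Q : CyT, Q.r = M ^ 40 ∧ Q.f = M ^ 20 * τ.f / fs ∧ cySh Q (M ^ 20) ∧
      ∀ p ∈ rtBx p₀ 1 (rtChRho P), p.flow θ ∈ τ.set M → |(rtChart p₀ n).tm p θ - T'| ≤ M * δ →
        cyIn Q δ (rtFl fs (((rtChart p₀ n).row p).flow T')) := by
  rcases hcon with hcon | hcon
  · exact rt_endlift τ hM hP hPM h hδ0 hδ1 hθ hT hT2 hτ hl hr hfs hf hcon hthin
  · have hc : (RtPoly.comb 1 (τ.ngt.par θ) (-1) n).Bd (M * fs) := by
      have e : RtPoly.comb 1 (τ.ngt.par θ) (-1) n = (RtPoly.comb 1 (τ.par θ) 1 n).sc (-1) := by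
        rw [rt_lp_ngt_par]
        ext <;> simp only [RtPoly.comb, RtPoly.sc, Prod.fst_add, Prod.snd_add, Prod.smul_fst, Prod.smul_snd, smul_eq_mul] <;> ring
      rw [e]
      exact rt_lp_sc_bd hcon
    obtain ⟨Q, q1, q2, q3, q4⟩ := rt_endlift τ.ngt hM hP hPM h hδ0 hδ1 hθ hT hT2 (rt_lp_ngt_adm hτ) hl hr hfs hf hc hthin
    exact ⟨Q, q1, q2, q3, fun p hp hpτ htp => q4 p hp (by rw [rt_lp_ngt_set]; exact hpτ) htp⟩

/-! ## 4. Physical units -/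

/-- **(lift)** in a parent frame -/
theorem rt_lift_frame (η : ℝ) (h0 : 0 < η) (h1 : η < 1) :
    ∃ C : ℝ, 0 < C ∧ ∀ (M Λ P fs θ l r : ℝ) (c : RtRow) (n : RtPoly) (p₀ : RtRow) (Q : CyT), 2 ≤ M → M ≤ Λ → 1 ≤ P → P ≤ M →
      RtChartOk P n p₀ → |θ| ≤ 8 → 0 < fs → 0 < Q.r → Q.r ≤ M → 0 < Q.f → Q.f ≤ M → cySh Q Λ →
      fs * Λ ^ 40 ≤ Q.r ^ 2 * Q.f → 0 < l → 0 < r →
      RtCover {x | (rtNrm l r c).row x ∈ rtLfIn P fs θ n p₀ Q} l (r * (fs * Q.f)) η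
        (r ^ 4 * (M ^ C * (fs ^ (1 - η) * cyWt η Q))) := by
  obtain ⟨C, hC, H⟩ := rt_lift η h0 h1
  exact ⟨C, hC, fun M Λ P fs θ l r c n p₀ Q a1 a2 a3 a4 a5 a6 a7 a8 a9 a10 a11 a12 a13 hl hr =>
    rt_lf_cover_frame hl hr c (H M Λ P fs θ n p₀ Q a1 a2 a3 a4 a5 a6 a7 a8 a9 a10 a11 a12 a13)⟩

/-- **(endlift)** for a physical label `σ` read at the time offset `t`, parent frame `(l, r, c)` -/
theorem rt_endlift_frame {M P fs l r t T' : ℝ} {n : RtPoly} {p₀ : RtRow} (c : RtRow) (σ : RtTest) (m : RtPoly) (hM : 2 ≤ M)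
    (hP : 1 ≤ P) (hPM : P ≤ M) (h : RtChartOk P n p₀) (hl : 0 < l) (hr : 0 < r) (hσ : σ.Adm 1) (hσl : σ.l ≤ l) (hσr : σ.r ≤ M * r)
    (ht : |t| ≤ 2 * l) (hT : |T'| ≤ 3) (hT2 : |T' + σ.l / l| ≤ 3) (hfs : 0 < fs) (hf : σ.f ≤ fs)
    (hm : ((rtNrm σ.l σ.r σ.cen).comp (rtChTr t)).pol m = σ.n)
    (hcon : (RtPoly.comb 1 ((rtNrm l r c).pol m) (-1) n).Bd (M * fs) ∨ (RtPoly.comb 1 ((rtNrm l r c).pol m) 1 n).Bd (M * fs))
    (hthin : fs ^ 3 * M ^ 100 ≤ σ.l / l * σ.f) :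
    ∃ Q : CyT, Q.r = M ^ 40 ∧ Q.f = M ^ 20 * σ.f / fs ∧ cySh Q (M ^ 20) ∧
      ∀ x : RtRow, (rtNrm l r c).row x ∈ rtBx p₀ 1 (rtChRho P) → x.flow t ∈ σ.set M →
        |(rtChart p₀ n).tm ((rtNrm l r c).row x) (t / l) - T'| ≤ M * (σ.l / l) →
        cyIn Q (σ.l / l) (rtFl fs (((rtChart p₀ n).row ((rtNrm l r c).row x)).flow T')) := by
  have hp := rt_lp_par hl hr c t σ hσ.l_pos hσ.r_pos m hm
  rw [← hp] at hcon
  have hθ : |t / l| ≤ 2 := by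
    rw [abs_div, abs_of_pos hl, div_le_iff₀ hl]
    exact ht
  obtain ⟨Q, q1, q2, q3, q4⟩ := rt_endlift_pm (T' := T') (rtLfNt l r c t σ) hM hP hPM h (div_pos hσ.l_pos hl)
    ((div_le_one hl).2 hσl) hθ hT hT2 (rt_lp_nt_adm hl hr c t hσ) rfl ((div_le_iff₀ hr).2 hσr) hfs hf hcon hthin
  refine ⟨Q, q1, q2, q3, fun x hx hxσ htx => q4 _ hx ?_ htx⟩
  rw [rt_lp_nrm_row, rt_lp_flow hl.ne' hr.ne']
  exact rt_lp_nt_set hl.ne' hr.ne' c t σ hσ.l_pos.ne' hσ.r_pos.ne' hxσ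

/-- **(endlift)** from `RtPd.Con` -/
theorem rt_endlift_con {M P fs T0 T T' : ℝ} {k0 k : ℕ} (d : RtPd) (Q : RdTst) (hM : 2 ≤ M) (hP : 1 ≤ P) (hPM : P ≤ M)
    (h : RtChartOk P d.nL d.p0) (hr : 0 < d.ψ.r) (hQ : (Q.toT k).Adm 1) (hk : k0 ≤ k) (hQr : Q.r ≤ M * d.ψ.r)
    (ht : |T - T0| ≤ 2 * rdLen k0) (hT : |T'| ≤ 3) (hT2 : |T' + rdLen k / rdLen k0| ≤ 3) (hfs : 0 < fs) (hf : Q.f ≤ fs)
    (hcon : d.Con (rtNrm (rdLen k0) d.ψ.r d.ψ.cen) T0 k T Q fs) (hthin : fs ^ 3 * M ^ 100 ≤ rdLen k / rdLen k0 * Q.f) :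
    ∃ Qc : CyT, Qc.r = M ^ 40 ∧ Qc.f = M ^ 20 * Q.f / fs ∧ cySh Qc (M ^ 20) ∧
      ∀ x : RtRow, (rtNrm (rdLen k0) d.ψ.r d.ψ.cen).row x ∈ rtBx d.p0 1 (rtChRho P) → x.flow (T - T0) ∈ (Q.toT k).set M →
        |(rtChart d.p0 d.nL).tm ((rtNrm (rdLen k0) d.ψ.r d.ψ.cen).row x) ((T - T0) / rdLen k0) - T'| ≤ M * (rdLen k / rdLen k0) →
        cyIn Qc (rdLen k / rdLen k0)
          (rtFl fs (((rtChart d.p0 d.nL).row ((rtNrm (rdLen k0) d.ψ.r d.ψ.cen).row x)).flow T')) := by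
  obtain ⟨m, hm, hc⟩ := hcon
  have hfsM : fs ≤ M * fs := by nlinarith
  have hlen : rdLen k ≤ rdLen k0 := by
    unfold rdLen
    exact pow_le_pow_of_le_one (by norm_num) (by norm_num) hk
  exact rt_endlift_frame d.ψ.cen (Q.toT k) m hM hP hPM h (rdLen_pos k0) hr hQ hlen hQr ht hT hT2 hfs hf hm
    (hc.imp (rt_lf_bd_mono hfs.le hfsM) (rt_lf_bd_mono hfs.le hfsM)) hthin

end Claimed.Agent.R256
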