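import Claimed.Agent.R256.Rt.Conf

/-!
# Row 256, folder Rt, file Chart: CONFORMAL CHARTS ACTING ON RAYS, BOXES, SUBLEVELS, COEFFICIENTS      (helper76; prefix `rt_ch_`, `rtCh`)      SORRY-FREE

Generic half of Lemma rt:conformal-chart (07 l.486-540).   No Taylor expansion, no derivative: everything follows from the two-point identity.
* `RtCh` = chart (DATA): event map `ev`, conformal factor `den`, row map `row`, the matrix `(a1 a0; d1 d0)` of the fractional linear change of time along each ray, coefficient map `pol`.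
  `Φ.dn p t = d0 + t d1`,  `Φ.tm p t = (a0 + t a1) / dn`.
* `Φ.Ex S` = EXACTNESS on the rows `S`: `den = dn` and `ev (p.ev t) = (row p).ev (tm p t)` wherever `den ≠ 0`; two-point identity; `(pol n).Fe (ev x) = n.Fe x / den x`; `disc` preserved.
* elementary charts: `rtChCen p₀` (centring), `rtChRot e`, `rtChDb β` (dual boost), `rtChCf vb vy` (special conformal, `v = (0, vb, vy)`), `rtChTr θ` (time translation), `rtChSc l r` (parabolic scaling);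
  `RtCh.comp`, `RtCh.Ex.comp`.
* `Φ.Hit p T T' M` = every new time `|τ| ≤ T'` on the ray `row p` is attained at an old time `|t| ≤ T` at an event with `|den| ≥ 1/M`.   `RtCh.Hit.comp`.
* `rtBx p₀ R M` = parabolic phase box (time length `1`): `|Δb| ≤ M R`, `|Δy - 2A₀·Δb| ≤ M R²`, `|ΔA| ≤ M R`.
* `rt_ch_K` (invariance of the two-ray invariant), `rt_ch_K_le` (box ⇒ `|K| ≤ ((T+2) M R)²`), `rt_ch_box_of_K` (three values of `K` ⇒ box),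
  **`rt_ch_box`** : BOXES GO TO BOXES OF THE SAME WIDTH, enlargement `2 (Mc (T+2) M)²`;
  **`rt_ch_sub`** : SUBLEVELS GO TO SUBLEVELS: `|F'| ≤ Mc (|F| + T |G|)`, `|G'| ≤ 2 Mc (|F| + T |G|)`.
* `rtChart p₀ n` = `C_(0,(0,k),0) ∘ DB_β ∘ Rot_g ∘ Cen_p₀`, `rt_chart_flat` : it carries `n` to `b₂`.
* REVERSE DIRECTION WITHOUT INVERSE CHART: `Φ.Fwd p T T' M` (old times `|t| ≤ T`: `0 ≠ |den| ≤ M`, new times `≤ T'`), `RtCh.Fwd.comp`, **`rt_ch_box_inv`**, **`rt_ch_sub_inv`**.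
* `rt_ch_tm_sub` : `tm t' - tm t = wr (t' - t) / (dn t dn t')` (rate of the new time), `rt_ch_comp_wr`; `rt_ch_ev_inj`.
-/

set_option autoImplicit false

namespace Claimed.Agent.R256

/-- a conformal chart (data) -/
structure RtCh where
  ev : RtEv → RtEv
  den : RtEv → ℝ
  row : RtRow → RtRow
  a0 : RtRow → ℝ
  a1 : RtRow → ℝ
  d0 : RtRow → ℝ
  d1 : RtRow → ℝ
  pol : RtPoly → RtPoly

namespace RtCh

variable (Φ : RtCh)

/-- the conformal factor along a ray -/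
def dn (p : RtRow) (t : ℝ) : ℝ := Φ.d0 p + t * Φ.d1 p

/-- the new time along a ray -/
noncomputable def tm (p : RtRow) (t : ℝ) : ℝ := (Φ.a0 p + t * Φ.a1 p) / Φ.dn p t

/-- exactness on a set of rows -/
structure Ex (S : Set RtRow) : Prop where
  den_ray : ∀ p ∈ S, ∀ t, Φ.den (p.ev t) ≠ 0 → Φ.den (p.ev t) = Φ.dn p t
  ray : ∀ p ∈ S, ∀ t, Φ.den (p.ev t) ≠ 0 → Φ.ev (p.ev t) = (Φ.row p).ev (Φ.tm p t)
  two : ∀ x z, Φ.den x ≠ 0 → Φ.den z ≠ 0 → ((Φ.ev x).sub (Φ.ev z)).q = (x.sub z).q / (Φ.den x * Φ.den z)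
  pol : ∀ n x, Φ.den x ≠ 0 → (Φ.pol n).Fe (Φ.ev x) = n.Fe x / Φ.den x
  disc : ∀ n, (Φ.pol n).disc = n.disc

/-- the new times `|τ| ≤ T'` are attained at old times `|t| ≤ T`, at events with conformal factor `≥ 1/M` -/
def Hit (p : RtRow) (T T' M : ℝ) : Prop :=
  ∀ τ, |τ| ≤ T' → ∃ t, |t| ≤ T ∧ M⁻¹ ≤ |Φ.den (p.ev t)| ∧ Φ.tm p t = τ

/-- composition: `Φ` after `Ψ` -/
def comp (Φ Ψ : RtCh) : RtCh where
  ev := fun x => Φ.ev (Ψ.ev x)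
  den := fun x => Φ.den (Ψ.ev x) * Ψ.den x
  row := fun p => Φ.row (Ψ.row p)
  a0 := fun p => Φ.a0 (Ψ.row p) * Ψ.d0 p + Φ.a1 (Ψ.row p) * Ψ.a0 p
  a1 := fun p => Φ.a0 (Ψ.row p) * Ψ.d1 p + Φ.a1 (Ψ.row p) * Ψ.a1 p
  d0 := fun p => Φ.d0 (Ψ.row p) * Ψ.d0 p + Φ.d1 (Ψ.row p) * Ψ.a0 p
  d1 := fun p => Φ.d0 (Ψ.row p) * Ψ.d1 p + Φ.d1 (Ψ.row p) * Ψ.a1 p
  pol := fun n => Φ.pol (Ψ.pol n)

end RtCh

/-- centring on a ray -/
def rtChCen (p₀ : RtRow) : RtCh :=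
  ⟨rtCfCen p₀, fun _ => 1, rtCfRowCen p₀, fun _ => 0, fun _ => 1, fun _ => 1, fun _ => 0, RtPoly.cen p₀⟩

/-- rotation -/
def rtChRot (e : ℝ × ℝ) : RtCh :=
  ⟨rtCfRot e, fun _ => 1, rtCfRowRot e, fun _ => 0, fun _ => 1, fun _ => 1, fun _ => 0, RtPoly.rot e⟩

/-- dual boost -/
noncomputable def rtChDb (β : ℝ) : RtCh :=
  ⟨rtCfDb β, fun _ => 1, rtCfRowDb β, rtCfT0 β, rtCfQ β, fun _ => 1, fun _ => 0, RtPoly.db β⟩

/-- special conformal map with `v = (0, vb, vy)` -/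
noncomputable def rtChCf (vb : ℝ × ℝ) (vy : ℝ) : RtCh :=
  ⟨rtCfMap ⟨0, vb, vy⟩, rtCfDen ⟨0, vb, vy⟩, rtCfRow vb vy, fun _ => 0, fun _ => 1, rtCfD0 vb, rtCfD1 vb vy,
    RtPoly.cf ⟨0, vb, vy⟩⟩

/-- time translation: the new time is `t - θ` -/
def rtChTr (θ : ℝ) : RtCh :=
  ⟨fun x => ⟨x.t - θ, x.b, x.y⟩, fun _ => 1, fun p => p.flow θ, fun _ => -θ, fun _ => 1, fun _ => 1, fun _ => 0,
    fun n => ⟨n.c + n.d * θ, n.d, n.al, n.be + n.k * θ, n.k⟩⟩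

/-- parabolic scaling `(t, b, y) ↦ (t/l, b/(l r), y/(l r²))`, conformal factor `l r` -/
noncomputable def rtChSc (l r : ℝ) : RtCh :=
  ⟨fun x => ⟨x.t / l, (l * r)⁻¹ • x.b, x.y / (l * r ^ 2)⟩, fun _ => l * r,
    fun p => ⟨r⁻¹ • p.A, (l * r)⁻¹ • p.b, p.y / (l * r ^ 2)⟩, fun _ => 0, fun _ => r, fun _ => l * r, fun _ => 0,
    fun n => ⟨n.c / (l * r), n.d / r, n.al, n.be * r, n.k * (l * r)⟩⟩

/-- the parabolic phase box of width `R` (time length `1`), enlarged by `M` -/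
def rtBx (p₀ : RtRow) (R M : ℝ) : Set RtRow :=
  {p | rtSq (p.b - p₀.b) ≤ (M * R) ^ 2 ∧ |p.y - p₀.y - 2 * rtIp p₀.A (p.b - p₀.b)| ≤ M * R ^ 2 ∧
    rtSq (p.A - p₀.A) ≤ (M * R) ^ 2}

/-- **the flattening chart** of the hyperquadric `n` at the exact ray `p₀` -/
noncomputable def rtChart (p₀ : RtRow) (n : RtPoly) : RtCh :=
  (rtChCf (0, n.k) 0).comp ((rtChDb n.be).comp ((rtChRot (n.g 0 p₀.b p₀.A)).comp (rtChCen p₀)))

theorem rt_ch_eqns_cite : True := by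
  have := @RtCh.dn.eq_1
  have := @RtCh.tm.eq_1
  have := @RtCh.Hit.eq_1
  have := @RtCh.comp.eq_1
  have := @rtChCen.eq_1
  have := @rtChRot.eq_1
  have := @rtChDb.eq_1
  have := @rtChCf.eq_1
  have := @rtChTr.eq_1
  have := @rtChSc.eq_1
  have := @rtBx.eq_1
  have := @rtChart.eq_1
  trivial

/-! ## 1. Exactness of the elementary charts -/

theorem rt_ch_cen_ex (p₀ : RtRow) : (rtChCen p₀).Ex Set.univ where
  den_ray := fun p _ t _ => by simp [rtChCen, RtCh.dn]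
  ray := fun p _ t _ => by
    simp only [rtChCen, RtCh.tm, RtCh.dn, mul_zero, add_zero, div_one, zero_add, mul_one]
    exact rt_cf_row_cen p₀ p t
  two := fun x z _ _ => by
    simp only [rtChCen, mul_one, div_one]
    exact rt_cf_cen_two p₀ x z
  pol := fun n x _ => by
    simp only [rtChCen, div_one]
    exact rt_cf_poly_cen n p₀ x
  disc := fun n => rt_cf_disc_cen n p₀

theorem rt_ch_rot_ex (e : ℝ × ℝ) (he : rtSq e = 1) : (rtChRot e).Ex Set.univ where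
  den_ray := fun p _ t _ => by simp [rtChRot, RtCh.dn]
  ray := fun p _ t _ => by
    simp only [rtChRot, RtCh.tm, RtCh.dn, mul_zero, add_zero, div_one, zero_add, mul_one]
    exact rt_cf_row_rot e he p t
  two := fun x z _ _ => by
    simp only [rtChRot, mul_one, div_one]
    exact rt_cf_rot_two e he x z
  pol := fun n x _ => by
    simp only [rtChRot, div_one]
    exact rt_cf_poly_rot n e he x
  disc := fun n => rt_cf_disc_rot n e he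

theorem rt_ch_db_ex (β : ℝ) : (rtChDb β).Ex {p | rtCfQ β p ≠ 0} where
  den_ray := fun p _ t _ => by simp [rtChDb, RtCh.dn]
  ray := fun p hp t _ => by
    simp only [rtChDb, RtCh.tm, RtCh.dn, mul_zero, add_zero, div_one]
    exact rt_cf_row_db β p t hp
  two := fun x z _ _ => by
    simp only [rtChDb, mul_one, div_one]
    exact rt_cf_db_two β x z
  pol := fun n x _ => by
    simp only [rtChDb, div_one]
    exact rt_cf_poly_db n β x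
  disc := fun n => rt_cf_disc_db n β

theorem rt_ch_cf_ex (vb : ℝ × ℝ) (vy : ℝ) : (rtChCf vb vy).Ex {p | rtCfD0 vb p ≠ 0} where
  den_ray := fun p _ t _ => rt_cf_row_den vb vy p t
  ray := fun p hp t ht => by
    have h1 : rtCfD0 vb p + t * rtCfD1 vb vy p ≠ 0 := by
      rw [← rt_cf_row_den vb vy p t]; exact ht
    simp only [rtChCf, RtCh.tm, RtCh.dn, zero_add, mul_one]
    exact rt_cf_row vb vy p t hp h1
  two := fun x z hx hz => rt_cf_two _ x z hx hz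
  pol := fun n x hx => rt_cf_poly n _ x hx
  disc := fun n => rt_cf_disc n _

theorem rt_ch_tr_ex (θ : ℝ) : (rtChTr θ).Ex Set.univ where
  den_ray := fun p _ t _ => by simp [rtChTr, RtCh.dn]
  ray := fun p _ t _ => by
    simp only [rtChTr, RtCh.tm, RtCh.dn, mul_zero, add_zero, div_one, mul_one]
    ext <;> simp only [RtRow.ev, RtRow.flow, Prod.fst_add, Prod.snd_add, Prod.smul_fst, Prod.smul_snd, smul_eq_mul] <;> ring
  two := fun x z _ _ => by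
    simp only [rtChTr, mul_one, div_one, RtEv.sub, RtEv.q]
    congr 1
    ring
  pol := fun n x _ => by
    simp only [rtChTr, div_one, RtPoly.Fe, RtPoly.F]
    ring
  disc := fun n => by
    simp only [rtChTr, RtPoly.disc]
    ring

theorem rt_ch_sc_ex (l r : ℝ) (hl : l ≠ 0) (hr : r ≠ 0) : (rtChSc l r).Ex Set.univ where
  den_ray := fun p _ t _ => by simp [rtChSc, RtCh.dn]
  ray := fun p _ t _ => by
    simp only [rtChSc, RtCh.tm, RtCh.dn, mul_zero, add_zero, zero_add]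
    ext <;> simp only [RtRow.ev, rtSq, Prod.fst_add, Prod.snd_add, Prod.smul_fst, Prod.smul_snd, smul_eq_mul] <;>
      field_simp
  two := fun x z _ _ => by
    simp only [rtChSc, RtEv.sub, RtEv.q, rtQ, rtSq, Prod.fst_sub, Prod.snd_sub, Prod.smul_fst, Prod.smul_snd, smul_eq_mul]
    field_simp
  pol := fun n x _ => by
    simp only [rtChSc, RtPoly.Fe, RtPoly.F, rtIp, rtSq, Prod.smul_fst, Prod.smul_snd, smul_eq_mul]
    field_simp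
  disc := fun n => by
    simp only [rtChSc, RtPoly.disc]
    field_simp

/-! ## 2. Composition -/

theorem rt_ch_comp_dn (Φ Ψ : RtCh) (p : RtRow) (t : ℝ) (h : Ψ.dn p t ≠ 0) :
    (Φ.comp Ψ).dn p t = Φ.dn (Ψ.row p) (Ψ.tm p t) * Ψ.dn p t := by
  have e : Ψ.dn p t = Ψ.d0 p + t * Ψ.d1 p := rfl
  simp only [RtCh.comp, RtCh.dn, RtCh.tm] at h ⊢
  field_simp
  ring

theorem rt_ch_comp_tm (Φ Ψ : RtCh) (p : RtRow) (t : ℝ) (h : Ψ.dn p t ≠ 0) :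
    (Φ.comp Ψ).tm p t = Φ.tm (Ψ.row p) (Ψ.tm p t) := by
  have h1 := rt_ch_comp_dn Φ Ψ p t h
  have e1 : (Φ.comp Ψ).tm p t = ((Φ.comp Ψ).a0 p + t * (Φ.comp Ψ).a1 p) / (Φ.comp Ψ).dn p t := rfl
  have e2 : Φ.tm (Ψ.row p) (Ψ.tm p t)
      = (Φ.a0 (Ψ.row p) + Ψ.tm p t * Φ.a1 (Ψ.row p)) / Φ.dn (Ψ.row p) (Ψ.tm p t) := rfl
  have e3 : Ψ.tm p t * Ψ.dn p t = Ψ.a0 p + t * Ψ.a1 p := div_mul_cancel₀ _ h
  have e4 : (Φ.comp Ψ).a0 p + t * (Φ.comp Ψ).a1 p = (Φ.a0 (Ψ.row p) + Ψ.tm p t * Φ.a1 (Ψ.row p)) * Ψ.dn p t := by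
    have : (Φ.comp Ψ).a0 p + t * (Φ.comp Ψ).a1 p
        = Φ.a0 (Ψ.row p) * Ψ.dn p t + Φ.a1 (Ψ.row p) * (Ψ.a0 p + t * Ψ.a1 p) := by
      simp only [RtCh.comp, RtCh.dn]
      ring
    rw [this, ← e3]
    ring
  rw [e1, e2, h1, e4]
  exact mul_div_mul_right _ _ h

theorem RtCh.Ex.comp {Φ Ψ : RtCh} {S S' : Set RtRow} (hΦ : Φ.Ex S') (hΨ : Ψ.Ex S) :
    (Φ.comp Ψ).Ex {p | p ∈ S ∧ Ψ.row p ∈ S'} where
  den_ray := fun p hp t ht => by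
    have h1 : Ψ.den (p.ev t) ≠ 0 := right_ne_zero_of_mul ht
    have h2 : Φ.den (Ψ.ev (p.ev t)) ≠ 0 := left_ne_zero_of_mul ht
    have h3 := hΨ.den_ray p hp.1 t h1
    have h4 := hΨ.ray p hp.1 t h1
    rw [h4] at h2
    have h5 := hΦ.den_ray _ hp.2 _ h2
    rw [rt_ch_comp_dn Φ Ψ p t (h3 ▸ h1)]
    show Φ.den (Ψ.ev (p.ev t)) * Ψ.den (p.ev t) = _
    rw [h4, h5, h3]
  ray := fun p hp t ht => by
    have h1 : Ψ.den (p.ev t) ≠ 0 := right_ne_zero_of_mul ht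
    have h2 : Φ.den (Ψ.ev (p.ev t)) ≠ 0 := left_ne_zero_of_mul ht
    have h3 := hΨ.den_ray p hp.1 t h1
    have h4 := hΨ.ray p hp.1 t h1
    rw [h4] at h2
    have h5 := hΦ.den_ray _ hp.2 _ h2
    rw [rt_ch_comp_tm Φ Ψ p t (h3 ▸ h1)]
    show Φ.ev (Ψ.ev (p.ev t)) = _
    rw [h4, hΦ.ray _ hp.2 _ h2]
    rfl
  two := fun x z hx hz => by
    have h1 : Ψ.den x ≠ 0 := right_ne_zero_of_mul hx
    have h2 : Φ.den (Ψ.ev x) ≠ 0 := left_ne_zero_of_mul hx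
    have h3 : Ψ.den z ≠ 0 := right_ne_zero_of_mul hz
    have h4 : Φ.den (Ψ.ev z) ≠ 0 := left_ne_zero_of_mul hz
    show ((Φ.ev (Ψ.ev x)).sub (Φ.ev (Ψ.ev z))).q = _ / ((Φ.den (Ψ.ev x) * Ψ.den x) * (Φ.den (Ψ.ev z) * Ψ.den z))
    rw [hΦ.two _ _ h2 h4, hΨ.two _ _ h1 h3]
    field_simp
  pol := fun n x hx => by
    have h1 : Ψ.den x ≠ 0 := right_ne_zero_of_mul hx
    have h2 : Φ.den (Ψ.ev x) ≠ 0 := left_ne_zero_of_mul hx
    show (Φ.pol (Ψ.pol n)).Fe (Φ.ev (Ψ.ev x)) = _ / (Φ.den (Ψ.ev x) * Ψ.den x)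
    rw [hΦ.pol _ _ h2, hΨ.pol _ _ h1]
    field_simp
  disc := fun n => (hΦ.disc _).trans (hΨ.disc n)

theorem RtCh.Hit.comp {Φ Ψ : RtCh} {S S' : Set RtRow} (hΦ : Φ.Ex S') (hΨ : Ψ.Ex S) {p : RtRow} (hp : p ∈ S)
    (hp' : Ψ.row p ∈ S') {T T₁ T₂ M₁ M₂ : ℝ} (hM₁ : 0 < M₁) (hM₂ : 0 < M₂) (h₁ : Ψ.Hit p T T₁ M₁)
    (h₂ : Φ.Hit (Ψ.row p) T₁ T₂ M₂) : (Φ.comp Ψ).Hit p T T₂ (M₂ * M₁) := by
  intro τ hτ
  obtain ⟨τ₁, hτ₁, hd₂, ht₂⟩ := h₂ τ hτ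
  obtain ⟨t, ht, hd₁, ht₁⟩ := h₁ τ₁ hτ₁
  have h1 : Ψ.den (p.ev t) ≠ 0 := by
    intro h0
    rw [h0, abs_zero] at hd₁
    exact absurd hd₁ (not_le.2 (inv_pos.2 hM₁))
  have h2 : Φ.den ((Ψ.row p).ev τ₁) ≠ 0 := by
    intro h0
    rw [h0, abs_zero] at hd₂
    exact absurd hd₂ (not_le.2 (inv_pos.2 hM₂))
  have h3 := hΨ.den_ray p hp t h1
  have h4 := hΨ.ray p hp t h1
  rw [ht₁] at h4
  have h5 := hΦ.den_ray _ hp' _ h2
  refine ⟨t, ht, ?_, ?_⟩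
  · show _ ≤ |Φ.den (Ψ.ev (p.ev t)) * Ψ.den (p.ev t)|
    rw [h4, abs_mul, mul_inv]
    exact mul_le_mul hd₂ hd₁ (inv_pos.2 hM₁).le (abs_nonneg _)
  · rw [rt_ch_comp_tm Φ Ψ p t (h3 ▸ h1), ht₁, ht₂]

/-! ## 3. Boxes go to boxes -/

/-- invariance of the two-ray invariant -/
theorem rt_ch_K {Φ : RtCh} {S : Set RtRow} (h : Φ.Ex S) {p p₀ : RtRow} (hp : p ∈ S) (hp₀ : p₀ ∈ S) {t t₀ : ℝ}
    (ht : Φ.den (p.ev t) ≠ 0) (ht₀ : Φ.den (p₀.ev t₀) ≠ 0) :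
    rtK (Φ.row p) (Φ.tm p t) (Φ.row p₀) (Φ.tm p₀ t₀) = rtK p t p₀ t₀ / (Φ.den (p.ev t) * Φ.den (p₀.ev t₀)) := by
  unfold rtK
  rw [← h.ray p hp t ht, ← h.ray p₀ hp₀ t₀ ht₀, h.two _ _ ht ht₀]

/-- second form of the invariant, with the tilt of the CENTRE -/
theorem rt_ch_K_eq (p : RtRow) (t : ℝ) (p₀ : RtRow) (t₀ : ℝ) :
    rtK p t p₀ t₀ = - rtSq (p.b - p₀.b) + (t - t₀) * (p.y - p₀.y - 2 * rtIp p₀.A (p.b - p₀.b))
      - 2 * t * rtIp (p.A - p₀.A) (p.b - p₀.b) - t * t₀ * rtSq (p.A - p₀.A) := by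
  rw [rt_cf_K_eq]
  simp only [rtSq, rtIp, Prod.fst_sub, Prod.snd_sub]
  ring

/-- Lemma A: in a box the invariant is `O(R²)` -/
theorem rt_ch_K_le {p p₀ : RtRow} {R M T t t₀ : ℝ} (hM : 1 ≤ M) (hR : 0 ≤ R) (hp : p ∈ rtBx p₀ R M) (ht : |t| ≤ T)
    (ht₀ : |t₀| ≤ T) : |rtK p t p₀ t₀| ≤ ((T + 2) * M * R) ^ 2 := by
  obtain ⟨h1, h2, h3⟩ := hp
  have hT : 0 ≤ T := (abs_nonneg t).trans ht
  have hMR : 0 ≤ M * R := by positivity
  have h4 : |rtIp (p.A - p₀.A) (p.b - p₀.b)| ≤ (M * R) * (M * R) := rtIp_abs_le hMR hMR h3 h1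
  have h5 : M * R ^ 2 ≤ (M * R) ^ 2 := by nlinarith [sq_nonneg R, mul_nonneg (sub_nonneg.2 hM) (sq_nonneg R)]
  rw [rt_ch_K_eq]
  set E := (M * R) ^ 2 with hE
  have hE0 : 0 ≤ E := by positivity
  have a1 : |rtSq (p.b - p₀.b)| ≤ E := by rw [abs_of_nonneg (rtSq_nonneg _)]; exact h1
  have a2 : |(t - t₀) * (p.y - p₀.y - 2 * rtIp p₀.A (p.b - p₀.b))| ≤ (2 * T) * E := by
    rw [abs_mul]
    refine mul_le_mul ?_ (h2.trans h5) (abs_nonneg _) (by positivity)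
    calc |t - t₀| ≤ |t| + |t₀| := abs_sub _ _
      _ ≤ 2 * T := by linarith
  have a3 : |2 * t * rtIp (p.A - p.A + (p.A - p₀.A)) (p.b - p₀.b)| ≤ (2 * T) * E := by
    rw [sub_self, zero_add, abs_mul, abs_mul, abs_of_pos (by norm_num : (0 : ℝ) < 2)]
    refine mul_le_mul (by linarith) (h4.trans (by rw [hE]; nlinarith)) (abs_nonneg _) (by positivity)
  rw [sub_self, zero_add] at a3
  have a4 : |t * t₀ * rtSq (p.A - p₀.A)| ≤ (T * T) * E := by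
    rw [abs_mul, abs_mul, abs_of_nonneg (rtSq_nonneg _)]
    exact mul_le_mul (mul_le_mul ht ht₀ (abs_nonneg _) hT) h3 (rtSq_nonneg _) (by positivity)
  have e : ((T + 2) * M * R) ^ 2 = E + 2 * T * E + 2 * T * E + T * T * E + 3 * E := by rw [hE]; ring
  rw [e]
  have := abs_le.1 a1
  have := abs_le.1 a2
  have := abs_le.1 a3
  have := abs_le.1 a4
  rw [abs_le]
  constructor <;> linarith

/-- Lemma B: three values of the invariant control the box -/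
theorem rt_ch_box_of_K {p p₀ : RtRow} {R M : ℝ} (hM : 1 ≤ M) (hR : 0 ≤ R) (h00 : |rtK p 0 p₀ 0| ≤ (M * R) ^ 2)
    (h11 : |rtK p 1 p₀ 1| ≤ (M * R) ^ 2) (h01 : |rtK p 0 p₀ 1| ≤ (M * R) ^ 2) : p ∈ rtBx p₀ R (2 * M ^ 2) := by
  rw [rt_ch_K_eq] at h00 h11 h01
  set E := (M * R) ^ 2 with hE
  have hE0 : 0 ≤ E := by positivity
  have b0 := abs_le.1 h00
  have b1 := abs_le.1 h11
  have b2 := abs_le.1 h01
  have c1 : rtSq (p.b - p₀.b) ≤ E := by linarith [b0.1]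
  have hM2 : M ≤ M ^ 2 := by nlinarith
  have e1 : E ≤ (2 * M ^ 2 * R) ^ 2 := by
    rw [hE]
    have : M * R ≤ 2 * M ^ 2 * R := by nlinarith [mul_nonneg (sub_nonneg.2 hM2) hR, mul_nonneg (by positivity : 0 ≤ M ^ 2) hR]
    exact pow_le_pow_left₀ (by positivity) this 2
  have e4 : 4 * E ≤ (2 * M ^ 2 * R) ^ 2 := by
    rw [hE]
    have : 2 * (M * R) ≤ 2 * M ^ 2 * R := by nlinarith [mul_nonneg (sub_nonneg.2 hM2) hR]
    calc 4 * (M * R) ^ 2 = (2 * (M * R)) ^ 2 := by ring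
      _ ≤ _ := pow_le_pow_left₀ (by positivity) this 2
  refine ⟨c1.trans e1, ?_, ?_⟩
  · have : 2 * M ^ 2 * R ^ 2 = 2 * E := by rw [hE]; ring
    rw [this, abs_le]
    have := rtSq_nonneg (p.b - p₀.b)
    constructor <;> linarith [b2.1, b2.2]
  · refine le_trans ?_ e4
    have k : rtSq (p.b - p₀.b + (p.A - p₀.A)) ≤ E := by
      have : rtSq (p.b - p₀.b + (p.A - p₀.A)) = rtSq (p.b - p₀.b) + 2 * rtIp (p.A - p₀.A) (p.b - p₀.b) + rtSq (p.A - p₀.A) := by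
        simp only [rtSq, rtIp, Prod.fst_add, Prod.snd_add]
        ring
      rw [this]
      linarith [b1.1]
    have : rtSq (p.A - p₀.A) ≤ 2 * rtSq (p.b - p₀.b + (p.A - p₀.A)) + 2 * rtSq (p.b - p₀.b) := by
      simp only [rtSq, Prod.fst_add, Prod.snd_add]
      nlinarith [sq_nonneg ((p.b - p₀.b).1 + (p.A - p₀.A).1 + (p.b - p₀.b).1),
        sq_nonneg ((p.b - p₀.b).2 + (p.A - p₀.A).2 + (p.b - p₀.b).2)]
    linarith

theorem rt_ch_hit_ne {Φ : RtCh} {p : RtRow} {t M : ℝ} (hM : 0 < M) (h : M⁻¹ ≤ |Φ.den (p.ev t)|) : Φ.den (p.ev t) ≠ 0 := by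
  intro h0
  rw [h0, abs_zero] at h
  exact absurd h (not_le.2 (inv_pos.2 hM))

/-- **BOXES GO TO BOXES OF THE SAME WIDTH** (07 l.497, l.530-537) -/
theorem rt_ch_box {Φ : RtCh} {S : Set RtRow} (h : Φ.Ex S) {p p₀ : RtRow} (hp : p ∈ S) (hp₀ : p₀ ∈ S)
    {T T' Mc M R : ℝ} (hT' : 1 ≤ T') (hMc : 1 ≤ Mc) (hM : 1 ≤ M) (hR : 0 ≤ R) (hh : Φ.Hit p T T' Mc)
    (hh₀ : Φ.Hit p₀ T T' Mc) (hb : p ∈ rtBx p₀ R M) : Φ.row p ∈ rtBx (Φ.row p₀) R (2 * (Mc * ((T + 2) * M)) ^ 2) := by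
  have hMc0 : 0 < Mc := by linarith
  have key : ∀ τ τ₀ : ℝ, |τ| ≤ T' → |τ₀| ≤ T' → |rtK (Φ.row p) τ (Φ.row p₀) τ₀| ≤ (Mc * ((T + 2) * M) * R) ^ 2 := by
    intro τ τ₀ hτ hτ₀
    obtain ⟨t, ht, hd, rfl⟩ := hh τ hτ
    obtain ⟨t₀, ht₀, hd₀, rfl⟩ := hh₀ τ₀ hτ₀
    rw [rt_ch_K h hp hp₀ (rt_ch_hit_ne hMc0 hd) (rt_ch_hit_ne hMc0 hd₀), abs_div, abs_mul]
    have hK := rt_ch_K_le hM hR hb ht ht₀
    have hpos : 0 < |Φ.den (p.ev t)| * |Φ.den (p₀.ev t₀)| :=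
      mul_pos (lt_of_lt_of_le (inv_pos.2 hMc0) hd) (lt_of_lt_of_le (inv_pos.2 hMc0) hd₀)
    rw [div_le_iff₀ hpos]
    have h2 : Mc⁻¹ * Mc⁻¹ ≤ |Φ.den (p.ev t)| * |Φ.den (p₀.ev t₀)| := mul_le_mul hd hd₀ (inv_pos.2 hMc0).le (abs_nonneg _)
    calc |rtK p t p₀ t₀| ≤ ((T + 2) * M * R) ^ 2 := hK
      _ = (Mc * ((T + 2) * M) * R) ^ 2 * (Mc⁻¹ * Mc⁻¹) := by field_simp
      _ ≤ _ := mul_le_mul_of_nonneg_left h2 (by positivity)
  have hT : 0 ≤ T := by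
    obtain ⟨t, ht, _⟩ := hh 0 (by rw [abs_zero]; linarith)
    exact (abs_nonneg t).trans ht
  have h1 : (1 : ℝ) ≤ Mc * ((T + 2) * M) := by nlinarith [mul_nonneg hT (by linarith : (0 : ℝ) ≤ M)]
  have z0 : |(0 : ℝ)| ≤ T' := by rw [abs_zero]; linarith
  have z1 : |(1 : ℝ)| ≤ T' := by rw [abs_one]; exact hT'
  exact rt_ch_box_of_K h1 hR (key 0 0 z0 z0) (key 1 1 z1 z1) (key 0 1 z0 z1)

/-- **SUBLEVELS GO TO SUBLEVELS** -/
theorem rt_ch_sub {Φ : RtCh} {S : Set RtRow} (h : Φ.Ex S) {p : RtRow} (hp : p ∈ S) {T T' Mc : ℝ} (hT' : 1 ≤ T')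
    (hMc : 0 < Mc) (hh : Φ.Hit p T T' Mc) (n : RtPoly) :
    |(Φ.pol n).F 0 (Φ.row p).b (Φ.row p).y| ≤ Mc * (|n.F 0 p.b p.y| + T * |n.G 0 p.b p.y p.A|) ∧
    |(Φ.pol n).G 0 (Φ.row p).b (Φ.row p).y (Φ.row p).A| ≤ 2 * (Mc * (|n.F 0 p.b p.y| + T * |n.G 0 p.b p.y p.A|)) := by
  have key : ∀ τ : ℝ, |τ| ≤ T' → |(Φ.pol n).Fe ((Φ.row p).ev τ)| ≤ Mc * (|n.F 0 p.b p.y| + T * |n.G 0 p.b p.y p.A|) := by
    intro τ hτ
    obtain ⟨t, ht, hd, rfl⟩ := hh τ hτ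
    have hne := rt_ch_hit_ne hMc hd
    rw [← h.ray p hp t hne, h.pol n _ hne, rt_cf_Fe_ray, abs_div]
    have hpos : 0 < |Φ.den (p.ev t)| := lt_of_lt_of_le (inv_pos.2 hMc) hd
    rw [div_le_iff₀ hpos]
    have h1 : |n.F 0 p.b p.y + t * n.G 0 p.b p.y p.A| ≤ |n.F 0 p.b p.y| + T * |n.G 0 p.b p.y p.A| := by
      refine (abs_add_le _ _).trans ?_
      rw [abs_mul]
      exact add_le_add le_rfl (mul_le_mul_of_nonneg_right ht (abs_nonneg _))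
    have hT : 0 ≤ T := (abs_nonneg t).trans ht
    have h0 : 0 ≤ |n.F 0 p.b p.y| + T * |n.G 0 p.b p.y p.A| := by positivity
    calc _ ≤ |n.F 0 p.b p.y| + T * |n.G 0 p.b p.y p.A| := h1
      _ = Mc * (|n.F 0 p.b p.y| + T * |n.G 0 p.b p.y p.A|) * Mc⁻¹ := by field_simp
      _ ≤ _ := mul_le_mul_of_nonneg_left hd (by positivity)
  have k0 := key 0 (by rw [abs_zero]; linarith)
  have k1 := key 1 (by rw [abs_one]; exact hT')
  rw [rt_cf_Fe_ray] at k0 k1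
  rw [zero_mul, add_zero] at k0
  rw [one_mul] at k1
  refine ⟨k0, ?_⟩
  have a0 := abs_le.1 k0
  have a1 := abs_le.1 k1
  rw [abs_le]
  constructor <;> linarith [a0.1, a0.2, a1.1, a1.2]

/-! ## 4. The flattening chart -/

/-- the domain of exactness of the flattening chart -/
def rtChartDom (p₀ : RtRow) (n : RtPoly) : Set RtRow :=
  {p | (((p ∈ Set.univ ∧ (rtChCen p₀).row p ∈ Set.univ) ∧
      ((rtChRot (n.g 0 p₀.b p₀.A)).comp (rtChCen p₀)).row p ∈ {p | rtCfQ n.be p ≠ 0})) ∧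
    ((rtChDb n.be).comp ((rtChRot (n.g 0 p₀.b p₀.A)).comp (rtChCen p₀))).row p ∈ {p | rtCfD0 (0, n.k) p ≠ 0}}

theorem rt_chart_dom_eqns_cite : True := by
  have := @rtChartDom.eq_1
  trivial

theorem rt_chart_ex (p₀ : RtRow) (n : RtPoly) (hd : n.disc = 1) (hF : n.F 0 p₀.b p₀.y = 0)
    (hG : n.G 0 p₀.b p₀.y p₀.A = 0) : (rtChart p₀ n).Ex (rtChartDom p₀ n) :=
  (rt_ch_cf_ex (0, n.k) 0).comp ((rt_ch_db_ex n.be).comp
    ((rt_ch_rot_ex _ (rt_cf_normal n p₀ hd hF hG).1).comp (rt_ch_cen_ex p₀)))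

/-- the chart carries `F = 0` to `b₂' = 0` -/
theorem rt_chart_flat (p₀ : RtRow) (n : RtPoly) (hd : n.disc = 1) (hF : n.F 0 p₀.b p₀.y = 0)
    (hG : n.G 0 p₀.b p₀.y p₀.A = 0) : (rtChart p₀ n).pol n = ⟨0, 0, (0, 1), 0, 0⟩ := by
  show (((n.cen p₀).rot (n.g 0 p₀.b p₀.A)).db n.be).cf ⟨0, (0, n.k), 0⟩ = _
  rw [(rt_cf_normal n p₀ hd hF hG).2]
  exact rt_cf_flat n.be n.k

/-! ## 5. The reverse direction (no inverse chart is needed) -/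

/-- on the old times `|t| ≤ T` the chart is regular: `0 ≠ |den| ≤ M`, new times `≤ T'` -/
def RtCh.Fwd (Φ : RtCh) (p : RtRow) (T T' M : ℝ) : Prop :=
  ∀ t, |t| ≤ T → Φ.den (p.ev t) ≠ 0 ∧ |Φ.den (p.ev t)| ≤ M ∧ |Φ.tm p t| ≤ T'

/-- the Wronskian of the change of time -/
def RtCh.wr (Φ : RtCh) (p : RtRow) : ℝ := Φ.d0 p * Φ.a1 p - Φ.a0 p * Φ.d1 p

theorem rt_ch_fwd_eqns_cite : True := by
  have := @RtCh.Fwd.eq_1
  have := @RtCh.wr.eq_1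
  trivial

theorem RtCh.Fwd.comp {Φ Ψ : RtCh} {S : Set RtRow} (hΨ : Ψ.Ex S) {p : RtRow} (hp : p ∈ S)
    {T T₁ T₂ M₁ M₂ : ℝ} (h₁ : Ψ.Fwd p T T₁ M₁) (h₂ : Φ.Fwd (Ψ.row p) T₁ T₂ M₂) : (Φ.comp Ψ).Fwd p T T₂ (M₂ * M₁) := by
  intro t ht
  obtain ⟨a1, a2, a3⟩ := h₁ t ht
  obtain ⟨b1, b2, b3⟩ := h₂ _ a3
  have h3 := hΨ.den_ray p hp t a1
  have h4 := hΨ.ray p hp t a1
  refine ⟨?_, ?_, ?_⟩
  · show Φ.den (Ψ.ev (p.ev t)) * Ψ.den (p.ev t) ≠ 0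
    rw [h4]
    exact mul_ne_zero b1 a1
  · show |Φ.den (Ψ.ev (p.ev t)) * Ψ.den (p.ev t)| ≤ _
    rw [h4, abs_mul]
    exact mul_le_mul b2 a2 (abs_nonneg _) ((abs_nonneg _).trans b2)
  · rw [rt_ch_comp_tm Φ Ψ p t (h3 ▸ a1)]
    exact b3

/-- **boxes come from boxes** : the preimage of a box lies in a box of the same width -/
theorem rt_ch_box_inv {Φ : RtCh} {S : Set RtRow} (h : Φ.Ex S) {p p₀ : RtRow} (hp : p ∈ S) (hp₀ : p₀ ∈ S)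
    {T T' Mc M R : ℝ} (hT : 1 ≤ T) (hMc : 1 ≤ Mc) (hM : 1 ≤ M) (hR : 0 ≤ R) (hh : Φ.Fwd p T T' Mc)
    (hh₀ : Φ.Fwd p₀ T T' Mc) (hb : Φ.row p ∈ rtBx (Φ.row p₀) R M) : p ∈ rtBx p₀ R (2 * (Mc * ((T' + 2) * M)) ^ 2) := by
  have key : ∀ t t₀ : ℝ, |t| ≤ T → |t₀| ≤ T → |rtK p t p₀ t₀| ≤ (Mc * ((T' + 2) * M) * R) ^ 2 := by
    intro t t₀ ht ht₀
    obtain ⟨a1, a2, a3⟩ := hh t ht
    obtain ⟨b1, b2, b3⟩ := hh₀ t₀ ht₀
    have hK := rt_ch_K h hp hp₀ a1 b1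
    have hK2 := rt_ch_K_le hM hR hb a3 b3
    have e : rtK p t p₀ t₀ = rtK (Φ.row p) (Φ.tm p t) (Φ.row p₀) (Φ.tm p₀ t₀) * (Φ.den (p.ev t) * Φ.den (p₀.ev t₀)) := by
      rw [hK]
      field_simp
    rw [e, abs_mul, abs_mul]
    calc _ ≤ ((T' + 2) * M * R) ^ 2 * (Mc * Mc) :=
          mul_le_mul hK2 (mul_le_mul a2 b2 (abs_nonneg _) (by linarith)) (by positivity) (by positivity)
      _ = _ := by ring
  have hT' : 0 ≤ T' := by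
    obtain ⟨_, _, a3⟩ := hh 0 (by rw [abs_zero]; linarith)
    exact (abs_nonneg _).trans a3
  have h1 : (1 : ℝ) ≤ Mc * ((T' + 2) * M) := by nlinarith [mul_nonneg hT' (by linarith : (0 : ℝ) ≤ M)]
  have z0 : |(0 : ℝ)| ≤ T := by rw [abs_zero]; linarith
  have z1 : |(1 : ℝ)| ≤ T := by rw [abs_one]; exact hT
  exact rt_ch_box_of_K h1 hR (key 0 0 z0 z0) (key 1 1 z1 z1) (key 0 1 z0 z1)

/-- **sublevels come from sublevels** -/
theorem rt_ch_sub_inv {Φ : RtCh} {S : Set RtRow} (h : Φ.Ex S) {p : RtRow} (hp : p ∈ S) {T T' Mc : ℝ} (hT : 1 ≤ T)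
    (hh : Φ.Fwd p T T' Mc) (n : RtPoly) :
    |n.F 0 p.b p.y| ≤ Mc * (|(Φ.pol n).F 0 (Φ.row p).b (Φ.row p).y|
        + T' * |(Φ.pol n).G 0 (Φ.row p).b (Φ.row p).y (Φ.row p).A|) ∧
    |n.G 0 p.b p.y p.A| ≤ 2 * (Mc * (|(Φ.pol n).F 0 (Φ.row p).b (Φ.row p).y|
        + T' * |(Φ.pol n).G 0 (Φ.row p).b (Φ.row p).y (Φ.row p).A|)) := by
  set X := |(Φ.pol n).F 0 (Φ.row p).b (Φ.row p).y| + T' * |(Φ.pol n).G 0 (Φ.row p).b (Φ.row p).y (Φ.row p).A| with hX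
  have key : ∀ t : ℝ, |t| ≤ T → |n.Fe (p.ev t)| ≤ Mc * X := by
    intro t ht
    obtain ⟨a1, a2, a3⟩ := hh t ht
    have e : n.Fe (p.ev t) = (Φ.pol n).Fe ((Φ.row p).ev (Φ.tm p t)) * Φ.den (p.ev t) := by
      rw [← h.ray p hp t a1, h.pol n _ a1]
      field_simp
    rw [e, abs_mul, rt_cf_Fe_ray, mul_comm Mc]
    have hT' : 0 ≤ T' := (abs_nonneg _).trans a3
    refine mul_le_mul ?_ a2 (abs_nonneg _) (by positivity)
    refine (abs_add_le _ _).trans ?_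
    rw [abs_mul]
    exact add_le_add le_rfl (mul_le_mul_of_nonneg_right a3 (abs_nonneg _))
  have k0 := key 0 (by rw [abs_zero]; linarith)
  have k1 := key 1 (by rw [abs_one]; exact hT)
  rw [rt_cf_Fe_ray] at k0 k1
  rw [zero_mul, add_zero] at k0
  rw [one_mul] at k1
  refine ⟨k0, ?_⟩
  have a0 := abs_le.1 k0
  have a1 := abs_le.1 k1
  rw [abs_le]
  constructor <;> linarith [a0.1, a0.2, a1.1, a1.2]

/-- the rate of the new time -/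
theorem rt_ch_tm_sub (Φ : RtCh) (p : RtRow) {t t' : ℝ} (h : Φ.dn p t ≠ 0) (h' : Φ.dn p t' ≠ 0) :
    Φ.tm p t' - Φ.tm p t = Φ.wr p * (t' - t) / (Φ.dn p t * Φ.dn p t') := by
  simp only [RtCh.tm, RtCh.wr]
  have e : Φ.dn p t = Φ.d0 p + t * Φ.d1 p := rfl
  have e' : Φ.dn p t' = Φ.d0 p + t' * Φ.d1 p := rfl
  rw [div_sub_div _ _ h' h, div_eq_div_iff (mul_ne_zero h' h) (mul_ne_zero h h')]
  rw [e, e']
  ring

theorem rt_ch_comp_wr (Φ Ψ : RtCh) (p : RtRow) : (Φ.comp Ψ).wr p = Φ.wr (Ψ.row p) * Ψ.wr p := by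
  simp only [RtCh.comp, RtCh.wr]
  ring

/-- two events determine the ray -/
theorem rt_ch_ev_inj {p p' : RtRow} {t₁ t₂ : ℝ} (h12 : t₁ ≠ t₂) (h₁ : p.ev t₁ = p'.ev t₁) (h₂ : p.ev t₂ = p'.ev t₂) : p = p' := by
  have hs : t₁ - t₂ ≠ 0 := sub_ne_zero.2 h12
  have b1 := congrArg RtEv.b h₁
  have b2 := congrArg RtEv.b h₂
  have y1 := congrArg RtEv.y h₁
  simp only [RtRow.ev] at b1 b2 y1
  have hA : p.A = p'.A := by
    have c1 := congrArg Prod.fst b1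
    have c2 := congrArg Prod.fst b2
    have c3 := congrArg Prod.snd b1
    have c4 := congrArg Prod.snd b2
    simp only [Prod.fst_add, Prod.snd_add, Prod.smul_fst, Prod.smul_snd, smul_eq_mul] at c1 c2 c3 c4
    ext
    · have : (t₁ - t₂) * (p.A.1 - p'.A.1) = 0 := by linarith
      have := (mul_eq_zero.1 this).resolve_left hs
      linarith
    · have : (t₁ - t₂) * (p.A.2 - p'.A.2) = 0 := by linarith
      have := (mul_eq_zero.1 this).resolve_left hs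
      linarith
  have hb : p.b = p'.b := by
    rw [hA] at b1
    exact add_right_cancel b1
  have hy : p.y = p'.y := by
    rw [hA] at y1
    exact add_right_cancel y1
  exact RtRow.ext hA hb hy

end Claimed.Agent.R256
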