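import Claimed.Agent.R256.Base.RndWav
import Claimed.Agent.R256.Rt.Chart
import Claimed.Agent.R256.Rt.Geo

/-!
# Row 256, folder Rt, block I1 (Lemma rt:wave-transport, 07 l.649-826) : DEFINITIONS      (architect helper76; chief Rt helper216; defs `rtV*`, `RtAs`, `rtXd*`, `rtXl*`, `rtCut`)      SORRY-FREE

ROUTE (replaces cutoffs, projector and Duhamel of the paper by EXACT unitary operators on the momentum side; details in the headers of `Rt/X*Contract.lean`).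
CLOCK.  All views use the times `rtTm k j = j 2^-k - 1/4`, `j < 2^k`: the window `[-1/4, 3/4)` = the window `[-1, 3)` of the paper in units of 4 old root lengths.   After an exact symmetry (unit XS) the old root interval is `[0, 1/4)` (depth `2`, index `1`),
the exact ray `p₀` is the time axis, the hyperquadric is `F = b₂ + β y + κ q`, `|β| ≤ 1/4`, `|κ| ≤ 1`, all rays lie in a box of radius `≤ 1/200` around the time axis.   THE CHART OF THE PAPER (`rtChart`, conjugated by the scaling) factors as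
      `C_(0,(0,κ),0) ∘ DB_β = DB_g ∘ LENS_1 ∘ DB_(-2g) ∘ LENS_(-1) ∘ DB_(g+β)`,   `g = κ/2`,      `DB_γ = rtChDb γ`,   `LENS_c = rtChLn c = rtChCf (0,0) c`      (`Rt/Conf.lean`: `rt_cf_null_split`, `rt_cf_conj_db`, `rt_cf_add`).
* STATES `RtKc = L²(ℝ²_ξ × ℝ_ρ)`.   `rtXdOp γ` (dual boost = change of variables `rtXdK γ` on the cone), `rtXlOp c` (lens = Fresnel transform in `ξ` at fixed `ρ`), `rtCut` (`An^* 1_S An`).
* VIEWS.   `rtVm p k` = (counting measure on the time indices `j < 2^k`) × (row measure), `rtVd p k b v (j, x) = ‖An(rtTm k j, k, b) v x‖ₑ²`.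
* `rtRay T x` = the ray (parametrised at time `0`) through the row `x` of the time `T`.
* `RtAs Ψ k H' k' Λ z z'` = ASSOCIATION of a source row `z = (j, x)` (depth `k`) with a target row `z' = (j', x')` (Planck parameter `H'`, depth `k'`) through the chart `Ψ` FROM SOURCE TO TARGET coordinates:
      `te = Ψ.tm p T_j` (target time of the source event), `|te - T'_j'| ≤ Λ ℓ'`, and the target row, flowed to the time `te`, is `Λ`-near (`RtNear`, scales `d_ℓ', q_ℓ', H'`) to the image `(Ψ.row p).flow te`.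
-/

set_option autoImplicit false

namespace Claimed.Agent.R256

open MeasureTheory
open scoped ENNReal

/-- the states of the round wave model -/
abbrev RtKc : Type := Lp ℂ 2 (volume : Measure RdWvPar.Mo)

/-- time index × row -/
abbrev RtZ : Type := ℕ × RdWvPar.Ph

/-- the clock of the views: `j 2^-k - 1/4` -/
noncomputable def rtTm (k j : ℕ) : ℝ := tmL k j - 1 / 4

/-- the measure of the lattice view of depth `k` -/
noncomputable def rtVm (p : RdWvPar) (k : ℕ) : Measure RtZ := ((Measure.count : Measure ℕ).restrict (Set.Iio (2 ^ k))).prod (p.rw k)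

/-- the energy density of the lattice view of depth `k`, generation `b` -/
noncomputable def rtVd (p : RdWvPar) (k b : ℕ) (v : RtKc) (z : RtZ) : ℝ≥0∞ := ‖(p.an (rtTm k z.1) k b v : RdWvPar.Ph → ℂ) z.2‖ₑ ^ 2

/-- the ray through the row `x` of the time `T`, parametrised at time `0` -/
def rtRay (T : ℝ) (x : RdWvPar.Ph) : RtRow := (RdWvPar.co T x).flow (-T)

/-- the ray of a point of a lattice view -/
noncomputable def rtZr (k : ℕ) (z : RtZ) : RtRow := rtRay (rtTm k z.1) z.2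

/-- the target time of the event of a source row -/
noncomputable def rtZt (Ψ : RtCh) (k : ℕ) (z : RtZ) : ℝ := Ψ.tm (rtZr k z) (rtTm k z.1)

/-- **association** of a source row `x` of the time `T` with a target row `x'` of the time `T'` (Planck parameter `H'`, depth `k'`) through a chart from source to target coordinates -/
def RtAsR (Ψ : RtCh) (H' : ℝ) (k' : ℕ) (Λ : ℝ) (T : ℝ) (x : RdWvPar.Ph) (T' : ℝ) (x' : RdWvPar.Ph) : Prop :=
  |Ψ.tm (rtRay T x) T - T'| ≤ Λ * rdLen k' ∧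
    RtNear Λ (rdD H' k') (rdQ H' k') H' ((RdWvPar.co 0 x').flow (Ψ.tm (rtRay T x) T - T')) ((Ψ.row (rtRay T x)).flow (Ψ.tm (rtRay T x) T))

/-- association of the points of two lattice views (clock `rtTm`) -/
def RtAs (Ψ : RtCh) (k : ℕ) (H' : ℝ) (k' : ℕ) (Λ : ℝ) (z z' : RtZ) : Prop :=
  RtAsR Ψ H' k' Λ (rtTm k z.1) z.2 (rtTm k' z'.1) z'.2

/-- the measure of a view in the PHYSICAL clock `tmL`, time indices in `I` -/
noncomputable def rtVmP (p : RdWvPar) (k : ℕ) (I : Set ℕ) : Measure RtZ := ((Measure.count : Measure ℕ).restrict I).prod (p.rw k)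

/-- the energy density of a view in the physical clock -/
noncomputable def rtVdP (p : RdWvPar) (k b : ℕ) (v : RtKc) (z : RtZ) : ℝ≥0∞ := ‖(p.an (tmL k z.1) k b v : RdWvPar.Ph → ℂ) z.2‖ₑ ^ 2

/-- the time axis -/
def rtO : RtRow := ⟨0, 0, 0⟩

/-- the points of a lattice view whose ray lies in the box of radius `a` around the time axis -/
def rtReg (k : ℕ) (a : ℝ) : Set RtZ := {z | rtZr k z ∈ rtBx rtO 1 a}

/-- the rows of the time `T` whose ray lies in the box of radius `a` around the time axis -/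
def rtRegT (T a : ℝ) : Set RdWvPar.Ph := {x | rtRay T x ∈ rtBx rtO 1 a}

/-- exact spectral support in the cone `|ξ/(2ρ)| ≤ a`, `ρ > 0` -/
def RtCone (a : ℝ) (v : RtKc) : Prop :=
  ∀ᵐ q ∂(volume : Measure RdWvPar.Mo), (v : RdWvPar.Mo → ℂ) q ≠ 0 → 0 < q.2 ∧ rtSq q.1 ≤ (2 * a * q.2) ^ 2

/-- `An^* 1_S An` -/
noncomputable def rtCut (p : RdWvPar) (T : ℝ) (k b : ℕ) (S : Set RdWvPar.Ph) (v : RtKc) : RtKc :=
  (p.sys 0).tz T k b (S.indicator fun _ => 1) v

/-! ### the dual boost on the momentum side -/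

/-- `Q_γ = ρ'/ρ = 1 + γ ξ₂/ρ + γ² |ξ|²/(4ρ²)` -/
noncomputable def rtXdQ (γ : ℝ) (q : RdWvPar.Mo) : ℝ := 1 + γ * q.1.2 / q.2 + γ ^ 2 * rtSq q.1 / (4 * q.2 ^ 2)

/-- the action of `DB_γ` on null covectors: `<n(κ q), DB_γ x> = <n(q), x>`, `<n(q), x> = ξ·b - ρ y - t |ξ|²/(4ρ)` -/
noncomputable def rtXdK (γ : ℝ) (q : RdWvPar.Mo) : RdWvPar.Mo :=
  ((q.1.1, q.1.2 + γ * rtSq q.1 / (2 * q.2)), q.2 + γ * q.1.2 + γ ^ 2 * rtSq q.1 / (4 * q.2))

/-- the safe cone `|ξ/(2ρ)| ≤ 1/5` -/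
def rtXdC : Set RdWvPar.Mo := {q | 0 < q.2 ∧ rtSq q.1 ≤ (2 * (1 / 5) * q.2) ^ 2}

/-- the formula of the dual boost = the EXACT transport of the field (`reFld (T G) ∘ DB_γ = reFld G`, `rt_xd_fld`): `(T G)(κ q) = G q / Q_γ(q)` on the safe cone, `0` elsewhere      (decision 23:00Z, 76 + 290: factor `Q`, not `√Q`; `T` is bounded with bounded inverse, not unitary) -/
noncomputable def rtXdF (γ : ℝ) (G : RdWvPar.Mo → ℂ) (q' : RdWvPar.Mo) : ℂ :=
  open Classical in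
  if 0 < q'.2 ∧ rtXdK (-γ) q' ∈ rtXdC then ((rtXdQ (-γ) q' : ℝ) : ℂ) * G (rtXdK (-γ) q') else 0

/-- the dual boost as an operator (junk value `0` unless the formula defines a bounded operator: THEOREM `rt_xd_op_spec`) -/
noncomputable def rtXdOp (γ : ℝ) : RtKc →L[ℂ] RtKc :=
  open Classical in
  if h : ∃ L : RtKc →L[ℂ] RtKc, ∀ G : RtKc, (L G : RdWvPar.Mo → ℂ) =ᵐ[volume] rtXdF γ (G : RdWvPar.Mo → ℂ) then h.choose else 0

/-! ### the lens on the momentum side -/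

/-- the Fresnel formula of the lens: `(4π i ρ c)⁻¹ ∫ e^{i|ξ' - ξ|²/(4ρc)} G(ξ, ρ) dξ` -/
noncomputable def rtXlF (c : ℝ) (G : RdWvPar.Mo → ℂ) (q' : RdWvPar.Mo) : ℂ :=
  (4 * (Real.pi : ℂ) * Complex.I * ((q'.2 * c : ℝ) : ℂ))⁻¹ *
    ∫ ξ : ℝ × ℝ, Complex.exp (Complex.I * ((rtSq (q'.1 - ξ) / (4 * q'.2 * c) : ℝ) : ℂ)) * G (ξ, q'.2)

/-- the lens as an operator: the identity for `c = 0`, else THE isometry given by the Fresnel formula on `L¹ ∩ L²` (THEOREM `rt_xl_op_spec`) -/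
noncomputable def rtXlOp (c : ℝ) : RtKc →L[ℂ] RtKc :=
  open Classical in
  if c = 0 then ContinuousLinearMap.id ℂ RtKc
  else if h : ∃ L : RtKc →L[ℂ] RtKc, (∀ G : RtKc, ‖L G‖ = ‖G‖) ∧
      ∀ G : RtKc, Integrable (G : RdWvPar.Mo → ℂ) volume → (L G : RdWvPar.Mo → ℂ) =ᵐ[volume] rtXlF c (G : RdWvPar.Mo → ℂ)
    then h.choose else 0

/-- `LENS_c` -/
noncomputable def rtChLn (c : ℝ) : RtCh := rtChCf (0, 0) c

/-- **the transport chart** `DB_g ∘ LENS_1 ∘ DB_(-2g) ∘ LENS_(-1) ∘ DB_(g+β)`, `g = κ/2`      (`= C_(0,(0,κ),0) ∘ DB_β` on events) -/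
noncomputable def rtChN (β κ : ℝ) : RtCh :=
  (rtChDb (κ / 2)).comp ((rtChLn 1).comp ((rtChDb (-κ)).comp ((rtChLn (-1)).comp (rtChDb (κ / 2 + β)))))

/-- the inverse chart -/
noncomputable def rtChNi (β κ : ℝ) : RtCh :=
  (rtChDb (-(κ / 2 + β))).comp ((rtChLn 1).comp ((rtChDb κ).comp ((rtChLn (-1)).comp (rtChDb (-(κ / 2))))))

theorem rt_xdefs_eqns_cite : True := by
  have := @rtTm.eq_1
  have := @rtVm.eq_1
  have := @rtVd.eq_1
  have := @rtRay.eq_1
  have := @rtZr.eq_1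
  have := @rtZt.eq_1
  have := @RtAsR.eq_1
  have := @RtAs.eq_1
  have := @rtVmP.eq_1
  have := @rtVdP.eq_1
  have := @rtO.eq_1
  have := @rtReg.eq_1
  have := @rtRegT.eq_1
  have := @RtCone.eq_1
  have := @rtCut.eq_1
  have := @rtXdQ.eq_1
  have := @rtXdK.eq_1
  have := @rtXdC.eq_1
  have := @rtXdF.eq_1
  have := @rtXdOp.eq_1
  have := @rtXlF.eq_1
  have := @rtXlOp.eq_1
  have := @rtChLn.eq_1
  have := @rtChN.eq_1
  have := @rtChNi.eq_1
  trivial

theorem rt_as_iff (Ψ : RtCh) (k : ℕ) (H' : ℝ) (k' : ℕ) (Λ : ℝ) (z z' : RtZ) : RtAs Ψ k H' k' Λ z z' ↔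
    |rtZt Ψ k z - rtTm k' z'.1| ≤ Λ * rdLen k' ∧
      RtNear Λ (rdD H' k') (rdQ H' k') H' ((RdWvPar.co 0 z'.2).flow (rtZt Ψ k z - rtTm k' z'.1)) ((Ψ.row (rtZr k z)).flow (rtZt Ψ k z)) := Iff.rfl

/-- the transport chart flattens `F = b₂ + β y + κ q` -/
theorem rt_chn_flat (β κ : ℝ) : (rtChN β κ).pol ⟨0, 0, (0, 1), β, κ⟩ = ⟨0, 0, (0, 1), 0, 0⟩ := by
  simp only [rtChN, rtChLn, RtCh.comp, rtChDb, rtChCf, RtPoly.db, RtPoly.cf, RtEv.q, rtQ, rtIp, rtSq]
  ext <;> simp <;> ring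

/-- the phase `<n(q), x> = ξ·b - ρ y - t |ξ|²/(4ρ)` -/
noncomputable def rtXPh (q : RdWvPar.Mo) (x : RtEv) : ℝ := rtIp q.1 x.b - q.2 * x.y - x.t * rtSq q.1 / (4 * q.2)

theorem rtXPh_eqns_cite : True := by
  have := @rtXPh.eq_1
  trivial

/-- `|ξ'|² = |ξ|² Q` -/
theorem rt_xd_K_sq (γ : ℝ) (q : RdWvPar.Mo) (hq : q.2 ≠ 0) : rtSq (rtXdK γ q).1 = rtSq q.1 * rtXdQ γ q := by
  simp only [rtXdK, rtXdQ, rtSq]
  field_simp
  ring

/-- `ρ' = ρ Q` -/
theorem rt_xd_K_rho (γ : ℝ) (q : RdWvPar.Mo) (hq : q.2 ≠ 0) : (rtXdK γ q).2 = q.2 * rtXdQ γ q := by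
  simp only [rtXdK, rtXdQ, rtSq]
  field_simp

/-- **invariance of the phase** under the dual boost -/
theorem rt_xd_phase (γ : ℝ) (q : RdWvPar.Mo) (x : RtEv) (hq : q.2 ≠ 0) (hQ : rtXdQ γ q ≠ 0) :
    rtXPh (rtXdK γ q) (rtCfDb γ x) = rtXPh q x := by
  unfold rtXPh
  rw [rt_xd_K_sq γ q hq, rt_xd_K_rho γ q hq]
  have e : rtSq q.1 * rtXdQ γ q / (4 * (q.2 * rtXdQ γ q)) = rtSq q.1 / (4 * q.2) := by
    field_simp
  rw [mul_div_assoc, e]
  simp only [rtXdK, rtXdQ, rtCfDb, rtIp, rtSq]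
  field_simp
  ring

/-- the group law on the momentum side -/
theorem rt_xd_K_inv (γ : ℝ) (q : RdWvPar.Mo) (hq : q.2 ≠ 0) (hQ : rtXdQ γ q ≠ 0) : rtXdK (-γ) (rtXdK γ q) = q := by
  have h2 : (rtXdK γ q).2 = q.2 * rtXdQ γ q := rt_xd_K_rho γ q hq
  have h1 : rtSq (rtXdK γ q).1 = rtSq q.1 * rtXdQ γ q := rt_xd_K_sq γ q hq
  have e : rtSq (rtXdK γ q).1 / (rtXdK γ q).2 = rtSq q.1 / q.2 := by
    rw [h1, h2]
    field_simp
  have e2 : rtSq (rtXdK γ q).1 / (2 * (rtXdK γ q).2) = rtSq q.1 / (2 * q.2) := by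
    rw [mul_comm 2, ← div_div, e, div_div, mul_comm q.2]
  have e4 : rtSq (rtXdK γ q).1 / (4 * (rtXdK γ q).2) = rtSq q.1 / (4 * q.2) := by
    rw [mul_comm 4, ← div_div, e, div_div, mul_comm q.2]
  refine Prod.ext (Prod.ext ?_ ?_) ?_
  · rfl
  · show (rtXdK γ q).1.2 + -γ * rtSq (rtXdK γ q).1 / (2 * (rtXdK γ q).2) = q.1.2
    rw [mul_div_assoc, e2]
    simp only [rtXdK]
    ring
  · show (rtXdK γ q).2 + -γ * (rtXdK γ q).1.2 + (-γ) ^ 2 * rtSq (rtXdK γ q).1 / (4 * (rtXdK γ q).2) = q.2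
    rw [mul_div_assoc, e4]
    simp only [rtXdK]
    ring

end Claimed.Agent.R256
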