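import Claimed.Agent.R256.Rt.PatchDefs
import Claimed.Agent.R256.Rt.XDefs
import Claimed.Agent.R256.Rt.XaContract
import Claimed.Agent.R256.Rt.LiftDefs
import Claimed.Agent.R256.Fz.Flat

/-!
# Row 256, folder Rt, file PwDefs : INTERFACE OF THE FINAL GLUE OF `rt_patch_wv`      (helper22; glue: 167 top + constants, 22 input half `Rt/PwIn*`, 236 output half `Rt/PwOut*`; prefix `rt_pw_`, defs `rtPw*`, `RtPw*`)      SORRY-FREE, DEFINITIONS ONLY

`rt_patch_wv` = I1 EXIT (helper76, `Rt/XoContract.lean`) + FLAT-RATE (helper207, `Fz/Flat.lean`) + LIFT / ENDLIFT (helper144).      This file fixes THE CLEAN FORM OF THE I1 EXIT which the two halves of the glue consume: `RtPwI1`.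
UNITS.   OLD picture: physical (`p`, `E`, root cut `(T0, k0) = (tmL k0 i0, k0)`, terminal cuts `(tmL kf j, kf)`).      CHART picture (helper144): rays normalised by `d.N E = rtNrm ℓ₀ r cen` (parametrised at the old root time), then `rtChart p0 nL`; chart times `τ ∈ [-1, 3)`.
FLAT picture (`FzDat`): time unit `4`, NO dilation of the widths:   flat time `t = (τ + 1)/4 ∈ [0, 1)`, clock `tmL`, root cut `(0, 0)`, terminal cuts `(tmL n1 j', n1)`, `n1 = n + 2`, `4 · 2^-n1 = δ`;
      instantaneous rows `(A, b/4, y/4)` (`rtPwSc`);   Planck parameter `H1 = H/(4 ℓ₀ r²)`.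
* `rtPwP d k0 x`       the normalised ray of the old ray which passes through `x` at the old root time
* `rtPwIm d k0 x t`    its image at the flat time `t`, as an instantaneous row of the flat picture
* `rtPwX0`             an old terminal row flowed back to the old root time
* `RtPwRin`            relation of the INPUT arrow (new root row `z'`, old root row `z`): `z` lies in the patch set `d.In P fs`, `z'` is `Λ`-near (scales `d, q, H1` of the flat root cut) to the image of `z` at the flat time `0`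
* `RtPwRout`           relation of the OUTPUT arrow (old terminal row `z`, new terminal row `z'`): the ray of `z` lies in the chart patch, the chart time of the event of `z` is within `Λ δ` of the chart time of `z'`,
                       `z'` is `Λ`-near (scales of the flat terminal cut) to the image of the ray of `z` at the time of `z'`
* `RtPwI1`             the exit: flat state `G` over `p1`, spectrum, norm, the two arrows.
-/

set_option autoImplicit false

namespace Claimed.Agent.R256

open MeasureTheory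
open scoped ENNReal

/-- an instantaneous row of the chart picture in the units of the flat picture (time unit `4`) -/
noncomputable def rtPwSc (q : RtRow) : RtRow := ⟨q.A, (4 : ℝ)⁻¹ • q.b, q.y / 4⟩

/-- the normalised ray of the old ray through `x` at the old root time -/
noncomputable def rtPwP (d : RtPd) (k0 : ℕ) (x : RtRow) : RtRow := (rtNrm (rdLen k0) d.ψ.r d.ψ.cen).row x

/-- the image of the old ray through `x` (at the old root time) at the flat time `t` -/
noncomputable def rtPwIm (d : RtPd) (k0 : ℕ) (x : RtRow) (t : ℝ) : RtRow :=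
  rtPwSc (((rtChart d.p0 d.nL).row (rtPwP d k0 x)).flow (4 * t - 1))

/-- an old terminal row flowed back to the old root time -/
noncomputable def rtPwX0 (k0 i0 kf : ℕ) (z : RtZ) : RtRow := (RdWvPar.co 0 z.2).flow (-(tmL kf z.1 - tmL k0 i0))

/-- the relation of the input arrow: new root row `z'`, old root row `z` -/
def RtPwRin (d : RtPd) (k0 : ℕ) (P fs H1 Λ : ℝ) (z' z : RtZ) : Prop :=
  rtPwP d k0 (RdWvPar.co 0 z.2) ∈ d.In P fs ∧
    RtNear Λ (rdD H1 0) (rdQ H1 0) H1 (rtPwIm d k0 (RdWvPar.co 0 z.2) 0) (RdWvPar.co 0 z'.2)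

/-- the relation of the output arrow: old terminal row `z`, new terminal row `z'` of depth `n1` -/
def RtPwRout (d : RtPd) (k0 i0 kf n1 : ℕ) (P H1 Λ : ℝ) (z z' : RtZ) : Prop :=
  rtPwP d k0 (rtPwX0 k0 i0 kf z) ∈ rtBx d.p0 1 (rtChRho P) ∧
    |(rtChart d.p0 d.nL).tm (rtPwP d k0 (rtPwX0 k0 i0 kf z)) ((tmL kf z.1 - tmL k0 i0) / rdLen k0) - (4 * tmL n1 z'.1 - 1)| ≤ Λ * (4 * rdLen n1) ∧
    RtNear Λ (rdD H1 n1) (rdQ H1 n1) H1 (rtPwIm d k0 (rtPwX0 k0 i0 kf z) (tmL n1 z'.1)) (RdWvPar.co 0 z'.2)

/-- **the I1 exit in clean form**: `G` = the transported state over `p1`, generations `b1` (root), `bT1` (terminal); nearness `Λ`, constant `Aa`, additive error `ε` -/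
structure RtPwI1 {η : ℝ} (p : RdWvPar) (E : Xp (p.sys η)) (d : RtPd) (P fs Λ Aa ε : ℝ) (p1 : RdWvPar) (G : RtKc) (b1 bT1 : ℕ) : Prop where
  H_eq : p1.H = p.H / (4 * rdLen E.k0 * d.ψ.r ^ 2)
  spec : p1.Spec b1 G
  norm : ‖G‖ ≤ ‖E.v‖
  inn : RtXf (rtVmP p1 0 {0}) (rtVdP p1 0 b1 G) (rtVmP p E.k0 {E.i0}) (rtVdP p E.k0 E.b0 E.v)
    (RtPwRin d E.k0 P fs p1.H Λ) Set.univ (ENNReal.ofReal Aa) (ENNReal.ofReal ε)
  out : RtXf (rtVmP p E.kf {j | ancI E.kf E.k0 j = E.i0}) (rtVdP p E.kf E.bT E.v) (rtVmP p1 (E.n + 2) (Set.Iio (2 ^ (E.n + 2)))) (rtVdP p1 (E.n + 2) bT1 G)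
    (RtPwRout d E.k0 E.i0 E.kf (E.n + 2) P p1.H Λ) Set.univ (ENNReal.ofReal Aa) (ENNReal.ofReal ε)

theorem rt_pwdefs_eqns_cite : True := by
  have := @rtPwSc.eq_1
  have := @rtPwP.eq_1
  have := @rtPwIm.eq_1
  have := @rtPwX0.eq_1
  have := @RtPwRin.eq_1
  have := @RtPwRout.eq_1
  trivial

end Claimed.Agent.R256
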