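-- KEEP
import Claimed.Agent.R256.Rt.PwDefs
import Claimed.Agent.R256.Rt.LiftPatch

/-!
# Row 256 (LS paper), folder Rt, file PwOutGeo : OUTPUT HALF OF THE GLUE `rt_patch_wv`, GEOMETRY          (architect helper236; prefix `rt_po_`, defs `rtPo*`)          CONTRACT FILE

Model free, no measure, elementary real algebra.      Every `sorry` is a LEAF `L-256-RT-PWO-*` (subtask target `row256`): prove IN PLACE, statement verbatim, auxiliary lemmas directly above with prefix `rt_po_<leaf>_`.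
SETTING (`Rt/PwDefs.lean`, helper22).   OLD label = round test `Q : RdTst` read at the old terminal cut `(T, kf) = (tmL (k0+n) j, k0+n)`; parent frame `(ℓ₀, r, cen)` of the patch data `d`; chart `Φ = rtChart d.p0 d.nL`;
`δ = 2^-n`, chart times `τ' = 4 tmL (n+2) j' - 1 = j' δ - 1 ∈ [-1, 3)`;   FLAT picture: time unit `4`, rows `(A, b/4, y/4)` (`rtPwSc`), length `δ' = 2^-(n+2) = δ/4`, Planck parameter `H1 = H/(4 ℓ₀ r²)`, aperture `d' = d_δ'(H1) = d_kf(H)/r ≤ 2 f`.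
`RtPwRout … z z'` (old terminal row `z`, new terminal row `z'`): the normalised ray `q` of `z` lies in the chart patch, `|Φ.tm q θ - τ'| ≤ Λ δ`, `z'` is `Λ`-near to the image of the ray at the time of `z'`.
EXITS (consumed by `Rt/PwOut.lean`)
* **`rt_po_test`**    ONE cylinder test `Qc` for each pair (old label, new time index `j'`): it contains at length `δ'` the flat coordinates of ALL new rows `z'` of the time `j'` related to rows of the label;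
                      `Qc.r = M^41`, `Qc.f = M^30 f/f_*`, shear `≤ 4 M^20`, centres `≤ M^90`: `fzBd B Qc`;   uncertainty floor `d' ≤ f_* Qc.f`;   weight `cyWt Qc · r⁴ f_*^(1-η) ≤ M^200 w(Q)`.
* **`rt_po_count`**   the new time indices related to ONE old label lie in an interval `[j0, j0 + K)`, `K ≥ 2 (M^20 + M) + 2`.
CHAIN.   `rt_endlift_con` (helper144) → SC (units) → NEAR (`RtNear` ⟹ `cyNear`), AP (aperture) → ENL (`rt_lf_stab` with numbers) → CEN (centres from a witness), WT (weight), TM (clock) → `rt_po_test` (PROVED here from the leaves).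
         SP1 (the chart time as an explicit quotient), SP2 (differences of the numerators), SP3 (quotient) → `rt_po_spread` → `rt_po_count`.
-/

set_option autoImplicit false

namespace Claimed.Agent.R256

/-- a cylinder test of the chart picture in the units of the flat picture (time unit `4`) -/
noncomputable def rtPoSc (Q : CyT) : CyT := ⟨Q.x, Q.b / 4, Q.y / 4, Q.r, Q.f, Q.c, Q.d / 4, Q.al, Q.be, 4 * Q.K⟩

/-- the event of the ray `q` at the time `θ` after the three factors `Cen`, `Rot`, `DB` of the flattening chart -/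
def rtPoX (p₀ : RtRow) (n : RtPoly) (q : RtRow) (θ : ℝ) : RtEv := rtCfDb n.be (rtCfRot (n.g 0 p₀.b p₀.A) (rtCfCen p₀ (q.ev θ)))

/-- the vector of the special conformal factor of the flattening chart -/
def rtPoV (n : RtPoly) : RtEv := ⟨0, (0, n.k), 0⟩

theorem rt_po_geo_eqns_cite : True := by
  have := @rtPoSc.eq_1
  have := @rtPoX.eq_1
  have := @rtPoV.eq_1
  trivial

/-! ## 1. Units, nearness, aperture -/

/-- LEAF `L-256-RT-PWO-SC`.   Unfold `cyIn, cyTilt, cyVel, cyPos, rtFl, rtPwSc, rtPoSc`: the five quantities are `same, /4, /4, same, /4`  (`(4 K)(Y/4 - 2 X B/4) = K (Y - 2XB)`, `(4K)(B/4)² = K B²/4`). -/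
theorem rt_po_sc (Q : CyT) (fs l : ℝ) (w : RtRow) (h : cyIn Q l (rtFl fs w)) : cyIn (rtPoSc Q) (l / 4) (rtFl fs (rtPwSc w)) := by
  obtain ⟨a1, a2, a3, a4, a5⟩ := h
  simp only [cyTilt, cyVel, cyPos, rtFl] at a1 a2 a3 a4 a5
  refine ⟨?_, ?_, ?_, ?_, ?_⟩
  · simpa only [rtFl, rtPwSc, rtPoSc] using a1
  · simp only [rtFl, rtPwSc, rtPoSc, Prod.smul_fst, smul_eq_mul]
    have e : (4 : ℝ)⁻¹ * w.b.1 - Q.b / 4 = (w.b.1 - Q.b) / 4 := by ring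
    rw [e, abs_div, abs_of_pos (by norm_num : (0 : ℝ) < 4)]
    linarith
  · simp only [cyTilt, rtFl, rtPwSc, rtPoSc, Prod.smul_fst, smul_eq_mul]
    have e : w.y / 4 - Q.y / 4 - 2 * Q.x * ((4 : ℝ)⁻¹ * w.b.1 - Q.b / 4) = (w.y - Q.y - 2 * Q.x * (w.b.1 - Q.b)) / 4 := by ring
    rw [e, abs_div, abs_of_pos (by norm_num : (0 : ℝ) < 4)]
    linarith
  · simp only [cyVel, rtFl, rtPwSc, rtPoSc, Prod.smul_fst, smul_eq_mul]
    have e : w.A.2 / fs - Q.c - Q.al * w.A.1 - Q.be * w.A.1 ^ 2 - 4 * Q.K * (w.y / 4 - 2 * w.A.1 * ((4 : ℝ)⁻¹ * w.b.1))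
        = w.A.2 / fs - Q.c - Q.al * w.A.1 - Q.be * w.A.1 ^ 2 - Q.K * (w.y - 2 * w.A.1 * w.b.1) := by ring
    rw [e]
    exact a4
  · simp only [cyPos, rtFl, rtPwSc, rtPoSc, Prod.smul_fst, Prod.smul_snd, smul_eq_mul]
    have e : (4 : ℝ)⁻¹ * w.b.2 / fs - Q.d / 4 - Q.al * ((4 : ℝ)⁻¹ * w.b.1) - Q.be * (w.y / 4) + 4 * Q.K * ((4 : ℝ)⁻¹ * w.b.1) ^ 2
        = (w.b.2 / fs - Q.d - Q.al * w.b.1 - Q.be * w.y + Q.K * w.b.1 ^ 2) / 4 := by ring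
    rw [e, abs_div, abs_of_pos (by norm_num : (0 : ℝ) < 4)]
    linarith

/-- LEAF `L-256-RT-PWO-SC`. -/
theorem rt_po_sc_sh {Q : CyT} {Λ : ℝ} (hΛ : 0 ≤ Λ) (h : cySh Q Λ) : cySh (rtPoSc Q) (4 * Λ) := by
  obtain ⟨a1, a2, a3, a4, a5⟩ := h
  refine ⟨?_, ?_, ?_, ?_, ?_⟩
  · show |Q.c| ≤ 4 * Λ
    linarith
  · show |Q.d / 4| ≤ 4 * Λ
    rw [abs_div, abs_of_pos (by norm_num : (0 : ℝ) < 4)]
    linarith
  · show |Q.al| ≤ 4 * Λ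
    linarith
  · show |Q.be| ≤ 4 * Λ
    linarith
  · show |4 * Q.K| ≤ 4 * Λ
    rw [abs_mul, abs_of_pos (by norm_num : (0 : ℝ) < 4)]
    linarith

/-- LEAF `L-256-RT-PWO-SC`.   a small row stays small -/
theorem rt_po_sc_bd {fs : ℝ} {w : RtRow} (h : rtLfSm w) : cyBd 1 (rtFl fs (rtPwSc w)) ∧ rtSq (rtPwSc w).A ≤ 1 := by
  obtain ⟨a1, a2, a3⟩ := h
  have b1 := rt_chp_fst zero_le_one (by simpa using a1)
  have b2 := rt_chp_fst zero_le_one (by simpa using a2)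
  refine ⟨⟨b1, ?_, ?_⟩, a1⟩
  · show |((4 : ℝ)⁻¹ • w.b).1| ≤ 1
    rw [Prod.smul_fst, smul_eq_mul, abs_mul, abs_of_pos (by norm_num : (0 : ℝ) < 4⁻¹)]
    linarith
  · show |w.y / 4| ≤ 1
    rw [abs_div, abs_of_pos (by norm_num : (0 : ℝ) < 4)]
    linarith

/-- LEAF `L-256-RT-PWO-NEAR`.   `q = rdQ H1 k = ℓ d`, `H1 = ℓ d²` with `ℓ = rdLen k`, `d = rdD H1 k` (`Real.sqrt` algebra).   Components of a plane vector are bounded by its length (`rt_chp_fst`, `rt_chp_snd`).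
`|y' - y| ≤ Λ H1 + 2 |A| |b' - b| ≤ ℓ Λ d (d + 2) ≤ ℓ · 3 Λ d` (`rtIp_abs_le`). -/
theorem rt_po_near {Λ H1 fs : ℝ} {k : ℕ} {w x' : RtRow} (hΛ : 0 ≤ Λ) (hH : 0 < H1) (hfs : 0 < fs) (hA : rtSq w.A ≤ 1) (hd : rdD H1 k ≤ 1)
    (h : RtNear Λ (rdD H1 k) (rdQ H1 k) H1 w x') :
    cyNear (rdLen k) (3 * Λ * rdD H1 k) (Λ * rdD H1 k / fs) (rtFl fs w) (rtFl fs x') := by
  obtain ⟨hA', hb', hy'⟩ := h
  have hl := rdLen_pos k
  have hd0 : 0 < rdD H1 k := Real.sqrt_pos.2 (div_pos hH hl)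
  have hd2 : rdD H1 k ^ 2 = H1 / rdLen k := Real.sq_sqrt (div_pos hH hl).le
  have hq0 : 0 < rdQ H1 k := Real.sqrt_pos.2 (mul_pos hH hl)
  have hq2 : rdQ H1 k ^ 2 = H1 * rdLen k := Real.sq_sqrt (mul_pos hH hl).le
  have hq : rdQ H1 k = rdLen k * rdD H1 k := by
    refine (pow_left_inj₀ hq0.le (by positivity) (by norm_num : (2 : ℕ) ≠ 0)).1 ?_
    rw [hq2, mul_pow, hd2]
    field_simp
  have hH1 : H1 = rdLen k * rdD H1 k ^ 2 := by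
    rw [hd2]
    field_simp
  obtain ⟨d, hdd⟩ : ∃ d, d = rdD H1 k := ⟨_, rfl⟩
  obtain ⟨l, hll⟩ : ∃ l, l = rdLen k := ⟨_, rfl⟩
  rw [hq] at hb'
  rw [← hdd] at hA' hb' hd hd0 hH1 ⊢
  rw [← hll] at hb' hl hH1 ⊢
  have hΛd : 0 ≤ Λ * d := by positivity
  have hΛld : 0 ≤ Λ * (l * d) := by positivity
  have a1 := rt_chp_fst hΛd hA'
  have a2 := rt_chp_snd hΛd hA'
  have b1 := rt_chp_fst hΛld hb'
  have b2 := rt_chp_snd hΛld hb'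
  simp only [Prod.fst_sub, Prod.snd_sub] at a1 a2 b1 b2
  refine ⟨?_, ?_, ?_, ?_, ?_⟩
  · show |x'.A.1 - w.A.1| ≤ 3 * Λ * d
    linarith
  · show |x'.b.1 - w.b.1| ≤ l * (3 * Λ * d)
    linarith
  · show |x'.y - w.y| ≤ l * (3 * Λ * d)
    have i1 : |rtIp w.A (x'.b - w.b)| ≤ 1 * (Λ * (l * d)) := rtIp_abs_le zero_le_one hΛld (by simpa using hA) hb'
    have e : x'.y - w.y = (x'.y - w.y - 2 * rtIp w.A (x'.b - w.b)) + 2 * rtIp w.A (x'.b - w.b) := by ring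
    rw [e]
    have := rt_chp_add hy' (rt_chp_two i1)
    have h3 : Λ * H1 ≤ Λ * (l * d) := by
      rw [hH1]
      have : d ^ 2 ≤ d := by nlinarith
      exact mul_le_mul_of_nonneg_left (mul_le_mul_of_nonneg_left this hl.le) hΛ
    linarith
  · show |x'.A.2 / fs - w.A.2 / fs| ≤ Λ * d / fs
    rw [← sub_div, abs_div, abs_of_pos hfs]
    exact div_le_div_of_nonneg_right a2 hfs.le
  · show |x'.b.2 / fs - w.b.2 / fs| ≤ l * (Λ * d / fs)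
    rw [← sub_div, abs_div, abs_of_pos hfs]
    have : l * (Λ * d / fs) = Λ * (l * d) / fs := by ring
    rw [this]
    exact div_le_div_of_nonneg_right b2 hfs.le

/-- LEAF `L-256-RT-PWO-AP`.   `H/(4 ℓ₀ r²) / 2^-(n+2) = (H / 2^-(k0+n)) / r²`; `Real.sqrt_div'`, `Real.sqrt_sq`. -/
theorem rt_po_ap {H r : ℝ} (hH : 0 < H) (hr : 0 < r) (k0 n : ℕ) : rdD (H / (4 * rdLen k0 * r ^ 2)) (n + 2) = rdD H (k0 + n) / r := by
  unfold rdD rdLen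
  have e : H / (4 * (2 : ℝ)⁻¹ ^ k0 * r ^ 2) / (2 : ℝ)⁻¹ ^ (n + 2) = H / (2 : ℝ)⁻¹ ^ (k0 + n) / r ^ 2 := by
    rw [pow_add, pow_add]
    field_simp
    norm_num
  rw [e, Real.sqrt_div' _ (by positivity), Real.sqrt_sq hr.le]

/-! ## 2. Enlargement, centres, weight, clock -/

/-- LEAF `L-256-RT-PWO-ENL`.   `rt_lf_stab` with `Λ = 4 M^20`, `W = 2` (`cyBd 2 z'` from `cyBd 1 z`, `cyNear`, `eb ≤ 1`, `l ≤ 1`), `r' = M^41`, `f' = M^30 f/fs`: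
`M^40 + 1 ≤ 2 M^40 ≤ M^41`;   `M^80 + (1 + 2 (2 + M^40)) ≤ 4 M^80 ≤ M^82`;   `M^20 f/fs + 2 M f/fs + 8·4 M^20·2·6 M f ≤ (M^20 + 2M + 384 M^21) f/fs ≤ M^30 f/fs` (`f ≤ f/fs`, `386 ≤ 2^9 ≤ M^9`). -/
theorem rt_po_enl {M f fs l eb en : ℝ} {Q : CyT} {z z' : Cy5} (hM : 2 ≤ M) (hf : 0 < f) (hfs : 0 < fs) (hfs1 : fs ≤ 1) (hl0 : 0 ≤ l) (hl : l ≤ 1)
    (hr : Q.r = M ^ 40) (hQf : Q.f = M ^ 20 * f / fs) (hsh : cySh Q (4 * M ^ 20)) (hz : cyBd 1 z) (heb0 : 0 ≤ eb) (heb : eb ≤ 6 * M * f) (heb1 : eb ≤ 1)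
    (hen0 : 0 ≤ en) (hen : en ≤ 2 * M * f / fs) (hn : cyNear l eb en z z') (hin : cyIn Q l z) :
    cyIn { Q with r := M ^ 41, f := M ^ 30 * f / fs } l z' := by
  have hM0 : 0 < M := by linarith
  have hM1 : 1 ≤ M := by linarith
  have p40 : (1 : ℝ) ≤ M ^ 40 := one_le_pow₀ hM1
  have p80 : (1 : ℝ) ≤ M ^ 80 := one_le_pow₀ hM1
  have hleb : l * eb ≤ 1 := by nlinarith
  obtain ⟨zX, zB, zY⟩ := hz
  have hz2 : cyBd 2 z := ⟨by linarith, by linarith, by linarith⟩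
  have hz2' : cyBd 2 z' := by
    obtain ⟨n1, n2, n3, -, -⟩ := hn
    refine ⟨?_, ?_, ?_⟩
    · have e : z'.X = (z'.X - z.X) + z.X := by ring
      rw [e]
      have := rt_chp_add n1 zX
      linarith
    · have e : z'.B = (z'.B - z.B) + z.B := by ring
      rw [e]
      have := rt_chp_add n2 zB
      linarith
    · have e : z'.Y = (z'.Y - z.Y) + z.Y := by ring
      rw [e]
      have := rt_chp_add n3 zY
      linarith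
  refine rt_lf_stab (Λ := 4 * M ^ 20) (W := 2) hl0 hl heb0 hen0 (by positivity) (by norm_num) (by rw [hr]; positivity) hsh hz2 hz2' hn hin ?_ ?_ ?_
  · rw [hr]
    have : M ^ 41 = M * M ^ 40 := by ring
    rw [this]
    nlinarith
  · rw [hr]
    have e1 : (M ^ 40) ^ 2 = M ^ 80 := by ring
    have e2 : (M ^ 41) ^ 2 = M ^ 2 * M ^ 80 := by ring
    have h4 : (4 : ℝ) ≤ M ^ 2 := by nlinarith
    have h5 : M ^ 40 ≤ M ^ 80 := pow_le_pow_right₀ hM1 (by norm_num)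
    have h6 : (5 : ℝ) ≤ M ^ 80 := by
      have : (2 : ℝ) ^ 80 ≤ M ^ 80 := pow_le_pow_left₀ (by norm_num) hM 80
      have h7 : (5 : ℝ) ≤ 2 ^ 80 := by norm_num
      linarith
    have h8 : (1 + 2 * (2 + M ^ 40)) * eb ≤ (1 + 2 * (2 + M ^ 40)) * 1 := mul_le_mul_of_nonneg_left heb1 (by positivity)
    have h9 : 4 * M ^ 80 ≤ M ^ 2 * M ^ 80 := mul_le_mul_of_nonneg_right h4 (by positivity)
    rw [e1, e2]
    linarith
  · rw [hQf]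
    obtain ⟨F, hF⟩ : ∃ F, F = f / fs := ⟨_, rfl⟩
    have hF0 : 0 < F := by rw [hF]; positivity
    have hfF : f ≤ F := by
      rw [hF, le_div_iff₀ hfs]
      nlinarith
    have e1 : M ^ 20 * f / fs = M ^ 20 * F := by rw [hF]; ring
    have e2 : M ^ 30 * f / fs = M ^ 30 * F := by rw [hF]; ring
    have e3 : 2 * M * f / fs = 2 * M * F := by rw [hF]; ring
    rw [e1, e2]
    rw [e3] at hen
    have k1 : 8 * (4 * M ^ 20) * 2 * eb ≤ 384 * M ^ 21 * F := by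
      calc 8 * (4 * M ^ 20) * 2 * eb ≤ 8 * (4 * M ^ 20) * 2 * (6 * M * F) := by
            refine mul_le_mul_of_nonneg_left (heb.trans ?_) (by positivity)
            exact mul_le_mul_of_nonneg_left hfF (by positivity)
        _ = 384 * M ^ 21 * F := by ring
    have k2 : M ^ 20 ≤ M ^ 21 := pow_le_pow_right₀ hM1 (by norm_num)
    have k3 : 2 * M ≤ M ^ 21 := by
      have : M ^ 21 = M ^ 20 * M := by ring
      rw [this]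
      have : (2 : ℝ) ≤ M ^ 20 := by
        have h2 : (2 : ℝ) ^ 20 ≤ M ^ 20 := pow_le_pow_left₀ (by norm_num) hM 20
        have h3 : (2 : ℝ) ≤ 2 ^ 20 := by norm_num
        linarith
      exact mul_le_mul_of_nonneg_right this hM0.le
    have k4 : 386 * M ^ 21 ≤ M ^ 30 := by
      have : M ^ 30 = M ^ 9 * M ^ 21 := by ring
      rw [this]
      have h2 : (2 : ℝ) ^ 9 ≤ M ^ 9 := pow_le_pow_left₀ (by norm_num) hM 9
      have h3 : (386 : ℝ) ≤ 2 ^ 9 := by norm_num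
      exact mul_le_mul_of_nonneg_right (h3.trans h2) (by positivity)
    have k5 := mul_le_mul_of_nonneg_right k2 hF0.le
    have k6 := mul_le_mul_of_nonneg_right k3 hF0.le
    have k7 := mul_le_mul_of_nonneg_right k4 hF0.le
    linarith

/-- LEAF `L-256-RT-PWO-CEN`.   `|x| ≤ |X| + r`, `|b| ≤ |B| + l r`, `|y| ≤ |Y| + l r² + 2 |x| l r ≤ 1 + R² + 2 (1 + R) R ≤ 6 R²`. -/
theorem rt_po_cen {Q : CyT} {l R : ℝ} {z : Cy5} (hl0 : 0 ≤ l) (hl : l ≤ 1) (hR : 1 ≤ R) (hr : Q.r = R) (hz : cyBd 1 z) (hin : cyIn Q l z) :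
    |Q.x| ≤ 2 * R ∧ |Q.b| ≤ 2 * R ∧ |Q.y| ≤ 6 * R ^ 2 := by
  obtain ⟨a1, a2, a3, -, -⟩ := hin
  obtain ⟨z1, z2, z3⟩ := hz
  unfold cyTilt at a3
  rw [hr] at a1 a2 a3
  have hR0 : 0 ≤ R := by linarith
  have hlR : l * R ≤ R := mul_le_of_le_one_left hR0 hl
  have hlR0 : 0 ≤ l * R := mul_nonneg hl0 hR0
  have hlR2 : l * R ^ 2 ≤ R ^ 2 := mul_le_of_le_one_left (by positivity) hl
  have x1 : |Q.x| ≤ 2 * R := by
    have := abs_le.1 a1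
    have := abs_le.1 z1
    rw [abs_le]
    constructor <;> linarith
  have x2 : |Q.b| ≤ 2 * R := by
    have := abs_le.1 a2
    have := abs_le.1 z2
    rw [abs_le]
    constructor <;> linarith
  refine ⟨x1, x2, ?_⟩
  have p1 : |2 * Q.x * (z.B - Q.b)| ≤ 4 * R ^ 2 := by
    rw [abs_mul, abs_mul, abs_of_pos (by norm_num : (0 : ℝ) < 2)]
    calc 2 * |Q.x| * |z.B - Q.b| ≤ 2 * (2 * R) * R :=
          mul_le_mul (by linarith) (a2.trans hlR) (abs_nonneg _) (by positivity)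
      _ = 4 * R ^ 2 := by ring
  have q1 := abs_le.1 p1
  have q2 := abs_le.1 a3
  have q3 := abs_le.1 z3
  have hR2 : 1 ≤ R ^ 2 := one_le_pow₀ hR
  rw [abs_le]
  constructor <;> linarith

/-- LEAF `L-256-RT-PWO-WT`.   `cyWt = (M^41)^(3+η) (M^30 f/fs)^(1-η)`;   `(f/fs)^(1-η) fs^(1-η) = f^(1-η)` (`Real.div_rpow`, `div_mul_cancel₀`);   `41 (3+η) + 30 (1-η) ≤ 194`;   `r0⁴ ≤ 16 r⁴ ≤ M⁴ r⁴`.   Pattern: `rt_endlift_wt`. -/
theorem rt_po_wt {η M f fs r r0 : ℝ} (h0 : 0 < η) (h1 : η < 1) (hM : 2 ≤ M) (hf : 0 < f) (hfs : 0 < fs) (hr0 : 0 < r0) (hr : r0 / 2 ≤ r) {Q : CyT}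
    (hQr : Q.r = M ^ 41) (hQf : Q.f = M ^ 30 * f / fs) : cyWt η Q * (r0 ^ 4 * fs ^ (1 - η)) ≤ M ^ 200 * (r ^ 4 * f ^ (1 - η)) := by
  have hM0 : 0 < M := by linarith
  have hM1 : 1 ≤ M := by linarith
  have hrp : 0 < r := by linarith
  have e1 : (f / fs) ^ (1 - η) * fs ^ (1 - η) = f ^ (1 - η) := by
    rw [← Real.mul_rpow (by positivity) hfs.le, div_mul_cancel₀ _ hfs.ne']
  have e2 : (M ^ 41) ^ (3 + η) * (M ^ 30) ^ (1 - η) ≤ M ^ 196 := by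
    rw [← Real.rpow_natCast M 41, ← Real.rpow_natCast M 30, ← Real.rpow_natCast M 196, ← Real.rpow_mul hM0.le,
      ← Real.rpow_mul hM0.le, ← Real.rpow_add hM0]
    refine Real.rpow_le_rpow_of_exponent_le hM1 ?_
    push_cast
    nlinarith
  have e3 : r0 ^ 4 ≤ M ^ 4 * r ^ 4 := by
    have h2 : r0 ≤ M * r := by nlinarith
    calc r0 ^ 4 ≤ (M * r) ^ 4 := pow_le_pow_left₀ hr0.le h2 4
      _ = M ^ 4 * r ^ 4 := by ring
  have hfp : 0 ≤ f ^ (1 - η) := by positivity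
  unfold cyWt
  rw [hQr, hQf, mul_div_assoc, Real.mul_rpow (by positivity) (by positivity)]
  calc (M ^ 41) ^ (3 + η) * ((M ^ 30) ^ (1 - η) * (f / fs) ^ (1 - η)) * (r0 ^ 4 * fs ^ (1 - η))
      = ((M ^ 41) ^ (3 + η) * (M ^ 30) ^ (1 - η)) * r0 ^ 4 * ((f / fs) ^ (1 - η) * fs ^ (1 - η)) := by ring
    _ = ((M ^ 41) ^ (3 + η) * (M ^ 30) ^ (1 - η)) * r0 ^ 4 * f ^ (1 - η) := by rw [e1]
    _ ≤ M ^ 196 * (M ^ 4 * r ^ 4) * f ^ (1 - η) :=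
        mul_le_mul_of_nonneg_right (mul_le_mul e2 e3 (by positivity) (by positivity)) hfp
    _ = M ^ 200 * (r ^ 4 * f ^ (1 - η)) := by ring

/-- LEAF `L-256-RT-PWO-TM` (the two clocks).   `ancI (k0+n) k0 j = j / 2^n = i0` (`Nat.div_eq_iff`/`Nat.div_add_mod`): `i0 2^n ≤ j < (i0+1) 2^n`;   `tmL k i = i / 2^k`, `rdLen k = 2^-k`. -/
theorem rt_po_tm_old {k0 i0 n j : ℕ} (hj : ancI (k0 + n) k0 j = i0) :
    0 ≤ tmL (k0 + n) j - tmL k0 i0 ∧ tmL (k0 + n) j - tmL k0 i0 ≤ rdLen k0 := by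
  unfold ancI at hj
  rw [Nat.add_sub_cancel_left] at hj
  have h1 : i0 * 2 ^ n ≤ j := by
    rw [← hj]
    exact Nat.div_mul_le_self j (2 ^ n)
  have h2 : j < (i0 + 1) * 2 ^ n := by
    rw [← hj, add_mul, one_mul]
    exact Nat.lt_div_mul_add (by positivity)
  have h1' : (i0 : ℝ) * 2 ^ n ≤ j := by exact_mod_cast h1
  have h2' : (j : ℝ) ≤ ((i0 : ℝ) + 1) * 2 ^ n := by exact_mod_cast h2.le
  have hp : (0 : ℝ) < 2 ^ k0 := by positivity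
  have hq : (0 : ℝ) < 2 ^ n := by positivity
  unfold tmL rdLen
  rw [pow_add, inv_pow]
  constructor
  · rw [sub_nonneg, div_le_div_iff₀ hp (by positivity)]
    nlinarith
  · rw [sub_le_iff_le_add, div_le_iff₀ (by positivity)]
    have : ((2 ^ k0 : ℝ)⁻¹ + (i0 : ℝ) / 2 ^ k0) * (2 ^ k0 * 2 ^ n) = ((i0 : ℝ) + 1) * 2 ^ n := by
      field_simp
      ring
    rw [this]
    exact h2'

/-- LEAF `L-256-RT-PWO-TM`.   `4 tmL (n+2) j' - 1 = j' 2^-n - 1 ∈ [-1, 3 - 2^-n]`. -/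
theorem rt_po_tm_new {n j' : ℕ} (hj' : j' < 2 ^ (n + 2)) :
    4 * tmL (n + 2) j' - 1 = j' * rdLen n - 1 ∧ |4 * tmL (n + 2) j' - 1| ≤ 3 ∧ |4 * tmL (n + 2) j' - 1 + rdLen n| ≤ 3 := by
  have e : 4 * tmL (n + 2) j' - 1 = j' * rdLen n - 1 := by
    unfold tmL rdLen
    rw [pow_add, inv_pow]
    field_simp
    ring
  have hl : 0 < rdLen n := rdLen_pos n
  have h1 : ((j' : ℝ) + 1) * rdLen n ≤ 4 := by
    have : ((j' : ℝ) + 1) ≤ 2 ^ (n + 2) := by exact_mod_cast hj'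
    calc ((j' : ℝ) + 1) * rdLen n ≤ 2 ^ (n + 2) * rdLen n := mul_le_mul_of_nonneg_right this hl.le
      _ = 4 := by
        unfold rdLen
        rw [pow_add, inv_pow]
        field_simp
        norm_num
  have h0 : 0 ≤ (j' : ℝ) * rdLen n := by positivity
  refine ⟨e, ?_, ?_⟩
  · rw [e, abs_le]
    constructor <;> nlinarith
  · rw [e, abs_le]
    constructor <;> nlinarith

/-- LEAF `L-256-RT-PWO-TM`. -/
theorem rt_po_len (k0 n : ℕ) : rdLen (k0 + n) / rdLen k0 = rdLen n ∧ 4 * rdLen (n + 2) = rdLen n ∧ rdLen n ≤ 1 := by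
  unfold rdLen
  refine ⟨?_, ?_, ?_⟩
  · rw [pow_add]
    field_simp
  · rw [pow_add]
    ring
  · exact pow_le_one₀ (by norm_num) (by norm_num)

/-! ## 3. The cylinder test of a pair (old label, new time) -/

theorem rt_po_x0_flow (k0 i0 kf : ℕ) (z : RtZ) : (rtPwX0 k0 i0 kf z).flow (tmL kf z.1 - tmL k0 i0) = RdWvPar.co 0 z.2 := by
  unfold rtPwX0
  ext <;> simp [RtRow.flow] <;> ring

theorem rt_po_set_mono (τ : RtTest) {M : ℝ} (hM : 1 ≤ M) (hf : 0 ≤ τ.f) {p : RtRow} (h : p ∈ τ.set 1) : p ∈ τ.set M := by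
  obtain ⟨⟨a1, a2, a3⟩, a4, a5⟩ := h
  have h2 : (1 : ℝ) ^ 2 ≤ M ^ 2 := pow_le_pow_left₀ zero_le_one hM 2
  have h3 : 1 * τ.f ≤ M * τ.f := mul_le_mul_of_nonneg_right hM hf
  exact ⟨⟨a1.trans h2, a2.trans hM, a3.trans h2⟩, a4.trans h3, a5.trans h3⟩

theorem rt_po_sh_mono {Q : CyT} {Λ Λ' : ℝ} (h : cySh Q Λ) (hΛ : Λ ≤ Λ') : cySh Q Λ' :=
  ⟨h.1.trans hΛ, h.2.1.trans hΛ, h.2.2.1.trans hΛ, h.2.2.2.1.trans hΛ, h.2.2.2.2.trans hΛ⟩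

/-- thinness makes everything small -/
theorem rt_po_num {M fs f l : ℝ} (hM : 2 ≤ M) (hf0 : 0 < f) (hf : f ≤ fs) (hl : l ≤ 1) (hthin : fs ^ 3 * M ^ 100 ≤ l * f) : 6 * M * f ≤ 1 := by
  have hfs : 0 < fs := lt_of_lt_of_le hf0 hf
  have h1 : fs ^ 3 * M ^ 100 ≤ fs := hthin.trans ((mul_le_of_le_one_left hf0.le hl).trans hf)
  have h2 : (M ^ 50 * fs) ^ 2 ≤ 1 := by
    have : fs * ((M ^ 50 * fs) ^ 2) ≤ fs * 1 := by
      calc fs * ((M ^ 50 * fs) ^ 2) = fs ^ 3 * M ^ 100 := by ring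
        _ ≤ fs * 1 := by linarith
    exact le_of_mul_le_mul_left this hfs
  have h3 : M ^ 50 * fs ≤ 1 := by
    have h0 : 0 ≤ M ^ 50 * fs := by positivity
    nlinarith
  have h4 : 6 * M ≤ M ^ 50 := by
    have a : (2 : ℝ) ^ 49 ≤ M ^ 49 := pow_le_pow_left₀ (by norm_num) hM 49
    have b : M ^ 50 = M ^ 49 * M := by ring
    rw [b]
    nlinarith
  calc 6 * M * f ≤ M ^ 50 * fs := mul_le_mul h4 hf hf0.le (by positivity)
    _ ≤ 1 := h3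

/-- one pair of related rows -/
theorem rt_po_test_row {M P fs Λ H : ℝ} {k0 i0 n j j' : ℕ} (d : RtPd) (Q : RdTst) (Q0 : CyT)
    (hM : 2 ≤ M) (hP : 1 ≤ P) (hΛ0 : 0 ≤ Λ) (hΛM : Λ ≤ M) (hH : 0 < H)
    (hch : RtChartOk P d.nL d.p0) (hr : 0 < d.ψ.r) (hQ : (Q.toT (k0 + n)).Adm 1) (hunc : rdD H (k0 + n) ≤ Q.r * Q.f)
    (hQr2 : Q.r ≤ 2 * d.ψ.r) (hj' : j' < 2 ^ (n + 2)) (hfs : 0 < fs) (hfs1 : fs ≤ 1) (hf : Q.f ≤ fs)
    (hthin : fs ^ 3 * M ^ 100 ≤ rdLen n * Q.f)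
    (q1 : Q0.r = M ^ 40) (q2 : Q0.f = M ^ 20 * Q.f / fs) (q3 : cySh Q0 (M ^ 20))
    (q4 : ∀ x : RtRow, (rtNrm (rdLen k0) d.ψ.r d.ψ.cen).row x ∈ rtBx d.p0 1 (rtChRho P) →
        x.flow (tmL (k0 + n) j - tmL k0 i0) ∈ (Q.toT (k0 + n)).set M →
        |(rtChart d.p0 d.nL).tm ((rtNrm (rdLen k0) d.ψ.r d.ψ.cen).row x) ((tmL (k0 + n) j - tmL k0 i0) / rdLen k0) - (4 * tmL (n + 2) j' - 1)|
          ≤ M * (rdLen (k0 + n) / rdLen k0) →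
        cyIn Q0 (rdLen (k0 + n) / rdLen k0)
          (rtFl fs (((rtChart d.p0 d.nL).row ((rtNrm (rdLen k0) d.ψ.r d.ψ.cen).row x)).flow (4 * tmL (n + 2) j' - 1))))
    (z z' : RtZ) (hz : z.1 = j) (hrow : RdWvPar.co 0 z.2 ∈ Q.rows (k0 + n)) (hz' : z'.1 = j')
    (hR : RtPwRout d k0 i0 (k0 + n) (n + 2) P (H / (4 * rdLen k0 * d.ψ.r ^ 2)) Λ z z') :
    cyIn (rtPoSc Q0) (rdLen (n + 2)) (rtFl fs (rtPwIm d k0 (rtPwX0 k0 i0 (k0 + n) z) (tmL (n + 2) j'))) ∧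
      cyBd 1 (rtFl fs (rtPwIm d k0 (rtPwX0 k0 i0 (k0 + n) z) (tmL (n + 2) j'))) ∧
      cyIn { rtPoSc Q0 with r := M ^ 41, f := M ^ 30 * Q.f / fs } (rdLen (n + 2)) (fzFl fs z'.2) := by
  obtain ⟨l1, l2, l3⟩ := rt_po_len k0 n
  obtain ⟨e1, e2, e3⟩ := rt_po_tm_new hj'
  obtain ⟨r1, r2, r3⟩ := hR
  rw [hz, hz'] at r2
  rw [hz'] at r3
  have hM0 : 0 ≤ M := by linarith
  have hM1 : 1 ≤ M := by linarith
  have hf0 : 0 < Q.f := hQ.f_pos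
  have hln : 0 < rdLen n := rdLen_pos n
  have hH1 : 0 < H / (4 * rdLen k0 * d.ψ.r ^ 2) := div_pos hH (by have := rdLen_pos k0; positivity)
  have hap := rt_po_ap hH hr k0 n
  have hd0 : 0 ≤ rdD (H / (4 * rdLen k0 * d.ψ.r ^ 2)) (n + 2) := Real.sqrt_nonneg _
  have hd' : rdD (H / (4 * rdLen k0 * d.ψ.r ^ 2)) (n + 2) ≤ 2 * Q.f := by
    rw [hap, div_le_iff₀ hr]
    calc rdD H (k0 + n) ≤ Q.r * Q.f := hunc
      _ ≤ 2 * d.ψ.r * Q.f := mul_le_mul_of_nonneg_right hQr2 hf0.le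
      _ = 2 * Q.f * d.ψ.r := by ring
  have hnum := rt_po_num hM hf0 hf l3 hthin
  have hMf : 0 ≤ M * Q.f := by positivity
  have c1 := q4 (rtPwX0 k0 i0 (k0 + n) z) r1 (by
    have := rt_po_x0_flow k0 i0 (k0 + n) z
    rw [hz] at this
    rw [this]
    exact rt_po_set_mono _ hM1 hf0.le hrow) (by
    refine r2.trans ?_
    rw [l1, l2]
    exact mul_le_mul_of_nonneg_right hΛM hln.le)
  have c2 := rt_po_sc Q0 fs _ _ c1
  have el : rdLen (k0 + n) / rdLen k0 / 4 = rdLen (n + 2) := by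
    rw [l1, ← l2]
    ring
  rw [el] at c2
  have sm := rt_lf_img hP hch r1 (θ := 4 * tmL (n + 2) j' - 1) (by linarith)
  obtain ⟨b1, b2⟩ := rt_po_sc_bd (fs := fs) sm
  have nr := rt_po_near hΛ0 hH1 hfs b2 (by nlinarith) r3
  have hl2 : rdLen (n + 2) ≤ 1 := by
    have := rdLen_pos (n + 2)
    linarith
  refine ⟨c2, b1, ?_⟩
  have hΛd : Λ * rdD (H / (4 * rdLen k0 * d.ψ.r ^ 2)) (n + 2) ≤ M * (2 * Q.f) := mul_le_mul hΛM hd' hd0 hM0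
  exact rt_po_enl hM hf0 hfs hfs1 (rdLen_pos _).le hl2 q1 q2 (rt_po_sc_sh (by positivity) q3) b1 (by positivity) (by nlinarith) (by nlinarith)
    (by positivity) (by
      rw [div_le_div_iff_of_pos_right hfs]
      linarith) nr c2

/-- powers of `M` -/
theorem rt_po_test_num {M B : ℝ} (hM : 2 ≤ M) (hB1 : M ^ 90 ≤ B) : 2 * M ^ 40 ≤ B ∧ 6 * (M ^ 40) ^ 2 ≤ B ∧ 4 * M ^ 20 ≤ B := by
  have hM0 : 0 ≤ M := by linarith
  have hM1 : 1 ≤ M := by linarith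
  have a10 : (6 : ℝ) ≤ M ^ 10 := by
    have : (2 : ℝ) ^ 10 ≤ M ^ 10 := pow_le_pow_left₀ (by norm_num) hM 10
    linarith
  have k80 : 6 * (M ^ 40) ^ 2 ≤ M ^ 90 := by
    have a : M ^ 90 = M ^ 10 * (M ^ 40) ^ 2 := by ring
    rw [a]
    exact mul_le_mul_of_nonneg_right a10 (by positivity)
  have k40 : 2 * M ^ 40 ≤ M ^ 90 := by
    have a : M ^ 90 = M ^ 10 * M ^ 80 := by ring
    rw [a]
    exact mul_le_mul (by linarith) (pow_le_pow_right₀ hM1 (by norm_num)) (by positivity) (by positivity)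
  have k20 : 4 * M ^ 20 ≤ M ^ 90 := by
    have a : M ^ 90 = M ^ 10 * M ^ 80 := by ring
    rw [a]
    exact mul_le_mul (by linarith) (pow_le_pow_right₀ hM1 (by norm_num)) (by positivity) (by positivity)
  exact ⟨k40.trans hB1, k80.trans hB1, k20.trans hB1⟩

/-- **the cylinder test of a pair (old label, new time index)** -/
theorem rt_po_test (η : ℝ) (h0 : 0 < η) (h1 : η < 1) {M P fs Λ H B : ℝ} {k0 i0 n j j' : ℕ} (d : RtPd) (Q : RdTst)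
    (hM : 2 ≤ M) (hP : 1 ≤ P) (hPM : P ≤ M) (hΛ0 : 0 ≤ Λ) (hΛM : Λ ≤ M) (hH : 0 < H)
    (hch : RtChartOk P d.nL d.p0) (hr : 0 < d.ψ.r) (hQ : (Q.toT (k0 + n)).Adm 1) (hunc : rdD H (k0 + n) ≤ Q.r * Q.f)
    (hQr1 : d.ψ.r / 2 ≤ Q.r) (hQr2 : Q.r ≤ 2 * d.ψ.r) (hj : ancI (k0 + n) k0 j = i0) (hj' : j' < 2 ^ (n + 2))
    (hfs : 0 < fs) (hfs1 : fs ≤ 1) (hf : Q.f ≤ fs)
    (hcon : d.Con (rtNrm (rdLen k0) d.ψ.r d.ψ.cen) (tmL k0 i0) (k0 + n) (tmL (k0 + n) j) Q fs)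
    (hthin : fs ^ 3 * M ^ 100 ≤ rdLen n * Q.f) (hB1 : M ^ 90 ≤ B) (hB2 : fs / Q.f ≤ B) :
    ∃ Qc : CyT, fzBd B Qc ∧ rdD (H / (4 * rdLen k0 * d.ψ.r ^ 2)) (n + 2) ≤ fs * Qc.f ∧
      cyWt η Qc * (d.ψ.r ^ 4 * fs ^ (1 - η)) ≤ M ^ 200 * Q.wt η ∧
      ∀ z z' : RtZ, z.1 = j → RdWvPar.co 0 z.2 ∈ Q.rows (k0 + n) → z'.1 = j' →
        RtPwRout d k0 i0 (k0 + n) (n + 2) P (H / (4 * rdLen k0 * d.ψ.r ^ 2)) Λ z z' →
        cyIn Qc (rdLen (n + 2)) (fzFl fs z'.2) := by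
  obtain ⟨l1, l2, l3⟩ := rt_po_len k0 n
  obtain ⟨t1, t2⟩ := rt_po_tm_old hj
  obtain ⟨e1, e2, e3⟩ := rt_po_tm_new hj'
  have hM0 : 0 < M := by linarith
  have hM1 : 1 ≤ M := by linarith
  have hf0 : 0 < Q.f := hQ.f_pos
  have hlk : 0 < rdLen k0 := rdLen_pos k0
  obtain ⟨Q0, q1, q2, q3, q4⟩ := rt_endlift_con (M := M) (P := P) (fs := fs) (T0 := tmL k0 i0) (T := tmL (k0 + n) j)
    (T' := 4 * tmL (n + 2) j' - 1) (k0 := k0) (k := k0 + n) d Q hM hP hPM hch hr hQ (Nat.le_add_right _ _) (hQr2.trans (by nlinarith))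
    (by rw [abs_of_nonneg t1]; linarith) e2 (by rw [l1]; exact e3) hfs hf hcon (by rw [l1]; exact hthin)
  have key := rt_po_test_row (i0 := i0) (j := j) d Q Q0 hM hP hΛ0 hΛM hH hch hr hQ hunc hQr2 hj' hfs hfs1 hf hthin q1 q2 q3 q4
  -- numbers
  have p40 : (1 : ℝ) ≤ M ^ 40 := one_le_pow₀ hM1
  have hB0 : 0 < B := lt_of_lt_of_le (by positivity) hB1
  have hB1' : 1 ≤ B := (one_le_pow₀ hM1).trans hB1
  have hBi : B⁻¹ ≤ 1 := inv_le_one_of_one_le₀ hB1'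
  have m41 : M ^ 41 ≤ B := (pow_le_pow_right₀ hM1 (by norm_num)).trans hB1
  have m30 : M ^ 30 ≤ B := (pow_le_pow_right₀ hM1 (by norm_num)).trans hB1
  have hq : Q.f / fs ≤ 1 := (div_le_one hfs).2 hf
  have hq0 : 0 < Q.f / fs := div_pos hf0 hfs
  have p30 : (1 : ℝ) ≤ M ^ 30 := one_le_pow₀ hM1
  have f_lo : B⁻¹ ≤ M ^ 30 * Q.f / fs := by
    have a : B⁻¹ ≤ Q.f / fs := by
      rw [inv_le_comm₀ hB0 hq0, inv_div]
      exact hB2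
    rw [mul_div_assoc]
    nlinarith
  have f_hi : M ^ 30 * Q.f / fs ≤ B := by
    rw [mul_div_assoc]
    calc M ^ 30 * (Q.f / fs) ≤ M ^ 30 * 1 := mul_le_mul_of_nonneg_left hq (by positivity)
      _ ≤ B := by linarith
  have hap := rt_po_ap hH hr k0 n
  have hd' : rdD (H / (4 * rdLen k0 * d.ψ.r ^ 2)) (n + 2) ≤ 2 * Q.f := by
    rw [hap, div_le_iff₀ hr]
    calc rdD H (k0 + n) ≤ Q.r * Q.f := hunc
      _ ≤ 2 * d.ψ.r * Q.f := mul_le_mul_of_nonneg_right hQr2 hf0.le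
      _ = 2 * Q.f * d.ψ.r := by ring
  have unc : rdD (H / (4 * rdLen k0 * d.ψ.r ^ 2)) (n + 2) ≤ fs * (M ^ 30 * Q.f / fs) := by
    have e : fs * (M ^ 30 * Q.f / fs) = M ^ 30 * Q.f := by field_simp
    rw [e]
    have : (2 : ℝ) ≤ M ^ 30 := by
      calc (2 : ℝ) ≤ M := hM
        _ = M ^ 1 := (pow_one M).symm
        _ ≤ M ^ 30 := pow_le_pow_right₀ hM1 (by norm_num)
    nlinarith
  by_cases hne : ∃ z z' : RtZ, z.1 = j ∧ RdWvPar.co 0 z.2 ∈ Q.rows (k0 + n) ∧ z'.1 = j' ∧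
      RtPwRout d k0 i0 (k0 + n) (n + 2) P (H / (4 * rdLen k0 * d.ψ.r ^ 2)) Λ z z'
  · obtain ⟨z, z', w1, w2, w3, w4⟩ := hne
    obtain ⟨c2, b1, -⟩ := key z z' w1 w2 w3 w4
    have hl2 : rdLen (n + 2) ≤ 1 := by
      have := rdLen_pos (n + 2)
      linarith
    obtain ⟨x1, x2, x3⟩ := rt_po_cen (Q := rtPoSc Q0) (R := M ^ 40) (rdLen_pos _).le hl2 p40 q1 b1 c2
    obtain ⟨m2, m6, m4⟩ := rt_po_test_num hM hB1
    refine ⟨{ rtPoSc Q0 with r := M ^ 41, f := M ^ 30 * Q.f / fs }, ⟨x1.trans m2, x2.trans m2, x3.trans m6, hBi.trans (one_le_pow₀ hM1), m41, f_lo, f_hi,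
      rt_po_sh_mono (rt_po_sc_sh (by positivity) q3) m4⟩, unc, rt_po_wt h0 h1 hM hf0 hfs hr hQr1 rfl rfl, fun z z' a1 a2 a3 a4 => (key z z' a1 a2 a3 a4).2.2⟩
  · refine ⟨⟨0, 0, 0, M ^ 41, M ^ 30 * Q.f / fs, 0, 0, 0, 0, 0⟩, ⟨by simpa using hB0.le, by simpa using hB0.le, by simpa using hB0.le,
      hBi.trans (one_le_pow₀ hM1), m41, f_lo, f_hi, by simpa [cySh] using hB0.le⟩, unc, rt_po_wt h0 h1 hM hf0 hfs hr hQr1 rfl rfl,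
      fun z z' a1 a2 a3 a4 => absurd ⟨z, z', a1, a2, a3, a4⟩ hne⟩

/-! ## 4. The spread of the chart times of one label -/

/-- the sizes of the centred, rotated event -/
theorem rt_po_sp1_cen {ρ : ℝ} {p₀ q : RtRow} {e : ℝ × ℝ} (hρ0 : 0 < ρ) (hρ1 : ρ ≤ 1) (he : rtSq e = 1) (hq : q ∈ rtBx p₀ 1 ρ) {θ : ℝ} (hθ : |θ| ≤ 2) :
    (rtCfRot e (rtCfCen p₀ (q.ev θ))).t = θ ∧ |(rtCfRot e (rtCfCen p₀ (q.ev θ))).b.1| ≤ 3 * ρ ∧ |(rtCfRot e (rtCfCen p₀ (q.ev θ))).b.2| ≤ 3 * ρ ∧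
      |(rtCfRot e (rtCfCen p₀ (q.ev θ))).y| ≤ 3 * ρ := by
  obtain ⟨hb, hy, hA⟩ := hq
  rw [mul_one] at hb hA
  rw [one_pow, mul_one] at hy
  obtain ⟨θ1, θ2⟩ := abs_le.1 hθ
  have hip := abs_le.1 (rtIp_abs_le hρ0.le hρ0.le hb hA)
  have hAn : 0 ≤ rtSq (q.A - p₀.A) := rtSq_nonneg _
  have eb : (rtCfCen p₀ (q.ev θ)).b = (q.b - p₀.b) + θ • (q.A - p₀.A) := by
    ext <;> simp [rtCfCen, RtRow.ev] <;> ring
  have ey : (rtCfCen p₀ (q.ev θ)).y = (q.y - p₀.y - 2 * rtIp p₀.A (q.b - p₀.b)) + θ * rtSq (q.A - p₀.A) := by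
    simp [rtCfCen, RtRow.ev, rtIp, rtSq]
    ring
  have sb : rtSq ((q.b - p₀.b) + θ • (q.A - p₀.A)) = rtSq (q.b - p₀.b) + 2 * θ * rtIp (q.b - p₀.b) (q.A - p₀.A) + θ ^ 2 * rtSq (q.A - p₀.A) := by
    simp [rtIp, rtSq]
    ring
  have hsq : rtSq (rtRot e (rtCfCen p₀ (q.ev θ)).b) ≤ (3 * ρ) ^ 2 := by
    rw [rt_rot_sq, he, one_mul, eb, sb]
    have h1 : 2 * θ * rtIp (q.b - p₀.b) (q.A - p₀.A) ≤ 4 * (ρ * ρ) := by
      have := abs_le.1 (show |θ * rtIp (q.b - p₀.b) (q.A - p₀.A)| ≤ 2 * (ρ * ρ) by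
        rw [abs_mul]
        exact mul_le_mul hθ (abs_le.2 hip) (abs_nonneg _) (by norm_num))
      linarith [this.2]
    have h2 : θ ^ 2 * rtSq (q.A - p₀.A) ≤ 4 * ρ ^ 2 := by
      have : θ ^ 2 ≤ 4 := by nlinarith
      exact mul_le_mul this hA hAn (by norm_num)
    nlinarith
  refine ⟨rfl, rt_chp_fst (by positivity) hsq, rt_chp_snd (by positivity) hsq, ?_⟩
  show |(rtCfCen p₀ (q.ev θ)).y| ≤ 3 * ρ
  rw [ey]
  have h3 : |θ * rtSq (q.A - p₀.A)| ≤ 2 * ρ ^ 2 := by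
    rw [abs_mul, abs_of_nonneg hAn]
    exact mul_le_mul hθ hA hAn (by norm_num)
  have h4 : ρ ^ 2 ≤ ρ := by nlinarith
  calc _ ≤ |q.y - p₀.y - 2 * rtIp p₀.A (q.b - p₀.b)| + |θ * rtSq (q.A - p₀.A)| := abs_add_le _ _
    _ ≤ 3 * ρ := by linarith

/-- LEAF `L-256-RT-PWO-SP1` (the chart time is an explicit quotient).   `Φ = rtChart p₀ n = Cf.comp (Db.comp (Rot.comp Cen))`, so `Φ.ev x = rtCfMap (rtPoV n) (rtCfDb n.be (rtCfRot e (rtCfCen p₀ x)))` and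
`Φ.den x = rtCfDen (rtPoV n) (…) * (1 * (1 * 1))` BY `rfl`/`simp only [rtChart, RtCh.comp, rtChCf, rtChDb, rtChRot, rtChCen]`.
`h.fwd q hq θ hθ`: `Φ.den (q.ev θ) ≠ 0`;   `h.ex.ray q (h.dom q hq) θ ne : Φ.ev (q.ev θ) = (Φ.row q).ev (Φ.tm q θ)`, take the component `.t` (`RtRow.ev`): `Φ.tm q θ = (rtCfMap v X).t = (X.t + X.q * 0) / rtCfDen v X`.
`rt_le_dn h hq` (`Rt/EndliftContract.lean`): `Φ.den (q.ev θ) = Φ.dn q θ`, `1/2 ≤ |Φ.dn q θ|`.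
SIZES.   `ρ = rtChRho P = 1/(1000 P²)` (`rt_chp_rho hP`: `P² ρ = 1/1000`, `P ρ ≤ 1/1000`).   `u = rtCfCen p₀ (q.ev θ)`: `u.b = Δb + θ ΔA`, `u.y = (q.y - p₀.y - 2 p₀.A·Δb) + θ |ΔA|²` (ring), so `|u.b| ≤ 3ρ`, `|u.y| ≤ 3ρ`;
the rotation by the unit vector `e` (`rt_lf_unit h`) preserves `rtSq`;   `X.t = θ + 2β w.b₂ + β² w.y`, `X.b = (w.b₁, w.b₂ + β w.y)`, `X.y = w.y`, `|β| ≤ P`:   `|X.t| ≤ 2 + 6Pρ + 3P²ρ ≤ 3`. -/
theorem rt_po_sp1 {P : ℝ} {n : RtPoly} {p₀ : RtRow} (hP : 1 ≤ P) (h : RtChartOk P n p₀) (hbe : |n.be| ≤ P) {q : RtRow}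
    (hq : q ∈ rtBx p₀ 1 (rtChRho P)) {θ : ℝ} (hθ : |θ| ≤ 2) :
    (rtChart p₀ n).tm q θ = (rtPoX p₀ n q θ).t / rtCfDen (rtPoV n) (rtPoX p₀ n q θ) ∧ 1 / 2 ≤ |rtCfDen (rtPoV n) (rtPoX p₀ n q θ)| ∧
      |(rtPoX p₀ n q θ).t| ≤ 3 ∧ |(rtPoX p₀ n q θ).b.1| ≤ 1 ∧ |(rtPoX p₀ n q θ).b.2| ≤ 1 ∧ |(rtPoX p₀ n q θ).y| ≤ 1 := by
  obtain ⟨ρ0, ρ1, ρ2, ρ3, -⟩ := rt_chp_rho hP
  obtain ⟨d1, d2, -⟩ := (rt_le_dn h hq).1 θ hθ
  have eden : (rtChart p₀ n).den (q.ev θ) = rtCfDen (rtPoV n) (rtPoX p₀ n q θ) := by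
    show rtCfDen (rtPoV n) (rtPoX p₀ n q θ) * (1 * (1 * 1)) = _
    ring
  have hD : 1 / 2 ≤ |rtCfDen (rtPoV n) (rtPoX p₀ n q θ)| := by rw [← eden, d1]; exact d2
  have hne : (rtChart p₀ n).den (q.ev θ) ≠ 0 := by
    rw [eden]
    intro h0
    rw [h0, abs_zero] at hD
    norm_num at hD
  have hray := congrArg RtEv.t (h.ex.ray q (h.dom q hq) θ hne)
  have e1 : ((rtChart p₀ n).ev (q.ev θ)).t = ((rtPoX p₀ n q θ).t + (rtPoX p₀ n q θ).q * 0) / rtCfDen (rtPoV n) (rtPoX p₀ n q θ) := rfl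
  have e2 : (((rtChart p₀ n).row q).ev ((rtChart p₀ n).tm q θ)).t = (rtChart p₀ n).tm q θ := rfl
  rw [e1, e2, mul_zero, add_zero] at hray
  obtain ⟨w0, w1, w2, w3⟩ := rt_po_sp1_cen (e := n.g 0 p₀.b p₀.A) ρ0 (by linarith) (rt_lf_unit h) hq hθ
  have hP0 : 0 ≤ P := by linarith
  have x1 : |n.be * (rtCfRot (n.g 0 p₀.b p₀.A) (rtCfCen p₀ (q.ev θ))).b.2| ≤ P * (3 * rtChRho P) := by
    rw [abs_mul]
    exact mul_le_mul hbe w2 (abs_nonneg _) hP0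
  have x2 : |n.be * (rtCfRot (n.g 0 p₀.b p₀.A) (rtCfCen p₀ (q.ev θ))).y| ≤ P * (3 * rtChRho P) := by
    rw [abs_mul]
    exact mul_le_mul hbe w3 (abs_nonneg _) hP0
  have x3 : |n.be ^ 2 * (rtCfRot (n.g 0 p₀.b p₀.A) (rtCfCen p₀ (q.ev θ))).y| ≤ P ^ 2 * (3 * rtChRho P) := by
    rw [abs_mul, abs_pow]
    exact mul_le_mul (pow_le_pow_left₀ (abs_nonneg _) hbe 2) w3 (abs_nonneg _) (by positivity)
  refine ⟨hray.symm, hD, ?_, ?_, ?_, ?_⟩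
  · show |(rtCfRot (n.g 0 p₀.b p₀.A) (rtCfCen p₀ (q.ev θ))).t + 2 * n.be * (rtCfRot (n.g 0 p₀.b p₀.A) (rtCfCen p₀ (q.ev θ))).b.2
      + n.be ^ 2 * (rtCfRot (n.g 0 p₀.b p₀.A) (rtCfCen p₀ (q.ev θ))).y| ≤ 3
    rw [w0]
    have a1 := abs_le.1 hθ
    have a2 := abs_le.1 x1
    have a3 := abs_le.1 x3
    rw [abs_le]
    constructor <;> nlinarith
  · show |(rtCfRot (n.g 0 p₀.b p₀.A) (rtCfCen p₀ (q.ev θ))).b.1| ≤ 1
    linarith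
  · show |(rtCfRot (n.g 0 p₀.b p₀.A) (rtCfCen p₀ (q.ev θ))).b.2 + n.be * (rtCfRot (n.g 0 p₀.b p₀.A) (rtCfCen p₀ (q.ev θ))).y| ≤ 1
    refine (abs_add_le _ _).trans ?_
    linarith
  · show |(rtCfRot (n.g 0 p₀.b p₀.A) (rtCfCen p₀ (q.ev θ))).y| ≤ 1
    linarith

theorem rt_po_sp2_tri {u v : ℝ × ℝ} {a b : ℝ} (ha : 0 ≤ a) (hb : 0 ≤ b) (hu : rtSq u ≤ a ^ 2) (hv : rtSq v ≤ b ^ 2) :
    rtSq (u - v) ≤ (a + b) ^ 2 := by
  have h := abs_le.1 (rtIp_abs_le ha hb hu hv)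
  have e : rtSq (u - v) = rtSq u - 2 * rtIp u v + rtSq v := by
    simp only [rtSq, rtIp, Prod.fst_sub, Prod.snd_sub]
    ring
  rw [e]
  nlinarith [h.1]

theorem rt_po_sp2_rot {e b : ℝ × ℝ} (he : rtSq e = 1) : rtSq (rtRot e b) = rtSq b := by
  simp only [rtSq, rtRot] at *
  calc (e.2 * b.1 - e.1 * b.2) ^ 2 + (e.1 * b.1 + e.2 * b.2) ^ 2 = (e.1 ^ 2 + e.2 ^ 2) * (b.1 ^ 2 + b.2 ^ 2) := by ring
    _ = b.1 ^ 2 + b.2 ^ 2 := by rw [he, one_mul]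

theorem rt_po_sp2_box {τ : RtTest} {M : ℝ} (hl : 0 < τ.l) (hr : 0 < τ.r) {p : RtRow} (h : p ∈ τ.box M) :
    rtSq (p.b - τ.bs) ≤ (M * (τ.l * τ.r)) ^ 2 ∧ |p.y - τ.ys - 2 * rtIp τ.As (p.b - τ.bs)| ≤ M * (τ.l * τ.r ^ 2) ∧
      rtSq (p.A - τ.As) ≤ (M * τ.r) ^ 2 := by
  obtain ⟨h1, h2, h3⟩ := h
  have hlr : 0 < τ.l * τ.r := mul_pos hl hr
  refine ⟨?_, ?_, ?_⟩
  · have e : rtSq (p.b - τ.bs) = rtSq (τ.x p) * (τ.l * τ.r) ^ 2 := by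
      simp only [RtTest.x, rtSq, Prod.smul_fst, Prod.smul_snd, smul_eq_mul]
      field_simp
    rw [e, mul_pow M]
    exact mul_le_mul_of_nonneg_right h1 (by positivity)
  · unfold RtTest.z at h2
    rwa [abs_div, abs_of_pos (by positivity : 0 < τ.l * τ.r ^ 2), div_le_iff₀ (by positivity)] at h2
  · have e : rtSq (p.A - τ.As) = rtSq (τ.V p) * τ.r ^ 2 := by
      simp only [RtTest.V, rtSq, Prod.smul_fst, Prod.smul_snd, smul_eq_mul]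
      field_simp
    rw [e, mul_pow M]
    exact mul_le_mul_of_nonneg_right h3 (by positivity)

/-- LEAF `L-256-RT-PWO-SP2` (two rays through one box of length `l = τ.l` at the time `θ`).   `b_θ = (q.flow θ).b`, `y_θ = (q.flow θ).y`; `u = rtCfCen p₀ (q.ev θ)`, `u' = rtCfCen p₀ (q'.ev θ)`.
`δb = u.b - u'.b = b_θ - b'_θ`, `|δb| ≤ 2 M l r ≤ 2 M² l` (both `rtSq (τ.x ·) ≤ M²`; `rt_le_etest_sq_sub`-type triangle inequality);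
`δy = u.y - u'.y = (y_θ - y'_θ - 2 A_*·δb) + 2 (A_* - p₀.A)·δb`;   `|y_θ - y'_θ - 2A_*·δb| ≤ 2 M l r²` (the two `τ.z`);   `|A_* - p₀.A| ≤ |A_* - q.A| + |q.A - p₀.A| ≤ M r + ρ ≤ M² + 1`;
so `|δy| ≤ 2M³ l + 2 (M²+1) 2M² l ≤ 6 M⁴ l`.   Rotation: `rtSq` preserved (`he`), components `≤ 2M² l`.   `δX.b₂ = δw.b₂ + β δy ≤ 2M² l + 6M⁵ l`, `δX.t = 2β δw.b₂ + β² δy ≤ 4M³ l + 6M⁶ l`. -/
theorem rt_po_sp2 {M P : ℝ} {n : RtPoly} {p₀ : RtRow} (hM : 2 ≤ M) (hP : 1 ≤ P) (hPM : P ≤ M) (he : rtSq (n.g 0 p₀.b p₀.A) = 1) (hbe : |n.be| ≤ P)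
    (τ : RtTest) (hl : 0 < τ.l) (hr0 : 0 < τ.r) (hr : τ.r ≤ M) {θ : ℝ} {q q' : RtRow} (hq : q ∈ rtBx p₀ 1 (rtChRho P))
    (hqτ : q.flow θ ∈ τ.box M) (hq'τ : q'.flow θ ∈ τ.box M) :
    |(rtPoX p₀ n q θ).t - (rtPoX p₀ n q' θ).t| ≤ 7 * M ^ 6 * τ.l ∧ |(rtPoX p₀ n q θ).b.1 - (rtPoX p₀ n q' θ).b.1| ≤ 7 * M ^ 5 * τ.l ∧
      |(rtPoX p₀ n q θ).b.2 - (rtPoX p₀ n q' θ).b.2| ≤ 7 * M ^ 5 * τ.l ∧ |(rtPoX p₀ n q θ).y - (rtPoX p₀ n q' θ).y| ≤ 6 * M ^ 4 * τ.l := by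
  obtain ⟨a1, a2, a3⟩ := rt_po_sp2_box hl hr0 hqτ
  obtain ⟨b1, b2, -⟩ := rt_po_sp2_box hl hr0 hq'τ
  obtain ⟨ρ0, -, -, ρ1, -⟩ := rt_chp_rho hP
  have hM0 : 0 < M := by linarith
  have hM1 : 1 ≤ M := by linarith
  set l := τ.l with hl_def
  set r := τ.r with hr_def
  set e := n.g 0 p₀.b p₀.A with he_def
  set β := n.be with hβ_def
  have hβ : |β| ≤ M := hbe.trans hPM
  -- the difference of the positions
  obtain ⟨db, hdb⟩ : ∃ db : ℝ × ℝ, db = (q.flow θ).b - (q'.flow θ).b := ⟨_, rfl⟩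
  have hlr : l * r ≤ M * l := by nlinarith
  have hlr0 : 0 ≤ l * r := by positivity
  have c1 : rtSq db ≤ (2 * M ^ 2 * l) ^ 2 := by
    have h := rt_le_etest_sq_sub a1 b1
    have e1 : (q.flow θ).b - τ.bs - ((q'.flow θ).b - τ.bs) = db := by rw [hdb]; abel
    rw [e1] at h
    refine h.trans (pow_le_pow_left₀ (by positivity) ?_ 2)
    nlinarith
  have hR0 : 0 ≤ 2 * M ^ 2 * l := by positivity
  -- the centre of the box against the exact ray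
  have c2 : rtSq (q.A - p₀.A - (q.A - τ.As)) ≤ (1 + M ^ 2) ^ 2 := by
    have h1 : rtSq (q.A - p₀.A) ≤ 1 ^ 2 := by
      refine hq.2.2.trans (pow_le_pow_left₀ (by positivity) ?_ 2)
      linarith
    have h2 : rtSq (q.A - τ.As) ≤ (M ^ 2) ^ 2 := by
      have : (q.flow θ).A = q.A := rfl
      rw [this] at a3
      refine a3.trans (pow_le_pow_left₀ (by positivity) ?_ 2)
      nlinarith
    exact rt_po_sp2_tri zero_le_one (by positivity) h1 h2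
  have c3 := rtIp_abs_le (by positivity) hR0 c2 c1
  -- the difference of the heights
  obtain ⟨dy, hdy⟩ : ∃ dy : ℝ, dy = (q.flow θ).y - (q'.flow θ).y - 2 * rtIp p₀.A db := ⟨_, rfl⟩
  have c4 : |dy| ≤ 6 * M ^ 4 * l := by
    have e1 : dy = ((q.flow θ).y - τ.ys - 2 * rtIp τ.As ((q.flow θ).b - τ.bs)) - ((q'.flow θ).y - τ.ys - 2 * rtIp τ.As ((q'.flow θ).b - τ.bs))
        + 2 * rtIp (q.A - p₀.A - (q.A - τ.As)) db := by
      rw [hdy, hdb]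
      simp only [rtIp, Prod.fst_sub, Prod.snd_sub]
      ring
    have k1 := abs_le.1 a2
    have k2 := abs_le.1 b2
    have k3 := abs_le.1 c3
    have hlr2 : M * (l * r ^ 2) ≤ M ^ 3 * l := by
      have : r ^ 2 ≤ M ^ 2 := pow_le_pow_left₀ hr0.le hr 2
      calc M * (l * r ^ 2) ≤ M * (l * M ^ 2) := by gcongr
        _ = M ^ 3 * l := by ring
    have hnum : 2 * (M ^ 3 * l) + 2 * ((1 + M ^ 2) * (2 * M ^ 2 * l)) ≤ 6 * M ^ 4 * l := by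
      have m2 : 4 ≤ M ^ 2 := by nlinarith
      have m3 : 2 * M ^ 3 ≤ M ^ 4 := by
        have : M ^ 4 = M * M ^ 3 := by ring
        rw [this]
        exact mul_le_mul_of_nonneg_right hM (by positivity)
      have m4 : 4 * M ^ 2 ≤ M ^ 4 := by
        have : M ^ 4 = M ^ 2 * M ^ 2 := by ring
        rw [this]
        exact mul_le_mul_of_nonneg_right m2 (by positivity)
      have : 2 * (M ^ 3 * l) + 2 * ((1 + M ^ 2) * (2 * M ^ 2 * l)) = (2 * M ^ 3 + 4 * M ^ 2 + 4 * M ^ 4) * l := by ring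
      rw [this]
      exact mul_le_mul_of_nonneg_right (by linarith) hl.le
    rw [e1, abs_le]
    constructor <;> linarith [k1.1, k1.2, k2.1, k2.2, k3.1, k3.2]
  -- the rotation
  have c5 : rtSq (rtRot e db) ≤ (2 * M ^ 2 * l) ^ 2 := by rw [rt_po_sp2_rot he]; exact c1
  have r1 := rt_chp_fst hR0 c5
  have r2 := rt_chp_snd hR0 c5
  -- the four differences
  have et : (rtPoX p₀ n q θ).t - (rtPoX p₀ n q' θ).t = 2 * β * (rtRot e db).2 + β ^ 2 * dy := by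
    rw [hdy, hdb]
    simp only [rtPoX, rtCfDb, rtCfRot, rtCfCen, RtRow.ev, RtRow.flow, rtRot, rtIp, Prod.fst_sub, Prod.snd_sub, Prod.fst_add, Prod.snd_add,
      Prod.smul_fst, Prod.smul_snd, smul_eq_mul]
    ring
  have eb1 : (rtPoX p₀ n q θ).b.1 - (rtPoX p₀ n q' θ).b.1 = (rtRot e db).1 := by
    rw [hdb]
    simp only [rtPoX, rtCfDb, rtCfRot, rtCfCen, RtRow.ev, RtRow.flow, rtRot, rtIp, Prod.fst_sub, Prod.snd_sub, Prod.fst_add, Prod.snd_add,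
      Prod.smul_fst, Prod.smul_snd, smul_eq_mul]
    ring
  have eb2 : (rtPoX p₀ n q θ).b.2 - (rtPoX p₀ n q' θ).b.2 = (rtRot e db).2 + β * dy := by
    rw [hdy, hdb]
    simp only [rtPoX, rtCfDb, rtCfRot, rtCfCen, RtRow.ev, RtRow.flow, rtRot, rtIp, Prod.fst_sub, Prod.snd_sub, Prod.fst_add, Prod.snd_add,
      Prod.smul_fst, Prod.smul_snd, smul_eq_mul]
    ring
  have ey : (rtPoX p₀ n q θ).y - (rtPoX p₀ n q' θ).y = dy := by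
    rw [hdy, hdb]
    simp only [rtPoX, rtCfDb, rtCfRot, rtCfCen, RtRow.ev, RtRow.flow, rtRot, rtIp, Prod.fst_sub, Prod.snd_sub, Prod.fst_add, Prod.snd_add,
      Prod.smul_fst, Prod.smul_snd, smul_eq_mul]
    ring
  have m3 : 8 ≤ M ^ 3 := by
    have : (2 : ℝ) ^ 3 ≤ M ^ 3 := pow_le_pow_left₀ (by norm_num) hM 3
    linarith
  have hβdy : |β * dy| ≤ 6 * M ^ 5 * l := by
    rw [abs_mul]
    calc |β| * |dy| ≤ M * (6 * M ^ 4 * l) := mul_le_mul hβ c4 (abs_nonneg _) hM0.le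
      _ = 6 * M ^ 5 * l := by ring
  have h25 : 2 * M ^ 2 * l ≤ M ^ 5 * l := by
    have : M ^ 5 = M ^ 3 * M ^ 2 := by ring
    rw [this]
    refine mul_le_mul_of_nonneg_right ?_ hl.le
    exact mul_le_mul_of_nonneg_right (by linarith) (by positivity)
  refine ⟨?_, ?_, ?_, ?_⟩
  · rw [et]
    have k1 : |2 * β * (rtRot e db).2| ≤ 4 * M ^ 3 * l := by
      rw [abs_mul, abs_mul, abs_of_pos (by norm_num : (0 : ℝ) < 2)]
      calc 2 * |β| * |(rtRot e db).2| ≤ 2 * M * (2 * M ^ 2 * l) := mul_le_mul (by linarith) r2 (abs_nonneg _) (by positivity)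
        _ = 4 * M ^ 3 * l := by ring
    have k2 : |β ^ 2 * dy| ≤ 6 * M ^ 6 * l := by
      rw [abs_mul, abs_pow]
      calc |β| ^ 2 * |dy| ≤ M ^ 2 * (6 * M ^ 4 * l) := mul_le_mul (pow_le_pow_left₀ (abs_nonneg _) hβ 2) c4 (abs_nonneg _) (by positivity)
        _ = 6 * M ^ 6 * l := by ring
    have k3 : 4 * M ^ 3 * l ≤ M ^ 6 * l := by
      have : M ^ 6 = M ^ 3 * M ^ 3 := by ring
      rw [this]
      refine mul_le_mul_of_nonneg_right ?_ hl.le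
      exact mul_le_mul_of_nonneg_right (by linarith) (by positivity)
    calc |2 * β * (rtRot e db).2 + β ^ 2 * dy| ≤ |2 * β * (rtRot e db).2| + |β ^ 2 * dy| := abs_add_le _ _
      _ ≤ 7 * M ^ 6 * l := by linarith
  · rw [eb1]
    have : 0 ≤ M ^ 5 * l := by positivity
    linarith
  · rw [eb2]
    calc |(rtRot e db).2 + β * dy| ≤ |(rtRot e db).2| + |β * dy| := abs_add_le _ _
      _ ≤ 7 * M ^ 5 * l := by linarith
  · rw [ey]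
    exact c4

theorem rt_po_sp3_den (k : ℝ) (X : RtEv) :
    rtCfDen ⟨0, (0, k), 0⟩ X = 1 - 2 * k * X.b.2 - k ^ 2 * (X.t * X.y - X.b.1 ^ 2 - X.b.2 ^ 2) := by
  simp only [rtCfDen, RtEv.pol, RtEv.q, rtQ, rtIp, rtSq]
  ring

theorem rt_po_sp3_dd {M k l t y b1 b2 t' y' b1' b2' : ℝ} (hM : 2 ≤ M) (hk : |k| ≤ M) (hl : 0 ≤ l)
    (hy : |y| ≤ 1) (h1 : |b1| ≤ 1) (h2 : |b2| ≤ 1) (ht' : |t'| ≤ 3) (h1' : |b1'| ≤ 1) (h2' : |b2'| ≤ 1)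
    (dt : |t - t'| ≤ 7 * M ^ 6 * l) (d1 : |b1 - b1'| ≤ 7 * M ^ 5 * l) (d2 : |b2 - b2'| ≤ 7 * M ^ 5 * l) (dy : |y - y'| ≤ 6 * M ^ 4 * l) :
    |(1 - 2 * k * b2 - k ^ 2 * (t * y - b1 ^ 2 - b2 ^ 2)) - (1 - 2 * k * b2' - k ^ 2 * (t' * y' - b1' ^ 2 - b2' ^ 2))| ≤ 29 * M ^ 8 * l := by
  have hM0 : 0 ≤ M := by linarith
  have e : (1 - 2 * k * b2 - k ^ 2 * (t * y - b1 ^ 2 - b2 ^ 2)) - (1 - 2 * k * b2' - k ^ 2 * (t' * y' - b1' ^ 2 - b2' ^ 2))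
      = -(2 * (k * (b2 - b2'))) - k ^ 2 * ((t - t') * y + t' * (y - y') - (b1 + b1') * (b1 - b1') - (b2 + b2') * (b2 - b2')) := by ring
  rw [e]
  have p1 : |k * (b2 - b2')| ≤ M * (7 * M ^ 5 * l) := by
    rw [abs_mul]; exact mul_le_mul hk d2 (abs_nonneg _) hM0
  have p2 : |(t - t') * y| ≤ 7 * M ^ 6 * l * 1 := by
    rw [abs_mul]; exact mul_le_mul dt hy (abs_nonneg _) (by positivity)
  have p3 : |t' * (y - y')| ≤ 3 * (6 * M ^ 4 * l) := by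
    rw [abs_mul]; exact mul_le_mul ht' dy (abs_nonneg _) (by norm_num)
  have s1 : |b1 + b1'| ≤ 2 := (abs_add_le _ _).trans (by linarith)
  have s2 : |b2 + b2'| ≤ 2 := (abs_add_le _ _).trans (by linarith)
  have p4 : |(b1 + b1') * (b1 - b1')| ≤ 2 * (7 * M ^ 5 * l) := by
    rw [abs_mul]; exact mul_le_mul s1 d1 (abs_nonneg _) (by norm_num)
  have p5 : |(b2 + b2') * (b2 - b2')| ≤ 2 * (7 * M ^ 5 * l) := by
    rw [abs_mul]; exact mul_le_mul s2 d2 (abs_nonneg _) (by norm_num)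
  have hk2 : |k ^ 2| ≤ M ^ 2 := by
    rw [abs_pow]; exact pow_le_pow_left₀ (abs_nonneg _) hk 2
  have p6 : |(t - t') * y + t' * (y - y') - (b1 + b1') * (b1 - b1') - (b2 + b2') * (b2 - b2')|
      ≤ 7 * M ^ 6 * l * 1 + 3 * (6 * M ^ 4 * l) + 2 * (7 * M ^ 5 * l) + 2 * (7 * M ^ 5 * l) := by
    have a1 := abs_le.1 p2
    have a2 := abs_le.1 p3
    have a3 := abs_le.1 p4
    have a4 := abs_le.1 p5
    rw [abs_le]
    constructor <;> linarith [a1.1, a1.2, a2.1, a2.2, a3.1, a3.2, a4.1, a4.2]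
  have p7 : |k ^ 2 * ((t - t') * y + t' * (y - y') - (b1 + b1') * (b1 - b1') - (b2 + b2') * (b2 - b2'))|
      ≤ M ^ 2 * (7 * M ^ 6 * l * 1 + 3 * (6 * M ^ 4 * l) + 2 * (7 * M ^ 5 * l) + 2 * (7 * M ^ 5 * l)) := by
    rw [abs_mul]; exact mul_le_mul hk2 p6 (abs_nonneg _) (by positivity)
  have m6 : M ^ 6 * l * 4 ≤ M ^ 8 * l := by
    have : M ^ 6 * 4 ≤ M ^ 8 := by
      have h4 : (4 : ℝ) ≤ M ^ 2 := by nlinarith
      calc M ^ 6 * 4 ≤ M ^ 6 * M ^ 2 := mul_le_mul_of_nonneg_left h4 (by positivity)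
        _ = M ^ 8 := by ring
    nlinarith
  have m7 : M ^ 7 * l * 2 ≤ M ^ 8 * l := by
    have : M ^ 7 * 2 ≤ M ^ 8 := by
      calc M ^ 7 * 2 ≤ M ^ 7 * M := mul_le_mul_of_nonneg_left hM (by positivity)
        _ = M ^ 8 := by ring
    nlinarith
  have b1 := abs_le.1 p1
  have b2 := abs_le.1 p7
  have e1 : M * (7 * M ^ 5 * l) = 7 * (M ^ 6 * l) := by ring
  have e2 : M ^ 2 * (7 * M ^ 6 * l * 1 + 3 * (6 * M ^ 4 * l) + 2 * (7 * M ^ 5 * l) + 2 * (7 * M ^ 5 * l))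
      = 7 * (M ^ 8 * l) + 18 * (M ^ 6 * l) + 28 * (M ^ 7 * l) := by ring
  rw [e1] at b1
  rw [e2] at b2
  rw [abs_le]
  constructor <;> linarith [b1.1, b1.2, b2.1, b2.2]

theorem rt_po_sp3_quo {M l t t' D D' : ℝ} (hM : 2 ≤ M) (hl : 0 ≤ l) (hD : 1 / 2 ≤ |D|) (hD' : 1 / 2 ≤ |D'|) (ht' : |t'| ≤ 3)
    (dt : |t - t'| ≤ 7 * M ^ 6 * l) (dD : |D - D'| ≤ 29 * M ^ 8 * l) : |t / D - t' / D'| ≤ M ^ 20 * l := by
  have hM0 : 0 ≤ M := by linarith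
  have hD0 : D ≠ 0 := by
    intro h; rw [h, abs_zero] at hD; norm_num at hD
  have hD0' : D' ≠ 0 := by
    intro h; rw [h, abs_zero] at hD'; norm_num at hD'
  have e : t / D - t' / D' = (t - t') / D + t' * (D' - D) / (D * D') := by
    field_simp
    ring
  have pD : 0 < |D| := by linarith
  have pD' : 0 < |D'| := by linarith
  have q1 : |(t - t') / D| ≤ 2 * (7 * M ^ 6 * l) := by
    rw [abs_div, div_le_iff₀ pD]
    have : 0 ≤ 7 * M ^ 6 * l := by positivity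
    nlinarith
  have q2 : |t' * (D' - D) / (D * D')| ≤ 4 * (3 * (29 * M ^ 8 * l)) := by
    rw [abs_div, abs_mul, abs_mul, div_le_iff₀ (mul_pos pD pD')]
    have a1 : |t'| * |D' - D| ≤ 3 * (29 * M ^ 8 * l) := by
      rw [abs_sub_comm]; exact mul_le_mul ht' dD (abs_nonneg _) (by norm_num)
    have a2 : 1 / 4 ≤ |D| * |D'| := by nlinarith
    have a3 : 0 ≤ 3 * (29 * M ^ 8 * l) := by positivity
    nlinarith
  have m6 : M ^ 6 * l * 4 ≤ M ^ 8 * l := by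
    have : M ^ 6 * 4 ≤ M ^ 8 := by
      have h4 : (4 : ℝ) ≤ M ^ 2 := by nlinarith
      calc M ^ 6 * 4 ≤ M ^ 6 * M ^ 2 := mul_le_mul_of_nonneg_left h4 (by positivity)
        _ = M ^ 8 := by ring
    nlinarith
  have m20 : 352 * (M ^ 8 * l) ≤ M ^ 20 * l := by
    have h12 : (352 : ℝ) ≤ M ^ 12 := by
      calc (352 : ℝ) ≤ 2 ^ 12 := by norm_num
        _ ≤ M ^ 12 := pow_le_pow_left₀ (by norm_num) hM 12
    have : 352 * M ^ 8 ≤ M ^ 20 := by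
      calc 352 * M ^ 8 ≤ M ^ 12 * M ^ 8 := mul_le_mul_of_nonneg_right h12 (by positivity)
        _ = M ^ 20 := by ring
    nlinarith
  rw [e]
  calc |(t - t') / D + t' * (D' - D) / (D * D')| ≤ |(t - t') / D| + |t' * (D' - D) / (D * D')| := abs_add_le _ _
    _ ≤ 2 * (7 * M ^ 6 * l) + 4 * (3 * (29 * M ^ 8 * l)) := add_le_add q1 q2
    _ ≤ 352 * (M ^ 8 * l) := by
        have : 0 ≤ M ^ 8 * l := by positivity
        linarith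
    _ ≤ M ^ 20 * l := m20

/-- LEAF `L-256-RT-PWO-SP3` (quotient).   `D = rtCfDen ⟨0,(0,k),0⟩ X = 1 - 2k X.b₂ - k² (X.t X.y - X.b₁² - X.b₂²)` (unfold `rtCfDen, RtEv.pol, RtEv.q, rtQ, rtIp, rtSq`; ring).
`D - D' = -2k δb₂ - k² (δt X.y + X'.t δy - (b₁+b₁') δb₁ - (b₂+b₂') δb₂)`:   `|D - D'| ≤ 14M⁶ l + M² (7M⁶ + 18M⁴ + 28M⁵) l ≤ 29 M⁸ l`.
`X.t/D - X'.t/D' = δt/D + X'.t (D' - D)/(D D')`:   `≤ 2·7M⁶ l + 3·4·29 M⁸ l ≤ 352 M⁸ l ≤ M^17 l`. -/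
theorem rt_po_sp3 {M k l : ℝ} {X X' : RtEv} (hM : 2 ≤ M) (hk : |k| ≤ M) (hl : 0 ≤ l)
    (hD : 1 / 2 ≤ |rtCfDen ⟨0, (0, k), 0⟩ X|) (hD' : 1 / 2 ≤ |rtCfDen ⟨0, (0, k), 0⟩ X'|)
    (hy : |X.y| ≤ 1) (h1 : |X.b.1| ≤ 1) (h2 : |X.b.2| ≤ 1) (ht' : |X'.t| ≤ 3) (h1' : |X'.b.1| ≤ 1) (h2' : |X'.b.2| ≤ 1)
    (dt : |X.t - X'.t| ≤ 7 * M ^ 6 * l) (d1 : |X.b.1 - X'.b.1| ≤ 7 * M ^ 5 * l) (d2 : |X.b.2 - X'.b.2| ≤ 7 * M ^ 5 * l) (dy : |X.y - X'.y| ≤ 6 * M ^ 4 * l) :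
    |X.t / rtCfDen ⟨0, (0, k), 0⟩ X - X'.t / rtCfDen ⟨0, (0, k), 0⟩ X'| ≤ M ^ 20 * l := by
  refine rt_po_sp3_quo hM hl hD hD' ht' dt ?_
  rw [rt_po_sp3_den, rt_po_sp3_den]
  exact rt_po_sp3_dd hM hk hl hy h1 h2 ht' h1' h2' dt d1 d2 dy

/-- **the chart times of the events of one box of length `l` at one old time differ by at most `M^20 l`** -/
theorem rt_po_spread {M P : ℝ} {n : RtPoly} {p₀ : RtRow} (hM : 2 ≤ M) (hP : 1 ≤ P) (hPM : P ≤ M) (h : RtChartOk P n p₀) (hbe : |n.be| ≤ P) (hk : |n.k| ≤ P)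
    (τ : RtTest) (hl : 0 < τ.l) (hr0 : 0 < τ.r) (hr : τ.r ≤ M) {θ : ℝ} (hθ : |θ| ≤ 2) {q q' : RtRow} (hq : q ∈ rtBx p₀ 1 (rtChRho P))
    (hq' : q' ∈ rtBx p₀ 1 (rtChRho P)) (hqτ : q.flow θ ∈ τ.box M) (hq'τ : q'.flow θ ∈ τ.box M) :
    |(rtChart p₀ n).tm q θ - (rtChart p₀ n).tm q' θ| ≤ M ^ 20 * τ.l := by
  obtain ⟨a1, a2, a3, a4, a5, a6⟩ := rt_po_sp1 hP h hbe hq hθ
  obtain ⟨b1, b2, b3, b4, b5, b6⟩ := rt_po_sp1 hP h hbe hq' hθ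
  obtain ⟨c1, c2, c3, c4⟩ := rt_po_sp2 hM hP hPM (rt_lf_unit h) hbe τ hl hr0 hr hq hqτ hq'τ
  rw [a1, b1]
  exact rt_po_sp3 hM (hk.trans hPM) hl.le a2 b2 a6 a4 a5 b3 b4 b5 c1 c2 c3 c4

/-- LEAF `L-256-RT-PWO-CNT` (integers in a window).   `x = (t0 + 1)/δ - R`, `j0 = ⌊x⌋₊`.   The hypothesis gives `x ≤ j' ≤ x + 2R`;   `Nat.floor_le_of_le`, `Nat.lt_floor_add_one`. -/
theorem rt_po_cnt {R δ t0 : ℝ} (K : ℕ) (hδ : 0 < δ) (hR : 0 ≤ R) (hK : 2 * R + 2 ≤ K) :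
    ∃ j0 : ℕ, ∀ j' : ℕ, |t0 - (j' * δ - 1)| ≤ R * δ → j0 ≤ j' ∧ j' < j0 + K := by
  refine ⟨⌊(t0 + 1) / δ - R⌋₊, fun j' h => ?_⟩
  obtain ⟨h1, h2⟩ := abs_le.1 h
  have e : (t0 + 1) / δ * δ = t0 + 1 := by field_simp
  have a1 : (t0 + 1) / δ - R ≤ j' := by
    have : ((t0 + 1) / δ - R) * δ ≤ j' * δ := by
      rw [sub_mul, e]; linarith
    exact le_of_mul_le_mul_right this hδ
  have a2 : (j' : ℝ) ≤ (t0 + 1) / δ - R + 2 * R := by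
    have : j' * δ ≤ ((t0 + 1) / δ - R + 2 * R) * δ := by
      rw [add_mul, sub_mul, e]; linarith
    exact le_of_mul_le_mul_right this hδ
  refine ⟨Nat.floor_le_of_le a1, ?_⟩
  have a3 := Nat.lt_floor_add_one ((t0 + 1) / δ - R)
  have : (j' : ℝ) < ((⌊(t0 + 1) / δ - R⌋₊ + K : ℕ) : ℝ) := by
    push_cast
    linarith
  exact_mod_cast this

/-- the rows of a label in parent units -/
theorem rt_po_lab_box {M : ℝ} {k0 i0 n : ℕ} (d : RtPd) (Q : RdTst) (hM : 1 ≤ M) (hr : 0 < d.ψ.r) (hQ : (Q.toT (k0 + n)).Adm 1) (z : RtZ)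
    (hrow : RdWvPar.co 0 z.2 ∈ Q.rows (k0 + n)) :
    (rtPwP d k0 (rtPwX0 k0 i0 (k0 + n) z)).flow ((tmL (k0 + n) z.1 - tmL k0 i0) / rdLen k0)
      ∈ (rtLfNt (rdLen k0) d.ψ.r d.ψ.cen (tmL (k0 + n) z.1 - tmL k0 i0) (Q.toT (k0 + n))).box M := by
  have hl := rdLen_pos k0
  have e : rtPwP d k0 (rtPwX0 k0 i0 (k0 + n) z) = rtLfNrm (rdLen k0) d.ψ.r d.ψ.cen (rtPwX0 k0 i0 (k0 + n) z) := rfl
  rw [e, rt_lp_flow hl.ne' hr.ne', rt_po_x0_flow]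
  exact (rt_lp_nt_set hl.ne' hr.ne' _ _ _ hQ.l_pos.ne' hQ.r_pos.ne' (rt_po_set_mono _ hM hQ.f_pos.le hrow)).1

/-- **the new time indices related to one old label lie in a window of `K` consecutive integers** -/
theorem rt_po_count {M P Λ H1 : ℝ} {k0 i0 n j : ℕ} (K : ℕ) (d : RtPd) (Q : RdTst) (hM : 2 ≤ M) (hP : 1 ≤ P) (hPM : P ≤ M) (hΛM : Λ ≤ M)
    (hch : RtChartOk P d.nL d.p0) (hbd : d.nL.Bd P) (hr : 0 < d.ψ.r) (hQ : (Q.toT (k0 + n)).Adm 1) (hQr2 : Q.r ≤ 2 * d.ψ.r)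
    (hj : ancI (k0 + n) k0 j = i0) (hK : 2 * (M ^ 20 + M) + 2 ≤ K) :
    ∃ j0 : ℕ, ∀ z z' : RtZ, z.1 = j → RdWvPar.co 0 z.2 ∈ Q.rows (k0 + n) → z'.1 < 2 ^ (n + 2) → RtPwRout d k0 i0 (k0 + n) (n + 2) P H1 Λ z z' →
      j0 ≤ z'.1 ∧ z'.1 < j0 + K := by
  obtain ⟨l1, l2, l3⟩ := rt_po_len k0 n
  obtain ⟨t1, t2⟩ := rt_po_tm_old hj
  have hM0 : 0 ≤ M := by linarith
  have hM1 : 1 ≤ M := by linarith
  have hlk : 0 < rdLen k0 := rdLen_pos k0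
  have hln : 0 < rdLen n := rdLen_pos n
  by_cases hne : ∃ z z' : RtZ, z.1 = j ∧ RdWvPar.co 0 z.2 ∈ Q.rows (k0 + n) ∧ RtPwRout d k0 i0 (k0 + n) (n + 2) P H1 Λ z z'
  · obtain ⟨w, w', w1, w2, w3⟩ := hne
    obtain ⟨j0, hj0⟩ := rt_po_cnt (R := M ^ 20 + M) (δ := rdLen n)
      (t0 := (rtChart d.p0 d.nL).tm (rtPwP d k0 (rtPwX0 k0 i0 (k0 + n) w)) ((tmL (k0 + n) j - tmL k0 i0) / rdLen k0)) K hln (by positivity) hK
    refine ⟨j0, fun z z' a1 a2 a3 a4 => hj0 z'.1 ?_⟩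
    have hθ : |(tmL (k0 + n) j - tmL k0 i0) / rdLen k0| ≤ 2 := by
      rw [abs_div, abs_of_pos hlk, abs_of_nonneg t1, div_le_iff₀ hlk]
      linarith
    have bw := rt_po_lab_box (i0 := i0) d Q hM1 hr hQ w w2
    have bz := rt_po_lab_box (i0 := i0) d Q hM1 hr hQ z a2
    rw [w1] at bw
    rw [a1] at bz
    have sp := rt_po_spread hM hP hPM hch hbd.2.2.2.1 hbd.2.2.2.2 (rtLfNt (rdLen k0) d.ψ.r d.ψ.cen (tmL (k0 + n) j - tmL k0 i0) (Q.toT (k0 + n)))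
      (div_pos hQ.l_pos hlk) (div_pos hQ.r_pos hr) (by
        show Q.r / d.ψ.r ≤ M
        rw [div_le_iff₀ hr]
        nlinarith) hθ w3.1 a4.1 bw bz
    have el : (rtLfNt (rdLen k0) d.ψ.r d.ψ.cen (tmL (k0 + n) j - tmL k0 i0) (Q.toT (k0 + n))).l = rdLen n := l1
    rw [el] at sp
    have r2 := a4.2.1
    rw [a1, (rt_po_tm_new a3).1, l2] at r2
    have c1 := abs_le.1 sp
    have c2 := abs_le.1 r2
    have hΛl : Λ * rdLen n ≤ M * rdLen n := mul_le_mul_of_nonneg_right hΛM hln.le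
    rw [abs_le]
    constructor <;> nlinarith [c1.1, c1.2, c2.1, c2.2]
  · exact ⟨0, fun z z' a1 a2 _ a4 => absurd ⟨z, z', a1, a2, a4⟩ hne⟩

end Claimed.Agent.R256
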