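-- KEEP
import Claimed.Agent.R256.Rt.PwOutGeo
import Claimed.Agent.R256.Rt.PwOutAsg

/-!
# Row 256 (LS paper), folder Rt, file PwOut : OUTPUT HALF OF THE GLUE `rt_patch_wv`          (architect helper236; prefix `rt_po_`)          GLUE, no `sorry` of its own

07 l.786-826 (transfer of assignments), l.889-945 (endlift), l.1185-1235.      INPUT: the clean I1 exit `RtPwI1` (`Rt/PwDefs.lean`, helper22; only the field `out` and `H_eq` are used), patch data `RtPd.Ok`, a valid free experiment.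
* `rt_po_core`      labels `(l, j)`, `j < 2^(n+2)`: weights `th l j = toReal (θ' l (j, ·))` of the transferred assignment, tests `tc l j` (`rt_po_test`), windows `[j0 l, j0 l + K)` (`rt_po_count`), errors `er l`.
* **`rt_po_main`**  the target `RtPwOut` of `Rt/PwDat.lean` (helper167) for the flattened labels `Fin (E.L * K)`.
PARAMETERS: `M ≥ 2, P = s^-b0, Λ` (enlargement),  `K ≥ 2 (M^20 + M) + 2` (labels per old label),  `Lo ≥ K, M^200, Aa`;   `s1^-Ds ≥ M^90, 2 s^-D1`;   thinness `f_*³ M^100 ≤ s f/2`.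
-/

set_option autoImplicit false

namespace Claimed.Agent.R256

open MeasureTheory
open scoped ENNReal

/-- the facts on one label -/
theorem rt_po_lab (η : ℝ) (h0 : 0 < η) (h1 : η < 1) {M B : ℝ} {C A : ℕ} {D1 b0 : ℝ} (p : RdWvPar) (E : Xp (p.sys η)) (d : RtPd)
    (hV : E.Valid) (hd : d.Ok (rtMdWv η h0 h1) p E C A D1 b0) (hD1 : 0 ≤ D1)
    (hthin : d.fs E D1 ^ 3 * M ^ 100 ≤ E.s * (d.f / 2)) (hB2 : 2 * E.s ^ (-D1) ≤ B) (l : Fin E.L) :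
    (RdTst.toT (E.ts l) (E.k0 + E.n)).Adm 1 ∧ rdD p.H (E.k0 + E.n) ≤ RdTst.r (E.ts l) * RdTst.f (E.ts l) ∧
      d.ψ.r / 2 ≤ RdTst.r (E.ts l) ∧ RdTst.r (E.ts l) ≤ 2 * d.ψ.r ∧ ancI (E.k0 + E.n) E.k0 (E.iv l) = E.i0 ∧ 0 < d.fs E D1 ∧
      RdTst.f (E.ts l) ≤ d.fs E D1 ∧
      d.Con (rtNrm (rdLen E.k0) d.ψ.r d.ψ.cen) (tmL E.k0 E.i0) (E.k0 + E.n) (tmL (E.k0 + E.n) (E.iv l)) (E.ts l) (d.fs E D1) ∧
      d.fs E D1 ^ 3 * M ^ 100 ≤ rdLen E.n * RdTst.f (E.ts l) ∧ d.fs E D1 / RdTst.f (E.ts l) ≤ B := by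
  have hok : (RdTst.toT (E.ts l) (E.k0 + E.n)).Adm 1 ∧ rdD p.H (E.k0 + E.n) ≤ RdTst.r (E.ts l) * RdTst.f (E.ts l) := hV.ts_ok l
  have hr : d.ψ.r / 2 ≤ RdTst.r (E.ts l) ∧ RdTst.r (E.ts l) ≤ 2 * d.ψ.r := hd.lab_r l
  have hf : d.f / 2 ≤ RdTst.f (E.ts l) ∧ RdTst.f (E.ts l) ≤ d.f := hd.lab_f l
  have hn : d.Con (rtNrm (rdLen E.k0) d.ψ.r d.ψ.cen) (tmL E.k0 E.i0) (E.k0 + E.n) (tmL (E.k0 + E.n) (E.iv l)) (E.ts l) (d.fs E D1) := hd.lab_n l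
  have hs0 : 0 < E.s := by unfold Xp.s; positivity
  have hs1 : E.s ≤ 1 := by unfold Xp.s; exact pow_le_one₀ (by norm_num) (by norm_num)
  have hf0 : 0 < RdTst.f (E.ts l) := hok.1.f_pos
  have hdf : 0 < d.f := lt_of_lt_of_le hf0 hf.2
  have hsD : 1 ≤ E.s ^ (-D1) := Real.one_le_rpow_of_pos_of_le_one_of_nonpos hs0 hs1 (by linarith)
  have hfs : d.fs E D1 = E.s ^ (-D1) * d.f := rfl
  have hfs0 : 0 < d.fs E D1 := by rw [hfs]; positivity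
  have hfle : d.f ≤ d.fs E D1 := by rw [hfs]; nlinarith
  refine ⟨hok.1, hok.2, hr.1, hr.2, hV.iv_in l, hfs0, hf.2.trans hfle, hn, ?_, ?_⟩
  · refine hthin.trans ?_
    show E.s * (d.f / 2) ≤ E.s * RdTst.f (E.ts l)
    exact mul_le_mul_of_nonneg_left hf.1 hs0.le
  · rw [div_le_iff₀ hf0]
    calc d.fs E D1 = 2 * E.s ^ (-D1) * (d.f / 2) := by rw [hfs]; ring
      _ ≤ B * RdTst.f (E.ts l) := mul_le_mul hB2 hf.1 (by positivity) (le_trans (by positivity) hB2)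

/-- **the labels `(l, j)`** -/
theorem rt_po_core (η : ℝ) (h0 : 0 < η) (h1 : η < 1) {M Λ Aa ε B : ℝ} {C A : ℕ} {D1 b0 : ℝ} (K : ℕ) (p : RdWvPar) (E : Xp (p.sys η)) (d : RtPd)
    (p1 : RdWvPar) (G : RtKc) (b1 bT1 : ℕ) (hV : E.Valid) (hst : E.st = []) (hd : d.Ok (rtMdWv η h0 h1) p E C A D1 b0)
    (hI : RtPwI1 p E d (E.s ^ (-b0)) (d.fs E D1) Λ Aa ε p1 G b1 bT1)
    (hM : 2 ≤ M) (hP : 1 ≤ E.s ^ (-b0)) (hPM : E.s ^ (-b0) ≤ M) (hΛ0 : 0 ≤ Λ) (hΛM : Λ ≤ M) (hAa : 0 ≤ Aa) (hε : 0 ≤ ε)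
    (hfs1 : d.fs E D1 ≤ 1) (hD1 : 0 ≤ D1) (hthin : d.fs E D1 ^ 3 * M ^ 100 ≤ E.s * (d.f / 2)) (hB1 : M ^ 90 ≤ B) (hB2 : 2 * E.s ^ (-D1) ≤ B)
    (hK : 2 * (M ^ 20 + M) + 2 ≤ K) :
    ∃ (j0 : Fin E.L → ℕ) (tc : Fin E.L → ℕ → CyT) (th : Fin E.L → ℕ → RdWvPar.Ph → ℝ) (er : Fin E.L → ℝ),
      (∀ l j, Measurable (th l j)) ∧ (∀ l j x, 0 ≤ th l j x) ∧ (∀ j x, ∑ l, th l j x ≤ 1) ∧
      (∀ l j x, j < 2 ^ (E.n + 2) → th l j x ≠ 0 → j0 l ≤ j ∧ j < j0 l + K ∧ cyIn (tc l j) (rdLen (E.n + 2)) (fzFl (d.fs E D1) x)) ∧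
      (∀ l j, j < 2 ^ (E.n + 2) → fzBd B (tc l j) ∧ rdD p1.H (E.n + 2) ≤ d.fs E D1 * (tc l j).f ∧
        cyWt η (tc l j) * (d.ψ.r ^ 4 * d.fs E D1 ^ (1 - η)) ≤ M ^ 200 * E.w l) ∧
      (∀ l, 0 ≤ er l) ∧ ∑ l, er l ≤ ε ∧
      ∀ l, E.m l ≤ Aa * ∑ j ∈ Finset.range (2 ^ (E.n + 2)), (p1.sys 0).en (tmL (E.n + 2) j) (E.n + 2) bT1 (th l j) G + er l := by
  have hlab := rt_po_lab η h0 h1 (M := M) (B := B) p E d hV hd hD1 hthin hB2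
  have hch : RtChartOk (E.s ^ (-b0)) d.nL d.p0 := hd.chart
  have hbd : d.nL.Bd (E.s ^ (-b0)) := hd.bd
  have hr : 0 < d.ψ.r := hd.r_pos
  -- the tests
  have HT : ∀ (l : Fin E.L) (j : ℕ), ∃ Qc : CyT, j < 2 ^ (E.n + 2) → (fzBd B Qc ∧ rdD p1.H (E.n + 2) ≤ d.fs E D1 * Qc.f ∧
      cyWt η Qc * (d.ψ.r ^ 4 * d.fs E D1 ^ (1 - η)) ≤ M ^ 200 * E.w l ∧
      ∀ z z' : RtZ, z.1 = E.iv l → RdWvPar.co 0 z.2 ∈ RdTst.rows (E.ts l) (E.k0 + E.n) → z'.1 = j →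
        RtPwRout d E.k0 E.i0 (E.k0 + E.n) (E.n + 2) (E.s ^ (-b0)) p1.H Λ z z' → cyIn Qc (rdLen (E.n + 2)) (fzFl (d.fs E D1) z'.2)) := by
    intro l j
    by_cases hj : j < 2 ^ (E.n + 2)
    · obtain ⟨a1, a2, a3, a4, a5, a6, a7, a8, a9, a10⟩ := hlab l
      obtain ⟨Qc, c1, c2, c3, c4⟩ := rt_po_test η h0 h1 (Λ := Λ) (H := p.H) d (E.ts l) hM hP hPM hΛ0 hΛM p.H_pos hch hr a1 a2 a3 a4 a5 hj a6 hfs1 a7 a8 a9 hB1 a10
      rw [← hI.H_eq] at c2 c4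
      exact ⟨Qc, fun _ => ⟨c1, c2, c3, c4⟩⟩
    · exact ⟨⟨0, 0, 0, 0, 0, 0, 0, 0, 0, 0⟩, fun h => absurd h hj⟩
  choose tc htc using HT
  -- the windows
  have HJ : ∀ l : Fin E.L, ∃ j0 : ℕ, ∀ z z' : RtZ, z.1 = E.iv l → RdWvPar.co 0 z.2 ∈ RdTst.rows (E.ts l) (E.k0 + E.n) → z'.1 < 2 ^ (E.n + 2) →
      RtPwRout d E.k0 E.i0 (E.k0 + E.n) (E.n + 2) (E.s ^ (-b0)) p1.H Λ z z' → j0 ≤ z'.1 ∧ z'.1 < j0 + K := by
    intro l
    obtain ⟨a1, a2, a3, a4, a5, a6, a7, a8, a9, a10⟩ := hlab l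
    exact rt_po_count K d (E.ts l) hM hP hPM hΛM hch hbd hr a1 a4 a5 hK
  choose j0 hj0 using HJ
  -- the transfer
  obtain ⟨θ', e, b1', b2', b3', b4'⟩ := hI.out E.L (rtPoTh p E) (rt_po_src_asg p E hV) (fun _ _ _ => Set.mem_univ _)
  have hle1 : ∀ l z, θ' l z ≤ 1 := fun l z => (Finset.single_le_sum (f := fun l => θ' l z) (fun _ _ => zero_le) (Finset.mem_univ l)).trans (b1'.sum_le z)
  have hfin : ∀ l z, θ' l z ≠ ⊤ := fun l z => ne_top_of_le_ne_top ENNReal.one_ne_top (hle1 l z)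
  have hetop : ∀ l, e l ≠ ⊤ := fun l =>
    ne_top_of_le_ne_top ENNReal.ofReal_ne_top ((Finset.single_le_sum (f := e) (fun _ _ => zero_le) (Finset.mem_univ l)).trans b4')
  have hrel : ∀ l j x, (θ' l (j, x)).toReal ≠ 0 → ∃ z : RtZ, z.1 = E.iv l ∧ RdWvPar.co 0 z.2 ∈ RdTst.rows (E.ts l) (E.k0 + E.n) ∧
      RtPwRout d E.k0 E.i0 (E.k0 + E.n) (E.n + 2) (E.s ^ (-b0)) p1.H Λ z (j, x) := by
    intro l j x hx
    have h0' : θ' l (j, x) ≠ 0 := fun h => hx (by rw [h]; rfl)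
    obtain ⟨z, hz, hR⟩ := b2' l (j, x) h0'
    obtain ⟨s1, s2⟩ := rt_po_src_supp p E hV l z hz
    exact ⟨z, s1, s2, hR⟩
  refine ⟨j0, tc, fun l j x => (θ' l (j, x)).toReal, fun l => (e l).toReal, ?_, ?_, ?_, ?_, ?_, ?_, ?_, ?_⟩
  · exact fun l j => ((b1'.meas l).comp measurable_prodMk_left).ennreal_toReal
  · exact fun l j x => ENNReal.toReal_nonneg
  · intro j x
    rw [← ENNReal.toReal_sum fun l _ => hfin l (j, x)]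
    exact ENNReal.toReal_le_of_le_ofReal zero_le_one (by simpa using b1'.sum_le (j, x))
  · intro l j x hj hx
    obtain ⟨z, s1, s2, hR⟩ := hrel l j x hx
    obtain ⟨w1, w2⟩ := hj0 l z (j, x) s1 s2 hj hR
    exact ⟨w1, w2, (htc l j hj).2.2.2 z (j, x) s1 s2 rfl hR⟩
  · exact fun l j hj => ⟨(htc l j hj).1, (htc l j hj).2.1, (htc l j hj).2.2.1⟩
  · exact fun l => ENNReal.toReal_nonneg
  · rw [← ENNReal.toReal_sum fun l _ => hetop l]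
    exact ENNReal.toReal_le_of_le_ofReal hε b4'
  · intro l
    have h3 := b3' l
    rw [rt_po_src_int p E hV hst _ l (hV.iv_in l), rt_po_tgt_int p1 (E.n + 2) bT1 G (θ' l) (b1'.meas l) (hle1 l)] at h3
    set S : ℝ := ∑ j ∈ Finset.range (2 ^ (E.n + 2)), (p1.sys 0).en (tmL (E.n + 2) j) (E.n + 2) bT1 (fun x => (θ' l (j, x)).toReal) G with hS
    have hS0 : 0 ≤ S := Finset.sum_nonneg fun j _ => gn_en_nonneg _ _ _ (fun x => ENNReal.toReal_nonneg) _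
    rw [← ENNReal.ofReal_mul hAa, ← ENNReal.ofReal_toReal (hetop l), ← ENNReal.ofReal_add (by positivity) ENNReal.toReal_nonneg] at h3
    exact (ENNReal.ofReal_le_ofReal_iff (by positivity)).1 h3

/-- the constructor of `RtPwOut` on explicit data -/
theorem rt_po_mk {η : ℝ} {p : RdWvPar} (E : Xp (p.sys η)) (d : RtPd) (p1 : RdWvPar) (n : ℕ) (G : RtKc) (e bq fs : ℝ) (b1 bT1 L : ℕ) (iv : Fin L → ℕ)
    (tc : Fin L → CyT) (th : Fin L → RdWvPar.Ph → ℝ) (lab : Fin L → Fin E.L) (Ds Lo εo : ℝ)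
    (a1 : ∀ l, iv l < 2 ^ n) (a2 : ∀ l, Measurable (th l)) (a3 : ∀ l x, 0 ≤ th l x) (a4 : ∀ i x, ∑ l, (if iv l = i then th l x else 0) ≤ 1)
    (a5 : ∀ l x, th l x ≠ 0 → cyIn (tc l) (rdLen n) (fzFl fs x)) (a6 : ∀ l, fzBd (rdLen n ^ (-Ds)) (tc l)) (a7 : ∀ l, rdD p1.H n ≤ fs * (tc l).f)
    (a8 : ∀ l0 : Fin E.L, ((Finset.univ.filter fun l => lab l = l0).card : ℝ) ≤ Lo)
    (a9 : ∀ l, cyWt η (tc l) * (d.ψ.r ^ 4 * fs ^ (1 - η)) ≤ Lo * E.w (lab l))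
    (a10 : ∃ er : Fin E.L → ℝ, (∀ l0, 0 ≤ er l0) ∧
      (∀ l0, E.m l0 ≤ Lo * ∑ l ∈ Finset.univ.filter (fun l => lab l = l0), (p1.sys 0).en (tmL n (iv l)) n bT1 (th l) G + er l0) ∧ ∑ l0, er l0 ≤ εo) :
    RtPwOut η E d (rtPwD p1 n G e bq fs b1 bT1 L iv tc th) lab Ds Lo εo :=
  ⟨a1, a2, a3, a4, a5, a6, a7, a8, a9, a10⟩

/-- the row energy of the zero weight -/
theorem rt_po_en_zero (P : PkSys) (T : ℝ) (k b : ℕ) (θ : P.X → ℝ) (h : ∀ x, θ x = 0) (v : P.Kc) : P.en T k b θ v = 0 := by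
  unfold PkSys.en
  simp [h]

/-- **EXIT OF OUT**: the target `RtPwOut` for the flattened labels -/
theorem rt_po_main (η : ℝ) (h0 : 0 < η) (h1 : η < 1) {M Λ Aa ε Ds Lo εo e bq : ℝ} {C A : ℕ} {D1 b0 : ℝ} (K : ℕ) (p : RdWvPar) (E : Xp (p.sys η)) (d : RtPd)
    (p1 : RdWvPar) (G : RtKc) (b1 bT1 : ℕ) (hV : E.Valid) (hst : E.st = []) (hd : d.Ok (rtMdWv η h0 h1) p E C A D1 b0)
    (hI : RtPwI1 p E d (E.s ^ (-b0)) (d.fs E D1) Λ Aa ε p1 G b1 bT1)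
    (hM : 2 ≤ M) (hP : 1 ≤ E.s ^ (-b0)) (hPM : E.s ^ (-b0) ≤ M) (hΛ0 : 0 ≤ Λ) (hΛM : Λ ≤ M) (hAa : 0 ≤ Aa) (hε : 0 ≤ ε)
    (hfs1 : d.fs E D1 ≤ 1) (hD1 : 0 ≤ D1) (hthin : d.fs E D1 ^ 3 * M ^ 100 ≤ E.s * (d.f / 2))
    (hB1 : M ^ 90 ≤ rdLen (E.n + 2) ^ (-Ds)) (hB2 : 2 * E.s ^ (-D1) ≤ rdLen (E.n + 2) ^ (-Ds))
    (hK : 2 * (M ^ 20 + M) + 2 ≤ K) (hLK : (K : ℝ) ≤ Lo) (hLM : M ^ 200 ≤ Lo) (hLA : Aa ≤ Lo) (hεo : ε ≤ εo) :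
    ∃ (iv : Fin (E.L * K) → ℕ) (tc : Fin (E.L * K) → CyT) (th : Fin (E.L * K) → RdWvPar.Ph → ℝ) (lab : Fin (E.L * K) → Fin E.L),
      RtPwOut η E d (rtPwD p1 (E.n + 2) G e bq (d.fs E D1) b1 bT1 (E.L * K) iv tc th) lab Ds Lo εo := by
  obtain ⟨j0, tc, th, er, c1, c2, c3, c4, c5, c6, c7, c8⟩ := rt_po_core η h0 h1 K p E d p1 G b1 bT1 hV hst hd hI hM hP hPM hΛ0 hΛM hAa hε hfs1 hD1
    hthin hB1 hB2 hK
  have hN : 0 < 2 ^ (E.n + 2) := by positivity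
  have hiv : ∀ l', rtPoIv E.L K (2 ^ (E.n + 2)) j0 l' < 2 ^ (E.n + 2) := by
    intro l'
    unfold rtPoIv
    split_ifs with h
    · exact h
    · exact hN
  have hthF : ∀ l' x, rtPoThF E.L K (2 ^ (E.n + 2)) j0 th l' x
      = if rtPoJ E.L K j0 l' < 2 ^ (E.n + 2) then th (rtPoLab E.L K l') (rtPoJ E.L K j0 l') x else 0 := by
    intro l' x
    unfold rtPoThF
    split_ifs <;> rfl
  have hw0 : ∀ l, 0 ≤ E.w l := fun l => (hV.w_pos l).le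
  have hen0 : ∀ l j, 0 ≤ (p1.sys 0).en (tmL (E.n + 2) j) (E.n + 2) bT1 (th l j) G := fun l j => gn_en_nonneg _ _ _ (c2 l j) _
  refine ⟨rtPoIv E.L K (2 ^ (E.n + 2)) j0, rtPoTcF E.L K (2 ^ (E.n + 2)) j0 tc, rtPoThF E.L K (2 ^ (E.n + 2)) j0 th, rtPoLab E.L K, ?_⟩
  refine rt_po_mk E d p1 (E.n + 2) G e bq (d.fs E D1) b1 bT1 (E.L * K) _ _ _ _ Ds Lo εo hiv ?_ ?_ ?_ ?_ ?_ ?_ ?_ ?_ ?_
  · intro l'
    unfold rtPoThF
    split_ifs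
    · exact c1 _ _
    · exact measurable_const
  · intro l' x
    rw [hthF]
    split_ifs
    · exact c2 _ _ _
    · exact le_rfl
  · intro i x
    simp only [hthF]
    exact (rt_po_fl1 E.L K (2 ^ (E.n + 2)) j0 (fun l j => th l j x) (fun l j => c2 l j x) i).trans (c3 i x)
  · intro l' x hx
    rw [hthF] at hx
    by_cases hj : rtPoJ E.L K j0 l' < 2 ^ (E.n + 2)
    · rw [if_pos hj] at hx
      have := (c4 _ _ x hj hx).2.2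
      unfold rtPoTcF rtPoIv
      rw [if_pos hj]
      exact this
    · rw [if_neg hj] at hx
      exact absurd rfl hx
  · exact fun l' => (c5 _ _ (hiv l')).1
  · exact fun l' => (c5 _ _ (hiv l')).2.1
  · intro l0
    rw [rt_po_fl2]
    exact hLK
  · intro l'
    exact ((c5 _ _ (hiv l')).2.2).trans (mul_le_mul_of_nonneg_right hLM (hw0 _))
  · refine ⟨er, c6, fun l0 => ?_, c7.trans hεo⟩
    have e1 : ∑ l' ∈ Finset.univ.filter (fun l' => rtPoLab E.L K l' = l0),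
        (p1.sys 0).en (tmL (E.n + 2) (rtPoIv E.L K (2 ^ (E.n + 2)) j0 l')) (E.n + 2) bT1 (rtPoThF (X := RdWvPar.Ph) E.L K (2 ^ (E.n + 2)) j0 th l') G
        = ∑ j ∈ Finset.range (2 ^ (E.n + 2)), (p1.sys 0).en (tmL (E.n + 2) j) (E.n + 2) bT1 (th l0 j) G := by
      rw [← rt_po_fl3 E.L K (2 ^ (E.n + 2)) j0 l0 (fun j => (p1.sys 0).en (tmL (E.n + 2) j) (E.n + 2) bT1 (th l0 j) G)]
      · refine Finset.sum_congr rfl fun l' hl' => ?_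
        have hl0 : rtPoLab E.L K l' = l0 := (Finset.mem_filter.1 hl').2
        by_cases hj : rtPoJ E.L K j0 l' < 2 ^ (E.n + 2)
        · have e2 : rtPoIv E.L K (2 ^ (E.n + 2)) j0 l' = rtPoJ E.L K j0 l' := by unfold rtPoIv; rw [if_pos hj]
          have e3 : rtPoThF E.L K (2 ^ (E.n + 2)) j0 th l' = th l0 (rtPoJ E.L K j0 l') := by unfold rtPoThF; rw [if_pos hj, hl0]
          rw [e2, e3, if_pos hj]
        · rw [if_neg hj]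
          have hz : ∀ x : RdWvPar.Ph, rtPoThF (X := RdWvPar.Ph) E.L K (2 ^ (E.n + 2)) j0 th l' x = 0 := fun x => (hthF l' x).trans (if_neg hj)
          exact rt_po_en_zero (p1.sys 0) _ _ _ _ hz _
      · intro j hj hne
        have : ∃ x, th l0 j x ≠ 0 := by
          by_contra hcon
          push Not at hcon
          exact hne (rt_po_en_zero _ _ _ _ _ hcon _)
        obtain ⟨x, hx⟩ := this
        exact ⟨(c4 l0 j x hj hx).1, (c4 l0 j x hj hx).2.1⟩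
    rw [e1]
    exact (c8 l0).trans (add_le_add (mul_le_mul_of_nonneg_right hLA (Finset.sum_nonneg fun j _ => hen0 l0 j)) le_rfl)

end Claimed.Agent.R256
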