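-- KEEP
import Claimed.Agent.R256.Rt.PwOut
import Claimed.Agent.R256.Rt.PwTop

/-!
# Row 256 (LS paper), folder Rt, file PwOutTop : THE UNIT `RtPwO` (OUT) OF THE GLUE `rt_patch_wv`          (helper236; prefix `rt_po_`)          no `sorry` of its own

`rt_po_exit : RtPwO η h0 h1`  (`Rt/PwTop.lean`, helper167) from `rt_po_main` (`Rt/PwOut.lean`).      CONSTANTS:   `μ = min (g/400) (1/45)`, `M = s^-μ`, `g' = b1 = μ`, `Z = 3 D1 + 3`, `N = C + 2`, `A = 0`, `n0 = ⌈1/μ⌉₊ + 1`,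
`K = ⌈2 (M^20 + M) + 2⌉₊`.
-/

set_option autoImplicit false

namespace Claimed.Agent.R256

open MeasureTheory
open scoped ENNReal

theorem rt_po_pw {s : ℝ} (hs0 : 0 < s) (a : ℝ) (k : ℕ) : (s ^ a) ^ k = s ^ (a * k) := by
  rw [← Real.rpow_natCast, ← Real.rpow_mul hs0.le]

/-- the arithmetic of the constants -/
theorem rt_po_cn {s μ D1 Z f g : ℝ} (hs0 : 0 < s) (hs : s ≤ 1 / 2) (hμ0 : 0 < μ) (hμ1 : μ ≤ 1 / 45) (hμg : 400 * μ ≤ g) (hD1 : 1 ≤ D1)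
    (hZ : 3 * D1 + 3 ≤ Z) (hf0 : 0 < f) (hf : f ≤ s ^ Z) :
    s ^ (-D1) * f ≤ 1 ∧ (s ^ (-D1) * f) ^ 3 * (s ^ (-μ)) ^ 100 ≤ s * (f / 2) ∧ (s ^ (-μ)) ^ 90 ≤ (s / 4) ^ (-(D1 + 1)) ∧
      2 * s ^ (-D1) ≤ (s / 4) ^ (-(D1 + 1)) ∧ (s ^ (-μ)) ^ 200 ≤ s ^ (-g) := by
  have hs1 : s ≤ 1 := by linarith
  have anti : ∀ {a b : ℝ}, a ≤ b → s ^ b ≤ s ^ a := fun h => Real.rpow_le_rpow_of_exponent_ge hs0 hs1 h
  have hbase : s ^ (-(D1 + 1)) ≤ (s / 4) ^ (-(D1 + 1)) :=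
    Real.rpow_le_rpow_of_nonpos (by positivity) (by linarith) (by linarith)
  refine ⟨?_, ?_, ?_, ?_, ?_⟩
  · calc s ^ (-D1) * f ≤ s ^ (-D1) * s ^ Z := mul_le_mul_of_nonneg_left hf (Real.rpow_nonneg hs0.le _)
      _ = s ^ (-D1 + Z) := (Real.rpow_add hs0 _ _).symm
      _ ≤ 1 := Real.rpow_le_one hs0.le hs1 (by linarith)
  · have e1 : (s ^ (-D1) * f) ^ 3 * (s ^ (-μ)) ^ 100 = f * (f ^ 2 * s ^ (-D1 * 3 + -μ * 100)) := by
      rw [mul_pow, rt_po_pw hs0, rt_po_pw hs0, Real.rpow_add hs0]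
      push_cast
      ring
    have e2 : f ^ 2 ≤ s ^ (Z * 2) := by
      have := pow_le_pow_left₀ hf0.le hf 2
      rwa [rt_po_pw hs0] at this
    have e3 : f ^ 2 * s ^ (-D1 * 3 + -μ * 100) ≤ s ^ (2 : ℝ) := by
      calc f ^ 2 * s ^ (-D1 * 3 + -μ * 100) ≤ s ^ (Z * 2) * s ^ (-D1 * 3 + -μ * 100) :=
            mul_le_mul_of_nonneg_right (by exact_mod_cast e2) (Real.rpow_nonneg hs0.le _)
        _ = s ^ (Z * 2 + (-D1 * 3 + -μ * 100)) := (Real.rpow_add hs0 _ _).symm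
        _ ≤ s ^ (2 : ℝ) := anti (by linarith)
    have e4 : s ^ (2 : ℝ) ≤ s / 2 := by
      rw [Real.rpow_two]
      nlinarith
    rw [e1]
    calc f * (f ^ 2 * s ^ (-D1 * 3 + -μ * 100)) ≤ f * (s / 2) := mul_le_mul_of_nonneg_left (e3.trans e4) hf0.le
      _ = s * (f / 2) := by ring
  · rw [rt_po_pw hs0]
    exact (anti (by push_cast; linarith)).trans hbase
  · refine le_trans ?_ hbase
    have e : s ^ (-(D1 + 1)) = s ^ (-1 : ℝ) * s ^ (-D1) := by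
      rw [← Real.rpow_add hs0]
      congr 1
      ring
    rw [e]
    refine mul_le_mul_of_nonneg_right ?_ (Real.rpow_nonneg hs0.le _)
    rw [Real.rpow_neg_one, le_inv_comm₀ (by norm_num) hs0]
    linarith
  · rw [rt_po_pw hs0]
    exact anti (by push_cast; linarith)

/-- the number of labels per old label -/
theorem rt_po_ck {M : ℝ} (hM : 2 ≤ M) : 2 * (M ^ 20 + M) + 2 ≤ (⌈2 * (M ^ 20 + M) + 2⌉₊ : ℝ) ∧ (⌈2 * (M ^ 20 + M) + 2⌉₊ : ℝ) ≤ M ^ 200 := by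
  have hM1 : 1 ≤ M := by linarith
  refine ⟨Nat.le_ceil _, ?_⟩
  have h1 := (Nat.ceil_lt_add_one (by positivity : 0 ≤ 2 * (M ^ 20 + M) + 2)).le
  refine h1.trans ?_
  have a1 : M ≤ M ^ 20 := by
    calc M = M ^ 1 := (pow_one M).symm
      _ ≤ M ^ 20 := pow_le_pow_right₀ hM1 (by norm_num)
  have a2 : (8 : ℝ) ≤ M ^ 3 := by
    have : (2 : ℝ) ^ 3 ≤ M ^ 3 := pow_le_pow_left₀ (by norm_num) hM 3
    linarith
  have a3 : (1 : ℝ) ≤ M ^ 20 := one_le_pow₀ hM1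
  have a4 : M ^ 23 = M ^ 3 * M ^ 20 := by ring
  have a5 : M ^ 23 ≤ M ^ 200 := pow_le_pow_right₀ hM1 (by norm_num)
  have a6 : 8 * M ^ 20 ≤ M ^ 23 := by
    rw [a4]
    exact mul_le_mul_of_nonneg_right a2 (by positivity)
  linarith

/-- negative constants may be replaced by `0` -/
theorem rt_po_i1_pos {η : ℝ} {p : RdWvPar} {E : Xp (p.sys η)} {d : RtPd} {P fs Λ Aa ε : ℝ} {p1 : RdWvPar} {G : RtKc} {b1 bT1 : ℕ}
    (h : RtPwI1 p E d P fs Λ Aa ε p1 G b1 bT1) : RtPwI1 p E d P fs Λ (max Aa 0) (max ε 0) p1 G b1 bT1 := by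
  have e : ∀ a : ℝ, ENNReal.ofReal (max a 0) = ENNReal.ofReal a := by
    intro a
    rcases le_total a 0 with h | h
    · rw [max_eq_right h, ENNReal.ofReal_of_nonpos h, ENNReal.ofReal_zero]
    · rw [max_eq_left h]
  refine ⟨h.H_eq, h.spec, h.norm, ?_, ?_⟩
  · rw [e, e]
    exact h.inn
  · rw [e, e]
    exact h.out

/-- **the unit OUT** -/
theorem rt_po_exit (η : ℝ) (h0 : 0 < η) (h1 : η < 1) : RtPwO η h0 h1 := by
  intro g D1 hg hD1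
  obtain ⟨μ, hμ0, hμ1, hμg⟩ : ∃ μ : ℝ, 0 < μ ∧ μ ≤ 1 / 45 ∧ 400 * μ ≤ g := by
    refine ⟨min (g / 400) (1 / 45), lt_min (by positivity) (by norm_num), min_le_right _ _, ?_⟩
    have := min_le_left (g / 400) (1 / 45 : ℝ)
    linarith
  refine ⟨μ, μ, hμ0, hμ0, fun b0 hb0 hb01 => ⟨3 * D1 + 3, fun C bm => ⟨C + 2, 0, ⌈1 / μ⌉₊ + 1, ?_⟩⟩⟩
  intro p E d H Λ Aa ε p1 G c1 cT hΛ1 hΛ hAa hε _ _ hI e bq
  have hV : E.Valid := H.cls.2.1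
  have hs0 := gn_s_pos E
  have hn1 : 1 ≤ E.n := (Nat.le_add_left 1 _).trans H.n_ge
  have hs : E.s ≤ 1 / 2 := by
    unfold Xp.s
    calc ((2 : ℝ)⁻¹) ^ E.n ≤ ((2 : ℝ)⁻¹) ^ 1 := pow_le_pow_of_le_one (by norm_num) (by norm_num) hn1
      _ = 1 / 2 := by norm_num
  have hμn : 1 ≤ μ * E.n := by
    have a : 1 / μ ≤ (E.n : ℝ) := (Nat.le_ceil _).trans (by exact_mod_cast (Nat.le_succ _).trans H.n_ge)
    rw [div_le_iff₀ hμ0] at a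
    linarith
  have hM : 2 ≤ E.s ^ (-μ) := by
    rw [gn_s_rpow]
    calc (2 : ℝ) = 2 ^ (1 : ℝ) := (Real.rpow_one 2).symm
      _ ≤ 2 ^ (-(-μ * E.n)) := Real.rpow_le_rpow_of_exponent_le (by norm_num) (by linarith)
  have hdf : 0 < d.f := lt_of_lt_of_le (Real.rpow_pos_of_pos hs0 _) H.ok.f_lo
  obtain ⟨n1, n2, n3, n4, n5⟩ := rt_po_cn hs0 hs hμ0 hμ1 hμg hD1 le_rfl hdf H.thin
  obtain ⟨k1, k2⟩ := rt_po_ck hM
  have hlen : rdLen (E.n + 2) = E.s / 4 := by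
    unfold rdLen Xp.s
    rw [pow_add]
    ring
  have hLo : E.s ^ (-g) = 2 ^ (g * E.n) := by
    rw [gn_s_rpow]
    congr 1
    ring
  have hM200 : E.s ^ (-μ) ≤ (E.s ^ (-μ)) ^ 200 := by
    calc E.s ^ (-μ) = (E.s ^ (-μ)) ^ 1 := (pow_one _).symm
      _ ≤ (E.s ^ (-μ)) ^ 200 := pow_le_pow_right₀ (by linarith) (by norm_num)
  have he : 0 < E.e := hV.e_pos
  obtain ⟨iv, tc, th, lab, hO⟩ := rt_po_main η h0 h1 (M := E.s ^ (-μ)) (Λ := Λ) (Aa := max Aa 0) (ε := max ε 0) (Ds := D1 + 1) (Lo := 2 ^ (g * E.n))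
    (εo := E.s ^ ((C : ℝ) + 2) * E.e) (e := e) (bq := bq) ⌈2 * ((E.s ^ (-μ)) ^ 20 + E.s ^ (-μ)) + 2⌉₊ p E d p1 G c1 cT hV H.free H.ok (rt_po_i1_pos hI) hM
    (Real.one_le_rpow_of_pos_of_le_one_of_nonpos hs0 (gn_s_le_one E) (by linarith)) (gn_s_anti E (by linarith)) (by linarith) hΛ (le_max_right _ _)
    (le_max_right _ _) n1 (by linarith) n2 (by rw [hlen]; exact n3) (by rw [hlen]; exact n4) k1 (by rw [← hLo]; exact k2.trans n5) (by rw [← hLo]; exact n5)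
    (max_le (by rw [← hLo]; exact (hAa.trans hM200).trans n5) (by positivity))
    (max_le (by
      refine hε.trans (le_of_eq ?_)
      push_cast
      rfl) (by positivity))
  exact ⟨_, iv, tc, th, lab, hO⟩

end Claimed.Agent.R256
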