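import Claimed.Agent.R256.Rt.PwxDefs
import Claimed.Agent.R256.Rt.Wv1

/-!
# Row 256, folder Rt, file PwxAsy : THE ASYMPTOTIC GLUE `RtPxN η → RtPwX η h0 h1`      (CO-256-RtPwX, head helper225; this post helper295; prefix `rt_pxa_`)      SORRY-FREE

CONSTANTS.   `M` from `RtPxN`;   `a = b1 = min g 1 / (M + 1)`, tolerance `Λ₀ = s^-a`, `Λ = Λ₀^M = s^-(a M)`, `a M ≤ min g 1`;   `Z = g + 2`;   `bm = C + 8`;   `N'` with `a N' ≥ N + 9`;   `A = N + 9`;   `n0`: `1 ≤ n`, `K ≤ 2^(a n)`.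
* uncertainty:   `rdD H1 (n+2) = rdD H kf / ψ.r ≤ 2 f` (label `0`: `ts_ok`, `lab_r`, `lab_f`).
* error:   `K 4^(n+2) (s^A e + s^(a N') ‖v‖²) ≤ s^-1 · 2^5 s^-2 · s^(N+9) e ≤ s^(N+1) e`.
-/

set_option autoImplicit false

namespace Claimed.Agent.R256

open MeasureTheory

/-- `2^m s^y ≤ s^y'` for `s ≤ 1/2`, `y' + m ≤ y` -/
theorem rt_pxa_pw {s : ℝ} (hs0 : 0 < s) (hs : s ≤ 1 / 2) (m : ℕ) {y y' : ℝ} (h : y' + m ≤ y) : 2 ^ m * s ^ y ≤ s ^ y' := by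
  have h1 : s ^ y ≤ s ^ (y' + m) := Real.rpow_le_rpow_of_exponent_ge hs0 (by linarith) h
  rw [Real.rpow_add hs0, Real.rpow_natCast] at h1
  have h2 : (2 * s) ^ m ≤ 1 := pow_le_one₀ (by positivity) (by linarith)
  rw [mul_pow] at h2
  have h3 : 0 < s ^ y' := Real.rpow_pos_of_pos hs0 _
  calc 2 ^ m * s ^ y ≤ 2 ^ m * (s ^ y' * s ^ m) := mul_le_mul_of_nonneg_left h1 (by positivity)
    _ = s ^ y' * (2 ^ m * s ^ m) := by ring
    _ ≤ s ^ y' * 1 := mul_le_mul_of_nonneg_left h2 h3.le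
    _ = s ^ y' := mul_one _

/-- the uncertainty scale of the flat terminal cut -/
theorem rt_pxa_d (d : RtPd) (H : ℝ) (k0 n : ℕ) (hr : 0 < d.ψ.r) : rdD (d.xH H k0) (n + 2) = rdD H (k0 + n) / d.ψ.r := by
  unfold rdD RtPd.xH rdLen
  rw [eq_div_iff hr.ne', ← Real.sqrt_sq hr.le, ← Real.sqrt_mul' _ (by positivity), Real.sqrt_sq hr.le]
  congr 1
  rw [pow_add, pow_add]
  field_simp
  norm_num

/-- **THE ASYMPTOTIC GLUE** -/
theorem rt_pxa_main (η : ℝ) (h0 : 0 < η) (h1 : η < 1) (hN : RtPxN η) : RtPwX η h0 h1 := by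
  obtain ⟨M, hM⟩ := hN
  intro g D1 hg _
  obtain ⟨a, ha⟩ : ∃ a : ℝ, a = min g 1 / (M + 1) := ⟨_, rfl⟩
  have hM1 : (0 : ℝ) < (M : ℝ) + 1 := by positivity
  have hmin : 0 < min g 1 := lt_min hg one_pos
  have ha0 : 0 < a := by rw [ha]; positivity
  have haM' : a * ((M : ℝ) + 1) = min g 1 := by rw [ha]; field_simp
  have haM : a * M ≤ min g 1 := by nlinarith
  have haM1 : a * M ≤ 1 := haM.trans (min_le_right _ _)
  have haMg : a * M ≤ g := haM.trans (min_le_left _ _)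
  have ha1 : a ≤ 1 := by
    have : a ≤ min g 1 := by
      have : (0 : ℝ) ≤ M := Nat.cast_nonneg _
      nlinarith
    exact this.trans (min_le_right _ _)
  have hag : a ≤ g := by
    have : a ≤ min g 1 := by
      have : (0 : ℝ) ≤ M := Nat.cast_nonneg _
      nlinarith
    exact this.trans (min_le_left _ _)
  refine ⟨a, ha0, fun b0 hb0 hb0a => ⟨g + 2, fun C => ⟨C + 8, fun N => ?_⟩⟩⟩
  obtain ⟨N', hN'⟩ := exists_nat_ge (((N : ℝ) + 9) / a)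
  rw [div_le_iff₀ ha0] at hN'
  obtain ⟨K, hK1, hK⟩ := hM (C + 8) N'
  obtain ⟨n1, hn1⟩ := gn_absorb K a ha0
  refine ⟨N + 9, max 1 n1, fun p E d h => ?_⟩
  have hV : E.Valid := h.cls.2.1
  have hG : E.GenLe C := h.cls.2.2.2.1
  have hn : 1 ≤ E.n := (le_max_left _ _).trans h.n_ge
  have hs0 := gn_s_pos E
  have hs1 := gn_s_le_one E
  have hs2 : E.s ≤ 1 / 2 := by
    unfold Xp.s
    calc (2 : ℝ)⁻¹ ^ E.n ≤ (2 : ℝ)⁻¹ ^ 1 := pow_le_pow_of_le_one (by norm_num) (by norm_num) hn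
      _ = 1 / 2 := by norm_num
  have hp : ∀ y : ℝ, 0 < E.s ^ y := fun y => Real.rpow_pos_of_pos hs0 y
  have hKΛ : K ≤ E.s ^ (-a) := by
    have := hn1 E.n ((le_max_right _ _).trans h.n_ge)
    rw [gn_s_rpow]
    refine this.trans (le_of_eq ?_)
    congr 1
    ring
  have hΛM : (E.s ^ (-a)) ^ M = E.s ^ (-(a * M)) := by
    rw [← Real.rpow_natCast, ← Real.rpow_mul hs0.le]
    congr 1
    ring
  have hΛ1 : 1 ≤ E.s ^ (-a) := Real.one_le_rpow_of_pos_of_le_one_of_nonpos hs0 hs1 (by linarith)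
  have hr : 0 < d.ψ.r := h.ok.r_pos
  -- the hypotheses of the non-asymptotic I1
  have hyp : RtPxHyp p E d (E.s ^ (-b0)) (d.fs E D1) (E.s ^ (-a)) (E.s ^ ((N + 9 : ℕ) : ℝ) * E.e) (C + 8) :=
    { spec := (rt_w1_pl_spec p 0 0 E.b0 E.v).1 (hV.plat 0 0)
      gen0 := Nat.add_le_add_right hG.1 8
      genT := hG.2.1.trans (Nat.le_add_right _ _)
      P_ge := Real.one_le_rpow_of_pos_of_le_one_of_nonpos hs0 hs1 (by linarith)
      P_le := gn_s_anti E (by linarith)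
      r_pos := hr
      disc := h.ok.disc
      bd := h.ok.bd
      chart := h.ok.chart
      eps_nn := mul_nonneg (hp _).le hV.e_pos.le
      root := h.ok.root }
  -- uncertainty
  have hunc : (E.s ^ (-a)) ^ M * rdD (d.xH p.H E.k0) (E.n + 2) ≤ 1 := by
    have hl : 0 < E.L := h.lab
    have t1 : rdD p.H E.kf ≤ (E.ts ⟨0, hl⟩ : RdTst).r * (E.ts ⟨0, hl⟩ : RdTst).f := (hV.ts_ok ⟨0, hl⟩).2
    have t2 : (E.ts ⟨0, hl⟩ : RdTst).r ≤ 2 * d.ψ.r := (h.ok.lab_r ⟨0, hl⟩).2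
    have t3 : (E.ts ⟨0, hl⟩ : RdTst).f ≤ d.f := (h.ok.lab_f ⟨0, hl⟩).2
    have t4 : 0 ≤ (E.ts ⟨0, hl⟩ : RdTst).f := by
      have hf0 : 0 < d.f := lt_of_lt_of_le (hp _) h.ok.f_lo
      have t7 : d.f / 2 ≤ (E.ts ⟨0, hl⟩ : RdTst).f := (h.ok.lab_f ⟨0, hl⟩).1
      linarith
    have t5 : rdD p.H E.kf ≤ 2 * d.ψ.r * d.f := t1.trans (mul_le_mul t2 t3 t4 (by positivity))
    have t6 : rdD (d.xH p.H E.k0) (E.n + 2) ≤ 2 * E.s ^ (g + 2) := by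
      rw [rt_pxa_d d p.H E.k0 E.n hr, div_le_iff₀ hr]
      have : d.f ≤ E.s ^ (g + 2) := h.thin
      have e : rdD p.H (E.k0 + E.n) = rdD p.H E.kf := rfl
      rw [e]
      nlinarith
    rw [hΛM]
    calc E.s ^ (-(a * M)) * rdD (d.xH p.H E.k0) (E.n + 2) ≤ E.s ^ (-(a * M)) * (2 * E.s ^ (g + 2)) := mul_le_mul_of_nonneg_left t6 (hp _).le
      _ = 2 ^ 1 * E.s ^ (-(a * M) + (g + 2)) := by
          rw [Real.rpow_add hs0 (-(a * M)) (g + 2)]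
          ring
      _ ≤ E.s ^ (0 : ℝ) := rt_pxa_pw hs0 hs2 1 (by push_cast; linarith)
      _ = 1 := Real.rpow_zero _
  have hlen : (E.s ^ (-a)) ^ M * rdLen (E.n + 2) ≤ 1 := by
    have e : rdLen (E.n + 2) = E.s ^ (1 : ℝ) * (1 / 4) := by
      rw [Real.rpow_one]
      unfold rdLen Xp.s
      rw [pow_add]
      norm_num
    rw [hΛM, e, ← mul_assoc, ← Real.rpow_add hs0]
    have : E.s ^ (-(a * M) + 1) ≤ 1 := Real.rpow_le_one hs0.le hs1 (by linarith)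
    linarith
  obtain ⟨p1, G, hI⟩ := hK p E d _ _ _ _ hyp hKΛ hunc hlen
  refine ⟨(E.s ^ (-a)) ^ M, K, _, p1, G, E.b0 + 8, E.b0 + 7, one_le_pow₀ hΛ1, ?_, ?_, ?_, Nat.add_le_add_right hG.1 8,
    (Nat.add_le_add_right hG.1 7).trans (Nat.add_le_add_left (by norm_num) C), hI⟩
  · rw [hΛM]
    exact gn_s_anti E (by linarith)
  · exact hKΛ.trans (gn_s_anti E (by linarith))
  · -- the error
    have e1 : (2 : ℝ) ^ (2 * (E.n + 2)) = 2 ^ 4 * E.s ^ (-(2 : ℝ)) := by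
      rw [gn_s_rpow, ← Real.rpow_natCast 2 (2 * (E.n + 2)), ← Real.rpow_natCast 2 4, ← Real.rpow_add (by norm_num)]
      congr 1
      push_cast
      ring
    have e2 : (E.s ^ (-a)) ^ (-(N' : ℝ)) ≤ E.s ^ ((N : ℝ) + 9) := by
      rw [← Real.rpow_mul hs0.le]
      exact gn_s_anti E (by nlinarith)
    have e3 : E.s ^ ((N + 9 : ℕ) : ℝ) = E.s ^ ((N : ℝ) + 9) := by
      congr 1
      push_cast
      ring
    have hv : ‖E.v‖ ^ 2 ≤ E.e := hV.budget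
    have hv0 : 0 ≤ ‖E.v‖ ^ 2 := by positivity
    have he := hV.e_pos
    have b1 : E.s ^ ((N + 9 : ℕ) : ℝ) * E.e + (E.s ^ (-a)) ^ (-(N' : ℝ)) * ‖E.v‖ ^ 2 ≤ 2 * (E.s ^ ((N : ℝ) + 9) * E.e) := by
      rw [e3]
      have := mul_le_mul e2 hv hv0 (hp _).le
      linarith
    have hK0 : 0 ≤ K := by linarith
    have hK' : K ≤ E.s ^ (-(1 : ℝ)) := hKΛ.trans (gn_s_anti E (by linarith))
    rw [e1]
    calc K * (2 ^ 4 * E.s ^ (-(2 : ℝ)) * (E.s ^ ((N + 9 : ℕ) : ℝ) * E.e + (E.s ^ (-a)) ^ (-(N' : ℝ)) * ‖E.v‖ ^ 2))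
        ≤ E.s ^ (-(1 : ℝ)) * (2 ^ 4 * E.s ^ (-(2 : ℝ)) * (2 * (E.s ^ ((N : ℝ) + 9) * E.e))) := by
          refine mul_le_mul hK' (mul_le_mul_of_nonneg_left b1 (by have := hp (-(2 : ℝ)); positivity)) ?_ (hp _).le
          have := hp (-(2 : ℝ))
          have := hp ((N + 9 : ℕ) : ℝ)
          have := hp (-a)
          positivity
      _ = 2 ^ 5 * E.s ^ (-(1 : ℝ) + (-(2 : ℝ) + ((N : ℝ) + 9))) * E.e := by
          rw [Real.rpow_add hs0 (-(1 : ℝ)) (-(2 : ℝ) + ((N : ℝ) + 9)), Real.rpow_add hs0 (-(2 : ℝ)) ((N : ℝ) + 9)]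
          ring
      _ ≤ E.s ^ (N : ℝ) * E.e := mul_le_mul_of_nonneg_right (rt_pxa_pw hs0 hs2 5 (by push_cast; linarith)) he.le

end Claimed.Agent.R256
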