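import Claimed.Agent.R256.Rt.PwxInG

/-!
# Row 256, folder Rt, file PwxInArr : THE INPUT ARROW OF THE ADAPTER, FROM THE THREE TRANSFERS      (helper22; prefix `rt_pxi_`)      NO SORRY HERE

`rt_pxi_arrow` :   SYM backward (depth `0`) ∘ SRC ∘ XO (in)   +   ROOT (`S₀` = image of `d.In`)   +   `RtPxInG`   ⟹   the field `inn` of `RtPwI1`, tolerance `C (P L)^a`, constant `A1`, error `e1 + e2`.
-/

set_option autoImplicit false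

namespace Claimed.Agent.R256

open MeasureTheory
open scoped ENNReal

theorem rt_pxi_iio0 : Set.Iio (2 ^ 0 : ℕ) = {0} := by
  ext j
  simp

/-- **the input arrow** -/
theorem rt_pxi_arrow (hG : RtPxInG) : ∃ (C : ℝ) (a : ℕ), 1 ≤ C ∧ ∀ (p p' p1 : RdWvPar) (d : RtPd) (k0 i0 b0 b1 : ℕ) (P fs L A1 e1 e2 : ℝ)
    (S₀ : Set RdWvPar.Ph) (v v1 G : RtKc), 1 ≤ P → 0 < d.ψ.r → d.nL.disc = 1 → d.nL.Bd P → RtChartOk P d.nL d.p0 → 1 ≤ L →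
    C * (P * L) ^ a * rdD (d.xH p.H k0) 0 ≤ 1 → p1.H = d.xH p.H k0 → 0 ≤ e1 → 0 ≤ e2 →
    (∀ x : RdWvPar.Ph, rtZm (d.xS k0 i0 P) (tmL k0 i0) x ∈ S₀ ↔ rtPwP d k0 (RdWvPar.co 0 x) ∈ d.In P fs) →
    RtXf (rtVm p' 0) (rtVd p' 0 b1 v1) (rtVmP p k0 {i0}) (rtVdP p k0 b0 v)
      (fun z z' => z'.1 = i0 ∧ rtZm (rtChS (tmL k0 i0) (4 * rdLen k0) (d.xr P) (d.xc k0) d.xe) (tmL k0 i0) z'.2 ∈ S₀ ∧
        RtAsR (rtXoB (tmL k0 i0) (4 * rdLen k0) (d.xr P) (d.xc k0) d.xe (d.xb P) (d.xk P)) p.H k0 L (rtTm 0 z.1) z.2 (tmL k0 z'.1) z'.2) Set.univ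
      (ENNReal.ofReal A1) (ENNReal.ofReal e1) →
    RtXf (rtVm p' 0) (rtVd p' 0 b1 v1) (rtVm p' 0) (rtVd p' 0 b1 v1)
      (fun z z' => z' = z ∧ z.1 = 0 ∧ rtZr 0 z ∈ rtXnBx (37 / 1000) (26 / 1000) (13 / 1000)) Set.univ 1 (ENNReal.ofReal e2) →
    RtXf (rtVmP p1 0 (Set.Iio (2 ^ 0))) (rtVdP p1 0 b1 G) (rtVm p' 0) (rtVd p' 0 b1 v1)
      (fun z' z => z'.1 = z.1 ∧ z'.2 = rtPxDil (rtPxR2 P) z.2) Set.univ 1 0 →
    RtXf (rtVmP p1 0 {0}) (rtVdP p1 0 b1 G) (rtVmP p k0 {i0}) (rtVdP p k0 b0 v) (RtPwRin d k0 P fs p1.H (C * (P * L) ^ a)) Set.univ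
      (ENNReal.ofReal A1) (ENNReal.ofReal (e1 + e2)) := by
  obtain ⟨C, a, hC, hg⟩ := hG
  refine ⟨C, a, hC, ?_⟩
  intro p p' p1 d k0 i0 b0 b1 P fs L A1 e1 e2 S₀ v v1 G hP hr hdisc hbd hch hL hsm hH he1 he2 hroot hin hsrc hsym
  rw [rt_pxi_iio0] at hsym
  have h1 := rt_xa_comp hsym (rt_xa_comp hsrc hin (fun _ _ _ _ => Set.mem_univ _)) (fun _ _ _ _ => Set.mem_univ _)
  refine rt_xa_mono h1 ?_ (Set.Subset.refl _) (by simp) ?_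
  · rintro z - z'' ⟨z1, ⟨_, hz2⟩, z2, ⟨rfl, hz0, hbox⟩, hi, hS, has⟩
    have hIn : rtPwP d k0 (RdWvPar.co 0 z''.2) ∈ d.In P fs := (hroot z''.2).1 hS
    have ht : rtTm 0 z2.1 = -(1 / 4) := by
      rw [hz0]
      simp [rtTm, tmL]
    have hbox' : rtRay (-(1 / 4)) z2.2 ∈ rtXnBx (37 / 1000) (26 / 1000) (13 / 1000) := by
      have := hbox
      unfold rtZr at this
      rwa [ht] at this
    rw [ht, hi] at has
    refine ⟨hIn, ?_⟩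
    rw [hz2, hH]
    exact hg d k0 i0 p.H P fs L z2.2 z''.2 p.H_pos hP hr hdisc hbd hch hL hsm hIn hbox' has
  · simp only [one_mul, zero_add]
    rw [add_comm e1 e2, ENNReal.ofReal_add he2 he1]

end Claimed.Agent.R256
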