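import Claimed.Agent.R256.Rt.PwxDefs

/-!
# Row 256, folder Rt, file PwxNum : THE SMALL NUMERICS OF THE ADAPTER `rt_xo_main ⟹ RtPxN`      (helper29 for helper225; prefix `rt_pxn_`)      SORRY-FREE

(1) `rt_pxn_unit` : the normal of a chart is a unit vector.      (2) `rt_pxn_r2_pos`, `rt_pxn_xr_pos`, `rt_pxn_xb`, `rt_pxn_xk` : sizes of the data of XO.
(3) `rt_pxn_H`, `rt_pxn_rdD`, `rt_pxn_sc_H`, `rt_pxn_sc` : the three Planck parameters.      (4) `rt_pxn_anc`, `rt_pxn_iio` : descendants of the root interval.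
(5) `rt_pxn_abs`, `rt_pxn_abs_D`, `rt_pxn_abs_one` : absorption of `4 P` in two powers of the tolerance.
-/

set_option autoImplicit false

namespace Claimed.Agent.R256

/-! ## (1) the unit normal -/

/-- the coefficient map of the flattening chart multiplies the discriminant of `x₁` by `|g|²` -/
theorem rt_pxn_disc (n : RtPoly) (p₀ : RtRow) :
    ((rtChart p₀ n).pol ⟨0, 0, (1, 0), 0, 0⟩).disc = rtSq (n.g 0 p₀.b p₀.A) := by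
  show (RtPoly.cf ⟨0, (0, n.k), 0⟩ (RtPoly.db n.be (RtPoly.rot (n.g 0 p₀.b p₀.A) (RtPoly.cen p₀ ⟨0, 0, (1, 0), 0, 0⟩)))).disc = _
  rw [rt_cf_disc, rt_cf_disc_db]
  simp only [RtPoly.disc, RtPoly.rot, RtPoly.cen, rtRot, RtPoly.g, rtSq, Prod.fst_add, Prod.snd_add,
    Prod.fst_sub, Prod.snd_sub, Prod.smul_fst, Prod.smul_snd, smul_eq_mul]
  ring

/-- **the normal of a chart is a unit vector** -/
theorem rt_pxn_unit {P : ℝ} {n : RtPoly} {p₀ : RtRow} (h : RtChartOk P n p₀) : rtSq (n.g 0 p₀.b p₀.A) = 1 := by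
  rw [← rt_pxn_disc n p₀, h.ex.disc]
  simp [RtPoly.disc, rtSq]

theorem rt_pxn_xe (d : RtPd) {P : ℝ} (h : RtChartOk P d.nL d.p0) : rtSq d.xe = 1 := rt_pxn_unit h

/-! ## (2) the sizes of the data of XO -/

theorem rt_pxn_r2_pos {P : ℝ} (hP : 1 ≤ P) : 0 < rtPxR2 P := by
  unfold rtPxR2
  positivity

theorem rt_pxn_r2_le {P : ℝ} (hP : 1 ≤ P) : rtPxR2 P ≤ 1 / 4 := by
  unfold rtPxR2
  rw [div_le_div_iff₀ (by positivity) (by norm_num)]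
  linarith

theorem rt_pxn_r2_mul {P : ℝ} (hP : 1 ≤ P) : P * rtPxR2 P = 1 / 4 := by
  unfold rtPxR2
  have : P ≠ 0 := by positivity
  field_simp

theorem rt_pxn_xr_pos (d : RtPd) {P : ℝ} (hP : 1 ≤ P) (hr : 0 < d.ψ.r) : 0 < d.xr P :=
  mul_pos (rt_pxn_r2_pos hP) hr

theorem rt_pxn_xb (d : RtPd) {P : ℝ} (hP : 1 ≤ P) (h : d.nL.Bd P) : |d.xb P| ≤ 1 / 4 := by
  have h1 : |d.nL.be| ≤ P := h.2.2.2.1
  have h2 := rt_pxn_r2_pos hP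
  unfold RtPd.xb
  rw [abs_mul, abs_of_pos h2, ← rt_pxn_r2_mul hP]
  exact mul_le_mul_of_nonneg_right h1 h2.le

theorem rt_pxn_xk (d : RtPd) {P : ℝ} (hP : 1 ≤ P) (h : d.nL.Bd P) : |d.xk P| ≤ 1 := by
  have h1 : |d.nL.k| ≤ P := h.2.2.2.2
  have h2 := rt_pxn_r2_pos hP
  have h3 := rt_pxn_r2_mul hP
  unfold RtPd.xk
  rw [abs_mul, abs_mul, abs_of_pos h2, abs_of_pos (by norm_num : (0 : ℝ) < 4)]
  have := mul_le_mul_of_nonneg_right h1 h2.le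
  linarith

/-! ## (3) the three Planck parameters -/

theorem rt_pxn_H (p : RdWvPar) (d : RtPd) (k0 : ℕ) {P : ℝ} (hP : 1 ≤ P) (hr : 0 < d.xr P) :
    (rtXoP p k0 (d.xr P) hr).H = 16 * P ^ 2 * d.xH p.H k0 := by
  have h0 : P ≠ 0 := by positivity
  have h1 : rdLen k0 ≠ 0 := (rdLen_pos k0).ne'
  have h2 : d.ψ.r ≠ 0 := by
    intro h
    simp [RtPd.xr, h] at hr
  simp only [rtXoP, RdWvPar.sc, RtPd.xr, RtPd.xH, rtPxR2]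
  field_simp
  ring

theorem rt_pxn_rdD_mul {P : ℝ} (hP : 0 ≤ P) (x : ℝ) (k : ℕ) : rdD (16 * P ^ 2 * x) k = 4 * P * rdD x k := by
  unfold rdD
  have : 16 * P ^ 2 * x / rdLen k = (4 * P) ^ 2 * (x / rdLen k) := by ring
  rw [this, Real.sqrt_mul (sq_nonneg _), Real.sqrt_sq (by positivity)]

theorem rt_pxn_rdD (p : RdWvPar) (d : RtPd) (k0 k : ℕ) {P : ℝ} (hP : 1 ≤ P) (hr : 0 < d.xr P) :
    rdD (rtXoP p k0 (d.xr P) hr).H k = 4 * P * rdD (d.xH p.H k0) k := by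
  rw [rt_pxn_H p d k0 hP hr, rt_pxn_rdD_mul (by linarith)]

theorem rt_pxn_sc_H (p : RdWvPar) (d : RtPd) (k0 : ℕ) {P : ℝ} (hP : 1 ≤ P) (hr : 0 < d.xr P) (h1 : (0 : ℝ) < 1)
    (h2 : 0 < (rtPxR2 P)⁻¹) : ((rtXoP p k0 (d.xr P) hr).sc 1 (rtPxR2 P)⁻¹ h1 h2).H = d.xH p.H k0 := by
  have h0 : P ≠ 0 := by positivity
  show (rtXoP p k0 (d.xr P) hr).H / (1 * (rtPxR2 P)⁻¹ ^ 2) = _
  rw [rt_pxn_H p d k0 hP hr]
  unfold rtPxR2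
  field_simp
  ring

theorem rt_pxn_xH_pos (p : RdWvPar) (d : RtPd) (k0 : ℕ) (hr : 0 < d.ψ.r) : 0 < d.xH p.H k0 := by
  have := p.H_pos
  have := rdLen_pos k0
  unfold RtPd.xH
  positivity

/-- the flat parameter as a structure -/
theorem rt_pxn_sc (p : RdWvPar) (d : RtPd) (k0 : ℕ) {P : ℝ} (hP : 1 ≤ P) (hψ : 0 < d.ψ.r) (hr : 0 < d.xr P) (h1 : (0 : ℝ) < 1)
    (h2 : 0 < (rtPxR2 P)⁻¹) :
    (rtXoP p k0 (d.xr P) hr).sc 1 (rtPxR2 P)⁻¹ h1 h2 = ⟨d.xH p.H k0, rt_pxn_xH_pos p d k0 hψ⟩ := by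
  have := rt_pxn_sc_H p d k0 hP hr h1 h2
  cases h : (rtXoP p k0 (d.xr P) hr).sc 1 (rtPxR2 P)⁻¹ h1 h2 with
  | mk H hH =>
    rw [h] at this
    simp only at this
    subst this
    rfl

/-! ## (4) the descendants of the root interval -/

theorem rt_pxn_anc_iff (k0 n i0 j : ℕ) : ancI (k0 + n) k0 j = i0 ↔ i0 * 2 ^ n ≤ j ∧ j < (i0 + 1) * 2 ^ n := by
  unfold ancI
  rw [Nat.add_sub_cancel_left]
  have h2 : 0 < 2 ^ n := by positivity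
  constructor
  · rintro rfl
    exact ⟨Nat.div_mul_le_self j _, (Nat.div_lt_iff_lt_mul h2).mp (Nat.lt_succ_self _)⟩
  · rintro ⟨h3, h4⟩
    exact le_antisymm (Nat.lt_succ_iff.mp ((Nat.div_lt_iff_lt_mul h2).mpr h4)) ((Nat.le_div_iff_mul_le h2).mpr h3)

theorem rt_pxn_anc (k0 n i0 : ℕ) : {j | ancI (k0 + n) k0 j = i0} = {j | i0 * 2 ^ n ≤ j ∧ j < (i0 + 1) * 2 ^ n} :=
  Set.ext fun j => rt_pxn_anc_iff k0 n i0 j

theorem rt_pxn_iio : Set.Iio (2 ^ 0 : ℕ) = {0} := by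
  ext j
  simp

/-! ## (5) absorption of `4 P` -/

theorem rt_pxn_abs {Λ P x : ℝ} (M : ℕ) (hΛ : 4 ≤ Λ) (hP : P ≤ Λ) (hx : 0 ≤ x) : Λ ^ M * (4 * P * x) ≤ Λ ^ (M + 2) * x := by
  have h0 : 0 ≤ Λ := by linarith
  have h1 : 4 * P ≤ Λ ^ 2 := by nlinarith
  have h2 : 0 ≤ Λ ^ M := pow_nonneg h0 M
  calc Λ ^ M * (4 * P * x) ≤ Λ ^ M * (Λ ^ 2 * x) := mul_le_mul_of_nonneg_left (mul_le_mul_of_nonneg_right h1 hx) h2
    _ = Λ ^ (M + 2) * x := by ring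

theorem rt_pxn_abs_D (p : RdWvPar) (d : RtPd) (k0 k M : ℕ) {Λ P : ℝ} (hP1 : 1 ≤ P) (hr : 0 < d.xr P) (hΛ : 4 ≤ Λ) (hP : P ≤ Λ) :
    Λ ^ M * rdD (rtXoP p k0 (d.xr P) hr).H k ≤ Λ ^ (M + 2) * rdD (d.xH p.H k0) k := by
  rw [rt_pxn_rdD p d k0 k hP1 hr]
  exact rt_pxn_abs M hΛ hP (Real.sqrt_nonneg _)

theorem rt_pxn_abs_one (p : RdWvPar) (d : RtPd) (k0 k M : ℕ) {Λ P : ℝ} (hP1 : 1 ≤ P) (hr : 0 < d.xr P) (hΛ : 4 ≤ Λ) (hP : P ≤ Λ)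
    (h : Λ ^ (M + 2) * rdD (d.xH p.H k0) k ≤ 1) : Λ ^ M * rdD (rtXoP p k0 (d.xr P) hr).H k ≤ 1 :=
  (rt_pxn_abs_D p d k0 k M hP1 hr hΛ hP).trans h

/-- monotonicity in the exponent of the tolerance -/
theorem rt_pxn_pow_mono {Λ x : ℝ} {M M' : ℕ} (hΛ : 1 ≤ Λ) (hM : M ≤ M') (hx : 0 ≤ x) (h : Λ ^ M' * x ≤ 1) : Λ ^ M * x ≤ 1 :=
  (mul_le_mul_of_nonneg_right (pow_le_pow_right₀ hΛ hM) hx).trans h

end Claimed.Agent.R256
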