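import Claimed.Agent.R256.Rt.XlDefs

/-!
# Row 256, folder Rt, unit XL (the lens arrow), file 4/5 : SCHUR SUMS, GAIN, TIME INDICES, GEOMETRY      (unit architect helper280; prefix `rt_xl_`)      CONTRACT FILE: every `sorry` is a leaf `L-256-RT-XL-S*`

Paper free, no analysis of waves: only `lintegral`s of explicit weights, real algebra, counting.   PROVE IN PLACE, statements verbatim, helpers directly above your theorem, splice only your theorems.      MODEL TO CLONE: `Rt/Ker.lean` (`rt_k_w_int`, `rt_k_inner`, `rt_k_inner'`, `rt_k_sum_x`, `rt_k_sum_x'`, `rt_k_gain`, `rt_k_m_meas`).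
EXITS: `rt_xl_m_meas`, `rt_xl_m_nonneg`, `rt_xl_m_anti`, `rt_xl_sum_x`, `rt_xl_sum_g`, `rt_xl_xe_mp`, `rt_xl_xe_meas`, `rt_xl_gain`, `rt_xl_j`, `rt_xl_count`, `rt_xl_rng`, `rt_xl_zt`, `rt_xl_as`.
-/

set_option autoImplicit false

namespace Claimed.Agent.R256

open MeasureTheory
open scoped ENNReal

/-- LEAF `L-256-RT-XL-S1`.  `∫ (1+|a|)^-4 da < ∞` on `ℝ × ℝ`.
(Pattern of `rt_k_w_int`: `(1 + √(a₁²+a₂²))^4 ≥ (1+|a₁|)² (1+|a₂|)²`·const, i.e. `rtXlWa 4 a ≤ (1+a₁²)⁻¹ (1+a₂²)⁻¹`·const, `integrable_inv_one_add_sq`, `lintegral_prod_mul`; or `integrable_one_add_norm`.)   ~60 l. -/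
theorem rt_xl_wa_int : ∫⁻ a : ℝ × ℝ, ENNReal.ofReal (rtXlWa 4 a) ≠ ∞ := by
  have hfr : Module.finrank ℝ (ℝ × ℝ) = 2 := by simp
  have hint : Integrable (fun w : ℝ × ℝ => (1 + ‖w‖) ^ (-(4 : ℝ))) := by
    apply integrable_one_add_norm
    rw [hfr]
    norm_num
  have hle : ∀ w : ℝ × ℝ, rtXlWa 4 w ≤ (1 + ‖w‖) ^ (-(4 : ℝ)) := by
    intro w
    have h1 : ‖w‖ ≤ Real.sqrt (rtSq w) := by
      have a1 : |w.1| ≤ Real.sqrt (rtSq w) := by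
        apply Real.abs_le_sqrt
        unfold rtSq
        nlinarith [sq_nonneg w.2]
      have a2 : |w.2| ≤ Real.sqrt (rtSq w) := by
        apply Real.abs_le_sqrt
        unfold rtSq
        nlinarith [sq_nonneg w.1]
      rw [Prod.norm_def, Real.norm_eq_abs, Real.norm_eq_abs]
      exact max_le a1 a2
    unfold rtXlWa
    rw [Real.rpow_neg (by positivity), show (4 : ℝ) = ((4 : ℕ) : ℝ) by norm_num, Real.rpow_natCast]
    apply inv_anti₀ (by positivity)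
    exact pow_le_pow_left₀ (by positivity) (by linarith) 4
  have h2 : ∫⁻ w : ℝ × ℝ, ENNReal.ofReal (rtXlWa 4 w) ≤ ∫⁻ w : ℝ × ℝ, ENNReal.ofReal ((1 + ‖w‖) ^ (-(4 : ℝ))) :=
    lintegral_mono fun w => ENNReal.ofReal_le_ofReal (hle w)
  rw [← ofReal_integral_eq_lintegral_ofReal hint (Filter.Eventually.of_forall fun w => by positivity)] at h2
  exact (h2.trans_lt ENNReal.ofReal_lt_top).ne

/-- LEAF `L-256-RT-XL-S1`.   ~10 l. -/
theorem rt_xl_wa_meas (N : ℕ) : Measurable (rtXlWa N) := by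
  unfold rtXlWa rtSq
  fun_prop

/-- LEAF `L-256-RT-XL-S1`.  `0 < rtXlWa N a ≤ 1`.   ~15 l. -/
theorem rt_xl_wa_le (N : ℕ) (a : ℝ × ℝ) : 0 < rtXlWa N a ∧ rtXlWa N a ≤ 1 := by
  unfold rtXlWa
  have hs := Real.sqrt_nonneg (rtSq a)
  refine ⟨by positivity, ?_⟩
  apply inv_le_one_of_one_le₀
  exact one_le_pow₀ (by linarith)

/-- LEAF `L-256-RT-XL-S1`.  (`rt_k_xy_meas`, `rt_k_w_meas`, `rt_xl_wa_meas`.)   ~20 l. -/
theorem rt_xl_m_meas (H : ℝ) (k : ℕ) (u : ℝ) (N : ℕ) : Measurable fun z : RdWvPar.Ph × RdWvPar.Ph => rtXlM H k u N z.1 z.2 := by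
  unfold rtXlM
  refine Measurable.mul (Measurable.const_mul ?_ _) ((rt_k_w_meas N).comp (rt_k_xy_meas H k u))
  exact (rt_xl_wa_meas N).comp (by fun_prop)

/-- LEAF `L-256-RT-XL-S1`.   ~10 l. -/
theorem rt_xl_m_nonneg {H : ℝ} (hH : 0 < H) (k : ℕ) (u : ℝ) (N : ℕ) (xg x : RdWvPar.Ph) : 0 ≤ rtXlM H k u N xg x := by
  unfold rtXlM
  exact mul_nonneg (mul_nonneg (inv_nonneg.2 (by positivity)) (rt_xl_wa_le _ _).1.le) (rt_k_w_nonneg _ _)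

/-- LEAF `L-256-RT-XL-S1`.  the majorant decreases with `N` (both bases are `≥ 1`: `pow_le_pow_right₀`, `inv_anti₀`).   ~30 l. -/
theorem rt_xl_m_anti {H : ℝ} (hH : 0 < H) (k : ℕ) (u : ℝ) {N N' : ℕ} (h : N ≤ N') (xg x : RdWvPar.Ph) : rtXlM H k u N' xg x ≤ rtXlM H k u N xg x := by
  unfold rtXlM
  have h1 : rtXlWa N' ((rdD H k)⁻¹ • (xg.1 - x.1)) ≤ rtXlWa N ((rdD H k)⁻¹ • (xg.1 - x.1)) := by
    unfold rtXlWa
    have hs := Real.sqrt_nonneg (rtSq ((rdD H k)⁻¹ • (xg.1 - x.1)))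
    exact inv_anti₀ (by positivity) (pow_le_pow_right₀ (by linarith) h)
  have h2 : rtKW N' (rtKX H k u xg x, rtKY H u xg x) ≤ rtKW N (rtKX H k u xg x, rtKY H u xg x) := by
    unfold rtKW
    have hs := Real.sqrt_nonneg (rtSq (rtKX H k u xg x))
    have ha := abs_nonneg (rtKY H u xg x)
    exact inv_anti₀ (by positivity) (pow_le_pow_right₀ (by simp only []; linarith) h)
  have h0 : 0 ≤ (rdQ H k ^ 2 * H)⁻¹ := inv_nonneg.2 (by positivity)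
  exact mul_le_mul (mul_le_mul_of_nonneg_left h1 h0) h2 (rt_k_w_nonneg _ _) (mul_nonneg h0 (rt_xl_wa_le _ _).1.le)

theorem rt_xl_wa_swap (N : ℕ) (c : ℝ) (a b : ℝ × ℝ) : rtXlWa N (c • (a - b)) = rtXlWa N (c • (b - a)) := by
  unfold rtXlWa
  rw [rt_k_sq_smul, rt_k_sq_smul, rt_k_sq_comm]

theorem rt_xl_sum_fin {H : ℝ} (hH : 0 < H) (k : ℕ) (t : ℝ × ℝ) :
    ENNReal.ofReal (rdLen k / H) * ∫⁻ A : ℝ × ℝ, ENNReal.ofReal (rtXlWa 4 ((rdD H k)⁻¹ • (A - t))) * ∫⁻ w : (ℝ × ℝ) × ℝ, ENNReal.ofReal (rtKW 4 w)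
      = ENNReal.ofReal ((∫⁻ a : ℝ × ℝ, ENNReal.ofReal (rtXlWa 4 a)).toReal * (∫⁻ w : (ℝ × ℝ) × ℝ, ENNReal.ofReal (rtKW 4 w)).toReal) := by
  obtain ⟨hd, hd2⟩ := rt_k_d_pos hH k
  have hl := rdLen_pos k
  have hm : Measurable fun A : ℝ × ℝ => ENNReal.ofReal (rtXlWa 4 ((rdD H k)⁻¹ • (A - t))) :=
    ((rt_xl_wa_meas 4).comp (f := fun A : ℝ × ℝ => (rdD H k)⁻¹ • (A - t)) (by fun_prop)).ennreal_ofReal
  rw [lintegral_mul_const _ hm, rt_k_cov2 (fun a => ENNReal.ofReal (rtXlWa 4 a)) hd t,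
    ENNReal.ofReal_mul ENNReal.toReal_nonneg, ENNReal.ofReal_toReal rt_xl_wa_int, ENNReal.ofReal_toReal rt_k_w_int,
    ← mul_assoc, ← mul_assoc, ← ENNReal.ofReal_mul (by positivity), hd2]
  have : rdLen k / H * (H / rdLen k) = 1 := by field_simp
  rw [this, ENNReal.ofReal_one, one_mul]

/-- LEAF `L-256-RT-XL-S2`.  **Schur sum over the targets** `x = (A, b, y)`.
PLAN (clone of `rt_k_sum_x`).  `rw k = ofReal (ℓ/H) • volume` (`lintegral_smul_measure`), `volume` on `Ph = (ℝ×ℝ) × ((ℝ×ℝ)×ℝ)` is a product: `lintegral_prod` (measurability `rt_xl_m_meas`).   For fixed `A`: `ofReal (x y z) = ofReal .. * ..`, the factor `rtXlWa 4 (d⁻¹ • (A_g - A))` is constant,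
inner integral `= ∫ rtKW 4` (`rt_k_inner`).   Outer: `∫⁻ A, ofReal (rtXlWa 4 (d⁻¹ • (A_g - A))) = ofReal (d²) ∫ rtXlWa 4` (`rt_k_cov2` after `A_g - A = -(A - A_g)`, `rtXlWa N (-a) = rtXlWa N a`).   `(ℓ/H) d² = 1` (`rt_k_d_pos`).
`C0 = (∫⁻ rtXlWa 4).toReal * (∫⁻ rtKW 4).toReal` (`rt_xl_wa_int`, `rt_k_w_int`).   ~150 l. -/
theorem rt_xl_sum_x : ∃ C0 : ℝ, 0 ≤ C0 ∧ ∀ (p : RdWvPar) (k : ℕ) (u : ℝ) (xg : RdWvPar.Ph),
    ∫⁻ x, ENNReal.ofReal (rtXlM p.H k u 4 xg x) ∂(p.rw k) ≤ ENNReal.ofReal C0 := by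
  refine ⟨(∫⁻ a : ℝ × ℝ, ENNReal.ofReal (rtXlWa 4 a)).toReal * (∫⁻ w : (ℝ × ℝ) × ℝ, ENNReal.ofReal (rtKW 4 w)).toReal, by positivity,
    fun p k u xg => ?_⟩
  have hH := p.H_pos
  have hm : Measurable fun x : RdWvPar.Ph => ENNReal.ofReal (rtXlM p.H k u 4 xg x) :=
    ((rt_xl_m_meas p.H k u 4).comp (f := fun x : RdWvPar.Ph => (xg, x)) (by fun_prop)).ennreal_ofReal
  have hin : ∀ A : ℝ × ℝ, ∫⁻ z : (ℝ × ℝ) × ℝ, ENNReal.ofReal (rtXlM p.H k u 4 xg (A, z))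
      = ENNReal.ofReal (rtXlWa 4 ((rdD p.H k)⁻¹ • (A - xg.1))) * ∫⁻ w : (ℝ × ℝ) × ℝ, ENNReal.ofReal (rtKW 4 w) := by
    intro A
    rw [← rt_k_inner hH k u xg A, ← lintegral_const_mul']
    · refine lintegral_congr fun z => ?_
      rw [← ENNReal.ofReal_mul (rt_xl_wa_le _ _).1.le]
      unfold rtXlM
      rw [rt_xl_wa_swap]
      congr 1
      ring_nf
    · exact ENNReal.ofReal_ne_top
  unfold RdWvPar.rw
  rw [lintegral_smul_measure, Measure.volume_eq_prod, lintegral_prod _ hm.aemeasurable]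
  simp only [hin]
  rw [smul_eq_mul, rt_xl_sum_fin hH]

/-- LEAF `L-256-RT-XL-S2`.  **Schur sum over the image rows** `xg` (clone of `rt_k_sum_x'`; inner integral `rt_k_inner'`).   ~150 l. -/
theorem rt_xl_sum_g : ∃ C0 : ℝ, 0 ≤ C0 ∧ ∀ (p : RdWvPar) (k : ℕ) (u : ℝ) (x : RdWvPar.Ph),
    ∫⁻ xg, ENNReal.ofReal (rtXlM p.H k u 4 xg x) ∂(p.rw k) ≤ ENNReal.ofReal C0 := by
  refine ⟨(∫⁻ a : ℝ × ℝ, ENNReal.ofReal (rtXlWa 4 a)).toReal * (∫⁻ w : (ℝ × ℝ) × ℝ, ENNReal.ofReal (rtKW 4 w)).toReal, by positivity,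
    fun p k u x => ?_⟩
  have hH := p.H_pos
  have hm : Measurable fun xg : RdWvPar.Ph => ENNReal.ofReal (rtXlM p.H k u 4 xg x) :=
    ((rt_xl_m_meas p.H k u 4).comp (f := fun xg : RdWvPar.Ph => (xg, x)) (by fun_prop)).ennreal_ofReal
  have hin : ∀ A : ℝ × ℝ, ∫⁻ z : (ℝ × ℝ) × ℝ, ENNReal.ofReal (rtXlM p.H k u 4 (A, z) x)
      = ENNReal.ofReal (rtXlWa 4 ((rdD p.H k)⁻¹ • (A - x.1))) * ∫⁻ w : (ℝ × ℝ) × ℝ, ENNReal.ofReal (rtKW 4 w) := by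
    intro A
    rw [← rt_k_inner' hH k u x A, ← lintegral_const_mul']
    · refine lintegral_congr fun z => ?_
      rw [← ENNReal.ofReal_mul (rt_xl_wa_le _ _).1.le]
      unfold rtXlM
      congr 1
      ring_nf
    · exact ENNReal.ofReal_ne_top
  unfold RdWvPar.rw
  rw [lintegral_smul_measure, Measure.volume_eq_prod, lintegral_prod _ hm.aemeasurable]
  simp only [hin]
  rw [smul_eq_mul, rt_xl_sum_fin hH]

/-- LEAF `L-256-RT-XL-S3`.   ~15 l. -/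
theorem rt_xl_xe_meas (c T : ℝ) : Measurable (rtXlXe c T) := by
  unfold rtXlXe rtSq
  fun_prop

theorem rt_xl_xe_sh1 (κ : ℝ) : MeasurePreserving (fun x : RdWvPar.Ph => (x.1, x.2.1, x.2.2 + κ * rtSq x.2.1)) volume volume := by
  have h1 : MeasurePreserving (fun z : (ℝ × ℝ) × ℝ => (z.1, z.2 + κ * rtSq z.1)) (volume.prod volume) (volume.prod volume) :=
    (MeasurePreserving.id (volume : Measure (ℝ × ℝ))).skew_product (g := fun b y => y + κ * rtSq b)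
      (by unfold rtSq Function.uncurry; fun_prop)
      (Filter.Eventually.of_forall fun b => (measurePreserving_add_right volume _).map_eq)
  exact (MeasurePreserving.id (volume : Measure (ℝ × ℝ))).prod h1

theorem rt_xl_xe_sh2 (κ : ℝ) : MeasurePreserving (fun x : RdWvPar.Ph => (x.1 + κ • x.2.1, x.2)) volume volume := by
  have h1 : MeasurePreserving (fun w : ((ℝ × ℝ) × ℝ) × (ℝ × ℝ) => (w.1, w.2 + κ • w.1.1)) (volume.prod volume) (volume.prod volume) :=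
    (MeasurePreserving.id (volume : Measure ((ℝ × ℝ) × ℝ))).skew_product (g := fun z A => A + κ • z.1)
      (by unfold Function.uncurry; fun_prop)
      (Filter.Eventually.of_forall fun z => (measurePreserving_add_right volume _).map_eq)
  exact (Measure.measurePreserving_swap.comp h1).comp Measure.measurePreserving_swap

theorem rt_xl_xe_dil {s : ℝ} (hs : s ≠ 0) : MeasurePreserving (fun x : RdWvPar.Ph => (s • x.1, s⁻¹ • x.2.1, x.2.2)) volume volume := by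
  refine ⟨by fun_prop, ?_⟩
  have e0 : (fun x : RdWvPar.Ph => (s • x.1, s⁻¹ • x.2.1, x.2.2))
      = Prod.map (fun A : ℝ × ℝ => s • A) (Prod.map (fun b : ℝ × ℝ => s⁻¹ • b) (id : ℝ → ℝ)) := rfl
  have hfr : Module.finrank ℝ (ℝ × ℝ) = 2 := by simp
  have m1 : Measure.map (fun A : ℝ × ℝ => s • A) volume = ENNReal.ofReal |(s ^ 2)⁻¹| • (volume : Measure (ℝ × ℝ)) := by
    have := Measure.map_addHaar_smul (volume : Measure (ℝ × ℝ)) hs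
    rwa [hfr] at this
  have m2 : Measure.map (fun A : ℝ × ℝ => s⁻¹ • A) volume = ENNReal.ofReal |((s⁻¹) ^ 2)⁻¹| • (volume : Measure (ℝ × ℝ)) := by
    have := Measure.map_addHaar_smul (volume : Measure (ℝ × ℝ)) (inv_ne_zero hs)
    rwa [hfr] at this
  have e1 : (volume : Measure RdWvPar.Ph) = (volume : Measure (ℝ × ℝ)).prod ((volume : Measure (ℝ × ℝ)).prod (volume : Measure ℝ)) := rfl
  rw [e0, e1, ← Measure.map_prod_map _ _ (by fun_prop) (by fun_prop), ← Measure.map_prod_map _ _ (by fun_prop) measurable_id, m1, m2, Measure.map_id,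
    Measure.prod_smul_left, Measure.prod_smul_left, Measure.prod_smul_right, smul_smul, ← ENNReal.ofReal_mul (abs_nonneg _)]
  have : |(s ^ 2)⁻¹| * |((s⁻¹) ^ 2)⁻¹| = 1 := by
    rw [← abs_mul]
    have : (s ^ 2)⁻¹ * ((s⁻¹) ^ 2)⁻¹ = 1 := by field_simp
    rw [this, abs_one]
  rw [this, ENNReal.ofReal_one, one_smul]

/-- LEAF `L-256-RT-XL-S3`.  **the lens acts on rows by a volume preserving map** (Jacobian `(1-cT)² · (1-cT)⁻² · 1`).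
PLAN.  `s = 1 - cT ≠ 0`.   It suffices: `∫⁻ f (Xe x) dx = ∫⁻ f` for measurable `f ≥ 0` (`MeasurePreserving` from `Measure.ext` + `lintegral_indicator`/`Measure.map_apply`), or compose three measure-scaling maps.   Tonelli on `(ℝ×ℝ) × ((ℝ×ℝ) × ℝ)`:
for fixed `(b, y)`: `A ↦ s • A + c • b`: factor `s⁻²` (`rt_k_cov2` with `a = |s|⁻¹`.., or `Measure.lintegral_comp_smul`-type `rt_w1_scale` + `lintegral_add_right_eq_self`); for fixed `b`: `y ↦ y + const` (`lintegral_add_right_eq_self`); then `b ↦ s⁻¹ • b`: factor `s²`.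
(Alternative: `MeasurePreserving.skew_product` twice.)   ~200 l. -/
theorem rt_xl_xe_mp (c T : ℝ) (h : 1 - c * T ≠ 0) : MeasurePreserving (rtXlXe c T) (volume : Measure RdWvPar.Ph) volume := by
  have e : rtXlXe c T = (fun x : RdWvPar.Ph => ((1 - c * T) • x.1, (1 - c * T)⁻¹ • x.2.1, x.2.2))
      ∘ (fun x : RdWvPar.Ph => (x.1 + (c * (1 - c * T)⁻¹) • x.2.1, x.2))
      ∘ (fun x : RdWvPar.Ph => (x.1, x.2.1, x.2.2 + (c * (1 - c * T)⁻¹) * rtSq x.2.1)) := by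
    funext x
    simp only [rtXlXe, Function.comp]
    refine Prod.ext ?_ rfl
    simp only [smul_add, smul_smul]
    congr 2
    field_simp
  rw [e]
  exact ((rt_xl_xe_dil h).comp (rt_xl_xe_sh2 _)).comp (rt_xl_xe_sh1 _)

/-- LEAF `L-256-RT-XL-S4`.  **gain off the correspondence** (clone of `rt_k_gain`; three alternatives instead of two).
PLAN.  `¬ RtNear` gives `rtSq (A_g - A) > (Λ d)²` or `rtSq (b_g - b - uA) > (Λ Q)²` or `|y_g - y - u|A|² - 2A·(b_g - b - uA)| > Λ H` (`unfold RtNear RdWvPar.co RtRow.flow`; `not_and_or`), i.e. `√(rtSq a) > Λ` or `√(rtSq X) > Λ` or `|Y| > Λ` (`rt_k_sq_smul`, `Real.lt_sqrt`).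
In each case one of the two bases `1 + |a|`, `1 + |X| + |Y|` is `≥ Λ`: `base^-(N+4) ≤ Λ^-N base^-4`, the other factor by monotonicity (`rt_xl_m_anti`-type).   `Λ ^ (-(N:ℝ)) = (Λ^N)⁻¹` (`Real.rpow_neg`, `Real.rpow_natCast`).   ~150 l. -/
theorem rt_xl_gain {H : ℝ} (hH : 0 < H) (k : ℕ) (u T T' : ℝ) (N : ℕ) {Λ : ℝ} (h0 : 0 < Λ) (xg x : RdWvPar.Ph)
    (hn : ¬ RtNear Λ (rdD H k) (rdQ H k) H ((RdWvPar.co T x).flow u) (RdWvPar.co T' xg)) :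
    rtXlM H k u (N + 4) xg x ≤ Λ ^ (-(N : ℝ)) * rtXlM H k u 4 xg x := by
  obtain ⟨hQ, -⟩ := rt_k_q_pos hH k
  obtain ⟨hd, -⟩ := rt_k_d_pos hH k
  have hs0 := Real.sqrt_nonneg (rtSq (rtKX H k u xg x))
  have hsa := Real.sqrt_nonneg (rtSq ((rdD H k)⁻¹ • (xg.1 - x.1)))
  have hy0 := abs_nonneg (rtKY H u xg x)
  have hbig : Λ ≤ 1 + Real.sqrt (rtSq ((rdD H k)⁻¹ • (xg.1 - x.1))) ∨ Λ ≤ 1 + Real.sqrt (rtSq (rtKX H k u xg x)) + |rtKY H u xg x| := by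
    by_contra hlt
    push Not at hlt
    obtain ⟨hl1, hl2⟩ := hlt
    apply hn
    have hA : Real.sqrt (rtSq ((rdD H k)⁻¹ • (xg.1 - x.1))) ≤ Λ := by linarith
    have hX : Real.sqrt (rtSq (rtKX H k u xg x)) ≤ Λ := by linarith
    have hY : |rtKY H u xg x| ≤ Λ := by linarith
    refine ⟨?_, ?_, ?_⟩
    · show rtSq (xg.1 - x.1) ≤ (Λ * rdD H k) ^ 2
      have h1 : rtSq ((rdD H k)⁻¹ • (xg.1 - x.1)) ≤ Λ ^ 2 := (Real.sqrt_le_left h0.le).1 hA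
      rw [rt_k_sq_smul, inv_pow, inv_mul_le_iff₀ (by positivity)] at h1
      rw [mul_pow, mul_comm]
      exact h1
    · show rtSq (xg.2.1 - (x.2.1 + u • x.1)) ≤ (Λ * rdQ H k) ^ 2
      have h1 : rtSq (rtKX H k u xg x) ≤ Λ ^ 2 := (Real.sqrt_le_left h0.le).1 hX
      unfold rtKX at h1
      rw [rt_k_sq_smul, inv_pow, inv_mul_le_iff₀ (by positivity)] at h1
      rw [← sub_sub, mul_pow, mul_comm]
      exact h1
    · show |xg.2.2 - (x.2.2 + u * rtSq x.1) - 2 * rtIp x.1 (xg.2.1 - (x.2.1 + u • x.1))| ≤ Λ * H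
      unfold rtKY at hY
      rw [abs_div, abs_of_pos hH, div_le_iff₀ hH] at hY
      rw [← sub_sub, ← sub_sub]
      exact hY
  unfold rtXlM rtXlWa rtKW
  set s : ℝ := 1 + Real.sqrt (rtSq (rtKX H k u xg x)) + |rtKY H u xg x| with hs
  set r : ℝ := 1 + Real.sqrt (rtSq ((rdD H k)⁻¹ • (xg.1 - x.1))) with hr
  have hs1 : 1 ≤ s := by linarith
  have hr1 : 1 ≤ r := by linarith
  rw [Real.rpow_neg h0.le, Real.rpow_natCast]
  show (rdQ H k ^ 2 * H)⁻¹ * (r ^ (N + 4))⁻¹ * (s ^ (N + 4))⁻¹ ≤ (Λ ^ N)⁻¹ * ((rdQ H k ^ 2 * H)⁻¹ * (r ^ 4)⁻¹ * (s ^ 4)⁻¹)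
  have hc : 0 ≤ (rdQ H k ^ 2 * H)⁻¹ := inv_nonneg.2 (by positivity)
  have key : (r ^ N)⁻¹ * (s ^ N)⁻¹ ≤ (Λ ^ N)⁻¹ := by
    have hrN : (r ^ N)⁻¹ ≤ 1 := inv_le_one_of_one_le₀ (one_le_pow₀ hr1)
    have hsN : (s ^ N)⁻¹ ≤ 1 := inv_le_one_of_one_le₀ (one_le_pow₀ hs1)
    have hrN0 : 0 ≤ (r ^ N)⁻¹ := by positivity
    have hsN0 : 0 ≤ (s ^ N)⁻¹ := by positivity
    rcases hbig with hb | hb
    · have : (r ^ N)⁻¹ ≤ (Λ ^ N)⁻¹ := inv_anti₀ (by positivity) (pow_le_pow_left₀ h0.le hb N)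
      calc (r ^ N)⁻¹ * (s ^ N)⁻¹ ≤ (r ^ N)⁻¹ * 1 := mul_le_mul_of_nonneg_left hsN hrN0
        _ ≤ (Λ ^ N)⁻¹ := by rw [mul_one]; exact this
    · have : (s ^ N)⁻¹ ≤ (Λ ^ N)⁻¹ := inv_anti₀ (by positivity) (pow_le_pow_left₀ h0.le hb N)
      calc (r ^ N)⁻¹ * (s ^ N)⁻¹ ≤ 1 * (s ^ N)⁻¹ := mul_le_mul_of_nonneg_right hrN hsN0
        _ ≤ (Λ ^ N)⁻¹ := by rw [one_mul]; exact this
  have e1 : (rdQ H k ^ 2 * H)⁻¹ * (r ^ (N + 4))⁻¹ * (s ^ (N + 4))⁻¹ = ((r ^ N)⁻¹ * (s ^ N)⁻¹) * ((rdQ H k ^ 2 * H)⁻¹ * (r ^ 4)⁻¹ * (s ^ 4)⁻¹) := by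
    rw [pow_add, pow_add, mul_inv, mul_inv]
    ring_nf
  rw [e1]
  exact mul_le_mul_of_nonneg_right key (by positivity)

/-- LEAF `L-256-RT-XL-S5`.  the target time index.
(`s = (te + 1/4) 2^k ∈ [-1, 2^k]`, `rtTm k j = j/2^k - 1/4`, `rdLen k = (2^k)⁻¹`.   `s < 0`: `⌊s⌋₊ = 0`, `|s - 0| ≤ 1`.   `0 ≤ s < 2^k`: `Nat.floor_le`, `Nat.lt_floor_add_one`, `⌊s⌋₊ ≤ 2^k - 1`.   `s = 2^k`: `j = 2^k - 1`.)   ~100 l. -/
theorem rt_xl_j (k : ℕ) (te : ℝ) (h : rtXlRg k te) : rtXlJ k te < 2 ^ k ∧ |te - rtTm k (rtXlJ k te)| ≤ rdLen k := by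
  obtain ⟨h1, h2⟩ := h
  have hP : (0 : ℝ) < 2 ^ k := by positivity
  have hPn : 0 < 2 ^ k := by positivity
  have hlen : rdLen k = ((2 : ℝ) ^ k)⁻¹ := by
    unfold rdLen
    rw [inv_pow]
  obtain ⟨s, hs⟩ : ∃ s : ℝ, s = (te + 1 / 4) * 2 ^ k := ⟨_, rfl⟩
  have hs1 : -1 ≤ s := by
    have h3 : -((2 : ℝ) ^ k)⁻¹ ≤ te + 1 / 4 := by
      rw [hlen] at h1
      linarith
    calc (-1 : ℝ) = -((2 : ℝ) ^ k)⁻¹ * 2 ^ k := by field_simp
      _ ≤ (te + 1 / 4) * 2 ^ k := mul_le_mul_of_nonneg_right h3 hP.le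
      _ = s := hs.symm
  have hs2 : s ≤ 2 ^ k := by
    rw [hs]
    nlinarith
  refine ⟨lt_of_le_of_lt (min_le_right _ _) (by omega), ?_⟩
  have key : |s - (rtXlJ k te : ℝ)| ≤ 1 := by
    unfold rtXlJ
    rw [← hs]
    rcases lt_or_ge s 0 with hneg | hpos
    · rw [Nat.floor_of_nonpos hneg.le, Nat.zero_min, Nat.cast_zero, abs_le]
      constructor <;> linarith
    · have f1 := Nat.floor_le hpos
      have f2 := Nat.lt_floor_add_one s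
      rcases le_total ⌊s⌋₊ (2 ^ k - 1) with hle | hle
      · rw [min_eq_left hle, abs_le]
        constructor <;> linarith
      · rw [min_eq_right hle]
        have e1 : ((2 ^ k - 1 : ℕ) : ℝ) = 2 ^ k - 1 := by
          rw [Nat.cast_sub (by omega)]
          simp
        have e2 : ((2 ^ k - 1 : ℕ) : ℝ) ≤ ⌊s⌋₊ := by exact_mod_cast hle
        rw [abs_le]
        constructor <;> linarith
  have e : te - rtTm k (rtXlJ k te) = (s - rtXlJ k te) * ((2 : ℝ) ^ k)⁻¹ := by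
    unfold rtTm tmL
    rw [hs]
    field_simp
    ring
  rw [e, abs_mul, abs_of_pos (inv_pos.2 hP), hlen]
  calc |s - (rtXlJ k te : ℝ)| * ((2 : ℝ) ^ k)⁻¹ ≤ 1 * ((2 : ℝ) ^ k)⁻¹ := by gcongr
    _ = _ := one_mul _

theorem rt_xl_s5_tm (k j : ℕ) (hj : j < 2 ^ k) : -(1 / 4) ≤ rtTm k j ∧ rtTm k j ≤ 3 / 4 := by
  have hP : (0 : ℝ) < 2 ^ k := by positivity
  have h1 : (j : ℝ) ≤ 2 ^ k := by exact_mod_cast hj.le
  have h2 : (0 : ℝ) ≤ (j : ℝ) / 2 ^ k := by positivity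
  have h3 : (j : ℝ) / 2 ^ k ≤ 1 := by
    rw [div_le_one hP]
    exact h1
  unfold rtTm tmL
  constructor <;> linarith

/-- LEAF `L-256-RT-XL-S5`.  ranges of the lens data.   (`T = j/2^k - 1/4 ∈ [-1/4, 3/4)`, `|cT| ≤ 3/4`; `π² < 10`: `Real.pi_lt_d2`; `rdLen k ≤ 1`.)   ~60 l. -/
theorem rt_xl_rng (k j : ℕ) (hj : j < 2 ^ k) (c : ℝ) (hc : |c| ≤ 1) :
    1 / 4 ≤ 1 - c * rtTm k j ∧ 1 - c * rtTm k j ≤ 7 / 4 ∧ 4 / 7 ≤ rtXlDe c (rtTm k j) ∧ rtXlDe c (rtTm k j) ≤ 4 ∧ |rtXlE0 k c (rtTm k j)| ≤ 40 := by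
  obtain ⟨t1, t2⟩ := rt_xl_s5_tm k j hj
  generalize rtTm k j = T at t1 t2 ⊢
  obtain ⟨c1, c2⟩ := abs_le.1 hc
  have hT : |T| ≤ 3 / 4 := abs_le.2 ⟨by linarith, t2⟩
  have hcT : |c * T| ≤ 3 / 4 := by
    rw [abs_mul]
    calc |c| * |T| ≤ 1 * (3 / 4) := by gcongr
      _ = 3 / 4 := by norm_num
  obtain ⟨u1, u2⟩ := abs_le.1 hcT
  have a1 : 1 / 4 ≤ 1 - c * T := by linarith
  have a2 : 1 - c * T ≤ 7 / 4 := by linarith
  have a0 : 0 < 1 - c * T := by linarith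
  have a3 : 4 / 7 ≤ (1 - c * T)⁻¹ := by
    rw [le_inv_comm₀ (by norm_num) a0]
    norm_num
    linarith
  have a4 : (1 - c * T)⁻¹ ≤ 4 := by
    rw [inv_le_comm₀ a0 (by norm_num)]
    norm_num
    linarith
  refine ⟨a1, a2, a3, a4, ?_⟩
  unfold rtXlE0
  have hl0 : 0 ≤ rdLen k := by unfold rdLen; positivity
  have hl1 : rdLen k ≤ 1 := by
    unfold rdLen
    exact pow_le_one₀ (by norm_num) (by norm_num)
  have hpi : Real.pi ^ 2 ≤ 10 := by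
    have h1 := Real.pi_lt_d2
    have h2 := Real.pi_pos
    nlinarith
  rw [abs_mul, abs_mul, abs_mul, abs_of_nonneg (by positivity : (0 : ℝ) ≤ Real.pi ^ 2), abs_of_nonneg hl0, abs_of_pos (inv_pos.2 a0)]
  calc Real.pi ^ 2 * |c| * rdLen k * (1 - c * T)⁻¹ ≤ 10 * 1 * 1 * 4 := by gcongr
    _ = 40 := by norm_num

theorem rt_xl_s5_pair (k : ℕ) (c : ℝ) (hc : |c| ≤ 1) (j j1 j2 : ℕ) (h1 : j1 < 2 ^ k) (h2 : j2 < 2 ^ k)
    (hr1 : rtXlRg k (rtXlTe c (rtTm k j1))) (hr2 : rtXlRg k (rtXlTe c (rtTm k j2)))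
    (e1 : j = rtXlJ k (rtXlTe c (rtTm k j1))) (e2 : j = rtXlJ k (rtXlTe c (rtTm k j2))) : j2 ≤ j1 + 6 := by
  by_contra hcon
  have h7 : j1 + 7 ≤ j2 := by omega
  have h7' : (j1 : ℝ) + 7 ≤ j2 := by exact_mod_cast h7
  have a1 := (rt_xl_j k _ hr1).2
  have a2 := (rt_xl_j k _ hr2).2
  rw [← e1] at a1
  rw [← e2] at a2
  obtain ⟨p1, -, p3, -, -⟩ := rt_xl_rng k j1 h1 c hc
  obtain ⟨q1, -, q3, -, -⟩ := rt_xl_rng k j2 h2 c hc
  have hP : (0 : ℝ) < 2 ^ k := by positivity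
  have hlen : rdLen k = ((2 : ℝ) ^ k)⁻¹ := by
    unfold rdLen
    rw [inv_pow]
  have hl0 : 0 < rdLen k := by rw [hlen]; positivity
  have hT : 7 * rdLen k ≤ rtTm k j2 - rtTm k j1 := by
    unfold rtTm tmL
    rw [hlen]
    have : (j2 : ℝ) / 2 ^ k - 1 / 4 - ((j1 : ℝ) / 2 ^ k - 1 / 4) = ((j2 : ℝ) - j1) * ((2 : ℝ) ^ k)⁻¹ := by
      field_simp
      ring
    rw [this]
    gcongr
    linarith
  unfold rtXlDe at p3 q3
  unfold rtXlTe at a1 a2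
  generalize rtTm k j1 = T1 at *
  generalize rtTm k j2 = T2 at *
  generalize rtTm k j = T at *
  have e : T2 * (1 - c * T2)⁻¹ - T1 * (1 - c * T1)⁻¹ = (T2 - T1) * ((1 - c * T1)⁻¹ * (1 - c * T2)⁻¹) := by
    have n1 : 1 - c * T1 ≠ 0 := by linarith
    have n2 : 1 - c * T2 ≠ 0 := by linarith
    have e0 : T2 - T1 = T2 * (1 - c * T1) - T1 * (1 - c * T2) := by ring
    rw [e0]
    generalize 1 - c * T1 = s1 at n1 ⊢
    generalize 1 - c * T2 = s2 at n2 ⊢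
    field_simp
  have b1 := (abs_le.1 a1).1
  have b2 := (abs_le.1 a2).2
  have hT0 : 0 ≤ T2 - T1 := by linarith
  have hlow : 7 * rdLen k * (4 / 7 * (4 / 7)) ≤ (T2 - T1) * ((1 - c * T1)⁻¹ * (1 - c * T2)⁻¹) := by
    gcongr
  nlinarith

/-- LEAF `L-256-RT-XL-S5`.  **at most 8 source times have the same target index.**
PLAN.  `te(T₁) - te(T₂) = (T₁ - T₂)/((1-cT₁)(1-cT₂))`, denominators in `[1/4, 7/4]` (`rt_xl_rng`): `|te₁ - te₂| ≥ (16/49)|j₁ - j₂| ℓ`.   Same target index `j` and both in the region: `|te_i - T_j| ≤ ℓ` (`rt_xl_j`), so `|j₁ - j₂| ≤ 49/8 < 7`.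
The filter is contained in `Finset.Icc m (m + 6)`, `m` its minimum (empty: trivial): `Finset.card_le_card`, `Nat.card_Icc`.   ~150 l. -/
theorem rt_xl_count (k : ℕ) (c : ℝ) (hc : |c| ≤ 1) (j : ℕ) :
    open Classical in
    ((Finset.range (2 ^ k)).filter fun j' => rtXlRg k (rtXlTe c (rtTm k j')) ∧ j = rtXlJ k (rtXlTe c (rtTm k j'))).card ≤ 8 := by
  classical
  set F := (Finset.range (2 ^ k)).filter fun j' => rtXlRg k (rtXlTe c (rtTm k j')) ∧ j = rtXlJ k (rtXlTe c (rtTm k j')) with hF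
  rcases F.eq_empty_or_nonempty with h0 | hne
  · rw [h0]
    simp
  · have hm := Finset.min'_mem F hne
    have hsub : F ⊆ Finset.Icc (F.min' hne) (F.min' hne + 6) := by
      intro j' hj'
      rw [Finset.mem_Icc]
      refine ⟨Finset.min'_le F j' hj', ?_⟩
      obtain ⟨m1, m2, m3⟩ := Finset.mem_filter.1 hm
      obtain ⟨n1, n2, n3⟩ := Finset.mem_filter.1 hj'
      exact rt_xl_s5_pair k c hc j _ _ (Finset.mem_range.1 m1) (Finset.mem_range.1 n1) m2 n2 m3 n3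
    refine (Finset.card_le_card hsub).trans ?_
    rw [Nat.card_Icc]
    omega

/-- LEAF `L-256-RT-XL-S6`.  the target time of the chart `LENS_{-c}`.   (`unfold rtZt rtChLn rtChCf RtCh.tm RtCh.dn rtCfD0 rtCfD1 rtXlTe`, `simp [rtIp, rtSq]`, `div_eq_mul_inv`, `ring_nf`.)   ~20 l. -/
theorem rt_xl_zt (c : ℝ) (k : ℕ) (z : RtZ) : rtZt (rtChLn (-c)) k z = rtXlTe c (rtTm k z.1) := by
  unfold rtZt rtChLn rtChCf RtCh.tm RtCh.dn rtCfD0 rtCfD1 rtXlTe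
  simp only [rtIp, rtSq, div_eq_mul_inv]
  congr 1
  · ring
  · congr 1
    ring

/-- LEAF `L-256-RT-XL-S6`.  the image row of the chart `LENS_{-c}` at the target time.
(`rtZr k z = ⟨A, b - T A, y - T|A|²⟩`; `rtCfRow (0,0) (-c) p = ⟨A + c b₀, b₀, y₀ + c|b₀|²⟩`; flow by `te = T/(1-cT)`; `RtRow.ext`, componentwise `field_simp`, `ring`.)   ~80 l. -/
theorem rt_xl_row (c : ℝ) (k : ℕ) (z : RtZ) (h : 1 - c * rtTm k z.1 ≠ 0) :
    ((rtChLn (-c)).row (rtZr k z)).flow (rtZt (rtChLn (-c)) k z) = RdWvPar.co 0 (rtXlXe c (rtTm k z.1) z.2) := by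
  rw [rt_xl_zt]
  obtain ⟨j, ⟨A1, A2⟩, ⟨b1, b2⟩, y⟩ := z
  unfold rtZr
  simp only
  generalize rtTm k j = T at h ⊢
  unfold rtChLn rtChCf rtCfRow rtRay RdWvPar.co RtRow.flow rtXlXe rtXlTe rtCfD0 rtCfD1
  simp only [rtIp, rtSq]
  obtain ⟨u, hu⟩ : ∃ u, u = (1 - c * T)⁻¹ := ⟨_, rfl⟩
  have hu1 : (1 - c * T) * u = 1 := by
    rw [hu]
    exact mul_inv_cancel₀ h
  rw [← hu]
  ext
  · simp
    ring
  · simp
    ring
  · simp
    linear_combination (-(b1 - A1 * T)) * hu1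
  · simp
    linear_combination (-(b2 - A2 * T)) * hu1
  · simp
    linear_combination (T * (A1 ^ 2 + A2 ^ 2) - c * ((b1 - T * A1) ^ 2 + (b2 - T * A2) ^ 2)) * hu1

/-- LINK: the association through `LENS_{-c}` in the coordinates of the unit -/
theorem rt_xl_as (c : ℝ) (k : ℕ) (H Λ : ℝ) (z z' : RtZ) (h : 1 - c * rtTm k z.1 ≠ 0) :
    RtAs (rtChLn (-c)) k H k Λ z z' ↔ |rtXlTe c (rtTm k z.1) - rtTm k z'.1| ≤ Λ * rdLen k ∧
      RtNear Λ (rdD H k) (rdQ H k) H ((RdWvPar.co 0 z'.2).flow (rtXlTe c (rtTm k z.1) - rtTm k z'.1)) (RdWvPar.co 0 (rtXlXe c (rtTm k z.1) z.2)) := by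
  rw [rt_as_iff, rt_xl_row c k z h, rt_xl_zt]

end Claimed.Agent.R256
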