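import Claimed.Agent.R256.Rt.XlKer
import Claimed.Agent.R256.Rt.XlSum

/-!
# Row 256, folder Rt, unit XL (the lens arrow), file 5/5 : VIEWS, DOMINATION, ASSEMBLY      (unit architect helper280; prefix `rt_xl_`)      CONTRACT FILE: every `sorry` is a leaf `L-256-RT-XL-A*`

Paper free.   PROVE IN PLACE, statements verbatim, helpers directly above your theorem, splice only your theorems.
EXIT of this file: **`rt_xl_a_main`** (= `rt_xl_arrow` of `Rt/XlContract.lean`).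
CHAIN.  `rt_xl_rep` (file 2) + `rt_k_syn` + Fubini ⟹ `rt_xl_krep` (kernel representation on integrable `F`) ⟹ with `rt_xl_bound` (file 3), `rt_xa_ext`, `rt_xl_self` (`An^* An w = w` on the plateau) ⟹ `rt_xl_dom` (row level domination, one source time, one target time)
⟹ `rt_xl_v_dom` (view level) ⟹ with the Schur sums `rt_xl_mv_sum1/2`, the gain `rt_xl_mv_gain`, `rt_xa_ker`, `rt_xa_mono` ⟹ `rt_xl_a_main`.
The VIEW TOOLS `rt_xl_v_*` (A4) do not mention the lens: they may be cited by the unit XD.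
-/

set_option autoImplicit false

namespace Claimed.Agent.R256

open MeasureTheory
open scoped ENNReal ComplexConjugate InnerProductSpace

/-- LEAF `L-256-RT-XL-A1`.  **`An^* An w = w` on the plateau.**
PLAN.  `B = p.an T k b`, `‖B‖ ≤ 1` pointwise (`rt_w1_contr`), `‖B w‖ = ‖w‖` (`rt_w1_iso`).   `‖B^*B w - w‖² = ‖B^*Bw‖² - 2 Re⟪B^*Bw, w⟫ + ‖w‖² ≤ ‖w‖² - 2‖Bw‖² + ‖w‖² = 0`
(`norm_sub_sq`, `ContinuousLinearMap.adjoint_inner_left`, `inner_self_eq_norm_sq_to_K`, `rt_k_adj_le`).   ~50 l. -/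
theorem rt_xl_self (p : RdWvPar) (T : ℝ) (k b : ℕ) (w : RtKc) (hw : p.Spec b w) :
    ContinuousLinearMap.adjoint (p.an T k b) (p.an T k b w) = w := by
  have h1 := rt_w1_iso p T k b w hw
  have h2 := rt_k_adj_le p T k b (p.an T k b w)
  have h3 := norm_sub_sq (𝕜 := ℂ) (ContinuousLinearMap.adjoint (p.an T k b) (p.an T k b w)) w
  rw [ContinuousLinearMap.adjoint_inner_left, inner_self_eq_norm_sq (𝕜 := ℂ)] at h3
  have h4 : ‖ContinuousLinearMap.adjoint (p.an T k b) (p.an T k b w)‖ ^ 2 ≤ ‖w‖ ^ 2 := by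
    rw [← h1]
    exact pow_le_pow_left₀ (norm_nonneg _) h2 2
  have h5 : ‖ContinuousLinearMap.adjoint (p.an T k b) (p.an T k b w) - w‖ ^ 2 ≤ 0 := by
    rw [h3, h1]
    linarith
  have h6 : ‖ContinuousLinearMap.adjoint (p.an T k b) (p.an T k b w) - w‖ = 0 := by
    have := le_antisymm h5 (sq_nonneg _)
    exact pow_eq_zero_iff (two_ne_zero) |>.1 this
  exact sub_eq_zero.1 (norm_eq_zero.1 h6)

/-- LEAF `L-256-RT-XL-A2`.  **kernel representation on integrable `F`** (clone of `rt_k_rep`, 50 l. there).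
PLAN.  `rt_xl_rep` with `w := An^* F`; `rt_k_syn`: `An^* F =ᵐ fun q => ∫ x, conj (pk x q) F x d rw`; for EVERY `x'` (`xg := rtXlXe c T' x'`): `integral_congr_ae`, then Fubini `integral_integral_swap` for
`(q, x) ↦ rtXlPk .. xg q * (conj (pk x q) * F x)` on `volume.prod (rw k)`: integrable since `‖·‖ ≤ ‖rtXlPk xg q‖ · C · ‖F x‖` (`rt_xl_pk_int` with `D = rtXlDe c T' > 0`, `rt_k_pk_le`, `Integrable.mul_prod`-type, measurability `rt_xl_pk_meas`, `rt_k_pk_meas`; `rt_k_rw_sf`);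
`integral_const_mul`/`integral_mul_const` to recognise `rtXlK`.   ~150 l. -/
theorem rt_xl_krep (p : RdWvPar) (T : ℝ) (k b : ℕ) (T' : ℝ) (b' : ℕ) (c : ℝ) (h1 : 0 < 1 - c * T') (F : Lp ℂ 2 (p.rw k))
    (hF : Integrable (F : RdWvPar.Ph → ℂ) (p.rw k)) :
    (p.an T' k b' (rtXlOp c (ContinuousLinearMap.adjoint (p.an T k b) F)) : RdWvPar.Ph → ℂ) =ᵐ[p.rw k] fun x' =>
      ∫ x, rtXlK p T k b (rtXlTe c T') b' (rtXlDe c T') (rtXlE0 k c T') (rtXlXe c T' x') x * (F : RdWvPar.Ph → ℂ) x ∂(p.rw k) := by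
  have hsf := rt_k_rw_sf p k
  filter_upwards [rt_xl_rep p T' k b' c h1 (ContinuousLinearMap.adjoint (p.an T k b) F)] with x' hx'
  rw [hx']
  have hD : 0 < rtXlDe c T' := by
    unfold rtXlDe
    exact inv_pos.2 h1
  obtain ⟨Tg, hTg⟩ : ∃ Tg, Tg = rtXlTe c T' := ⟨_, rfl⟩
  obtain ⟨D, hDd⟩ : ∃ D, D = rtXlDe c T' := ⟨_, rfl⟩
  obtain ⟨e0, he0⟩ : ∃ e0, e0 = rtXlE0 k c T' := ⟨_, rfl⟩
  obtain ⟨xg, hxg⟩ : ∃ xg, xg = rtXlXe c T' x' := ⟨_, rfl⟩
  rw [← hTg, ← hDd, ← he0, ← hxg]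
  rw [← hDd] at hD
  have hPi : Integrable (rtXlPk p Tg k b' D e0 xg) volume := (rt_xl_pk_int p Tg k b' hD e0 xg).1
  have hint : Integrable (fun z : RdWvPar.Ph × RdWvPar.Mo => rtXlPk p Tg k b' D e0 xg z.2 * (conj (p.pk T k b z.1 z.2) * (F : RdWvPar.Ph → ℂ) z.1))
      ((p.rw k).prod volume) := by
    have h0 : Integrable (fun z : RdWvPar.Ph × RdWvPar.Mo => (F : RdWvPar.Ph → ℂ) z.1 * rtXlPk p Tg k b' D e0 xg z.2) ((p.rw k).prod volume) :=
      hF.mul_prod hPi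
    have h2 := h0.bdd_mul (c := (2 * Real.pi) ^ (-(3 / 2) : ℝ) * rtW1C) (f := fun z : RdWvPar.Ph × RdWvPar.Mo => conj (p.pk T k b z.1 z.2))
      (Complex.continuous_conj.measurable.comp (rt_k_pk_meas p T k b)).aestronglyMeasurable
      (Filter.Eventually.of_forall fun z => by
        rw [RCLike.norm_conj]
        exact rt_k_pk_le p T k b z.1 z.2)
    refine h2.congr (Filter.Eventually.of_forall fun z => ?_)
    show conj (p.pk T k b z.1 z.2) * ((F : RdWvPar.Ph → ℂ) z.1 * rtXlPk p Tg k b' D e0 xg z.2)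
      = rtXlPk p Tg k b' D e0 xg z.2 * (conj (p.pk T k b z.1 z.2) * (F : RdWvPar.Ph → ℂ) z.1)
    ring
  calc ∫ q, rtXlPk p Tg k b' D e0 xg q * (ContinuousLinearMap.adjoint (p.an T k b) F : RdWvPar.Mo → ℂ) q
      = ∫ q, rtXlPk p Tg k b' D e0 xg q * ∫ x, conj (p.pk T k b x q) * (F : RdWvPar.Ph → ℂ) x ∂(p.rw k) := by
        refine integral_congr_ae ?_
        filter_upwards [rt_k_syn p T k b F hF] with q hq
        rw [hq]
    _ = ∫ q, (∫ x, rtXlPk p Tg k b' D e0 xg q * (conj (p.pk T k b x q) * (F : RdWvPar.Ph → ℂ) x) ∂(p.rw k)) := by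
        refine integral_congr_ae (Filter.Eventually.of_forall fun q => ?_)
        exact (integral_const_mul _ _).symm
    _ = ∫ x, (∫ q, rtXlPk p Tg k b' D e0 xg q * (conj (p.pk T k b x q) * (F : RdWvPar.Ph → ℂ) x)) ∂(p.rw k) :=
        (integral_integral_swap (f := fun x q => rtXlPk p Tg k b' D e0 xg q * (conj (p.pk T k b x q) * (F : RdWvPar.Ph → ℂ) x)) hint).symm
    _ = ∫ x, rtXlK p T k b Tg b' D e0 xg x * (F : RdWvPar.Ph → ℂ) x ∂(p.rw k) := by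
        refine integral_congr_ae (Filter.Eventually.of_forall fun x => ?_)
        show (∫ q, rtXlPk p Tg k b' D e0 xg q * (conj (p.pk T k b x q) * (F : RdWvPar.Ph → ℂ) x))
          = rtXlK p T k b Tg b' D e0 xg x * (F : RdWvPar.Ph → ℂ) x
        unfold rtXlK
        rw [← integral_mul_const]
        simp only [mul_assoc]

/-- LEAF `L-256-RT-XL-A3`.  **row level domination.**
PLAN.  `C` from `rt_xl_bound bm N`.   Operator `𝒞 = (p.an T' k b').comp ((rtXlOp c).comp (adjoint (p.an T k b)))`, kernel `M x' x = ofReal (C * rtXlM ..)`.   Integrable `F`: `rt_xl_krep`, `enorm_integral_le_lintegral_enorm`, `enorm_mul`, `rt_xl_bound` (`‖z‖ₑ ≤ ofReal r` from `‖z‖ ≤ r`).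
`rt_xa_ext 𝒞 M` (needs `SigmaFinite (p.rw k)`: `rt_k_rw_sf`) gives all `F`; `F := p.an T k b w`, `rt_xl_self`.   ~120 l. -/
theorem rt_xl_dom (bm N : ℕ) : ∃ C : ℝ, 0 ≤ C ∧ ∀ (p : RdWvPar) (k b b' : ℕ) (c T T' : ℝ) (w : RtKc), b ≤ bm → b' ≤ bm → 0 < 1 - c * T' →
    4 / 7 ≤ rtXlDe c T' → rtXlDe c T' ≤ 4 → |rtXlE0 k c T'| ≤ 40 → |rtXlTe c T' - T| ≤ rdLen k → p.Spec b w →
    ∀ᵐ x' ∂(p.rw k), ‖(p.an T' k b' (rtXlOp c w) : RdWvPar.Ph → ℂ) x'‖ₑ
      ≤ ∫⁻ x, ENNReal.ofReal (C * rtXlM p.H k (rtXlTe c T' - T) N (rtXlXe c T' x') x) * ‖(p.an T k b w : RdWvPar.Ph → ℂ) x‖ₑ ∂(p.rw k) := by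
  obtain ⟨C, hC, hb⟩ := rt_xl_bound bm N
  refine ⟨C, hC, fun p k b b' c T T' w hb1 hb2 h1 hD1 hD2 hE hT hw => ?_⟩
  have := rt_k_rw_sf p k
  have key := rt_xa_ext ((p.an T' k b').comp ((rtXlOp c).comp (ContinuousLinearMap.adjoint (p.an T k b))))
    (fun x' x => ENNReal.ofReal (C * rtXlM p.H k (rtXlTe c T' - T) N (rtXlXe c T' x') x)) (fun F hF => ?_) (p.an T k b w)
  · have e : ((p.an T' k b').comp ((rtXlOp c).comp (ContinuousLinearMap.adjoint (p.an T k b)))) (p.an T k b w) = p.an T' k b' (rtXlOp c w) := by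
      show p.an T' k b' (rtXlOp c (ContinuousLinearMap.adjoint (p.an T k b) (p.an T k b w))) = _
      rw [rt_xl_self p T k b w hw]
    rw [e] at key
    exact key
  · have hk := rt_xl_krep p T k b T' b' c h1 F hF
    filter_upwards [hk] with x' hx'
    show ‖(p.an T' k b' (rtXlOp c (ContinuousLinearMap.adjoint (p.an T k b) F)) : RdWvPar.Ph → ℂ) x'‖ₑ ≤ _
    rw [hx']
    refine (enorm_integral_le_lintegral_enorm _).trans (lintegral_mono fun x => ?_)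
    rw [enorm_mul]
    refine mul_le_mul' ?_ le_rfl
    have := hb p T k (rtXlTe c T') b b' (rtXlDe c T') (rtXlE0 k c T') hb1 hb2 hD1 hD2 hE hT (rtXlXe c T' x') x
    rw [← ofReal_norm]
    exact ENNReal.ofReal_le_ofReal this

/-! ## view tools (no lens) -/

/-- LEAF `L-256-RT-XL-A4`.  (`rt_k_rw_sf`; `Measure.count` on `ℕ` is σ-finite, `Restrict.sigmaFinite`, `Measure.prod.instSFinite`.)   ~15 l. -/
theorem rt_xl_v_sf (p : RdWvPar) (k : ℕ) : SFinite (rtVm p k) := by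
  have := rt_k_rw_sf p k
  unfold rtVm
  infer_instance

/-- LEAF `L-256-RT-XL-A4`.  (`measurable_from_prod_countable_right`/`_left`: check the name and the side in this Mathlib.)   ~10 l. -/
theorem rt_xl_v_meas_of {β : Type} [MeasurableSpace β] (f : RtZ → β) (h : ∀ j, Measurable fun x => f (j, x)) : Measurable f :=
  measurable_from_prod_countable_right h

/-- LEAF `L-256-RT-XL-A4`.  **integrals over a view are finite sums.**   (`lintegral_prod` (`hf.aemeasurable`), `Set.Iio (2^k) = ↑(Finset.range (2^k))`, `lintegral_finset`/`lintegral_count` + `Measure.restrict`: e.g. `Measure.count.restrict ↑s = ∑ j ∈ s, dirac j` (`Measure.restrict_finset_count`-type) or `lintegral_countable'`, `tsum` with indicator.)   ~60 l. -/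
theorem rt_xl_v_lint (p : RdWvPar) (k : ℕ) (f : RtZ → ℝ≥0∞) (hf : Measurable f) :
    ∫⁻ z, f z ∂(rtVm p k) = ∑ j ∈ Finset.range (2 ^ k), ∫⁻ x, f (j, x) ∂(p.rw k) := by
  have := rt_k_rw_sf p k
  have h1 : Set.Iio (2 ^ k) = ((Finset.range (2 ^ k) : Finset ℕ) : Set ℕ) := by
    ext j
    simp
  unfold rtVm
  rw [lintegral_prod _ hf.aemeasurable, h1, lintegral_finset]
  refine Finset.sum_congr rfl fun j _ => ?_
  rw [Measure.count_singleton, mul_one]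

/-- LEAF `L-256-RT-XL-A4`.  **a.e. on a view = a.e. on each time slice.**   (The bad set is contained in `(⋃_{j<2^k} {j} ×ˢ B_j) ∪ (Ici (2^k) ×ˢ univ)`; `Measure.prod_prod`, `measure_iUnion_null`, `Measure.restrict_apply`.)   ~60 l. -/
theorem rt_xl_v_ae (p : RdWvPar) (k : ℕ) (P : RtZ → Prop) (h : ∀ j < 2 ^ k, ∀ᵐ x ∂(p.rw k), P (j, x)) : ∀ᵐ z ∂(rtVm p k), P z := by
  have := rt_k_rw_sf p k
  rw [ae_iff]
  have hsub : {z : RtZ | ¬ P z} ⊆ (⋃ j : ℕ, ⋃ _ : j < 2 ^ k, ({j} : Set ℕ) ×ˢ {x : RdWvPar.Ph | ¬ P (j, x)}) ∪ (Set.Ici (2 ^ k) : Set ℕ) ×ˢ (Set.univ : Set RdWvPar.Ph) := by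
    rintro ⟨j, x⟩ hz
    by_cases hj : j < 2 ^ k
    · left
      simp only [Set.mem_iUnion]
      exact ⟨j, hj, rfl, hz⟩
    · right
      exact ⟨not_lt.1 hj, trivial⟩
  refine measure_mono_null hsub (measure_union_null ?_ ?_)
  · refine measure_iUnion_null fun j => measure_iUnion_null fun hj => ?_
    unfold rtVm
    rw [Measure.prod_prod, ae_iff.1 (h j hj), mul_zero]
  · unfold rtVm
    rw [Measure.prod_prod, Measure.restrict_apply measurableSet_Ici]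
    have : Set.Ici (2 ^ k) ∩ Set.Iio (2 ^ k) = (∅ : Set ℕ) := by
      ext j
      simp
    rw [this, measure_empty, zero_mul]

/-- LEAF `L-256-RT-XL-A4`.  (`rt_xl_v_meas_of`, `(Lp.stronglyMeasurable _).measurable.enorm`.)   ~10 l. -/
theorem rt_xl_v_amp_meas (p : RdWvPar) (k b : ℕ) (v : RtKc) : Measurable fun z : RtZ => ‖(p.an (rtTm k z.1) k b v : RdWvPar.Ph → ℂ) z.2‖ₑ :=
  rt_xl_v_meas_of _ fun j => (Lp.stronglyMeasurable (p.an (rtTm k j) k b v)).measurable.enorm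

/-- LEAF `L-256-RT-XL-A4`.  **total energy of a view.**   (`rt_xl_v_lint`; each slice: `∫⁻ ‖F‖ₑ² = ofReal (‖F‖²)` (`rt_w1c_lint_sq`, `rt_k_norm_sq`) `≤ ofReal (‖v‖²)` (`rt_w1_contr`); `Finset.sum_le_card_nsmul`, `Finset.card_range`.)   ~50 l. -/
theorem rt_xl_v_tot (p : RdWvPar) (k b : ℕ) (v : RtKc) : ∫⁻ z, rtVd p k b v z ∂(rtVm p k) ≤ ENNReal.ofReal (2 ^ k * ‖v‖ ^ 2) := by
  have hm : Measurable (rtVd p k b v) := (rt_xl_v_amp_meas p k b v).pow_const 2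
  rw [rt_xl_v_lint p k _ hm]
  have h1 : ∀ j ∈ Finset.range (2 ^ k), ∫⁻ x, rtVd p k b v (j, x) ∂(p.rw k) ≤ ENNReal.ofReal (‖v‖ ^ 2) := by
    intro j _
    show ∫⁻ x, ‖(p.an (rtTm k j) k b v : RdWvPar.Ph → ℂ) x‖ₑ ^ 2 ∂(p.rw k) ≤ _
    rw [rt_w1c_lint_sq (Lp.memLp _), ← rt_k_norm_sq]
    exact ENNReal.ofReal_le_ofReal (pow_le_pow_left₀ (norm_nonneg _) (rt_w1_contr p _ k b v) 2)
  refine (Finset.sum_le_card_nsmul _ _ _ h1).trans (le_of_eq ?_)
  rw [Finset.card_range, nsmul_eq_mul, ENNReal.ofReal_mul (by positivity), ENNReal.ofReal_pow (by norm_num)]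
  simp

/-! ## the majorant on the views -/

/-- reduction of the joint measurability on two views to fixed time indices -/
theorem rt_xl_mv_meas_of2 {β : Type} [MeasurableSpace β] (f : RtZ × RtZ → β)
    (h : ∀ j j' : ℕ, Measurable fun xx : RdWvPar.Ph × RdWvPar.Ph => f ((j, xx.1), (j', xx.2))) : Measurable f := by
  have hg : Measurable fun w : (ℕ × ℕ) × (RdWvPar.Ph × RdWvPar.Ph) => f ((w.1.1, w.2.1), (w.1.2, w.2.2)) :=
    measurable_from_prod_countable_right fun jj => h jj.1 jj.2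
  exact hg.comp (f := fun zz : RtZ × RtZ => ((zz.1.1, zz.2.1), (zz.1.2, zz.2.2))) (by fun_prop)

/-- composition in the first variable (generic form: no unfolding) -/
theorem rt_xl_mv_meas_cmp {α β γ δ : Type} [MeasurableSpace α] [MeasurableSpace β] [MeasurableSpace γ] [MeasurableSpace δ]
    (M : α → β → γ) (hM : Measurable fun z : α × β => M z.1 z.2) (X : δ → α) (hX : Measurable X) :
    Measurable fun xx : δ × β => M (X xx.1) xx.2 :=
  hM.comp ((hX.comp measurable_fst).prodMk measurable_snd)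

/-- LEAF `L-256-RT-XL-A5`.  joint measurability of the majorant.
PLAN.  Functions of the time indices are measurable (`Measurable.of_discrete`/`measurable_from_top` on `ℕ`) composed with `measurable_fst`.   Write `rtXlMv` as `Set.indicator` of a measurable set (conditions on `(z.1, z'.1) ∈ ℕ × ℕ` only) of `ofReal (rtXlM ..)`;
`rtXlM H k u N xg x` is measurable JOINTLY in `(u, xg, x)` (`unfold rtXlM rtXlWa rtKW rtKX rtKY rtSq rtIp`; `fun_prop`/`measurability` after unfolding), `rtXlXe c (s z.1) z.2` jointly measurable by arithmetic.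
(Alternative: `rt_xl_v_meas_of`-type reduction to fixed `(j', j)` on `(ℕ × Ph) × (ℕ × Ph)`, then `rt_xl_m_meas`, `rt_xl_xe_meas`.)   ~120 l. -/
theorem rt_xl_mv_meas (H : ℝ) (k : ℕ) (c : ℝ) (N : ℕ) : Measurable (Function.uncurry (rtXlMv H k c N)) := by
  refine rt_xl_mv_meas_of2 _ fun j j' => ?_
  by_cases hc : j < 2 ^ k ∧ rtXlRg k (rtXlTe c (rtTm k j)) ∧ j' = rtXlJ k (rtXlTe c (rtTm k j))
  · have e : (fun xx : RdWvPar.Ph × RdWvPar.Ph => Function.uncurry (rtXlMv H k c N) ((j, xx.1), (j', xx.2)))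
        = fun xx => ENNReal.ofReal (rtXlM H k (rtXlTe c (rtTm k j) - rtTm k j') N (rtXlXe c (rtTm k j) xx.1) xx.2) := by
      funext xx
      show rtXlMv H k c N (j, xx.1) (j', xx.2) = _
      unfold rtXlMv
      exact if_pos hc
    rw [e]
    exact (rt_xl_mv_meas_cmp _ (rt_xl_m_meas H k (rtXlTe c (rtTm k j) - rtTm k j') N) _ (rt_xl_xe_meas c (rtTm k j))).ennreal_ofReal
  · have e : (fun xx : RdWvPar.Ph × RdWvPar.Ph => Function.uncurry (rtXlMv H k c N) ((j, xx.1), (j', xx.2))) = fun _ => 0 := by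
      funext xx
      show rtXlMv H k c N (j, xx.1) (j', xx.2) = _
      unfold rtXlMv
      exact if_neg hc
    rw [e]
    exact measurable_const

/-- LEAF `L-256-RT-XL-A5`.  measurability of the correspondence (same technique; `unfold rtXlNr RtNear RdWvPar.co RtRow.flow`, `measurableSet_le`).   ~80 l. -/
theorem rt_xl_nr_meas (H : ℝ) (k : ℕ) (c Λ : ℝ) : MeasurableSet {zz : RtZ × RtZ | rtXlNr H k c Λ zz.1 zz.2} := by
  refine measurableSet_setOfPred.2 (rt_xl_mv_meas_of2 (fun zz : RtZ × RtZ => rtXlNr H k c Λ zz.1 zz.2) fun j j' => ?_)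
  refine measurableSet_setOfPred.1 ?_
  have hxe : Measurable (rtXlXe c (rtTm k j)) := rt_xl_xe_meas c (rtTm k j)
  obtain ⟨u, hu⟩ : ∃ u, u = rtXlTe c (rtTm k j) - rtTm k j' := ⟨_, rfl⟩
  obtain ⟨X, hX⟩ : ∃ X : RdWvPar.Ph → RdWvPar.Ph, X = rtXlXe c (rtTm k j) := ⟨_, rfl⟩
  have e : {xx : RdWvPar.Ph × RdWvPar.Ph | rtXlNr H k c Λ (j, xx.1) (j', xx.2)}
      = {xx | rtSq ((X xx.1).1 - xx.2.1) ≤ (Λ * rdD H k) ^ 2}
        ∩ ({xx | rtSq ((X xx.1).2.1 - (xx.2.2.1 + u • xx.2.1)) ≤ (Λ * rdQ H k) ^ 2}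
        ∩ {xx | |(X xx.1).2.2 - (xx.2.2.2 + u * rtSq xx.2.1)
            - 2 * rtIp xx.2.1 ((X xx.1).2.1 - (xx.2.2.1 + u • xx.2.1))| ≤ Λ * H}) := by
    rw [hu, hX]
    rfl
  rw [e]
  rw [← hX] at hxe
  unfold rtSq rtIp
  refine MeasurableSet.inter ?_ (MeasurableSet.inter ?_ ?_)
  · exact measurableSet_le (by fun_prop) measurable_const
  · exact measurableSet_le (by fun_prop) measurable_const
  · exact measurableSet_le (by fun_prop) measurable_const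

/-- LEAF `L-256-RT-XL-A6`.  on the carrier of the majorant the correspondence IS the association.
(`rtXlMv ≠ 0` gives `z.1 < 2^k`, the region and `z'.1 = rtXlJ ..` (`unfold rtXlMv`, `split_ifs`); `rt_xl_rng`: `1 - cT ≥ 1/4`; `rt_xl_as`; the time condition holds: `rt_xl_j`, `ℓ ≤ Λ ℓ`.)   ~40 l. -/
theorem rt_xl_mv_as (H : ℝ) (k : ℕ) (c Λ : ℝ) (N : ℕ) (hc : |c| ≤ 1) (hΛ : 1 ≤ Λ) (z z' : RtZ) (h : rtXlMv H k c N z z' ≠ 0) :
    RtAs (rtChLn (-c)) k H k Λ z z' ↔ rtXlNr H k c Λ z z' := by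
  have hc' : z.1 < 2 ^ k ∧ rtXlRg k (rtXlTe c (rtTm k z.1)) ∧ z'.1 = rtXlJ k (rtXlTe c (rtTm k z.1)) := by
    by_contra hn
    apply h
    unfold rtXlMv
    rw [if_neg hn]
  have hr := rt_xl_rng k z.1 hc'.1 c hc
  have hne : 1 - c * rtTm k z.1 ≠ 0 := by linarith [hr.1]
  rw [rt_xl_as c k H Λ z z' hne]
  unfold rtXlNr
  refine ⟨fun h => h.2, fun h => ⟨?_, h⟩⟩
  have hj := (rt_xl_j k _ hc'.2.1).2
  rw [hc'.2.2]
  refine hj.trans ?_
  exact le_mul_of_one_le_left (rdLen_pos k).le hΛ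

/-- LEAF `L-256-RT-XL-A6`.  (`rt_xl_m_anti`, `ENNReal.ofReal_le_ofReal`.)   ~15 l. -/
theorem rt_xl_mv_anti {H : ℝ} (hH : 0 < H) (k : ℕ) (c : ℝ) (N : ℕ) (z z' : RtZ) : rtXlMv H k c (N + 4) z z' ≤ rtXlMv H k c 4 z z' := by
  unfold rtXlMv
  split_ifs with h
  · exact ENNReal.ofReal_le_ofReal (rt_xl_m_anti hH k _ (by omega) _ _)
  · exact le_rfl

/-- LEAF `L-256-RT-XL-A6`.  **gain off the correspondence** (`rt_xl_gain`, `ENNReal.ofReal_mul`).   ~30 l. -/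
theorem rt_xl_mv_gain {H : ℝ} (hH : 0 < H) (k : ℕ) (c Λ : ℝ) (N : ℕ) (hΛ : 1 ≤ Λ) (z z' : RtZ) (h : ¬ rtXlNr H k c Λ z z') :
    rtXlMv H k c (N + 4) z z' ≤ ENNReal.ofReal (Λ ^ (-(N : ℝ))) * rtXlMv H k c 4 z z' := by
  unfold rtXlNr at h
  unfold rtXlMv
  split_ifs with h'
  · rw [← ENNReal.ofReal_mul (Real.rpow_nonneg (by linarith) _)]
    exact ENNReal.ofReal_le_ofReal (rt_xl_gain hH k _ 0 0 N (by linarith) _ _ h)
  · simp

/-- helper of `rt_xl_mv_sum1`: measurability in the target point -/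
theorem rt_xl_mv_sum1_meas (H : ℝ) (k : ℕ) (c : ℝ) (N : ℕ) (z : RtZ) : Measurable fun z' : RtZ => rtXlMv H k c N z z' := by
  have h1 := rt_xl_mv_meas H k c N
  have h2 : Measurable fun z' : RtZ => ((z, z') : RtZ × RtZ) := measurable_prodMk_left
  exact h1.comp h2

/-- helper of `rt_xl_mv_sum1`: the majorant is bounded by its formula -/
theorem rt_xl_mv_sum1_le (H : ℝ) (k : ℕ) (c : ℝ) (N : ℕ) (z z' : RtZ) :
    rtXlMv H k c N z z' ≤ ENNReal.ofReal (rtXlM H k (rtXlTe c (rtTm k z.1) - rtTm k z'.1) N (rtXlXe c (rtTm k z.1) z.2) z'.2) := by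
  unfold rtXlMv
  split_ifs
  · exact le_rfl
  · exact zero_le

/-- helper of `rt_xl_mv_sum1`: the majorant vanishes off its carrier -/
theorem rt_xl_mv_sum1_zero (H : ℝ) (k : ℕ) (c : ℝ) (N : ℕ) (z z' : RtZ)
    (h : ¬ (rtXlRg k (rtXlTe c (rtTm k z.1)) ∧ z'.1 = rtXlJ k (rtXlTe c (rtTm k z.1)))) : rtXlMv H k c N z z' = 0 := by
  unfold rtXlMv
  rw [if_neg fun h' => h h'.2]

/-- LEAF `L-256-RT-XL-A7`.  **Schur sum over the target view.**
(`rt_xl_v_lint` (measurability: `rt_xl_mv_meas` composed with `measurable_prodMk_left`); at most the term `j = rtXlJ ..` survives (`Finset.sum_eq_single`-type or `Finset.sum_le_..`: all other terms are `∫⁻ 0`); `rt_xl_sum_x`.)   ~80 l. -/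
theorem rt_xl_mv_sum1 : ∃ C0 : ℝ, 0 ≤ C0 ∧ ∀ (p : RdWvPar) (k : ℕ) (c : ℝ) (z : RtZ), ∫⁻ z', rtXlMv p.H k c 4 z z' ∂(rtVm p k) ≤ ENNReal.ofReal C0 := by
  obtain ⟨C0, h0, hC⟩ := rt_xl_sum_x
  refine ⟨C0, h0, fun p k c z => ?_⟩
  rw [rt_xl_v_lint p k _ (rt_xl_mv_sum1_meas p.H k c 4 z)]
  have h1 : ∀ j ∈ Finset.range (2 ^ k), ∫⁻ x, rtXlMv p.H k c 4 z (j, x) ∂(p.rw k)
      ≤ if j = rtXlJ k (rtXlTe c (rtTm k z.1)) then ENNReal.ofReal C0 else 0 := by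
    intro j _
    split_ifs with hj
    · calc ∫⁻ x, rtXlMv p.H k c 4 z (j, x) ∂(p.rw k)
          ≤ ∫⁻ x, ENNReal.ofReal (rtXlM p.H k (rtXlTe c (rtTm k z.1) - rtTm k j) 4 (rtXlXe c (rtTm k z.1) z.2) x) ∂(p.rw k) :=
            lintegral_mono fun x => rt_xl_mv_sum1_le p.H k c 4 z (j, x)
        _ ≤ ENNReal.ofReal C0 := hC p k (rtXlTe c (rtTm k z.1) - rtTm k j) (rtXlXe c (rtTm k z.1) z.2)
    · have h2 : ∀ x, rtXlMv p.H k c 4 z (j, x) = 0 := fun x => rt_xl_mv_sum1_zero p.H k c 4 z (j, x) fun h => hj h.2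
      simp only [h2, lintegral_zero, le_refl]
  refine (Finset.sum_le_sum h1).trans ?_
  rw [Finset.sum_ite_eq']
  split_ifs
  · exact le_rfl
  · exact zero_le

/-- helper of `rt_xl_mv_sum2`: measurability in the source point -/
theorem rt_xl_mv_sum2_meas (H : ℝ) (k : ℕ) (c : ℝ) (N : ℕ) (z' : RtZ) : Measurable fun z : RtZ => rtXlMv H k c N z z' := by
  have h1 := rt_xl_mv_meas H k c N
  have h2 : Measurable fun z : RtZ => ((z, z') : RtZ × RtZ) := measurable_prodMk_right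
  exact h1.comp h2

/-- helper of `rt_xl_mv_sum2`: change of variables by the lens row map -/
theorem rt_xl_mv_sum2_cov (p : RdWvPar) (k : ℕ) (c T u : ℝ) (h : 1 - c * T ≠ 0) (x : RdWvPar.Ph) :
    ∫⁻ x', ENNReal.ofReal (rtXlM p.H k u 4 (rtXlXe c T x') x) ∂(p.rw k) = ∫⁻ xg, ENNReal.ofReal (rtXlM p.H k u 4 xg x) ∂(p.rw k) := by
  have hm : Measurable fun xg : RdWvPar.Ph => ENNReal.ofReal (rtXlM p.H k u 4 xg x) :=
    ((rt_xl_m_meas p.H k u 4).comp (f := fun xg : RdWvPar.Ph => (xg, x)) (by fun_prop)).ennreal_ofReal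
  unfold RdWvPar.rw
  rw [lintegral_smul_measure, lintegral_smul_measure, (rt_xl_xe_mp c T h).lintegral_comp hm]

/-- LEAF `L-256-RT-XL-A7`.  **Schur sum over the source view.**
PLAN.  `rt_xl_v_lint`: `∑_{j' < 2^k} ∫⁻ x', rtXlMv (j', x') z' d rw`.   Terms outside the filter of `rt_xl_count` vanish; for `j'` in the filter: `∫⁻ x', ofReal (rtXlM .. (rtXlXe c T' x') x) d rw = ∫⁻ xg, ofReal (rtXlM .. xg x) d rw`
(`rt_xl_xe_mp` (`rt_xl_rng`), `MeasurePreserving.lintegral_comp` with `rt_xl_m_meas`; `rw k = const • volume`: `lintegral_smul_measure`) `≤ ofReal C0` (`rt_xl_sum_g`).   `Finset.sum_filter`, `Finset.sum_le_card_nsmul`, `rt_xl_count`: total `≤ 8 C0`.   ~150 l. -/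
theorem rt_xl_mv_sum2 : ∃ C0 : ℝ, 0 ≤ C0 ∧ ∀ (p : RdWvPar) (k : ℕ) (c : ℝ), |c| ≤ 1 → ∀ z' : RtZ, ∫⁻ z, rtXlMv p.H k c 4 z z' ∂(rtVm p k) ≤ ENNReal.ofReal C0 := by
  classical
  obtain ⟨C0, h0, hC⟩ := rt_xl_sum_g
  refine ⟨8 * C0, by positivity, fun p k c hc z' => ?_⟩
  rw [rt_xl_v_lint p k _ (rt_xl_mv_sum2_meas p.H k c 4 z')]
  have h1 : ∀ j ∈ Finset.range (2 ^ k), ∫⁻ x, rtXlMv p.H k c 4 (j, x) z' ∂(p.rw k)
      ≤ if rtXlRg k (rtXlTe c (rtTm k j)) ∧ z'.1 = rtXlJ k (rtXlTe c (rtTm k j)) then ENNReal.ofReal C0 else 0 := by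
    intro j hj
    split_ifs with hh
    · have h3 : 1 - c * rtTm k j ≠ 0 := by
        have := (rt_xl_rng k j (Finset.mem_range.1 hj) c hc).1
        intro h4
        rw [h4] at this
        norm_num at this
      calc ∫⁻ x, rtXlMv p.H k c 4 (j, x) z' ∂(p.rw k)
          ≤ ∫⁻ x, ENNReal.ofReal (rtXlM p.H k (rtXlTe c (rtTm k j) - rtTm k z'.1) 4 (rtXlXe c (rtTm k j) x) z'.2) ∂(p.rw k) :=
            lintegral_mono fun x => rt_xl_mv_sum1_le p.H k c 4 (j, x) z'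
        _ = ∫⁻ xg, ENNReal.ofReal (rtXlM p.H k (rtXlTe c (rtTm k j) - rtTm k z'.1) 4 xg z'.2) ∂(p.rw k) :=
            rt_xl_mv_sum2_cov p k c (rtTm k j) (rtXlTe c (rtTm k j) - rtTm k z'.1) h3 z'.2
        _ ≤ ENNReal.ofReal C0 := hC p k (rtXlTe c (rtTm k j) - rtTm k z'.1) z'.2
    · have h2 : ∀ x, rtXlMv p.H k c 4 (j, x) z' = 0 := fun x => rt_xl_mv_sum1_zero p.H k c 4 (j, x) z' hh
      simp only [h2, lintegral_zero, le_refl]
  refine (Finset.sum_le_sum h1).trans ?_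
  rw [← Finset.sum_filter, Finset.sum_const, nsmul_eq_mul, ENNReal.ofReal_mul (by norm_num)]
  have h5 := rt_xl_count k c hc z'.1
  refine mul_le_mul' ?_ le_rfl
  have h6 : ((8 : ℕ) : ℝ≥0∞) = ENNReal.ofReal 8 := by
    rw [← ENNReal.ofReal_natCast]
    norm_num
  rw [← h6]
  refine Nat.cast_le.2 ?_
  convert h5

/-- LEAF `L-256-RT-XL-A8`.  **view level domination.**
PLAN.  `C` from `rt_xl_dom bm N`.   `rt_xl_v_ae`: fix `j' < 2^k`, `T' = rtTm k j'`, `te = rtXlTe c T'`.   If `¬ rtXlRg k te`: nothing to prove.   Otherwise `j = rtXlJ k te < 2^k`, `|te - rtTm k j| ≤ ℓ` (`rt_xl_j`), ranges `rt_xl_rng`: `rt_xl_dom` with `T = rtTm k j`.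
RHS: `rt_xl_v_lint` (measurable: `rt_xl_mv_meas`, `rt_xl_v_amp_meas`), keep only the term `j` (`Finset.single_le_sum`), where `rtXlMv = ofReal (rtXlM ..)` (`if_pos`), `ENNReal.ofReal_mul`.   ~120 l. -/
theorem rt_xl_v_dom (bm N : ℕ) : ∃ C : ℝ, 0 ≤ C ∧ ∀ (p : RdWvPar) (k b b' : ℕ) (c : ℝ) (w : RtKc), b ≤ bm → b' ≤ bm → |c| ≤ 1 → p.Spec b w →
    ∀ᵐ z ∂(rtVm p k), rtXlRg k (rtXlTe c (rtTm k z.1)) → ‖(p.an (rtTm k z.1) k b' (rtXlOp c w) : RdWvPar.Ph → ℂ) z.2‖ₑ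
      ≤ ∫⁻ z', ENNReal.ofReal C * rtXlMv p.H k c N z z' * ‖(p.an (rtTm k z'.1) k b w : RdWvPar.Ph → ℂ) z'.2‖ₑ ∂(rtVm p k) := by
  obtain ⟨C, hC, hd⟩ := rt_xl_dom bm N
  refine ⟨C, hC, fun p k b b' c w hb1 hb2 hc hw => ?_⟩
  refine rt_xl_v_ae p k _ (fun j' hj' => ?_)
  by_cases hR : rtXlRg k (rtXlTe c (rtTm k j'))
  · obtain ⟨hj, hjt⟩ := rt_xl_j k _ hR
    obtain ⟨r1, r2, r3, r4, r5⟩ := rt_xl_rng k j' hj' c hc
    have h := hd p k b b' c (rtTm k (rtXlJ k (rtXlTe c (rtTm k j')))) (rtTm k j') w hb1 hb2 (by linarith) r3 r4 r5 hjt hw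
    filter_upwards [h] with x hx _
    refine hx.trans ?_
    have hmeas : Measurable fun z' : RtZ => ENNReal.ofReal C * rtXlMv p.H k c N (j', x) z' * ‖(p.an (rtTm k z'.1) k b w : RdWvPar.Ph → ℂ) z'.2‖ₑ :=
      (measurable_const.mul ((rt_xl_mv_meas p.H k c N).comp measurable_prodMk_left)).mul (rt_xl_v_amp_meas p k b w)
    rw [rt_xl_v_lint p k _ hmeas]
    refine le_trans ?_ (Finset.single_le_sum
      (f := fun j => ∫⁻ x', ENNReal.ofReal C * rtXlMv p.H k c N (j', x) (j, x') * ‖(p.an (rtTm k j) k b w : RdWvPar.Ph → ℂ) x'‖ₑ ∂(p.rw k))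
      (fun _ _ => zero_le) (Finset.mem_range.2 hj))
    refine lintegral_mono fun x' => ?_
    unfold rtXlMv
    rw [if_pos ⟨hj', hR, rfl⟩, ENNReal.ofReal_mul hC]
  · exact Filter.Eventually.of_forall fun x h => absurd h hR

/-- LEAF `L-256-RT-XL-A9`.  EXIT of the file: **the lens arrow** (assembly).
PLAN.  `C₁` from `rt_xl_v_dom bm (N + 4)`, `S`, `S'` from `rt_xl_mv_sum1/2`.   `U z = ‖An(T_z) (T_c w) z.2‖ₑ`, `W z' = ‖An(T_z') w z'.2‖ₑ` (`rtVd = U²`, `W²` by `rfl`),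
`Mn z z' = if rtXlNr p.H k c Λ z z' then ofReal C₁ * rtXlMv p.H k c (N+4) z z' else 0`, `Mf` = the complementary part (`Mn + Mf = ofReal C₁ * rtXlMv`); measurable: `Measurable.ite (rt_xl_nr_meas ..)`, `rt_xl_mv_meas`.
`rt_xa_ker` (`haveI := rt_xl_v_sf p k`) with `S₁ = ofReal (C₁ S)`, `S₂ = ofReal (C₁ S' + 1)` (`≠ 0, ⊤`), `τ₁ = ofReal (C₁ Λ^-N S)`, `τ₂ = ofReal (C₁ Λ^-N S')` (`rt_xl_mv_anti`, `rt_xl_mv_gain`, `lintegral_const_mul`, `lintegral_mono`); `Z0` = the region (`rt_xl_zt`).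
`rt_xa_mono`: relation by `rt_xl_mv_as`; `A = 2 S₁ S₂ ≤ ofReal C`; `ε = 2 τ₁ τ₂ ∫ W² ≤ ofReal (2 C₁² S S' Λ^-2N 2^k ‖w‖²)` (`rt_xl_v_tot`), `Λ^-2N ≤ Λ^-N` (`Λ ≥ 1`).   `C = max 1 (..)`.   ~250 l. -/
theorem rt_xl_a_main (bm N : ℕ) : ∃ C : ℝ, 1 ≤ C ∧ ∀ (p : RdWvPar) (k b b' : ℕ) (c Λ : ℝ) (w : RtKc), b ≤ bm → b' ≤ bm → |c| ≤ 1 → 1 ≤ Λ → p.Spec b w →
    RtXf (rtVm p k) (rtVd p k b' (rtXlOp c w)) (rtVm p k) (rtVd p k b w) (RtAs (rtChLn (-c)) k p.H k Λ)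
      {z | -(1 / 4) - rdLen k ≤ rtZt (rtChLn (-c)) k z ∧ rtZt (rtChLn (-c)) k z ≤ 3 / 4}
      (ENNReal.ofReal C) (ENNReal.ofReal (C * Λ ^ (-(N : ℝ)) * 2 ^ k * ‖w‖ ^ 2)) := by
  obtain ⟨C₁, hC₁, hdom⟩ := rt_xl_v_dom bm (N + 4)
  obtain ⟨S, hS, hs1⟩ := rt_xl_mv_sum1
  obtain ⟨S', hS', hs2⟩ := rt_xl_mv_sum2
  refine ⟨1 + 2 * (C₁ * S) * (C₁ * S' + 1) + 2 * (C₁ * S) * (C₁ * S'), ?_, ?_⟩
  · have h0 : 0 ≤ 2 * (C₁ * S) * (C₁ * S' + 1) + 2 * (C₁ * S) * (C₁ * S') := by positivity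
    linarith
  intro p k b b' c Λ w hb hb' hc hΛ hw
  have := rt_xl_v_sf p k
  have hΛ0 : 0 < Λ := by linarith
  set L : ℝ := Λ ^ (-(N : ℝ)) with hL
  have hL0 : 0 ≤ L := (Real.rpow_pos_of_pos hΛ0 _).le
  have hL1 : L ≤ 1 := Real.rpow_le_one_of_one_le_of_nonpos hΛ (by simp)
  set NR : Set (RtZ × RtZ) := {zz : RtZ × RtZ | rtXlNr p.H k c Λ zz.1 zz.2} with hNR
  have hNRm : MeasurableSet NR := rt_xl_nr_meas p.H k c Λ
  set G : RtZ × RtZ → ℝ≥0∞ := fun zz => ENNReal.ofReal C₁ * rtXlMv p.H k c (N + 4) zz.1 zz.2 with hG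
  have hGm : Measurable G := measurable_const.mul (rt_xl_mv_meas p.H k c (N + 4))
  set Mn : RtZ → RtZ → ℝ≥0∞ := fun z z' => NR.indicator G (z, z') with hMn
  set Mf : RtZ → RtZ → ℝ≥0∞ := fun z z' => NRᶜ.indicator G (z, z') with hMf
  have hMnm : Measurable (Function.uncurry Mn) := hGm.indicator hNRm
  have hMfm : Measurable (Function.uncurry Mf) := hGm.indicator hNRm.compl
  have hsum : ∀ z z', Mn z z' + Mf z z' = ENNReal.ofReal C₁ * rtXlMv p.H k c (N + 4) z z' := fun z z' =>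
    Set.indicator_self_add_compl_apply NR G (z, z')
  have hn_le : ∀ z z', Mn z z' ≤ ENNReal.ofReal C₁ * rtXlMv p.H k c 4 z z' := fun z z' =>
    (Set.indicator_le_self NR G (z, z')).trans (mul_le_mul_right (rt_xl_mv_anti p.H_pos k c N z z') _)
  have hf_le : ∀ z z', Mf z z' ≤ ENNReal.ofReal (C₁ * L) * rtXlMv p.H k c 4 z z' := by
    intro z z'
    by_cases h : (z, z') ∈ NR
    · simp [hMf, h]
    · have h' : ¬ rtXlNr p.H k c Λ z z' := h
      have e : Mf z z' = ENNReal.ofReal C₁ * rtXlMv p.H k c (N + 4) z z' := by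
        simp [hMf, hG, h]
      rw [e, ENNReal.ofReal_mul hC₁, mul_assoc]
      exact mul_le_mul_right (rt_xl_mv_gain p.H_pos k c Λ N hΛ z z' h') _
  have key := rt_xa_ker (ζ := rtVm p k) (ζ' := rtVm p k)
    (fun z : RtZ => ‖(p.an (rtTm k z.1) k b' (rtXlOp c w) : RdWvPar.Ph → ℂ) z.2‖ₑ)
    (fun z' : RtZ => ‖(p.an (rtTm k z'.1) k b w : RdWvPar.Ph → ℂ) z'.2‖ₑ)
    (rt_xl_v_amp_meas p k b w).aemeasurable Mn Mf hMnm hMfm
    {z : RtZ | rtXlRg k (rtXlTe c (rtTm k z.1))}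
    (by
      filter_upwards [hdom p k b b' c w hb hb' hc hw] with z hz hz0
      refine (hz hz0).trans (le_of_eq ?_)
      refine lintegral_congr fun z' => ?_
      rw [hsum])
    (ENNReal.ofReal (C₁ * S)) (ENNReal.ofReal (C₁ * S' + 1)) (ENNReal.ofReal (C₁ * L * S)) (ENNReal.ofReal (C₁ * L * S'))
    ENNReal.ofReal_ne_top (by
      rw [Ne, ENNReal.ofReal_eq_zero, not_le]
      positivity)
    (fun z => by
      calc ∫⁻ z', Mn z z' ∂(rtVm p k) ≤ ∫⁻ z', ENNReal.ofReal C₁ * rtXlMv p.H k c 4 z z' ∂(rtVm p k) := lintegral_mono (hn_le z)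
        _ = ENNReal.ofReal C₁ * ∫⁻ z', rtXlMv p.H k c 4 z z' ∂(rtVm p k) := lintegral_const_mul' _ _ ENNReal.ofReal_ne_top
        _ ≤ ENNReal.ofReal C₁ * ENNReal.ofReal S := mul_le_mul_right (hs1 p k c z) _
        _ = ENNReal.ofReal (C₁ * S) := (ENNReal.ofReal_mul hC₁).symm)
    (fun z' => by
      calc ∫⁻ z, Mn z z' ∂(rtVm p k) ≤ ∫⁻ z, ENNReal.ofReal C₁ * rtXlMv p.H k c 4 z z' ∂(rtVm p k) := lintegral_mono fun z => hn_le z z'
        _ = ENNReal.ofReal C₁ * ∫⁻ z, rtXlMv p.H k c 4 z z' ∂(rtVm p k) := lintegral_const_mul' _ _ ENNReal.ofReal_ne_top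
        _ ≤ ENNReal.ofReal C₁ * ENNReal.ofReal S' := mul_le_mul_right (hs2 p k c hc z') _
        _ = ENNReal.ofReal (C₁ * S') := (ENNReal.ofReal_mul hC₁).symm
        _ ≤ ENNReal.ofReal (C₁ * S' + 1) := ENNReal.ofReal_le_ofReal (by linarith))
    (fun z => by
      calc ∫⁻ z', Mf z z' ∂(rtVm p k) ≤ ∫⁻ z', ENNReal.ofReal (C₁ * L) * rtXlMv p.H k c 4 z z' ∂(rtVm p k) := lintegral_mono (hf_le z)
        _ = ENNReal.ofReal (C₁ * L) * ∫⁻ z', rtXlMv p.H k c 4 z z' ∂(rtVm p k) := lintegral_const_mul' _ _ ENNReal.ofReal_ne_top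
        _ ≤ ENNReal.ofReal (C₁ * L) * ENNReal.ofReal S := mul_le_mul_right (hs1 p k c z) _
        _ = ENNReal.ofReal (C₁ * L * S) := (ENNReal.ofReal_mul (by positivity)).symm)
    (fun z' => by
      calc ∫⁻ z, Mf z z' ∂(rtVm p k) ≤ ∫⁻ z, ENNReal.ofReal (C₁ * L) * rtXlMv p.H k c 4 z z' ∂(rtVm p k) := lintegral_mono fun z => hf_le z z'
        _ = ENNReal.ofReal (C₁ * L) * ∫⁻ z, rtXlMv p.H k c 4 z z' ∂(rtVm p k) := lintegral_const_mul' _ _ ENNReal.ofReal_ne_top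
        _ ≤ ENNReal.ofReal (C₁ * L) * ENNReal.ofReal S' := mul_le_mul_right (hs2 p k c hc z') _
        _ = ENNReal.ofReal (C₁ * L * S') := (ENNReal.ofReal_mul (by positivity)).symm)
  have h2 : (2 : ℝ≥0∞) = ENNReal.ofReal 2 := by simp
  refine rt_xa_mono key ?_ ?_ ?_ ?_
  · intro z _ z' hzz
    have hmem : (z, z') ∈ NR := by
      by_contra h
      exact hzz (by simp [hMn, h])
    have hne : rtXlMv p.H k c (N + 4) z z' ≠ 0 := by
      intro h0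
      exact hzz (by simp [hMn, hG, h0])
    exact (rt_xl_mv_as p.H k c Λ (N + 4) hc hΛ z z' hne).2 hmem
  · intro z hz
    have hz' : -(1 / 4) - rdLen k ≤ rtZt (rtChLn (-c)) k z ∧ rtZt (rtChLn (-c)) k z ≤ 3 / 4 := hz
    rw [rt_xl_zt] at hz'
    exact hz'
  · rw [h2, ← ENNReal.ofReal_mul (by norm_num), ← ENNReal.ofReal_mul (by positivity)]
    refine ENNReal.ofReal_le_ofReal ?_
    have : 0 ≤ 2 * (C₁ * S) * (C₁ * S') := by positivity
    linarith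
  · have htot := rt_xl_v_tot p k b w
    calc 2 * ENNReal.ofReal (C₁ * L * S) * ENNReal.ofReal (C₁ * L * S') * ∫⁻ z', ‖(p.an (rtTm k z'.1) k b w : RdWvPar.Ph → ℂ) z'.2‖ₑ ^ 2 ∂(rtVm p k)
        ≤ 2 * ENNReal.ofReal (C₁ * L * S) * ENNReal.ofReal (C₁ * L * S') * ENNReal.ofReal (2 ^ k * ‖w‖ ^ 2) := mul_le_mul_right htot _
      _ = ENNReal.ofReal (2 * (C₁ * L * S) * (C₁ * L * S') * (2 ^ k * ‖w‖ ^ 2)) := by
          rw [ENNReal.ofReal_mul (p := 2 * (C₁ * L * S) * (C₁ * L * S')) (by positivity), ENNReal.ofReal_mul (p := 2 * (C₁ * L * S)) (by positivity),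
            ENNReal.ofReal_mul (p := 2) (by norm_num), ENNReal.ofReal_ofNat]
      _ ≤ _ := by
          refine ENNReal.ofReal_le_ofReal ?_
          have hLL : L * L ≤ L := by nlinarith
          have hE : 0 ≤ (2 : ℝ) ^ k * ‖w‖ ^ 2 := by positivity
          have hK : 0 ≤ 2 * (C₁ * S) * (C₁ * S') := by positivity
          have hK2 : 0 ≤ 1 + 2 * (C₁ * S) * (C₁ * S' + 1) := by positivity
          calc 2 * (C₁ * L * S) * (C₁ * L * S') * (2 ^ k * ‖w‖ ^ 2) = (2 * (C₁ * S) * (C₁ * S')) * (L * L) * (2 ^ k * ‖w‖ ^ 2) := by ring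
            _ ≤ (2 * (C₁ * S) * (C₁ * S')) * L * (2 ^ k * ‖w‖ ^ 2) := by gcongr
            _ ≤ (1 + 2 * (C₁ * S) * (C₁ * S' + 1) + 2 * (C₁ * S) * (C₁ * S')) * L * (2 ^ k * ‖w‖ ^ 2) := by
                gcongr
                linarith
            _ = _ := by ring

end Claimed.Agent.R256
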