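import Claimed.Agent.R256.Top.Tools

/-!
# Row 256, folder Rt, block I1 (rt:wave-transport), unit LENS-WIN : CONTRACT      (architect helper76; chief Rt helper216; prefix `rt_xl_`, defs `rtXl*`)

Route: `git show origin/helper76:notes/R256/RT_TRANSPORT.md`.   Paper free, Mathlib + `Top/Tools.lean` only.   CONTRACT FILE: every `sorry` is a leaf `L-256-RT-XL-*`; prove IN PLACE, statements verbatim.

The LENS (pseudo-conformal map) acts on an angular window `ψ₀` by the free Schroedinger flow `e^{iεΔ}` in the angular variable.   For `g = 𝓕⁻ ψ₀`: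
    `rtXlPsi g (ζ, ε) = ∫ e^{-2πi<x,ζ>} e^{-iε|x|²} g x dx = 𝓕 (e^{-iε|·|²} g) ζ`,      `rtXlPsi g (ζ, 0) = ψ₀ ζ`.
EXITS
* `rt_xl_psi_contDiff`  JOINT smoothness in `(ζ, ε)`.
      PLAN: `rtXlPsi g w = VectorFourier.fourierIntegral 𝐞 μ L f w` for `μ = volume.map (x ↦ (x, ‖x‖²))`, `f v = g v.1`, `L v w = <v.1, w.1> + v.2 w.2/(2π)`; `VectorFourier.contDiff_fourierIntegral` (moments of `g` are integrable: Schwartz).
* `rt_xl_psi_bd`        all joint derivatives are bounded on the WHOLE of `E2 × ℝ`      (`VectorFourier.norm_iteratedFDeriv_fourierIntegral_le`-type bound, same representation).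
* `rt_xl_psi_mul`       `(1 + |ζ|²) Ψ_g = Ψ_a0 + ε Ψ_a1 + ε² Ψ_a2` with Schwartz `a_i` independent of `(ζ, ε)`:
      `a0 = g - Δg/(4π²)`, `a1 = (i/π²)(x·∇g + g)`, `a2 = |x|² g/π²`      (integration by parts: `(1 - Δ_x/(4π²)) e^{-2πi<x,ζ>} = (1+|ζ|²) e^{-2πi<x,ζ>}`).
* `rt_xl_psi_decay`     `(1+|ζ|)^N ‖D^j Ψ_g (ζ, ε)‖ ≤ C` for `|ε| ≤ E0`      (induction on `N` with `rt_xl_psi_mul`, `rt_xl_psi_bd`, Leibniz for `(1+|ζ|²)^-1`).
* `rt_xl_fresnel`       FRESNEL-PARSEVAL: `∫ ψ₀ ζ e^{iΛ|ζ-ζ₀|²} dζ = (iπ/Λ) Ψ_{𝓕⁻ψ₀} (ζ₀, π²/Λ)`, `Λ ≠ 0`.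
      PLAN: for `η > 0`, Parseval (`VectorFourier.integral_fourierIntegral_smul_eq_flip`) + `fourierIntegral_gaussian_innerProductSpace'` with `b = η - iΛ`; `η → 0+` by dominated convergence on both sides.
-/

set_option autoImplicit false

namespace Claimed.Agent.R256

open MeasureTheory Complex Claimed.Agent.R255.BR
open scoped FourierTransform Real SchwartzMap InnerProductSpace ContDiff

/-- `Ψ_g (ζ, ε) = ∫ e^{-2πi<x,ζ>} e^{-iε|x|²} g x dx` -/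
noncomputable def rtXlPsi (g : 𝓢(E2, ℂ)) (z : E2 × ℝ) : ℂ :=
  ∫ x : E2, Complex.exp (-(Complex.I * ((2 * π * ⟪x, z.1⟫_ℝ + z.2 * ‖x‖ ^ 2 : ℝ) : ℂ))) * g x

theorem rt_xl_psi_eqns_cite : True := by
  have := @rtXlPsi.eq_1
  trivial

/-- the lift `x ↦ (x, |x|²)` -/
noncomputable def rtXlLift (x : E2) : E2 × ℝ := (x, ‖x‖ ^ 2)

/-- the pairing `<v.1, w.1> + v.2 w.2 / (2π)` -/
noncomputable def rtXlIn : E2 →L[ℝ] E2 →L[ℝ] ℝ := innerSL ℝ

/-- the pairing `<v.1, w.1> + v.2 w.2 / (2π)` -/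
noncomputable def rtXlL : (E2 × ℝ) →L[ℝ] (E2 × ℝ) →L[ℝ] ℝ :=
  rtXlIn.bilinearComp (ContinuousLinearMap.fst ℝ E2 ℝ) (ContinuousLinearMap.fst ℝ E2 ℝ) +
    (2 * π)⁻¹ • (ContinuousLinearMap.mul ℝ ℝ).bilinearComp (ContinuousLinearMap.snd ℝ E2 ℝ) (ContinuousLinearMap.snd ℝ E2 ℝ)

theorem rt_xl_L_apply (v w : E2 × ℝ) : rtXlL v w = ⟪v.1, w.1⟫_ℝ + (2 * π)⁻¹ * (v.2 * w.2) := by
  simp only [rtXlL, rtXlIn, add_apply, ContinuousLinearMap.bilinearComp_apply, smul_apply,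
    ContinuousLinearMap.coe_fst', ContinuousLinearMap.coe_snd', ContinuousLinearMap.mul_apply', smul_eq_mul]
  rfl

theorem rt_xl_lift_cont : Continuous rtXlLift := by
  unfold rtXlLift
  fun_prop

theorem rt_xl_psi_rep (g : 𝓢(E2, ℂ)) :
    rtXlPsi g = VectorFourier.fourierIntegral 𝐞 ((volume : Measure E2).map rtXlLift) rtXlL.toLinearMap₁₂ (fun v => g v.1) := by
  ext w
  unfold rtXlPsi VectorFourier.fourierIntegral
  rw [integral_map rt_xl_lift_cont.aemeasurable]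
  · refine integral_congr_ae (Filter.Eventually.of_forall fun x => ?_)
    have e : rtXlL.toLinearMap₁₂ (rtXlLift x) w = ⟪x, w.1⟫_ℝ + (2 * π)⁻¹ * (‖x‖ ^ 2 * w.2) := rt_xl_L_apply _ _
    beta_reduce
    rw [e, Circle.smul_def, Real.fourierChar_apply, smul_eq_mul]
    show _ = _ * g x
    congr 2
    push_cast
    field_simp
  · refine Continuous.aestronglyMeasurable ?_
    have h1 : Continuous fun v : E2 × ℝ => 𝐞 (-(rtXlL.toLinearMap₁₂ v w)) := by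
      refine Real.continuous_fourierChar.comp (Continuous.neg ?_)
      simp only [ContinuousLinearMap.toLinearMap₁₂_apply]
      exact (rtXlL.flip w).continuous
    have h2 : Continuous fun v : E2 × ℝ => g v.1 := g.continuous.comp continuous_fst
    exact h1.smul h2

theorem rt_xl_lift_norm (x : E2) (n : ℕ) : ‖rtXlLift x‖ ^ n ≤ ‖x‖ ^ n + ‖x‖ ^ (2 * n) := by
  have e : ‖rtXlLift x‖ = max ‖x‖ (‖x‖ ^ 2) := by
    unfold rtXlLift
    rw [Prod.norm_def]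
    simp
  rw [e]
  rcases le_total ‖x‖ (‖x‖ ^ 2) with h | h
  · rw [max_eq_right h, ← pow_mul]
    exact le_add_of_nonneg_left (by positivity)
  · rw [max_eq_left h]
    exact le_add_of_nonneg_right (by positivity)

theorem rt_xl_moment (g : 𝓢(E2, ℂ)) (n : ℕ) :
    Integrable (fun v : E2 × ℝ => ‖v‖ ^ n * ‖g v.1‖) ((volume : Measure E2).map rtXlLift) := by
  have hc : Continuous fun v : E2 × ℝ => ‖v‖ ^ n * ‖g v.1‖ :=
    (continuous_norm.pow n).mul (g.continuous.comp continuous_fst).norm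
  rw [integrable_map_measure hc.aestronglyMeasurable rt_xl_lift_cont.aemeasurable]
  have h1 := (g.integrable_pow_mul volume n).add (g.integrable_pow_mul volume (2 * n))
  refine h1.mono' (hc.comp rt_xl_lift_cont).aestronglyMeasurable (Filter.Eventually.of_forall fun x => ?_)
  simp only [Function.comp, Pi.add_apply]
  rw [norm_mul, norm_pow, norm_norm, norm_norm]
  calc ‖rtXlLift x‖ ^ n * ‖g (rtXlLift x).1‖ ≤ (‖x‖ ^ n + ‖x‖ ^ (2 * n)) * ‖g x‖ :=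
        mul_le_mul_of_nonneg_right (rt_xl_lift_norm x n) (norm_nonneg _)
    _ = ‖x‖ ^ n * ‖g x‖ + ‖x‖ ^ (2 * n) * ‖g x‖ := by ring

/-- LEAF `L-256-RT-XL-A` -/
theorem rt_xl_psi_zero (g : 𝓢(E2, ℂ)) (ζ : E2) : rtXlPsi g (ζ, 0) = 𝓕 (g : E2 → ℂ) ζ := by
  rw [Real.fourier_eq']
  unfold rtXlPsi
  refine integral_congr_ae (Filter.Eventually.of_forall fun x => ?_)
  simp only [smul_eq_mul]
  congr 2
  push_cast
  ring

/-- LEAF `L-256-RT-XL-A` -/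
theorem rt_xl_psi_contDiff (g : 𝓢(E2, ℂ)) : ContDiff ℝ ∞ (rtXlPsi g) := by
  rw [rt_xl_psi_rep]
  exact VectorFourier.contDiff_fourierIntegral rtXlL (fun n _ => rt_xl_moment g n)

/-- LEAF `L-256-RT-XL-A` -/
theorem rt_xl_psi_bd (g : 𝓢(E2, ℂ)) (j : ℕ) : ∃ C : ℝ, ∀ z : E2 × ℝ, ‖iteratedFDeriv ℝ j (rtXlPsi g) z‖ ≤ C := by
  refine ⟨∫ v, ‖VectorFourier.fourierPowSMulRight rtXlL (fun v : E2 × ℝ => g v.1) v j‖ ∂((volume : Measure E2).map rtXlLift), fun z => ?_⟩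
  have hm : AEStronglyMeasurable (fun v : E2 × ℝ => g v.1) ((volume : Measure E2).map rtXlLift) :=
    (g.continuous.comp continuous_fst).aestronglyMeasurable
  rw [rt_xl_psi_rep, VectorFourier.iteratedFDeriv_fourierIntegral rtXlL (N := ⊤) (fun n _ => rt_xl_moment g n) hm le_top]
  exact VectorFourier.norm_fourierIntegral_le_integral_norm _ _ _ _ _

section XlB

open LineDeriv

/-- the oscillating factor -/
noncomputable def rtXlE (z : E2 × ℝ) (x : E2) : ℂ :=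
  Complex.exp (-(Complex.I * ((2 * π * ⟪x, z.1⟫_ℝ + z.2 * ‖x‖ ^ 2 : ℝ) : ℂ)))

theorem rt_xl_psi_eq (g : 𝓢(E2, ℂ)) (z : E2 × ℝ) : rtXlPsi g z = ∫ x : E2, rtXlE z x * g x := rfl

theorem rt_xl_E_norm (z : E2 × ℝ) (x : E2) : ‖rtXlE z x‖ = 1 := by
  unfold rtXlE
  rw [Complex.norm_exp]
  simp only [Complex.neg_re, Complex.mul_re, Complex.I_re, Complex.I_im, Complex.ofReal_re, Complex.ofReal_im]
  simp

theorem rt_xl_E_hasFDerivAt (z : E2 × ℝ) (x : E2) :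
    HasFDerivAt (rtXlE z) (rtXlE z x • (-(Complex.I • (Complex.ofRealCLM ∘L
      ((2 * π) • innerSL ℝ z.1 + z.2 • (2 • innerSL ℝ x) : E2 →L[ℝ] ℝ))))) x := by
  have h1 : HasFDerivAt (fun x : E2 => ⟪x, z.1⟫_ℝ) (innerSL ℝ z.1 : E2 →L[ℝ] ℝ) x := by
    have := (innerSL ℝ z.1 : E2 →L[ℝ] ℝ).hasFDerivAt (x := x)
    simpa [real_inner_comm] using this
  have h2 : HasFDerivAt (fun x : E2 => ‖x‖ ^ 2) (2 • innerSL ℝ x : E2 →L[ℝ] ℝ) x := (hasStrictFDerivAt_norm_sq x).hasFDerivAt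
  have h3 := (h1.const_mul (2 * π)).add (h2.const_mul z.2)
  have h4 := Complex.ofRealCLM.hasFDerivAt.comp x h3
  have h5 := ((h4.const_mul Complex.I).neg).cexp
  exact h5

theorem rt_xl_E_fderiv (z : E2 × ℝ) (x m : E2) :
    fderiv ℝ (rtXlE z) x m = -(Complex.I * (2 * π * ⟪m, z.1⟫_ℝ)) * rtXlE z x + -(Complex.I * (2 * z.2)) * (rtXlE z x * ⟪x, m⟫_ℝ) := by
  rw [(rt_xl_E_hasFDerivAt z x).fderiv]
  simp [real_inner_comm]
  ring

theorem rt_xl_E_cont (z : E2 × ℝ) : Continuous (rtXlE z) :=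
  continuous_iff_continuousAt.2 fun x => (rt_xl_E_hasFDerivAt z x).continuousAt

theorem rt_xl_E_int (z : E2 × ℝ) (g : 𝓢(E2, ℂ)) : Integrable (fun x => rtXlE z x * g x) := by
  refine g.integrable.norm.mono' ((rt_xl_E_cont z).mul g.continuous).aestronglyMeasurable (Filter.Eventually.of_forall fun x => ?_)
  rw [norm_mul, rt_xl_E_norm, one_mul]

theorem rt_xl_psi_add (g h : 𝓢(E2, ℂ)) (z : E2 × ℝ) : rtXlPsi (g + h) z = rtXlPsi g z + rtXlPsi h z := by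
  simp only [rt_xl_psi_eq, add_apply, mul_add]
  exact integral_add (rt_xl_E_int z g) (rt_xl_E_int z h)

theorem rt_xl_psi_smul (c : ℂ) (g : 𝓢(E2, ℂ)) (z : E2 × ℝ) : rtXlPsi (c • g) z = c * rtXlPsi g z := by
  simp only [rt_xl_psi_eq, smul_apply, smul_eq_mul]
  rw [← integral_const_mul]
  refine integral_congr_ae (Filter.Eventually.of_forall fun x => ?_)
  simp only
  ring

/-- multiplication by `<x, m>` -/
noncomputable def rtXlX (m : E2) (g : 𝓢(E2, ℂ)) : 𝓢(E2, ℂ) := SchwartzMap.smulLeftCLM ℂ (fun x : E2 => ⟪x, m⟫_ℝ) g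

theorem rt_xl_X_apply (m : E2) (g : 𝓢(E2, ℂ)) (x : E2) : rtXlX m g x = (⟪x, m⟫_ℝ : ℂ) * g x := by
  unfold rtXlX
  rw [SchwartzMap.smulLeftCLM_apply_apply (by fun_prop)]
  simp

/-- integration by parts in the direction `m` -/
theorem rt_xl_psi_ibp (m : E2) (g : 𝓢(E2, ℂ)) (z : E2 × ℝ) :
    rtXlPsi (∂_{m} g) z = (Complex.I * (2 * π * ⟪m, z.1⟫_ℝ)) * rtXlPsi g z + (Complex.I * (2 * z.2)) * rtXlPsi (rtXlX m g) z := by
  have e : ∀ x, fderiv ℝ (rtXlE z) x m * g x =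
      -(Complex.I * (2 * π * ⟪m, z.1⟫_ℝ)) * (rtXlE z x * g x) + -(Complex.I * (2 * z.2)) * (rtXlE z x * rtXlX m g x) := by
    intro x
    rw [rt_xl_E_fderiv, rt_xl_X_apply]
    ring
  have i1 := (rt_xl_E_int z g).const_mul (-(Complex.I * (2 * π * ⟪m, z.1⟫_ℝ)))
  have i2 := (rt_xl_E_int z (rtXlX m g)).const_mul (-(Complex.I * (2 * z.2)))
  have key := integral_mul_fderiv_eq_neg_fderiv_mul_of_integrable (μ := (volume : Measure E2)) (f := rtXlE z) (g := g) (v := m)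
    (by simp only [e]; exact i1.add i2) (rt_xl_E_int z (∂_{m} g)) (rt_xl_E_int z g)
    (fun x _ => (rt_xl_E_hasFDerivAt z x).differentiableAt) (fun x _ => g.differentiableAt)
  rw [rt_xl_psi_eq]
  simp only [SchwartzMap.lineDerivOp_apply_eq_fderiv]
  rw [key]
  simp only [e]
  rw [integral_add i1 i2, integral_const_mul, integral_const_mul, ← rt_xl_psi_eq, ← rt_xl_psi_eq]
  ring

theorem rt_xl_psi_lin (m : E2) (g : 𝓢(E2, ℂ)) : ∃ A B : 𝓢(E2, ℂ), ∀ z : E2 × ℝ,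
    (⟪m, z.1⟫_ℝ : ℂ) * rtXlPsi g z = rtXlPsi A z + (z.2 : ℂ) * rtXlPsi B z := by
  refine ⟨(2 * π * Complex.I : ℂ)⁻¹ • ∂_{m} g, (-(π : ℂ)⁻¹) • rtXlX m g, fun z => ?_⟩
  rw [rt_xl_psi_smul, rt_xl_psi_smul, rt_xl_psi_ibp]
  have hπ : (π : ℂ) ≠ 0 := by exact_mod_cast Real.pi_ne_zero
  field_simp
  ring

theorem rt_xl_psi_sq (m : E2) (g : 𝓢(E2, ℂ)) : ∃ a0 a1 a2 : 𝓢(E2, ℂ), ∀ z : E2 × ℝ,
    (⟪m, z.1⟫_ℝ : ℂ) ^ 2 * rtXlPsi g z = rtXlPsi a0 z + (z.2 : ℂ) * rtXlPsi a1 z + (z.2 : ℂ) ^ 2 * rtXlPsi a2 z := by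
  obtain ⟨A, B, h⟩ := rt_xl_psi_lin m g
  obtain ⟨AA, BA, h1⟩ := rt_xl_psi_lin m A
  obtain ⟨AB, BB, h2⟩ := rt_xl_psi_lin m B
  refine ⟨AA, BA + AB, BB, fun z => ?_⟩
  rw [rt_xl_psi_add]
  calc (⟪m, z.1⟫_ℝ : ℂ) ^ 2 * rtXlPsi g z = (⟪m, z.1⟫_ℝ : ℂ) * ((⟪m, z.1⟫_ℝ : ℂ) * rtXlPsi g z) := by ring
    _ = (⟪m, z.1⟫_ℝ : ℂ) * rtXlPsi A z + (z.2 : ℂ) * ((⟪m, z.1⟫_ℝ : ℂ) * rtXlPsi B z) := by rw [h]; ring
    _ = _ := by rw [h1, h2]; ring

/-- LEAF `L-256-RT-XL-B` -/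
theorem rt_xl_psi_mul (g : 𝓢(E2, ℂ)) : ∃ a0 a1 a2 : 𝓢(E2, ℂ), ∀ z : E2 × ℝ,
    ((1 + ‖z.1‖ ^ 2 : ℝ) : ℂ) * rtXlPsi g z = rtXlPsi a0 z + (z.2 : ℂ) * rtXlPsi a1 z + (z.2 : ℂ) ^ 2 * rtXlPsi a2 z := by
  obtain ⟨a0, a1, a2, ha⟩ := rt_xl_psi_sq (EuclideanSpace.single 0 1) g
  obtain ⟨b0, b1, b2, hb⟩ := rt_xl_psi_sq (EuclideanSpace.single 1 1) g
  refine ⟨g + a0 + b0, a1 + b1, a2 + b2, fun z => ?_⟩
  have hn : ((1 + ‖z.1‖ ^ 2 : ℝ) : ℂ) = 1 + (⟪EuclideanSpace.single (0 : Fin 2) (1 : ℝ), z.1⟫_ℝ : ℂ) ^ 2 +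
      (⟪EuclideanSpace.single (1 : Fin 2) (1 : ℝ), z.1⟫_ℝ : ℂ) ^ 2 := by
    rw [EuclideanSpace.real_norm_sq_eq, Fin.sum_univ_two]
    simp [EuclideanSpace.inner_single_left]
    ring
  rw [hn, rt_xl_psi_add, rt_xl_psi_add, rt_xl_psi_add, rt_xl_psi_add]
  have := ha z
  have := hb z
  linear_combination ha z + hb z

end XlB

section XlC

/-- the symbol of the derivative in the direction `m` -/
noncomputable def rtXlD (m : E2 × ℝ) (g : 𝓢(E2, ℂ)) : 𝓢(E2, ℂ) :=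
  (-Complex.I) • SchwartzMap.smulLeftCLM ℂ (fun x : E2 => 2 * π * ⟪x, m.1⟫_ℝ + m.2 * ‖x‖ ^ 2) g

theorem rt_xl_D_apply (m : E2 × ℝ) (g : 𝓢(E2, ℂ)) (x : E2) :
    rtXlD m g x = -(Complex.I * ((2 * π * ⟪x, m.1⟫_ℝ + m.2 * ‖x‖ ^ 2 : ℝ) : ℂ)) * g x := by
  unfold rtXlD
  rw [smul_apply, SchwartzMap.smulLeftCLM_apply_apply (by fun_prop)]
  simp only [smul_eq_mul, Complex.real_smul]
  ring

theorem rt_xl_psi_fderiv (g : 𝓢(E2, ℂ)) (z m : E2 × ℝ) : fderiv ℝ (rtXlPsi g) z m = rtXlPsi (rtXlD m g) z := by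
  have hm : AEStronglyMeasurable (fun v : E2 × ℝ => g v.1) ((volume : Measure E2).map rtXlLift) :=
    (g.continuous.comp continuous_fst).aestronglyMeasurable
  have hf : Integrable (fun v : E2 × ℝ => g v.1) ((volume : Measure E2).map rtXlLift) := by
    have := rt_xl_moment g 0
    simp only [pow_zero, one_mul] at this
    exact (integrable_norm_iff hm).1 this
  have hf' : Integrable (fun v : E2 × ℝ => ‖v‖ * ‖g v.1‖) ((volume : Measure E2).map rtXlLift) := by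
    simpa using rt_xl_moment g 1
  have h := VectorFourier.hasFDerivAt_fourierIntegral rtXlL hf hf' z
  rw [← rt_xl_psi_rep] at h
  rw [h.fderiv]
  have hi : Integrable (VectorFourier.fourierSMulRight rtXlL (fun v : E2 × ℝ => g v.1)) ((volume : Measure E2).map rtXlLift) := by
    refine (hf'.const_mul (2 * π * ‖rtXlL‖)).mono' hm.fourierSMulRight (Filter.Eventually.of_forall fun v => ?_)
    exact (VectorFourier.norm_fourierSMulRight_le _ _ _).trans (le_of_eq (by ring))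
  have hi2 : Integrable (fun v : E2 × ℝ => 𝐞 (-(rtXlL.toLinearMap₁₂ v z)) • VectorFourier.fourierSMulRight rtXlL (fun v : E2 × ℝ => g v.1) v)
      ((volume : Measure E2).map rtXlLift) := (Real.fourierIntegral_convergent_iff' rtXlL z).2 hi
  unfold VectorFourier.fourierIntegral
  rw [ContinuousLinearMap.integral_apply hi2 m, rt_xl_psi_eq]
  rw [integral_map rt_xl_lift_cont.aemeasurable]
  · refine integral_congr_ae (Filter.Eventually.of_forall fun x => ?_)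
    have e : rtXlL.toLinearMap₁₂ (rtXlLift x) z = ⟪x, z.1⟫_ℝ + (2 * π)⁻¹ * (‖x‖ ^ 2 * z.2) := rt_xl_L_apply _ _
    have e2 : rtXlL (rtXlLift x) m = ⟪x, m.1⟫_ℝ + (2 * π)⁻¹ * (‖x‖ ^ 2 * m.2) := rt_xl_L_apply _ _
    beta_reduce
    rw [e, Circle.smul_def, smul_apply, VectorFourier.fourierSMulRight_apply, e2, rt_xl_D_apply, Real.fourierChar_apply]
    have e3 : rtXlE z x = Complex.exp (((2 * π * -(⟪x, z.1⟫_ℝ + (2 * π)⁻¹ * (‖x‖ ^ 2 * z.2)) : ℝ) : ℂ) * Complex.I) := by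
      unfold rtXlE
      congr 1
      push_cast
      field_simp
    rw [e3]
    simp only [smul_eq_mul, Complex.real_smul]
    show _ * (_ * (_ * g x)) = _
    push_cast
    field_simp
  · exact (ContinuousLinearMap.apply ℝ ℂ m).continuous.comp_aestronglyMeasurable hi2.aestronglyMeasurable

theorem rt_xl_psi_bd0 (g : 𝓢(E2, ℂ)) : ∃ C : ℝ, ∀ z : E2 × ℝ, ‖rtXlPsi g z‖ ≤ C := by
  obtain ⟨C, hC⟩ := rt_xl_psi_bd g 0
  exact ⟨C, fun z => by simpa [norm_iteratedFDeriv_zero] using hC z⟩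

theorem rt_xl_psi_dec0 (E0 : ℝ) (M : ℕ) : ∀ g : 𝓢(E2, ℂ), ∃ C : ℝ, ∀ z : E2 × ℝ, |z.2| ≤ E0 →
    (1 + ‖z.1‖ ^ 2) ^ M * ‖rtXlPsi g z‖ ≤ C := by
  induction M with
  | zero =>
    intro g
    obtain ⟨C, hC⟩ := rt_xl_psi_bd0 g
    exact ⟨C, fun z _ => by simpa using hC z⟩
  | succ M ih =>
    intro g
    obtain ⟨a0, a1, a2, h⟩ := rt_xl_psi_mul g
    obtain ⟨C0, h0⟩ := ih a0
    obtain ⟨C1, h1⟩ := ih a1
    obtain ⟨C2, h2⟩ := ih a2
    refine ⟨C0 + E0 * C1 + E0 ^ 2 * C2, fun z hz => ?_⟩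
    have hp : (0 : ℝ) ≤ 1 + ‖z.1‖ ^ 2 := by positivity
    have key : (1 + ‖z.1‖ ^ 2) * ‖rtXlPsi g z‖ ≤ ‖rtXlPsi a0 z‖ + |z.2| * ‖rtXlPsi a1 z‖ + |z.2| ^ 2 * ‖rtXlPsi a2 z‖ := by
      have e := congrArg norm (h z)
      rw [norm_mul, Complex.norm_real, Real.norm_of_nonneg hp] at e
      rw [e]
      refine (norm_add₃_le).trans (le_of_eq ?_)
      rw [norm_mul, norm_mul, norm_pow, Complex.norm_real, Real.norm_eq_abs]
    have hE : 0 ≤ E0 := (abs_nonneg _).trans hz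
    have q1 := h1 z hz
    have q2 := h2 z hz
    have n1 : 0 ≤ (1 + ‖z.1‖ ^ 2) ^ M * ‖rtXlPsi a1 z‖ := by positivity
    have n2 : 0 ≤ (1 + ‖z.1‖ ^ 2) ^ M * ‖rtXlPsi a2 z‖ := by positivity
    calc (1 + ‖z.1‖ ^ 2) ^ (M + 1) * ‖rtXlPsi g z‖ = (1 + ‖z.1‖ ^ 2) ^ M * ((1 + ‖z.1‖ ^ 2) * ‖rtXlPsi g z‖) := by ring
      _ ≤ (1 + ‖z.1‖ ^ 2) ^ M * (‖rtXlPsi a0 z‖ + |z.2| * ‖rtXlPsi a1 z‖ + |z.2| ^ 2 * ‖rtXlPsi a2 z‖) :=
          mul_le_mul_of_nonneg_left key (by positivity)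
      _ = (1 + ‖z.1‖ ^ 2) ^ M * ‖rtXlPsi a0 z‖ + |z.2| * ((1 + ‖z.1‖ ^ 2) ^ M * ‖rtXlPsi a1 z‖) +
            |z.2| ^ 2 * ((1 + ‖z.1‖ ^ 2) ^ M * ‖rtXlPsi a2 z‖) := by ring
      _ ≤ C0 + E0 * C1 + E0 ^ 2 * C2 := by
          refine add_le_add (add_le_add (h0 z hz) ?_) ?_
          · exact mul_le_mul hz q1 n1 hE
          · exact mul_le_mul (pow_le_pow_left₀ (abs_nonneg _) hz 2) q2 n2 (by positivity)

/-- the three coordinate directions of `E2 × ℝ` -/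
noncomputable def rtXlB : Fin 3 → E2 × ℝ := ![(EuclideanSpace.single 0 1, 0), (EuclideanSpace.single 1 1, 0), (0, 1)]

/-- the three coordinate functionals of `E2 × ℝ` -/
noncomputable def rtXlP : Fin 3 → (E2 × ℝ) →L[ℝ] ℝ :=
  ![(EuclideanSpace.proj (0 : Fin 2) : E2 →L[ℝ] ℝ).comp (ContinuousLinearMap.fst ℝ E2 ℝ),
    (EuclideanSpace.proj (1 : Fin 2) : E2 →L[ℝ] ℝ).comp (ContinuousLinearMap.fst ℝ E2 ℝ), ContinuousLinearMap.snd ℝ E2 ℝ]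

theorem rt_xl_expand (m : E2 × ℝ) : m = ∑ k, rtXlP k m • rtXlB k := by
  rw [Fin.sum_univ_three]
  refine Prod.ext ?_ ?_
  · ext i
    fin_cases i <;> simp [rtXlP, rtXlB]
  · simp [rtXlP, rtXlB]

theorem rt_xl_psi_fderiv_eq (g : 𝓢(E2, ℂ)) : fderiv ℝ (rtXlPsi g) =
    fun z => ∑ k, (ContinuousLinearMap.smulRightL ℝ (E2 × ℝ) ℂ (rtXlP k) ∘ rtXlPsi (rtXlD (rtXlB k) g)) z := by
  funext z
  refine ContinuousLinearMap.ext fun m => ?_
  conv_lhs => rw [rt_xl_expand m]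
  simp only [map_sum, map_smul, rt_xl_psi_fderiv, sum_apply, Function.comp,
    ContinuousLinearMap.smulRightL_apply_apply, ContinuousLinearMap.smulRight_apply]

theorem rt_xl_psi_succ (g : 𝓢(E2, ℂ)) (j : ℕ) (z : E2 × ℝ) : ‖iteratedFDeriv ℝ (j + 1) (rtXlPsi g) z‖ ≤
    ∑ k, ‖ContinuousLinearMap.smulRightL ℝ (E2 × ℝ) ℂ (rtXlP k)‖ * ‖iteratedFDeriv ℝ j (rtXlPsi (rtXlD (rtXlB k) g)) z‖ := by
  rw [← norm_iteratedFDeriv_fderiv, rt_xl_psi_fderiv_eq]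
  have hc : ∀ k, ContDiff ℝ ∞ (rtXlPsi (rtXlD (rtXlB k) g)) := fun k => rt_xl_psi_contDiff _
  rw [iteratedFDeriv_fun_sum_apply (fun k _ => ((ContinuousLinearMap.contDiff _).comp ((hc k).of_le (by exact_mod_cast le_top))).contDiffAt)]
  refine (norm_sum_le _ _).trans (Finset.sum_le_sum fun k _ => ?_)
  exact ContinuousLinearMap.norm_iteratedFDeriv_comp_left _ (hc k).contDiffAt (by exact_mod_cast le_top)

theorem rt_xl_psi_decj (E0 : ℝ) (M : ℕ) (j : ℕ) : ∀ g : 𝓢(E2, ℂ), ∃ C : ℝ, ∀ z : E2 × ℝ, |z.2| ≤ E0 →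
    (1 + ‖z.1‖ ^ 2) ^ M * ‖iteratedFDeriv ℝ j (rtXlPsi g) z‖ ≤ C := by
  induction j with
  | zero =>
    intro g
    obtain ⟨C, hC⟩ := rt_xl_psi_dec0 E0 M g
    exact ⟨C, fun z hz => by simpa [norm_iteratedFDeriv_zero] using hC z hz⟩
  | succ j ih =>
    intro g
    choose C hC using fun k => ih (rtXlD (rtXlB k) g)
    refine ⟨∑ k, ‖ContinuousLinearMap.smulRightL ℝ (E2 × ℝ) ℂ (rtXlP k)‖ * C k, fun z hz => ?_⟩
    calc (1 + ‖z.1‖ ^ 2) ^ M * ‖iteratedFDeriv ℝ (j + 1) (rtXlPsi g) z‖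
        ≤ (1 + ‖z.1‖ ^ 2) ^ M * ∑ k, ‖ContinuousLinearMap.smulRightL ℝ (E2 × ℝ) ℂ (rtXlP k)‖ *
            ‖iteratedFDeriv ℝ j (rtXlPsi (rtXlD (rtXlB k) g)) z‖ :=
          mul_le_mul_of_nonneg_left (rt_xl_psi_succ g j z) (by positivity)
      _ = ∑ k, ‖ContinuousLinearMap.smulRightL ℝ (E2 × ℝ) ℂ (rtXlP k)‖ *
            ((1 + ‖z.1‖ ^ 2) ^ M * ‖iteratedFDeriv ℝ j (rtXlPsi (rtXlD (rtXlB k) g)) z‖) := by
          rw [Finset.mul_sum]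
          exact Finset.sum_congr rfl fun k _ => by ring
      _ ≤ _ := Finset.sum_le_sum fun k _ => mul_le_mul_of_nonneg_left (hC k z hz) (ContinuousLinearMap.opNorm_nonneg _)

/-- LEAF `L-256-RT-XL-C` -/
theorem rt_xl_psi_decay (g : 𝓢(E2, ℂ)) (j N : ℕ) (E0 : ℝ) : ∃ C : ℝ, ∀ z : E2 × ℝ, |z.2| ≤ E0 →
    (1 + ‖z.1‖) ^ N * ‖iteratedFDeriv ℝ j (rtXlPsi g) z‖ ≤ C := by
  obtain ⟨C, hC⟩ := rt_xl_psi_decj E0 N j g
  refine ⟨2 ^ N * C, fun z hz => ?_⟩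
  have h1 : 1 + ‖z.1‖ ≤ 2 * (1 + ‖z.1‖ ^ 2) := by nlinarith [sq_nonneg (‖z.1‖ - 1), norm_nonneg z.1, sq_nonneg ‖z.1‖]
  calc (1 + ‖z.1‖) ^ N * ‖iteratedFDeriv ℝ j (rtXlPsi g) z‖
      ≤ (2 * (1 + ‖z.1‖ ^ 2)) ^ N * ‖iteratedFDeriv ℝ j (rtXlPsi g) z‖ :=
        mul_le_mul_of_nonneg_right (pow_le_pow_left₀ (by positivity) h1 N) (norm_nonneg _)
    _ = 2 ^ N * ((1 + ‖z.1‖ ^ 2) ^ N * ‖iteratedFDeriv ℝ j (rtXlPsi g) z‖) := by rw [mul_pow]; ring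
    _ ≤ 2 ^ N * C := mul_le_mul_of_nonneg_left (hC z hz) (by positivity)

end XlC

/-- Fourier transform of a translated complex Gaussian on `E2` -/
theorem rt_xl_gauss (b : ℂ) (hb : 0 < b.re) (ζ₀ x : E2) :
    𝓕 (fun ζ : E2 => Complex.exp (-b * ‖ζ - ζ₀‖ ^ 2)) x
      = (π / b) * (Complex.exp (-(Complex.I * ((2 * π * ⟪x, ζ₀⟫_ℝ : ℝ) : ℂ))) * Complex.exp (-π ^ 2 * ‖x‖ ^ 2 / b)) := by
  have hb0 : b ≠ 0 := by
    intro h
    rw [h] at hb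
    simp at hb
  rw [Real.fourier_eq', ← integral_add_right_eq_self _ ζ₀]
  have h := GaussianFourier.integral_cexp_neg_mul_sq_norm_add hb (-2 * π * Complex.I) x
  have e : ∀ v : E2, Complex.exp (↑(-2 * π * ⟪v + ζ₀, x⟫_ℝ) * Complex.I) • Complex.exp (-b * ‖v + ζ₀ - ζ₀‖ ^ 2)
      = Complex.exp (-(Complex.I * ((2 * π * ⟪x, ζ₀⟫_ℝ : ℝ) : ℂ))) * Complex.exp (-b * ‖v‖ ^ 2 + (-2 * π * Complex.I) * ⟪x, v⟫_ℝ) := by
    intro v
    rw [add_sub_cancel_right, smul_eq_mul, ← Complex.exp_add, ← Complex.exp_add, inner_add_left, real_inner_comm x v,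
      real_inner_comm x ζ₀]
    congr 1
    push_cast
    ring
  simp_rw [e]
  rw [integral_const_mul, h]
  have e2 : ((Module.finrank ℝ E2 : ℂ) / 2) = 1 := by
    simp
  rw [e2, Complex.cpow_one]
  have e3 : (-2 * (π : ℂ) * Complex.I) ^ 2 * ‖x‖ ^ 2 / (4 * b) = -π ^ 2 * ‖x‖ ^ 2 / b := by
    have : (-2 * (π : ℂ) * Complex.I) ^ 2 = -4 * π ^ 2 := by
      rw [mul_pow, Complex.I_sq]
      ring
    rw [this]
    field_simp
  rw [e3]
  ring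

/-- Parseval -/
theorem rt_xl_parseval (g : 𝓢(E2, ℂ)) (G : E2 → ℂ) (hG : Integrable G) :
    ∫ ζ, 𝓕 (g : E2 → ℂ) ζ * G ζ = ∫ x, g x * 𝓕 G x := by
  simpa using! VectorFourier.integral_fourierIntegral_smul_eq_flip (L := innerₗ E2) Real.continuous_fourierChar
    continuous_inner g.integrable hG

/-- the identity for a damped Fresnel factor -/
theorem rt_xl_fres_pos (ψ₀ : 𝓢(E2, ℂ)) (b : ℂ) (hb : 0 < b.re) (ζ₀ : E2) :
    ∫ ζ : E2, ψ₀ ζ * Complex.exp (-b * ‖ζ - ζ₀‖ ^ 2)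
      = (π / b) * ∫ x : E2, Complex.exp (-(Complex.I * ((2 * π * ⟪x, ζ₀⟫_ℝ : ℝ) : ℂ))) * Complex.exp (-π ^ 2 * ‖x‖ ^ 2 / b) * (𝓕⁻ ψ₀) x := by
  have hG : Integrable (fun ζ : E2 => Complex.exp (-b * ‖ζ - ζ₀‖ ^ 2)) := by
    have := GaussianFourier.integrable_cexp_neg_mul_sq_norm_add hb 0 (0 : E2)
    simpa using this.comp_sub_right ζ₀
  have h1 := rt_xl_parseval (𝓕⁻ ψ₀) _ hG
  have h2 : 𝓕 ((𝓕⁻ ψ₀ : 𝓢(E2, ℂ)) : E2 → ℂ) = ψ₀ := by
    rw [← SchwartzMap.fourier_coe, FourierTransform.fourier_fourierInv_eq]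
  rw [h2] at h1
  rw [h1, ← integral_const_mul]
  refine integral_congr_ae (Filter.Eventually.of_forall fun x => ?_)
  simp only [rt_xl_gauss b hb]
  ring

/-- LEAF `L-256-RT-XL-D` -/
theorem rt_xl_fresnel (ψ₀ : 𝓢(E2, ℂ)) (Λ : ℝ) (hΛ : Λ ≠ 0) (ζ₀ : E2) :
    ∫ ζ : E2, ψ₀ ζ * Complex.exp (Complex.I * ((Λ * ‖ζ - ζ₀‖ ^ 2 : ℝ) : ℂ))
      = (Complex.I * π / Λ) * rtXlPsi (𝓕⁻ ψ₀) (ζ₀, π ^ 2 / Λ) := by
  set g : 𝓢(E2, ℂ) := 𝓕⁻ ψ₀ with hg
  have hΛc : (Λ : ℂ) ≠ 0 := Complex.ofReal_ne_zero.2 hΛ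
  let bb : ℝ → ℂ := fun η => (η : ℂ) - Complex.I * Λ
  have hbbre : ∀ η, (bb η).re = η := by
    intro η
    simp [bb]
  have hbb0 : ∀ η, bb η ≠ 0 := by
    intro η h
    have : (bb η).im = -Λ := by simp [bb]
    rw [h] at this
    simp at this
    exact hΛ this
  have hbbc : Continuous bb := by fun_prop
  let Lf : ℝ → ℂ := fun η => ∫ ζ : E2, ψ₀ ζ * Complex.exp (-(bb η) * ‖ζ - ζ₀‖ ^ 2)
  let Rf : ℝ → ℂ := fun η => ∫ x : E2, Complex.exp (-(Complex.I * ((2 * π * ⟪x, ζ₀⟫_ℝ : ℝ) : ℂ))) * Complex.exp (-π ^ 2 * ‖x‖ ^ 2 / bb η) * g x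
  have hL : ContinuousWithinAt Lf (Set.Ioi 0) 0 := by
    refine continuousWithinAt_of_dominated (bound := fun ζ => ‖ψ₀ ζ‖) ?_ ?_ ψ₀.integrable.norm ?_
    · refine Filter.Eventually.of_forall fun η => Continuous.aestronglyMeasurable ?_
      have := ψ₀.continuous
      fun_prop
    · filter_upwards [self_mem_nhdsWithin] with η hη
      refine Filter.Eventually.of_forall fun ζ => ?_
      rw [norm_mul, Complex.norm_exp]
      have e1 : (-(bb η) * (‖ζ - ζ₀‖ : ℂ) ^ 2).re = -(η * ‖ζ - ζ₀‖ ^ 2) := by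
        have : (-(bb η) * (‖ζ - ζ₀‖ : ℂ) ^ 2) = -(bb η) * ((‖ζ - ζ₀‖ ^ 2 : ℝ) : ℂ) := by push_cast; ring
        rw [this, Complex.re_mul_ofReal, Complex.neg_re, hbbre]
        ring
      rw [e1]
      have e2 : Real.exp (-(η * ‖ζ - ζ₀‖ ^ 2)) ≤ 1 := by
        rw [Real.exp_le_one_iff]
        have : 0 < η := hη
        have : 0 ≤ η * ‖ζ - ζ₀‖ ^ 2 := by positivity
        linarith
      nlinarith [norm_nonneg (ψ₀ ζ)]
    · refine Filter.Eventually.of_forall fun ζ => Continuous.continuousWithinAt ?_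
      fun_prop
  have hR : ContinuousWithinAt Rf (Set.Ioi 0) 0 := by
    refine continuousWithinAt_of_dominated (bound := fun x => ‖g x‖) ?_ ?_ g.integrable.norm ?_
    · refine Filter.Eventually.of_forall fun η => Continuous.aestronglyMeasurable ?_
      have := g.continuous
      fun_prop
    · filter_upwards [self_mem_nhdsWithin] with η hη
      refine Filter.Eventually.of_forall fun x => ?_
      rw [norm_mul, norm_mul, Complex.norm_exp, Complex.norm_exp]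
      have e0 : (-(Complex.I * ((2 * π * ⟪x, ζ₀⟫_ℝ : ℝ) : ℂ))).re = 0 := by
        simp
      have e1 : (-(π : ℂ) ^ 2 * (‖x‖ : ℂ) ^ 2 / bb η).re ≤ 0 := by
        have : (-(π : ℂ) ^ 2 * (‖x‖ : ℂ) ^ 2) = ((-(π ^ 2 * ‖x‖ ^ 2) : ℝ) : ℂ) := by push_cast; ring
        rw [this, Complex.div_re, Complex.ofReal_re, Complex.ofReal_im, zero_mul, zero_div, add_zero, hbbre]
        have h1 : 0 < η := hη
        refine div_nonpos_of_nonpos_of_nonneg ?_ (Complex.normSq_nonneg _)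
        have : 0 ≤ π ^ 2 * ‖x‖ ^ 2 * η := by positivity
        linarith
      rw [e0, Real.exp_zero, one_mul]
      have e2 := Real.exp_le_one_iff.2 e1
      nlinarith [norm_nonneg (g x)]
    · refine Filter.Eventually.of_forall fun x => Continuous.continuousWithinAt ?_
      refine (continuous_const.mul ?_).mul continuous_const
      exact Complex.continuous_exp.comp (continuous_const.div hbbc hbb0)
  have hR' : ContinuousWithinAt (fun η => (π / bb η) * Rf η) (Set.Ioi 0) 0 :=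
    (continuous_const.div hbbc hbb0).continuousWithinAt.mul hR
  have heq : ∀ η ∈ Set.Ioi (0 : ℝ), Lf η = (π / bb η) * Rf η := fun η hη =>
    rt_xl_fres_pos ψ₀ (bb η) (by rw [hbbre]; exact hη) ζ₀
  have h0 : Lf 0 = (π / bb 0) * Rf 0 := by
    refine tendsto_nhds_unique hL (Filter.Tendsto.congr' ?_ hR')
    filter_upwards [self_mem_nhdsWithin] with η hη using (heq η hη).symm
  have hb0 : bb 0 = -(Complex.I * Λ) := by simp [bb]
  have eL : Lf 0 = ∫ ζ : E2, ψ₀ ζ * Complex.exp (Complex.I * ((Λ * ‖ζ - ζ₀‖ ^ 2 : ℝ) : ℂ)) := by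
    refine integral_congr_ae (Filter.Eventually.of_forall fun ζ => ?_)
    simp only [hb0]
    congr 2
    push_cast
    ring
  have eI : (Complex.I)⁻¹ = -Complex.I := Complex.inv_I
  have eR : Rf 0 = rtXlPsi g (ζ₀, π ^ 2 / Λ) := by
    unfold rtXlPsi
    refine integral_congr_ae (Filter.Eventually.of_forall fun x => ?_)
    simp only [hb0]
    rw [← Complex.exp_add]
    congr 2
    push_cast
    rw [div_neg, div_mul_eq_div_div, div_eq_mul_inv _ Complex.I, eI]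
    field_simp
    ring
  have eC : (π / bb 0 : ℂ) = Complex.I * π / Λ := by
    rw [hb0, div_neg, div_mul_eq_div_div, div_eq_mul_inv _ Complex.I, eI]
    ring
  rw [← eL, h0, eR, eC]

end Claimed.Agent.R256
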