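import Claimed.Agent.R256.Rt.XDefs
import Claimed.Agent.R256.Rt.XaContract
import Claimed.Agent.R256.Rt.XlPsiContract
import Claimed.Agent.R256.Rt.Ker
import Claimed.Agent.R256.Rt.XlArrow

/-!
# Row 256, folder Rt, block I1, unit XL : THE LENS ARROW      (block architect helper76; unit architect: BP-256-RT-XL; prefix `rt_xl_`, defs `rtXl*`)      CONTRACT FILE

EXITS (frozen; consumers: `Rt/XoContract.lean`): `rt_xl_op_spec, _norm, _inv, _band` (the operator), `rt_xl_arrow` (the transfer).      Definitions: `Rt/XDefs.lean`; calculus: `Rt/XaContract.lean`; window: `Rt/XlPsiContract.lean` (0 sorry); model to clone: `Rt/Ker.lean`.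
MATHEMATICS.   `LENS_c`: `t' = t/(1+ct)`, `b' = b/(1+ct)`, `y' = y - c|b|²/(1+ct)`, `u'(Φ x) = (1+ct) u(x)`.   At time `0` it is the multiplication by `e^{-iρc|b|²}` in the `(b, ρ)` picture = the shear `u(b, y) ↦ u(b, y + c|b|²)`.
(1) OPERATOR.  `(T_c G)(ξ', ρ) = (4πiρc)⁻¹ ∫ e^{i|ξ'-ξ|²/4ρc} G(ξ, ρ) dξ = (4πiρc)⁻¹ e^{i|ξ'|²/4ρc} 𝓕[e^{i|·|²/4ρc} G(·, ρ)](ξ'/(4πρc))`.
    ISOMETRY: fibrewise Plancherel (`ls_plancherel` on `E2`; for a.e. `ρ` the slice is in `L¹ ∩ L²`), Tonelli, joint measurability (`StronglyMeasurable.integral_prod_right`), extension from the dense subspace `L¹ ∩ L²` (`rt_k_approx`).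
    (Alternative: `T_c = 𝔉 ∘ (shear) ∘ 𝔉⁻¹` with Mathlib's `L²` Fourier transform on `E3` and `Lp.compMeasurePreserving`; then identify with the Fresnel formula on `L¹ ∩ L²`.)
    ADJOINT: `<T_c G, F> = <G, T_{-c} F>` for `G, F ∈ L¹ ∩ L²` (Fubini, bounded kernel), so `T_{-c} T_c = T_c^* T_c = 1`.   BAND: the formula is fibred over `ρ`.
(2) EXACT IDENTITY (`T' = rtTm k j' ∈ [-1/4, 3/4)`, `|c| ≤ 1`: `1 - cT' ≥ 1/4`; only `c = ± 1` is used by the block).  `(An(T',k,b') T_c w)(x') = ∫ P w`, (Fubini for `w ∈ L¹ ∩ L²`, continuity in `w`), `P(ξ, ρ) = (4πiρc)⁻¹ ∫ pk(T',k,b',x')(ξ', ρ) e^{i|ξ'-ξ|²/4ρc} dξ'`.   With `ξ' = 2ρ(A' + dζ)`, `A = ξ/2ρ`: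
    phase`/ρ = μ|w - w₀|² - μ|w₀|² + |A|²/c`, `w = A' + dζ`, `μ = (1-cT')/c`, `w₀ = (A - cb')/(1-cT')`;   `rt_xl_fresnel` with `Λ = ρμd²`:
      `P = D_e (2π)^{-3/2} χ_{b'}(Hρ) e^{i<n(q), e>} Ψ(D_e (ξ/2ρ - A_e)/d, ε)`,   `e = LENS_{-c}(T', b', y') = (te, b_e, y_e)`, `te = T'/(1-cT')`, `b_e = b'/(1-cT')`, `y_e = y' + c|b'|²/(1-cT')`,
      `D_e = 1 + c te = 1/(1-cT')`, `A_e = (A' + c b_e)/D_e`, `ε = π²c/(ρ(1-cT')d²) = π² c ℓ/(σ(1-cT'))`, `σ = Hρ`, `Ψ = rtXlPsi (𝓕⁻ ψ)`, `Ψ(·, 0) = ψ`.      (`c = 0`: trivial.)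
(3) KERNEL.  `K(x', x) = ∫ P conj pk(T_j,k,b,x)`, `T_j = rtTm k j`, `j = min(⌊(te + 1/4) 2^k⌋₊, 2^k - 1)`, `u = te - T_j ∈ [-ℓ, ℓ]` on the region.   Substitution of `rt_k_scale`:  `𝔟 = χ_b χ_{b'}(σ) ψ(z) Ψ(D_e (z - a), ε₀/σ) e^{-iτ|ζ|²/4σ}`, `z = ζ/2σ`, `a = (A_e - A_x)/d ∈ ℝ²` NOT compact.
    DECAY IN `a`: `(1+|a|²)^M 𝔟` has `w`-derivatives bounded uniformly in `a` (`rt_xl_psi_decay`; `|D_e(z - a)| ≥ |a|/2 - 2` on the support; `norm_iteratedFDeriv_comp_le`): use the version of `ls_unif_decay` with derivative bounds as HYPOTHESES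
    (its proof `ls_ud_pow` only uses the bounds `M_j`), or a smooth partition of unity in `a`.      `|K| ≤ C_N (q_ℓ²H)⁻¹ (1+|a|)^-N (1+|X|+|Y|)^-N`.
(4) SCHUR SUMS.  Targets: `(ℓ/H) d² ∫ (1+|a|)^-N da`, `rt_k_cov_l`.   Sources: at most 8 indices `j'` (`dte/dT' = (1-cT')^-2 ≥ 16/49`); `x' ↦ (A_e, b_e, y_e)`: dilation, shear quadratic in `b'` (skew product), Jacobians between absolute constants (`D_e ∈ [4/7, 4]`).
(5) NEAR/FAR by `RtAs (rtChLn (-c))` (`rt_ch_cf_ex`), `rt_xa_ext`, `rt_xa_ker`.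
CUT (helper280, 23:00Z): LINKED, 0 sorry here.   `Rt/XlDefs` (defs) → `Rt/XlOp` (O1-O8: operator) → `Rt/XlId` (I1-I5: exact identity, `rt_xl_rep`) → `Rt/XlKer` (K1-K7: `rt_xl_bound`) ; `Rt/XlSum` (S1-S6: Schur sums, gain, count, geometry) → `Rt/XlArrow` (A1-A9: views, domination, assembly).   Leaves `L-256-RT-XL-*` on the board.
-/

set_option autoImplicit false

namespace Claimed.Agent.R256

open MeasureTheory
open scoped ENNReal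

/-- EXIT: the operator is an isometry given by the Fresnel formula -/
theorem rt_xl_op_spec (c : ℝ) (hc : c ≠ 0) : (∀ G : RtKc, ‖rtXlOp c G‖ = ‖G‖) ∧
    ∀ G : RtKc, Integrable (G : RdWvPar.Mo → ℂ) volume → (rtXlOp c G : RdWvPar.Mo → ℂ) =ᵐ[volume] rtXlF c (G : RdWvPar.Mo → ℂ) := by
  exact rt_xl_o_spec c hc

/-- EXIT -/
theorem rt_xl_op_norm (c : ℝ) (G : RtKc) : ‖rtXlOp c G‖ = ‖G‖ := by
  exact rt_xl_o_norm c G

/-- EXIT: group law -/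
theorem rt_xl_op_inv (c : ℝ) (G : RtKc) : rtXlOp (-c) (rtXlOp c G) = G := by
  exact rt_xl_o_inv c G

/-- EXIT: the radial band is preserved -/
theorem rt_xl_op_band (p : RdWvPar) (c : ℝ) (b : ℕ) (G : RtKc) (hG : p.Spec b G) : p.Spec b (rtXlOp c G) := by
  exact rt_xl_o_band p c b G hG

/-- **EXIT: the lens arrow.**   Source = the view of `T_c w` (any generation `b'`), target = the view of `w`; chart from source to target coordinates `LENS_{-c}`. -/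
theorem rt_xl_arrow (bm N : ℕ) : ∃ C : ℝ, 1 ≤ C ∧ ∀ (p : RdWvPar) (k b b' : ℕ) (c Λ : ℝ) (w : RtKc), b ≤ bm → b' ≤ bm → |c| ≤ 1 → 1 ≤ Λ → p.Spec b w →
    RtXf (rtVm p k) (rtVd p k b' (rtXlOp c w)) (rtVm p k) (rtVd p k b w) (RtAs (rtChLn (-c)) k p.H k Λ)
      {z | -(1 / 4) - rdLen k ≤ rtZt (rtChLn (-c)) k z ∧ rtZt (rtChLn (-c)) k z ≤ 3 / 4}
      (ENNReal.ofReal C) (ENNReal.ofReal (C * Λ ^ (-(N : ℝ)) * 2 ^ k * ‖w‖ ^ 2)) := by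
  exact rt_xl_a_main bm N

end Claimed.Agent.R256
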