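import Claimed.Agent.R256.Rt.XgReg
import Claimed.Agent.R256.Rt.XkContract
import Claimed.Agent.R256.Rt.XdContract
import Claimed.Agent.R256.Rt.XlContract

/-!
# Row 256, folder Rt, block I1, unit XN : THE NORMALISED CORE OF THE TRANSPORT = COMPOSITION OF THE FIVE FACTORS WITH CUTS      (architect helper68; block architect helper76; prefix `rt_xn_`)      CONTRACT FILE

EXITS (consumer `Rt/XoContract.lean`, helper76): `rt_xn_state` (spectrum, cone, norm of `v1 = rtXnV p b0 β κ w`), **`rt_xn_in`** (NEW root view → OLD root view, ALL rows), **`rt_xn_out`** (OLD terminal views → NEW terminal views).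
Definitions, radii, chain of states: `Rt/XnDefs.lean`.   Geometry: `Rt/XgNear, XgComp, XgReg.lean` (unit XG in the shapes of XN, helper136); its consequences for the relation `RtXnR` are PROVED in section 3 below (`rt_xn_r_*`, `rt_xn_w_*`, `rt_xn_far_geo`).   Arrows: `rt_xd_arrow`, `rt_xl_arrow`, `rt_xk_cut`, `rt_xk_chg`, `rt_xk_far`.   Calculus: `Rt/XaContract.lean`.
Every `sorry` is a leaf `L-256-RT-XN-*`; prove IN PLACE, statements verbatim; every other statement of the files `Rt/X*` may be cited as a black box.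
## THE TWO CHAINS      (`Vk(s)` = lattice view `rtVm p k, rtVd p k · s`;   `γ₁ = κ/2 + β`)
OUT (depth `k ≥ 2`, region `rtXnZ0 k`):   `Vk(w) -far S0→ Vk(c0) -xd(-γ₁; u1), chart DB γ₁→ Vk(u1) -xl(1; u2), chart LN(-1)→ Vk(u2)` [OUT1]   `-far S2→ Vk(c2) -xd(κ; u3), DB(-κ)→ Vk(u3) -xl(-1; u4), LN 1→ Vk(u4)` [OUT2]   `-far S4→ Vk(c4) -xd(-κ/2; u5), DB(κ/2)→ Vk(u5) -far S5→ Vk(v1)` [OUT3].
IN (depth `0`, all rows):   `V0(v1) -idx, cut S5→ V0(u5) -xd(κ/2; c4), DB(-κ/2), idx→ V0(c4)` [IN1]   `-cut S4→ V0(u4) -xl(1; u3), LN(-1)→ V0(u3) -xd(-κ; c2), DB κ, idx→ V0(c2)` [IN2]   `-cut S2→ V0(u2) -xl(-1; u1), LN 1→ V0(u1) -xd(γ₁; c0), DB(-γ₁), idx→ V0(c0)` [IN3]   `-chg→ V2(c0) -cut S0→ V2(w)` [IN4].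
## HOW A LINK IS PROVED      `rt_xn_chain` (= `rt_xa_comp` + `rt_xa_mono`) with
 (hZ) the rows reached so far lie in the region of the next arrow: `RtXnR` gives the tracked ray in a box and the tracked time in a window; `rt_xn_r_row` (`Λ d ≤ 1/3000`) puts the ray of the row in the box `+1/1000`; its time is `-1/4` (IN) or within `Λℓ ≤ 1/1000` of the tracked time (OUT, `rt_xn_r_time`);
      then `rt_xn_w_db` / `rt_xn_w_ln` give the window `-1/4 - ℓ ≤ te ≤ 3/4`;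
 (hR) the relations compose: `rt_xn_r_db / _ln / _tr / _chg` (two parameters `Λ₁` = accumulated, `Λ₂` = the one of the arrow; EXPLICIT constants; the numerical side conditions are the numbers below: `norm_num`), `rt_xn_r_start`, `rt_xn_r_start_in`;
      after a cut of the IN chain the tracked box is RE-CONFINED: the row lies in `S_i`, so the tracked ray lies in `S_i + 1/1000` (`rt_xn_r_conf`);
 (A, ε) products and sums of `ENNReal.ofReal`; norms of the intermediate states `≤ 8 ‖w‖` (`rt_xn_st`); `2^k ≤ 2^(2k)`.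
ORDER OF THE CONSTANTS (00:20Z, request of the consumers 225, 31): `∃ m, ∀ bm N, ∃ C`: the exponent `m` is ABSOLUTE (it comes from the geometry only: `m ↦ 4m + 2` (db, ln), `2m + 2` (tr), `2m + 4` (chg)); `C` = max / product of the constants of the links.
## NUMBERS (units `1/1000` for boxes)
OUT  tracked boxes `(5,5,5) →DB,g=3/4→ (6,9,6) →LN→ (15,9,7) →DB,g=1→ (16,17,8) →LN→ (33,17,9) →DB,g=1/2→ (34,23,10)`;   windows `[0,.25] → [-.02,.27] → [-.02,.37] → [-.06,.41] → [-.07,.30] → [-.10,.33]`;   far regions `rtXnZ k (R_i + 1)`, cuts `S_i = R_i + 2`.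
IN   `S5+1 = (37,26,13) →DB,g=1/2→ (38,34,14)`, `[-.25,-.25] → [-.29,-.21]`;   `S4+1 = (36,20,12) →LN→ (56,20,13) →DB,g=1→ (60,37,14)`, `→ [-.23,-.17] → [-.31,-.09]`;   `S2+1 = (18,12,10) →LN→ (30,12,11) →DB,g=3/4→ (31,22,12)`, `→ [-.45,-.09] → [-.50,-.04]`.
-/

set_option autoImplicit false

namespace Claimed.Agent.R256

open MeasureTheory
open scoped ENNReal

/-! ## 0. Calculus -/

/-- one link of a chain: composition + simplification of the relation -/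
theorem rt_xn_chain {Z Z' Z'' : Type} [MeasurableSpace Z] [MeasurableSpace Z'] [MeasurableSpace Z''] {ζ : Measure Z} {D : Z → ℝ≥0∞} {ζ' : Measure Z'} {D' : Z' → ℝ≥0∞}
    {ζ'' : Measure Z''} {D'' : Z'' → ℝ≥0∞} {R₁ : Z → Z' → Prop} {R₂ : Z' → Z'' → Prop} {R : Z → Z'' → Prop} {Z0 : Set Z} {Z0' : Set Z'} {A₁ A₂ ε₁ ε₂ A ε : ℝ≥0∞}
    (h₁ : RtXf ζ D ζ' D' R₁ Z0 A₁ ε₁) (h₂ : RtXf ζ' D' ζ'' D'' R₂ Z0' A₂ ε₂) (hZ : ∀ z ∈ Z0, ∀ z', R₁ z z' → z' ∈ Z0')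
    (hR : ∀ z ∈ Z0, ∀ z' z'', R₁ z z' → R₂ z' z'' → R z z'') (hA : A₁ * A₂ ≤ A) (hε : ε₁ + A₁ * ε₂ ≤ ε) : RtXf ζ D ζ'' D'' R Z0 A ε :=
  rt_xa_mono (rt_xa_comp h₁ h₂ hZ) (fun z hz z'' ⟨z', h1, h2⟩ => hR z hz z' z'' h1 h2) subset_rfl hA hε

/-- sums of errors -/
theorem rt_xn_ofReal_link {a A b c : ℝ} (ha : 0 ≤ a) (hA : 0 ≤ A) (hb : 0 ≤ b) (h : a + A * b ≤ c) : ENNReal.ofReal a + ENNReal.ofReal A * ENNReal.ofReal b ≤ ENNReal.ofReal c := by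
  rw [← ENNReal.ofReal_mul hA, ← ENNReal.ofReal_add ha (mul_nonneg hA hb)]
  exact ENNReal.ofReal_le_ofReal h

/-- LEAF `L-256-RT-XN-A`.   the indices `≥ 2^k` carry no mass   (`rt_xa_restr`, `Z1 = {z | z.1 < 2^k}`, `Zb = Z1ᶜ`, `rtVm p k Z1ᶜ = 0`) -/
theorem rt_xn_idx (p : RdWvPar) (k b : ℕ) (v : RtKc) (Z0 : Set RtZ) :
    RtXf (rtVm p k) (rtVd p k b v) (rtVm p k) (rtVd p k b v) (fun z z' => z' = z ∧ z.1 < 2 ^ k) Z0 1 0 := by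
  have hsf := rt_k_rw_sf p k
  have hZ1 : MeasurableSet {z : RtZ | z.1 < 2 ^ k} := measurable_fst (measurableSet_Iio (a := 2 ^ k))
  have h0 : rtVm p k {z : RtZ | z.1 < 2 ^ k}ᶜ = 0 := by
    have e : {z : RtZ | z.1 < 2 ^ k}ᶜ = (Set.Iio (2 ^ k))ᶜ ×ˢ (Set.univ : Set RdWvPar.Ph) := by
      ext z
      simp
    rw [e]
    unfold rtVm
    rw [Measure.prod_prod, Measure.restrict_apply measurableSet_Iio.compl, Set.compl_inter_self]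
    simp
  refine rt_xa_restr (Z1 := {z : RtZ | z.1 < 2 ^ k}) hZ1 (rt_xk_meas p k b v) {z : RtZ | z.1 < 2 ^ k}ᶜ (fun z hz => hz.2) ?_
  rw [Measure.restrict_eq_zero.2 h0]
  simp

/-- LEAF `L-256-RT-XN-A` -/
theorem rt_xn_cone_mono {a a' : ℝ} (h0 : 0 ≤ a) (h : a ≤ a') (v : RtKc) (hv : RtCone a v) : RtCone a' v := by
  unfold RtCone at hv ⊢
  filter_upwards [hv] with q hq hne
  obtain ⟨h1, h2⟩ := hq hne
  refine ⟨h1, h2.trans (pow_le_pow_left₀ (by positivity) ?_ 2)⟩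
  gcongr

/-! ## 1. The states -/

/-- LEAF `L-256-RT-XN-S`.   `rt_xk_cut_le, _band, _cone`, `rt_xd_op_le, _inv, _cone, _band`, `rt_xl_op_norm, _inv, _band`, `rt_xg_S_meas, _vol, _cone`, `rt_xn_cone_mono`;   `rdD p.H 0 ≤ rdD p.H 2` (`rt_xg_depth`) -/
theorem rt_xn_st (p : RdWvPar) (b0 : ℕ) (β κ : ℝ) (w : RtKc) (hβ : |β| ≤ 1 / 4) (hκ : |κ| ≤ 1) (hd : rdD p.H 2 ≤ 1 / 200) (hw : p.Spec b0 w) :
    (p.Spec (b0 + 1) (rtXnC0 p b0 w) ∧ RtCone (1 / 20) (rtXnC0 p b0 w) ∧ ‖rtXnC0 p b0 w‖ ≤ ‖w‖) ∧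
    (p.Spec (b0 + 2) (rtXnU1 p b0 β κ w) ∧ RtCone (1 / 10) (rtXnU1 p b0 β κ w) ∧ ‖rtXnU1 p b0 β κ w‖ ≤ 2 * ‖w‖ ∧ rtXdOp (-(κ / 2 + β)) (rtXnU1 p b0 β κ w) = rtXnC0 p b0 w) ∧
    (p.Spec (b0 + 2) (rtXnU2 p b0 β κ w) ∧ ‖rtXnU2 p b0 β κ w‖ ≤ 2 * ‖w‖ ∧ rtXlOp 1 (rtXnU2 p b0 β κ w) = rtXnU1 p b0 β κ w) ∧
    (p.Spec (b0 + 3) (rtXnC2 p b0 β κ w) ∧ RtCone (1 / 20) (rtXnC2 p b0 β κ w) ∧ ‖rtXnC2 p b0 β κ w‖ ≤ 2 * ‖w‖) ∧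
    (p.Spec (b0 + 4) (rtXnU3 p b0 β κ w) ∧ RtCone (1 / 10) (rtXnU3 p b0 β κ w) ∧ ‖rtXnU3 p b0 β κ w‖ ≤ 4 * ‖w‖ ∧ rtXdOp κ (rtXnU3 p b0 β κ w) = rtXnC2 p b0 β κ w) ∧
    (p.Spec (b0 + 4) (rtXnU4 p b0 β κ w) ∧ ‖rtXnU4 p b0 β κ w‖ ≤ 4 * ‖w‖ ∧ rtXlOp (-1) (rtXnU4 p b0 β κ w) = rtXnU3 p b0 β κ w) ∧
    (p.Spec (b0 + 5) (rtXnC4 p b0 β κ w) ∧ RtCone (1 / 20) (rtXnC4 p b0 β κ w) ∧ ‖rtXnC4 p b0 β κ w‖ ≤ 4 * ‖w‖) ∧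
    (p.Spec (b0 + 6) (rtXnU5 p b0 β κ w) ∧ RtCone (1 / 10) (rtXnU5 p b0 β κ w) ∧ ‖rtXnU5 p b0 β κ w‖ ≤ 8 * ‖w‖ ∧ rtXdOp (-(κ / 2)) (rtXnU5 p b0 β κ w) = rtXnC4 p b0 β κ w) ∧
    (p.Spec (b0 + 7) (rtXnV p b0 β κ w) ∧ RtCone (1 / 10) (rtXnV p b0 β κ w) ∧ ‖rtXnV p b0 β κ w‖ ≤ 8 * ‖w‖) := by
  have hd0 : rdD p.H 0 ≤ 1 / 200 := (rt_xg_depth p.H p.H_pos 0 2 (by norm_num) (by norm_num)).2.2.2.1.trans hd
  have hκ2 := abs_le.1 hκ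
  have hβ2 := abs_le.1 hβ
  have g1 : |κ / 2 + β| ≤ 2 := abs_le.2 ⟨by linarith, by linarith⟩
  have g2 : |(-κ)| ≤ 2 := abs_le.2 ⟨by linarith, by linarith⟩
  have g3 : |κ / 2| ≤ 2 := abs_le.2 ⟨by linarith, by linarith⟩
  have hup : ∀ v : RtKc, RtCone (1 / 20) v → RtCone (1 / 10) v := fun v hv => rt_xn_cone_mono (by norm_num) (by norm_num) v hv
  -- a cut
  have hcut : ∀ (T T₀ : ℝ) (k b : ℕ) (α β' γ a : ℝ) (v : RtKc), 0 ≤ α → rdD p.H k ≤ 1 / 200 → α + 1 / 100 ≤ a →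
      p.Spec (b + 1) (rtCut p T k b (rtXnS T₀ α β' γ) v) ∧ RtCone a (rtCut p T k b (rtXnS T₀ α β' γ) v) ∧ ‖rtCut p T k b (rtXnS T₀ α β' γ) v‖ ≤ ‖v‖ := by
    intro T T₀ k b α β' γ a v hα hk ha
    have hdp := (rt_k_d_pos p.H_pos k).1
    exact ⟨rt_xk_cut_band p T k b _ v,
      rt_xn_cone_mono (by positivity) (by linarith) _ (rt_xk_cut_cone p T k b _ (rt_xg_S_meas T₀ α β' γ) (rt_xg_S_vol T₀ α β' γ) hα (rt_xg_S_cone T₀ α β' γ) v),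
      rt_xk_cut_le p T k b _ (rt_xg_S_meas T₀ α β' γ) v⟩
  -- a dual boost
  have hdb : ∀ (δ : ℝ) (b : ℕ) (v : RtKc), |δ| ≤ 2 → p.Spec b v → RtCone (1 / 20) v →
      p.Spec (b + 1) (rtXdOp δ v) ∧ RtCone (1 / 10) (rtXdOp δ v) ∧ ‖rtXdOp δ v‖ ≤ 2 * ‖v‖ ∧ rtXdOp (-δ) (rtXdOp δ v) = v := by
    intro δ b v hδ hs hc
    exact ⟨rt_xd_op_band p δ hδ b v (hup v hc) hs, rt_xn_cone_mono (by norm_num) (by norm_num) _ (rt_xd_op_cone δ hδ (by norm_num) (by norm_num) v hc),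
      rt_xd_op_le δ hδ v, rt_xd_op_inv δ hδ v (hup v hc)⟩
  obtain ⟨a1, a2, a3⟩ : p.Spec (b0 + 1) (rtXnC0 p b0 w) ∧ RtCone (1 / 20) (rtXnC0 p b0 w) ∧ ‖rtXnC0 p b0 w‖ ≤ ‖w‖ :=
    hcut (rtTm 2 1) 0 2 b0 (7 / 1000) (7 / 1000) (7 / 1000) (1 / 20) w (by norm_num) hd (by norm_num)
  obtain ⟨b1, b2, b3, b4⟩ : p.Spec (b0 + 2) (rtXnU1 p b0 β κ w) ∧ RtCone (1 / 10) (rtXnU1 p b0 β κ w) ∧ ‖rtXnU1 p b0 β κ w‖ ≤ 2 * ‖rtXnC0 p b0 w‖ ∧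
      rtXdOp (-(κ / 2 + β)) (rtXnU1 p b0 β κ w) = rtXnC0 p b0 w := hdb (κ / 2 + β) (b0 + 1) (rtXnC0 p b0 w) g1 a1 a2
  have c1 : p.Spec (b0 + 2) (rtXnU2 p b0 β κ w) := rt_xl_op_band p (-1) (b0 + 2) _ b1
  have c2 : ‖rtXnU2 p b0 β κ w‖ = ‖rtXnU1 p b0 β κ w‖ := rt_xl_op_norm (-1) _
  have c3 : rtXlOp 1 (rtXnU2 p b0 β κ w) = rtXnU1 p b0 β κ w := by
    have := rt_xl_op_inv (-1) (rtXnU1 p b0 β κ w)
    rwa [neg_neg] at this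
  obtain ⟨d1, d2, d3⟩ : p.Spec (b0 + 3) (rtXnC2 p b0 β κ w) ∧ RtCone (1 / 20) (rtXnC2 p b0 β κ w) ∧ ‖rtXnC2 p b0 β κ w‖ ≤ ‖rtXnU2 p b0 β κ w‖ :=
    hcut (rtTm 0 0) (-(1 / 4)) 0 (b0 + 2) (17 / 1000) (11 / 1000) (9 / 1000) (1 / 20) _ (by norm_num) hd0 (by norm_num)
  obtain ⟨e1, e2, e3, e4⟩ : p.Spec (b0 + 4) (rtXnU3 p b0 β κ w) ∧ RtCone (1 / 10) (rtXnU3 p b0 β κ w) ∧ ‖rtXnU3 p b0 β κ w‖ ≤ 2 * ‖rtXnC2 p b0 β κ w‖ ∧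
      rtXdOp (-(-κ)) (rtXnU3 p b0 β κ w) = rtXnC2 p b0 β κ w := hdb (-κ) (b0 + 3) (rtXnC2 p b0 β κ w) g2 d1 d2
  rw [neg_neg] at e4
  have f1 : p.Spec (b0 + 4) (rtXnU4 p b0 β κ w) := rt_xl_op_band p 1 (b0 + 4) _ e1
  have f2 : ‖rtXnU4 p b0 β κ w‖ = ‖rtXnU3 p b0 β κ w‖ := rt_xl_op_norm 1 _
  have f3 : rtXlOp (-1) (rtXnU4 p b0 β κ w) = rtXnU3 p b0 β κ w := rt_xl_op_inv 1 (rtXnU3 p b0 β κ w)
  obtain ⟨i1, i2, i3⟩ : p.Spec (b0 + 5) (rtXnC4 p b0 β κ w) ∧ RtCone (1 / 20) (rtXnC4 p b0 β κ w) ∧ ‖rtXnC4 p b0 β κ w‖ ≤ ‖rtXnU4 p b0 β κ w‖ :=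
    hcut (rtTm 0 0) (-(1 / 4)) 0 (b0 + 4) (35 / 1000) (19 / 1000) (11 / 1000) (1 / 20) _ (by norm_num) hd0 (by norm_num)
  obtain ⟨j1, j2, j3, j4⟩ : p.Spec (b0 + 6) (rtXnU5 p b0 β κ w) ∧ RtCone (1 / 10) (rtXnU5 p b0 β κ w) ∧ ‖rtXnU5 p b0 β κ w‖ ≤ 2 * ‖rtXnC4 p b0 β κ w‖ ∧
      rtXdOp (-(κ / 2)) (rtXnU5 p b0 β κ w) = rtXnC4 p b0 β κ w := hdb (κ / 2) (b0 + 5) (rtXnC4 p b0 β κ w) g3 i1 i2
  obtain ⟨l1, l2, l3⟩ : p.Spec (b0 + 7) (rtXnV p b0 β κ w) ∧ RtCone (1 / 10) (rtXnV p b0 β κ w) ∧ ‖rtXnV p b0 β κ w‖ ≤ ‖rtXnU5 p b0 β κ w‖ :=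
    hcut (rtTm 0 0) (-(1 / 4)) 0 (b0 + 6) (36 / 1000) (25 / 1000) (12 / 1000) (1 / 10) _ (by norm_num) hd0 (by norm_num)
  exact ⟨⟨a1, a2, a3⟩, ⟨b1, b2, by linarith, b4⟩, ⟨c1, by linarith, c3⟩, ⟨d1, d2, by linarith⟩, ⟨e1, e2, by linarith, e4⟩, ⟨f1, by linarith, f3⟩,
    ⟨i1, i2, by linarith⟩, ⟨j1, j2, by linarith, j4⟩, ⟨l1, l2, by linarith⟩⟩

/-! ## 2. The cut as a link of the OUT chain -/

/-- LEAF `L-256-RT-XN-F`.   **a state and its cut have the same later views on the rows which are connected only to `S`.**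
`rt_xa_dom` with `A = 2`, `E = Z1.indicator (2 * rtVd p k b' (v - cut))` (`rt_xk_add`, `rt_xk_meas`), `rt_xk_cut_compl` (`v - cut = An^* 1_{Sᶜ} An v`), `rt_xk_far` with `S := Sᶜ`, `F := An v`, `‖An v‖ ≤ ‖v‖` (`rt_w1_contr`). -/
theorem rt_xn_far (bm N : ℕ) : ∃ C : ℝ, 1 ≤ C ∧ ∀ (p : RdWvPar) (k₀ j₀ k b b' : ℕ) (Λ : ℝ) (S : Set RdWvPar.Ph) (Z1 : Set RtZ) (v : RtKc), b ≤ bm → b' ≤ bm → 1 ≤ Λ →
    MeasurableSet S → MeasurableSet Z1 → p.Spec b v → (∀ z ∈ Z1, CutLe (rtTm k₀ j₀) k₀ (rtTm k z.1) k) →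
    (∀ z ∈ Z1, ∀ x, RtNear Λ (rdD p.H k) (rdQ p.H k₀) p.H ((RdWvPar.co 0 x).flow (rtTm k z.1 - rtTm k₀ j₀)) (RdWvPar.co 0 z.2) → x ∈ S) →
    RtXf (rtVm p k) (rtVd p k b' v) (rtVm p k) (rtVd p k b' (rtCut p (rtTm k₀ j₀) k₀ b S v)) (fun z z' => z' = z) Z1 2
      (ENNReal.ofReal (C * Λ ^ (-(N : ℝ)) * 2 ^ (2 * k) * ‖v‖ ^ 2)) := by
  obtain ⟨C, hC0, hfar⟩ := rt_xk_far bm N
  refine ⟨2 * C + 1, by linarith, ?_⟩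
  intro p k₀ j₀ k b b' Λ S Z1 v hb hb' hΛ hS hZ1 hv hcut hgeo
  have h0 : 0 < Λ := by linarith
  have hE : AEMeasurable (Z1.indicator fun z => 2 * rtVd p k b' (v - rtCut p (rtTm k₀ j₀) k₀ b S v) z) (rtVm p k) :=
    ((rt_xk_meas p k b' (v - rtCut p (rtTm k₀ j₀) k₀ b S v)).const_mul 2).indicator hZ1
  refine rt_xa_dom (rt_xk_meas p k b' (rtCut p (rtTm k₀ j₀) k₀ b S v)) hE ?_ ?_
  · filter_upwards [rt_xk_add p k b' v (rtCut p (rtTm k₀ j₀) k₀ b S v)] with z hz hzm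
    rw [Set.indicator_of_mem hzm]
    exact hz
  · rw [lintegral_indicator hZ1, lintegral_const_mul' _ _ (by simp), rt_xk_cut_compl p (rtTm k₀ j₀) k₀ b S hS v hv]
    have h1 := hfar p k₀ j₀ k b b' Λ Sᶜ Z1 (p.an (rtTm k₀ j₀) k₀ b v) hb hb' hΛ hS.compl hZ1 hcut (fun z hz x hx hn => hx (hgeo z hz x hn))
    have h2 : ‖p.an (rtTm k₀ j₀) k₀ b v‖ ^ 2 ≤ ‖v‖ ^ 2 := pow_le_pow_left₀ (norm_nonneg _) (rt_w1_contr p _ k₀ b v) 2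
    calc (2 : ℝ≥0∞) * _ ≤ 2 * ENNReal.ofReal (C * Λ ^ (-(N : ℝ)) * 2 ^ (2 * k) * ‖p.an (rtTm k₀ j₀) k₀ b v‖ ^ 2) := mul_le_mul' le_rfl h1
      _ = ENNReal.ofReal (2 * (C * Λ ^ (-(N : ℝ)) * 2 ^ (2 * k) * ‖p.an (rtTm k₀ j₀) k₀ b v‖ ^ 2)) := by
          rw [ENNReal.ofReal_mul (by norm_num : (0 : ℝ) ≤ 2), ENNReal.ofReal_ofNat]
      _ ≤ _ := by
          apply ENNReal.ofReal_le_ofReal
          have h3 : 0 ≤ Λ ^ (-(N : ℝ)) * 2 ^ (2 * k) := by positivity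
          calc 2 * (C * Λ ^ (-(N : ℝ)) * 2 ^ (2 * k) * ‖p.an (rtTm k₀ j₀) k₀ b v‖ ^ 2)
              = 2 * C * (Λ ^ (-(N : ℝ)) * 2 ^ (2 * k)) * ‖p.an (rtTm k₀ j₀) k₀ b v‖ ^ 2 := by ring
            _ ≤ (2 * C + 1) * (Λ ^ (-(N : ℝ)) * 2 ^ (2 * k)) * ‖v‖ ^ 2 := by
                gcongr
                linarith
            _ = _ := by ring

/-! ## 3. Links at the level of the relations      (GLUE, PROVED from the unit XG) -/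

theorem rt_xn_d_le {H Λ e : ℝ} {k : ℕ} (hH : 0 < H) (hΛ : 1 ≤ Λ) (hd : Λ * rdD H k ≤ e) : rdD H k ≤ e := by
  have h0 := (rt_xg_scales H hH k).1
  nlinarith

/-- the geometric hypothesis of `rt_xn_far` for the boxes -/
theorem rt_xn_far_geo (H : ℝ) (hH : 0 < H) (k₀ k : ℕ) (hk : k₀ ≤ k) (Λ T₀ α β γ : ℝ) (hΛ : 1 ≤ Λ) (hd : Λ * rdD H k ≤ 1 / 3000) (hα0 : 0 ≤ α) (hα : α ≤ 1 / 5) (hβ0 : 0 ≤ β)
    (z : RtZ) (hz : rtZr k z ∈ rtXnBx α β γ) (ht : |rtTm k z.1| ≤ 1) (x : RdWvPar.Ph)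
    (h : RtNear Λ (rdD H k) (rdQ H k₀) H ((RdWvPar.co 0 x).flow (rtTm k z.1 - T₀)) (RdWvPar.co 0 z.2)) :
    x ∈ rtXnS T₀ (α + 1 / 1000) (β + 1 / 1000) (γ + 1 / 1000) := by
  have hd0 := (rt_xg_scales H hH k).1
  have hd1 : rdD H k ≤ 1 / 3000 := rt_xn_d_le hH hΛ hd
  have hl : ∀ j : ℕ, rdLen j ≤ 1 := fun j => by
    unfold rdLen
    exact pow_le_one₀ (by norm_num) (by norm_num)
  have hq : rdQ H k₀ ≤ rdD H k := by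
    unfold rdQ rdD
    refine Real.sqrt_le_sqrt ?_
    rw [le_div_iff₀ (rdLen_pos k)]
    have h1 := mul_le_mul (hl k₀) (hl k) (rdLen_pos k).le zero_le_one
    nlinarith
  have hHd : H ≤ rdD H k := by
    have e := (rt_xg_scales H hH k).2.2
    have h1 : rdLen k * rdD H k ^ 2 ≤ 1 * rdD H k ^ 2 := mul_le_mul_of_nonneg_right (hl k) (sq_nonneg _)
    nlinarith
  by_contra hx
  have hx' : rtRay T₀ x ∉ rtXnBx (α + 1 / 3000) (β + 2 * (1 / 3000)) (γ + 3 * (1 / 3000)) := fun hc =>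
    hx (rt_xn_bx_mono (by linarith) (by linarith) (by linarith) (by linarith) (by linarith) hc)
  exact rt_xg_ps_far (k₀ := k₀) (k := k) (T := rtTm k z.1) (x' := z.2) hH (by linarith) hd
    ((mul_le_mul_of_nonneg_left hq (by linarith)).trans hd) ((mul_le_mul_of_nonneg_left hHd (by linarith)).trans hd) ht hα0 hβ0 (by linarith) hz hx' h

theorem rt_xn_tk_mono {Ψ : RtCh} {P : RtRow} {T α β γ lo hi α' β' γ' lo' hi' : ℝ} (h0 : 0 ≤ α) (h1 : 0 ≤ β) (hα : α ≤ α') (hβ : β ≤ β') (hγ : γ ≤ γ') (hlo : lo' ≤ lo) (hhi : hi ≤ hi')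
    (h : RtXnTk Ψ P T α β γ lo hi) : RtXnTk Ψ P T α' β' γ' lo' hi' :=
  ⟨h.1, rt_xn_bx_mono h0 h1 hα hβ hγ h.2.1, hlo.trans h.2.2.1, h.2.2.2.trans hhi⟩

/-- the numerology of a dual boost -/
theorem rt_xn_db_num {g α β γ α' β' γ' : ℝ} (hg0 : 0 ≤ g) (hα0 : 0 ≤ α) (hβ0 : 0 ≤ β) (hγ0 : 0 ≤ γ) (hg : g * α ≤ 1 / 2) (h1 : α ≤ α' * (1 - g * α))
    (h2 : β + g * γ + (2 * g * β + g ^ 2 * γ) * α' ≤ β') (h3 : γ + (2 * g * β + g ^ 2 * γ) * α' ^ 2 ≤ γ') :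
    0 ≤ α / (1 - g * α) ∧ α / (1 - g * α) ≤ α' ∧ 0 ≤ β + g * γ + (2 * g * β + g ^ 2 * γ) * (α / (1 - g * α)) ∧ β + g * γ + (2 * g * β + g ^ 2 * γ) * (α / (1 - g * α)) ≤ β' ∧
      γ + (2 * g * β + g ^ 2 * γ) * (α / (1 - g * α)) ^ 2 ≤ γ' := by
  have hp : 0 < 1 - g * α := by linarith
  have a0 : 0 ≤ α / (1 - g * α) := div_nonneg hα0 hp.le
  have a1 : α / (1 - g * α) ≤ α' := by rwa [div_le_iff₀ hp]
  have t0 : 0 ≤ 2 * g * β + g ^ 2 * γ := by positivity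
  refine ⟨a0, a1, by positivity, le_trans ?_ h2, le_trans ?_ h3⟩
  · have := mul_le_mul_of_nonneg_left a1 t0
    linarith
  · have := mul_le_mul_of_nonneg_left (pow_le_pow_left₀ a0 a1 2) t0
    linarith

/-- start of a tracking: one dual boost -/
theorem rt_xn_tk_db0 {g α β γ lo hi mt α' β' γ' lo' hi' : ℝ} (δ : ℝ) (P : RtRow) (T : ℝ) (hδ : |δ| ≤ g) (hα0 : 0 ≤ α) (hβ0 : 0 ≤ β)
    (hg : g * α ≤ 1 / 2) (hP : P ∈ rtXnBx α β γ) (hlo : lo ≤ T) (hhi : T ≤ hi) (h1 : α ≤ α' * (1 - g * α)) (h2 : β + g * γ + (2 * g * β + g ^ 2 * γ) * α' ≤ β')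
    (h3 : γ + (2 * g * β + g ^ 2 * γ) * α' ^ 2 ≤ γ') (hm1 : -mt ≤ lo) (hm2 : hi ≤ mt)
    (h4 : lo' + (2 * g * β + g ^ 2 * γ + mt * (2 * g * α + g ^ 2 * α ^ 2)) ≤ lo) (h5 : hi + (2 * g * β + g ^ 2 * γ + mt * (2 * g * α + g ^ 2 * α ^ 2)) ≤ hi') :
    RtXnTk (rtChDb δ) P T α' β' γ' lo' hi' := by
  have hg0 : 0 ≤ g := (abs_nonneg δ).trans hδ
  have hγ0 : 0 ≤ γ := (abs_nonneg _).trans hP.2.2
  obtain ⟨n0, n1, n2, n3, n4⟩ := rt_xn_db_num hg0 hα0 hβ0 hγ0 hg h1 h2 h3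
  have hrow := rt_xg_db_row hδ hα0 hβ0 (by linarith) hP
  have htm := rt_xg_db_time T hδ hα0 hβ0 hP
  have hT : |T| ≤ mt := abs_le.2 ⟨by linarith, by linarith⟩
  have hr : 0 ≤ 2 * g * α + g ^ 2 * α ^ 2 := by positivity
  have hb : |(rtChDb δ).tm P T - T| ≤ 2 * g * β + g ^ 2 * γ + mt * (2 * g * α + g ^ 2 * α ^ 2) := by
    have := mul_le_mul_of_nonneg_right hT hr
    linarith
  obtain ⟨b1, b2⟩ := abs_le.1 hb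
  refine ⟨?_, rt_xn_bx_mono n0 n2 n1 n3 n4 hrow, by linarith, by linarith⟩
  rw [(rt_xg_db_tm δ P T).2.2.1]
  exact one_ne_zero

/-- tracking through `DB ∘ Ψ` -/
theorem rt_xn_tk_db {g α β γ lo hi mt α' β' γ' lo' hi' : ℝ} (Ψ : RtCh) (δ : ℝ) (P : RtRow) (T : ℝ) (hδ : |δ| ≤ g) (hα0 : 0 ≤ α) (hβ0 : 0 ≤ β)
    (hg : g * α ≤ 1 / 2) (h : RtXnTk Ψ P T α β γ lo hi) (h1 : α ≤ α' * (1 - g * α)) (h2 : β + g * γ + (2 * g * β + g ^ 2 * γ) * α' ≤ β')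
    (h3 : γ + (2 * g * β + g ^ 2 * γ) * α' ^ 2 ≤ γ') (hm1 : -mt ≤ lo) (hm2 : hi ≤ mt)
    (h4 : lo' + (2 * g * β + g ^ 2 * γ + mt * (2 * g * α + g ^ 2 * α ^ 2)) ≤ lo) (h5 : hi + (2 * g * β + g ^ 2 * γ + mt * (2 * g * α + g ^ 2 * α ^ 2)) ≤ hi') :
    RtXnTk ((rtChDb δ).comp Ψ) P T α' β' γ' lo' hi' := by
  have hg0 : 0 ≤ g := (abs_nonneg δ).trans hδ
  have hγ0 : 0 ≤ γ := (abs_nonneg _).trans h.2.1.2.2
  obtain ⟨n0, n1, n2, n3, n4⟩ := rt_xn_db_num hg0 hα0 hβ0 hγ0 hg h1 h2 h3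
  exact rt_xn_tk_mono n0 n2 n1 n3 n4 (by linarith) (by linarith) (rt_xg_tk_db h hδ hα0 hβ0 (by linarith) hm1 hm2)

/-- tracking through `LENS ∘ Ψ` -/
theorem rt_xn_tk_ln {α β γ lo hi γ' lo' hi' : ℝ} (Ψ : RtCh) (c : ℝ) (P : RtRow) (T : ℝ) (hc : |c| ≤ 1) (hα0 : 0 ≤ α) (hβ0 : 0 ≤ β)
    (h : RtXnTk Ψ P T α β γ lo hi) (h3 : γ + β ^ 2 ≤ γ') (hm1 : -(3 / 5) ≤ lo) (hm2 : hi ≤ 3 / 5)
    (h4 : lo' * (1 + lo * c) ≤ lo) (h5 : hi ≤ hi' * (1 + hi * c)) :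
    RtXnTk ((rtChLn c).comp Ψ) P T (α + β) β γ' lo' hi' := by
  have hlh : lo ≤ hi := h.2.2.1.trans h.2.2.2
  obtain ⟨c1, c2⟩ := abs_le.1 hc
  have p1 : 0 < 1 + c * lo := by nlinarith
  have p2 : 0 < 1 + c * hi := by nlinarith
  refine rt_xn_tk_mono (by positivity) hβ0 le_rfl le_rfl h3 ?_ ?_ (rt_xg_tk_ln h hc hα0 hβ0 p1 p2)
  · rw [le_div_iff₀ p1]
    linarith
  · rw [div_le_iff₀ p2]
    linarith

theorem rt_xn_r_mono {Ψ : RtCh} {H : ℝ} {k k' : ℕ} {Λ Λ' α β γ lo hi : ℝ} {z z' : RtZ} (hH : 0 < H) (h0 : 0 ≤ Λ) (hΛ : Λ ≤ Λ') (h : RtXnR Ψ H k k' Λ α β γ lo hi z z') :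
    RtXnR Ψ H k k' Λ' α β γ lo hi z z' :=
  ⟨h.1, rt_xg_asp_mono hH h0 hΛ h.2⟩

theorem rt_xn_r_abs {Ψ : RtCh} {H : ℝ} {k k' : ℕ} {Λ α β γ lo hi M : ℝ} {z z' : RtZ} (hlo : -M ≤ lo) (hhi : hi ≤ M) (h : RtXnR Ψ H k k' Λ α β γ lo hi z z') :
    |Ψ.tm (rtZr k z) (rtTm k z.1)| ≤ M := abs_le.2 ⟨hlo.trans h.1.2.2.1, h.1.2.2.2.trans hhi⟩

/-- the row reached lies in the tracked box `+ 1/1000` -/
theorem rt_xn_r_row {Ψ : RtCh} {H : ℝ} {k k' : ℕ} {Λ α β γ lo hi : ℝ} {z z' : RtZ} (hH : 0 < H) (hΛ : 1 ≤ Λ) (hd : Λ * rdD H k' ≤ 1 / 3000) (hα0 : 0 ≤ α) (hα : α ≤ 1 / 5) (hβ0 : 0 ≤ β)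
    (hlo : -1 ≤ lo) (hhi : hi ≤ 1) (h : RtXnR Ψ H k k' Λ α β γ lo hi z z') : rtZr k' z' ∈ rtXnBx (α + 1 / 1000) (β + 1 / 1000) (γ + 1 / 1000) := by
  have h1 := (rt_xg_asp_bx (α := α) (β := β) (γ := γ) hH (by linarith) h.2 hd (by linarith [rt_xn_d_le hH hΛ hd]) (rt_xn_r_abs hlo hhi h) hα0 hβ0 (by linarith)).1 h.1.2.1
  exact rt_xn_bx_mono (by linarith) (by linarith) (by linarith) (by linarith) (by linarith) h1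

/-- the time of the row reached -/
theorem rt_xn_r_time {Ψ : RtCh} {H : ℝ} {k k' : ℕ} {Λ α β γ lo hi : ℝ} {z z' : RtZ} (h : RtXnR Ψ H k k' Λ α β γ lo hi z z') :
    lo - Λ * rdLen k' ≤ rtTm k' z'.1 ∧ rtTm k' z'.1 ≤ hi + Λ * rdLen k' := by
  have h0 : |Ψ.tm (rtZr k z) (rtTm k z.1) - rtTm k' z'.1| ≤ Λ * rdLen k' := h.2.1
  obtain ⟨a1, a2⟩ := abs_le.1 h0
  have b1 := h.1.2.2.1
  have b2 := h.1.2.2.2
  constructor <;> linarith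

/-- RE-CONFINEMENT: the row reached lies in a box, hence the tracked ray lies in the box `+ 1/1000` -/
theorem rt_xn_r_conf {Ψ : RtCh} {H : ℝ} {k k' : ℕ} {Λ α β γ lo hi a b c : ℝ} {z z' : RtZ} (hH : 0 < H) (hΛ : 1 ≤ Λ) (hd : Λ * rdD H k' ≤ 1 / 3000) (ha0 : 0 ≤ a) (ha : a ≤ 1 / 5) (hb0 : 0 ≤ b)
    (hlo : -1 ≤ lo) (hhi : hi ≤ 1) (h : RtXnR Ψ H k k' Λ α β γ lo hi z z') (hz : rtZr k' z' ∈ rtXnBx a b c) : RtXnR Ψ H k k' Λ (a + 1 / 1000) (b + 1 / 1000) (c + 1 / 1000) lo hi z z' := by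
  have h1 := (rt_xg_asp_bx (α := a) (β := b) (γ := c) hH (by linarith) h.2 hd (by linarith [rt_xn_d_le hH hΛ hd]) (rt_xn_r_abs hlo hhi h) ha0 hb0 (by linarith)).2 hz
  exact ⟨⟨h.1.1, rt_xn_bx_mono (by linarith) (by linarith) (by linarith) (by linarith) (by linarith) h1, h.1.2.2⟩, h.2⟩

/-- link through a dual boost arrow -/
theorem rt_xn_r_db {Ψ : RtCh} {H : ℝ} {k k' : ℕ} {Λ₁ Λ₂ δ g α β γ lo hi mt α' β' γ' lo' hi' : ℝ} {z z' z'' : RtZ} (hH : 0 < H) (hΛ₁ : 1 ≤ Λ₁) (hΛ₂ : 1 ≤ Λ₂) (hδ : |δ| ≤ g) (hg1 : g ≤ 1)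
    (hα0 : 0 ≤ α) (hα : α ≤ 1 / 10) (hβ0 : 0 ≤ β) (hd : Λ₁ * rdD H k' ≤ 1 / 10)
    (h1 : α ≤ α' * (1 - g * α)) (h2 : β + g * γ + (2 * g * β + g ^ 2 * γ) * α' ≤ β') (h3 : γ + (2 * g * β + g ^ 2 * γ) * α' ^ 2 ≤ γ') (hm1 : -mt ≤ lo) (hm2 : hi ≤ mt)
    (h4 : lo' + (2 * g * β + g ^ 2 * γ + mt * (2 * g * α + g ^ 2 * α ^ 2)) ≤ lo) (h5 : hi + (2 * g * β + g ^ 2 * γ + mt * (2 * g * α + g ^ 2 * α ^ 2)) ≤ hi')
    (h : RtXnR Ψ H k k' Λ₁ α β γ lo hi z z') (h' : RtAs (rtChDb δ) k' H k' Λ₂ z' z'') : RtXnR ((rtChDb δ).comp Ψ) H k k' (10 ^ 6 * Λ₁ ^ 4 * Λ₂ ^ 2) α' β' γ' lo' hi' z z'' := by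
  have hg0 : 0 ≤ g := (abs_nonneg δ).trans hδ
  refine ⟨rt_xn_tk_db Ψ δ _ _ hδ hα0 hβ0 (by nlinarith) h.1 h1 h2 h3 hm1 hm2 h4 h5, ?_⟩
  show RtAsP H k' _ ((rtChDb δ).row (Ψ.row (rtZr k z))) (((rtChDb δ).comp Ψ).tm (rtZr k z) (rtTm k z.1)) _ _
  rw [rt_ch_comp_tm _ _ _ _ h.1.1]
  exact rt_xg_ps_db hH (by linarith) hΛ₁ hΛ₂ (h.1.2.1.1.trans (pow_le_pow_left₀ hα0 hα 2)) hd h.2 h'

/-- link through a lens arrow -/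
theorem rt_xn_r_ln {Ψ : RtCh} {H : ℝ} {k k' : ℕ} {Λ₁ Λ₂ c α β γ lo hi γ' lo' hi' : ℝ} {z z' z'' : RtZ} (hH : 0 < H) (hΛ₁ : 1 ≤ Λ₁) (hΛ₂ : 1 ≤ Λ₂) (hc : |c| ≤ 1)
    (hα0 : 0 ≤ α) (hβ0 : 0 ≤ β) (hm1 : -(3 / 5) ≤ lo) (hm2 : hi ≤ 3 / 5) (hT : |rtTm k' z'.1| ≤ 7 / 8)
    (h3 : γ + β ^ 2 ≤ γ') (h4 : lo' * (1 + lo * c) ≤ lo) (h5 : hi ≤ hi' * (1 + hi * c))
    (h : RtXnR Ψ H k k' Λ₁ α β γ lo hi z z') (h' : RtAs (rtChLn c) k' H k' Λ₂ z' z'') : RtXnR ((rtChLn c).comp Ψ) H k k' (10 ^ 12 * Λ₁ ^ 4 * Λ₂ ^ 2) (α + β) β γ' lo' hi' z z'' := by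
  refine ⟨rt_xn_tk_ln Ψ c _ _ hc hα0 hβ0 h.1 h3 hm1 hm2 h4 h5, ?_⟩
  show RtAsP H k' _ ((rtChLn c).row (Ψ.row (rtZr k z))) (((rtChLn c).comp Ψ).tm (rtZr k z) (rtTm k z.1)) _ _
  rw [rt_ch_comp_tm _ _ _ _ h.1.1]
  exact rt_xg_ps_ln hH hc hΛ₁ hΛ₂ (rt_xn_r_abs (by linarith) (by linarith) h) hT h.2 h'

/-- link through a cut (relation of `rt_xk_cut`) -/
theorem rt_xn_r_tr {Ψ : RtCh} {H : ℝ} {k k' : ℕ} {Λ₁ Λ₂ α β γ lo hi : ℝ} {z z' z'' : RtZ} (hH : 0 < H) (hΛ₁ : 1 ≤ Λ₁) (hΛ₂ : 1 ≤ Λ₂)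
    (h : RtXnR Ψ H k k' Λ₁ α β γ lo hi z z') (h' : RtAs (rtChTr 0) k' H k' Λ₂ z' z'') : RtXnR Ψ H k k' (10 * Λ₁ ^ 2 * Λ₂ ^ 2) α β γ lo hi z z'' :=
  ⟨h.1, rt_xg_ps_tr hH hΛ₁ hΛ₂ h.2 h'⟩

/-- link through the change of cut `0 → 2` (relation of `rt_xk_chg`) -/
theorem rt_xn_r_chg {Ψ : RtCh} {H : ℝ} {k : ℕ} {Λ₁ Λ₂ α β γ lo hi : ℝ} {z z' z'' : RtZ} (hH : 0 < H) (hΛ₁ : 1 ≤ Λ₁) (hΛ₂ : 1 ≤ Λ₂) (hT : |rtTm 2 z''.1 - rtTm 0 z'.1| ≤ 1)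
    (h : RtXnR Ψ H k 0 Λ₁ α β γ lo hi z z') (h' : RtNear Λ₂ (rdD H 2) (rdQ H 0) H ((RdWvPar.co 0 z'.2).flow (rtTm 2 z''.1 - rtTm 0 z'.1)) (RdWvPar.co 0 z''.2)) :
    RtXnR Ψ H k 2 (10 ^ 4 * Λ₁ ^ 2 * Λ₂ ^ 4) α β γ lo hi z z'' :=
  ⟨h.1, rt_xg_ps_chg hH hΛ₁ hΛ₂ (by norm_num) (by norm_num) (by simpa [rdLen] using hT) h.2 h'⟩

/-- START of the OUT chain: one dual boost arrow from a row whose ray lies in a box -/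
theorem rt_xn_r_start {H : ℝ} {k : ℕ} {Λ δ g α β γ lo hi mt α' β' γ' lo' hi' : ℝ} {z z' : RtZ} (hδ : |δ| ≤ g) (hα0 : 0 ≤ α) (hβ0 : 0 ≤ β) (hg : g * α ≤ 1 / 2)
    (hz : rtZr k z ∈ rtXnBx α β γ) (hlo : lo ≤ rtTm k z.1) (hhi : rtTm k z.1 ≤ hi) (h1 : α ≤ α' * (1 - g * α)) (h2 : β + g * γ + (2 * g * β + g ^ 2 * γ) * α' ≤ β')
    (h3 : γ + (2 * g * β + g ^ 2 * γ) * α' ^ 2 ≤ γ') (hm1 : -mt ≤ lo) (hm2 : hi ≤ mt)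
    (h4 : lo' + (2 * g * β + g ^ 2 * γ + mt * (2 * g * α + g ^ 2 * α ^ 2)) ≤ lo) (h5 : hi + (2 * g * β + g ^ 2 * γ + mt * (2 * g * α + g ^ 2 * α ^ 2)) ≤ hi')
    (h : RtAs (rtChDb δ) k H k Λ z z') : RtXnR (rtChDb δ) H k k Λ α' β' γ' lo' hi' z z' :=
  ⟨rt_xn_tk_db0 δ _ _ hδ hα0 hβ0 hg hz hlo hhi h1 h2 h3 hm1 hm2 h4 h5, h⟩

/-- START of the IN chain: a cut, then one dual boost arrow;   the row `z'` of the cut lies in the box `(α, β, γ) - 1/1000`, so the ray of `z` lies in the box `(α, β, γ)` -/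
theorem rt_xn_r_start_in {H : ℝ} {k : ℕ} {Λ₁ Λ₂ δ g α β γ lo hi mt α' β' γ' lo' hi' : ℝ} {z z' z'' : RtZ} (hH : 0 < H) (hΛ₁ : 1 ≤ Λ₁) (hΛ₂ : 1 ≤ Λ₂) (hδ : |δ| ≤ g) (hg1 : g ≤ 1)
    (hα0 : 1 / 1000 ≤ α) (hα : α ≤ 1 / 10) (hβ0 : 1 / 1000 ≤ β) (hlo : lo ≤ rtTm k z.1) (hhi : rtTm k z.1 ≤ hi) (hd : Λ₁ * rdD H k ≤ 1 / 3000)
    (h1 : α ≤ α' * (1 - g * α)) (h2 : β + g * γ + (2 * g * β + g ^ 2 * γ) * α' ≤ β') (h3 : γ + (2 * g * β + g ^ 2 * γ) * α' ^ 2 ≤ γ') (hm1 : -mt ≤ lo) (hm2 : hi ≤ mt) (hmt : mt ≤ 1)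
    (h4 : lo' + (2 * g * β + g ^ 2 * γ + mt * (2 * g * α + g ^ 2 * α ^ 2)) ≤ lo) (h5 : hi + (2 * g * β + g ^ 2 * γ + mt * (2 * g * α + g ^ 2 * α ^ 2)) ≤ hi')
    (hz : rtZr k z' ∈ rtXnBx (α - 1 / 1000) (β - 1 / 1000) (γ - 1 / 1000)) (h : RtAs (rtChTr 0) k H k Λ₁ z z') (h' : RtAs (rtChDb δ) k H k Λ₂ z' z'') :
    RtXnR (rtChDb δ) H k k (10 ^ 6 * Λ₁ ^ 4 * Λ₂ ^ 2) α' β' γ' lo' hi' z z'' := by
  have a : RtAsP H k Λ₁ (rtZr k z) (rtTm k z.1) (rtTm k z'.1) z'.2 := by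
    have h0 : RtAsP H k Λ₁ ((rtChTr 0).row (rtZr k z)) ((rtChTr 0).tm (rtZr k z) (rtTm k z.1)) (rtTm k z'.1) z'.2 := h
    rwa [(rt_xg_tr_fm _ _).1, (rt_xg_tr_fm (rtZr k z) 0).2.2] at h0
  have hT : |rtTm k z.1| ≤ 1 := abs_le.2 ⟨by linarith, by linarith⟩
  have hb := (rt_xg_asp_bx (α := α - 1 / 1000) (β := β - 1 / 1000) (γ := γ - 1 / 1000) hH (by linarith) a hd (by linarith [rt_xn_d_le hH hΛ₁ hd]) hT (by linarith) (by linarith) (by linarith)).2 hz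
  have hP : rtZr k z ∈ rtXnBx α β γ := rt_xn_bx_mono (by linarith) (by linarith) (by linarith) (by linarith) (by linarith) hb
  have hg0 : 0 ≤ g := (abs_nonneg δ).trans hδ
  refine ⟨rt_xn_tk_db0 δ _ _ hδ (by linarith) (by linarith) (by nlinarith) hP hlo hhi h1 h2 h3 hm1 hm2 h4 h5, ?_⟩
  exact rt_xg_ps_db hH (by linarith) hΛ₁ hΛ₂ (hP.1.trans (pow_le_pow_left₀ (by linarith) hα 2)) (by linarith) a h'

/-- the region of a dual boost arrow -/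
theorem rt_xn_w_db (k : ℕ) (δ : ℝ) (z : RtZ) (hδ : |δ| ≤ 1) (hz : rtZr k z ∈ rtXnBx (6 / 100) (4 / 100) (2 / 100)) :
    |rtZt (rtChDb δ) k z - rtTm k z.1| ≤ 1 / 10 + |rtTm k z.1| / 8 := by
  have h := rt_xg_db_time (rtTm k z.1) hδ (by norm_num) (by norm_num) hz
  have h0 := abs_nonneg (rtTm k z.1)
  have e : rtZt (rtChDb δ) k z = (rtChDb δ).tm (rtZr k z) (rtTm k z.1) := rfl
  rw [e]
  linarith

/-- the region of a lens arrow -/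
theorem rt_xn_w_ln (k : ℕ) (c : ℝ) (z : RtZ) : rtZt (rtChLn c) k z = rtTm k z.1 / (1 + c * rtTm k z.1) := rt_xg_win_ln c k z

/-! ## 3c. Generic links of the chains      (helper222; used by `rt_xn_out2`, `rt_xn_out`; free for every other leaf of this file) -/

/-- BOOKKEEPING OF THE CONSTANTS: a stage `(C₁, m₁)` followed by a link `(C₂, m₂)` is a stage `(C, (m₁ + 1) m₂)`.   `R`, `R'` = the relations as functions of `Λ` (monotone), `d`, `l` = the two small scales, `E` = the unit of the errors. -/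
theorem rt_xn_lk_comp (N : ℕ) (C₁ : ℝ) (m₁ : ℕ) (C₂ : ℝ) (m₂ : ℕ) (h1 : 1 ≤ C₁) (h2 : 1 ≤ C₂) (hm2 : 1 ≤ m₂) :
    ∃ C : ℝ, C₁ ≤ C ∧ C₂ ≤ C ∧ ∀ (ζ : Measure RtZ) (D : RtZ → ℝ≥0∞) (ζ' : Measure RtZ) (D' : RtZ → ℝ≥0∞) (ζ'' : Measure RtZ) (D'' : RtZ → ℝ≥0∞) (Z0 : Set RtZ)
      (R R' : ℝ → RtZ → RtZ → Prop) (d l E Λ : ℝ), 0 ≤ d → 0 ≤ l → 0 ≤ E →
      (∀ (Λ₁ Λ₂ : ℝ) (z z' : RtZ), 0 ≤ Λ₁ → Λ₁ ≤ Λ₂ → R Λ₁ z z' → R Λ₂ z z') → (∀ (Λ₁ Λ₂ : ℝ) (z z' : RtZ), 0 ≤ Λ₁ → Λ₁ ≤ Λ₂ → R' Λ₁ z z' → R' Λ₂ z z') →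
      (C₁ ≤ Λ → C₁ * Λ ^ m₁ * d ≤ 1 → C₁ * Λ ^ m₁ * l ≤ 1 →
        RtXf ζ D ζ' D' (R (C₁ * Λ ^ m₁)) Z0 (ENNReal.ofReal C₁) (ENNReal.ofReal (C₁ * Λ ^ (-(N : ℝ)) * E))) →
      (∀ (Λ' : ℝ) (A ε : ℝ≥0∞), C₂ ≤ Λ' → C₂ * Λ' ^ m₂ * d ≤ 1 → C₂ * Λ' ^ m₂ * l ≤ 1 → RtXf ζ D ζ' D' (R Λ') Z0 A ε →
        RtXf ζ D ζ'' D'' (R' (C₂ * Λ' ^ m₂)) Z0 (A * ENNReal.ofReal C₂) (ε + A * ENNReal.ofReal (C₂ * Λ' ^ (-(N : ℝ)) * E))) →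
      C ≤ Λ → C * Λ ^ ((m₁ + 1) * m₂) * d ≤ 1 → C * Λ ^ ((m₁ + 1) * m₂) * l ≤ 1 →
      RtXf ζ D ζ'' D'' (R' (C * Λ ^ ((m₁ + 1) * m₂))) Z0 (ENNReal.ofReal C) (ENNReal.ofReal (C * Λ ^ (-(N : ℝ)) * E)) := by
  have hK0 : 0 ≤ C₂ * C₁ ^ m₂ := by positivity
  have hK1 : 0 ≤ C₁ * C₂ := by positivity
  refine ⟨C₂ * C₁ ^ m₂ + C₁ * C₂ + C₁ + C₂, by linarith, by linarith, ?_⟩
  intro ζ D ζ' D' ζ'' D'' Z0 R R' d l E Λ hd hl hE hR hR' H1 H2 hΛ hCd hCl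
  generalize hC : C₂ * C₁ ^ m₂ + C₁ * C₂ + C₁ + C₂ = C at *
  have hΛ1 : 1 ≤ Λ := by linarith
  have hΛ0 : 0 < Λ := by linarith
  have a1 : C₁ * Λ ^ m₁ ≤ C₁ * Λ ^ (m₁ + 1) := by
    have : Λ ^ m₁ ≤ Λ ^ (m₁ + 1) := pow_le_pow_right₀ hΛ1 (by omega)
    gcongr
  have a2 : Λ ≤ C₁ * Λ ^ (m₁ + 1) := by
    have : Λ ^ 1 ≤ Λ ^ (m₁ + 1) := pow_le_pow_right₀ hΛ1 (by omega)
    calc Λ = 1 * Λ ^ 1 := by ring
      _ ≤ C₁ * Λ ^ (m₁ + 1) := by gcongr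
  generalize hΛ' : C₁ * Λ ^ (m₁ + 1) = Λ' at *
  have hΛ'1 : 1 ≤ Λ' := hΛ1.trans a2
  have a3 : Λ' ≤ C₂ * Λ' ^ m₂ := by
    have : Λ' ^ 1 ≤ Λ' ^ m₂ := pow_le_pow_right₀ hΛ'1 hm2
    calc Λ' = 1 * Λ' ^ 1 := by ring
      _ ≤ C₂ * Λ' ^ m₂ := by gcongr
  have a4 : C₂ * Λ' ^ m₂ = C₂ * C₁ ^ m₂ * Λ ^ ((m₁ + 1) * m₂) := by
    rw [← hΛ', mul_pow, ← pow_mul]
    ring
  have a5 : C₂ * Λ' ^ m₂ ≤ C * Λ ^ ((m₁ + 1) * m₂) := by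
    rw [a4]
    have : C₂ * C₁ ^ m₂ ≤ C := by linarith
    gcongr
  have b1 : ∀ x : ℝ, 0 ≤ x → C * Λ ^ ((m₁ + 1) * m₂) * x ≤ 1 → C₂ * Λ' ^ m₂ * x ≤ 1 := fun x hx h => (mul_le_mul_of_nonneg_right a5 hx).trans h
  have b2 : ∀ x : ℝ, 0 ≤ x → C * Λ ^ ((m₁ + 1) * m₂) * x ≤ 1 → C₁ * Λ ^ m₁ * x ≤ 1 := fun x hx h =>
    (mul_le_mul_of_nonneg_right (a1.trans a3) hx).trans (b1 x hx h)
  have s1 := H1 (by linarith) (b2 d hd hCd) (b2 l hl hCl)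
  have s2 : RtXf ζ D ζ' D' (R Λ') Z0 (ENNReal.ofReal C₁) (ENNReal.ofReal (C₁ * Λ ^ (-(N : ℝ)) * E)) :=
    rt_xa_mono s1 (fun z _ z' h => hR _ _ z z' (by positivity) a1 h) subset_rfl le_rfl le_rfl
  have s3 := H2 Λ' _ _ (by linarith) (b1 d hd hCd) (b1 l hl hCl) s2
  have hpw : Λ' ^ (-(N : ℝ)) ≤ Λ ^ (-(N : ℝ)) := Real.rpow_le_rpow_of_nonpos hΛ0 a2 (by simp)
  have hp0 : 0 ≤ Λ' ^ (-(N : ℝ)) := by positivity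
  have hp1 : 0 ≤ Λ ^ (-(N : ℝ)) := by positivity
  refine rt_xa_mono s3 (fun z _ z' h => hR' _ _ z z' (by positivity) a5 h) subset_rfl ?_ ?_
  · rw [← ENNReal.ofReal_mul (by linarith)]
    exact ENNReal.ofReal_le_ofReal (by linarith)
  · refine rt_xn_ofReal_link (by positivity) (by linarith) (by positivity) ?_
    have e1 : C₂ * Λ' ^ (-(N : ℝ)) * E ≤ C₂ * Λ ^ (-(N : ℝ)) * E := by gcongr
    have e2 : C₁ * (C₂ * Λ' ^ (-(N : ℝ)) * E) ≤ C₁ * (C₂ * Λ ^ (-(N : ℝ)) * E) := by gcongr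
    have e3 : (C₁ + C₁ * C₂) * (Λ ^ (-(N : ℝ)) * E) ≤ C * (Λ ^ (-(N : ℝ)) * E) := by
      have : C₁ + C₁ * C₂ ≤ C := by linarith
      gcongr
    nlinarith [e2, e3]

/-- from `C Λ^m x ≤ 1`, `3000 ≤ C`, `1 ≤ m`, `1 ≤ Λ` : `Λ x ≤ 1/3000` -/
theorem rt_xn_lk_small {C Λ x : ℝ} {m : ℕ} (hC : 3000 ≤ C) (hm : 1 ≤ m) (hΛ : 1 ≤ Λ) (hx : 0 ≤ x) (h : C * Λ ^ m * x ≤ 1) : Λ * x ≤ 1 / 3000 := by
  have h1 : Λ ^ 1 ≤ Λ ^ m := pow_le_pow_right₀ hΛ hm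
  have h2 : 3000 * Λ ^ 1 * x ≤ C * Λ ^ m * x := by gcongr
  rw [pow_one] at h2
  linarith

theorem rt_xn_lk_eps {ε A : ℝ≥0∞} {a b : ℝ} (h : a ≤ b) : ε + A * ENNReal.ofReal a ≤ ε + A * ENNReal.ofReal b := by
  gcongr

theorem rt_xn_lk_A {A : ℝ≥0∞} {a b : ℝ} (h : a ≤ b) : A * ENNReal.ofReal a ≤ A * ENNReal.ofReal b := by
  gcongr

/-- `d` increases with the depth -/
theorem rt_xn_lk_d2 {H : ℝ} (hH : 0 < H) {k : ℕ} (hk : 2 ≤ k) : rdD H 2 ≤ rdD H k := by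
  have h1 : rdLen k ≤ rdLen 2 := pow_le_pow_of_le_one (by norm_num) (by norm_num) hk
  exact Real.sqrt_le_sqrt (div_le_div_of_nonneg_left hH.le (rdLen_pos k) h1)

/-- LINK: a cut of depth `0` in the OUT chain (`rt_xn_far`, `rt_xn_far_geo`).   Tracked box `(α, β, γ)`, rows in the box `+1`, cut box `≥ +2`.   Exponent `1`. -/
theorem rt_xn_lk_far (bm N : ℕ) : ∃ C : ℝ, 3000 ≤ C ∧ ∀ (p : RdWvPar) (k b : ℕ) (α β γ lo hi a' b' c' : ℝ) (Ψ : RtCh) (v w : RtKc)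
    (ζ : Measure RtZ) (D : RtZ → ℝ≥0∞) (Z0 : Set RtZ), b ≤ bm → 0 ≤ α → α + 1 / 1000 ≤ 1 / 5 → 0 ≤ β → -(249 / 1000) ≤ lo → hi ≤ 749 / 1000 →
    α + 2 / 1000 ≤ a' → β + 2 / 1000 ≤ b' → γ + 2 / 1000 ≤ c' → p.Spec b v → ‖v‖ ≤ 8 * ‖w‖ →
    ∀ (Λ : ℝ) (A ε : ℝ≥0∞), C ≤ Λ → C * Λ ^ 1 * rdD p.H k ≤ 1 → C * Λ ^ 1 * rdLen k ≤ 1 →
      RtXf ζ D (rtVm p k) (rtVd p k b v) (RtXnR Ψ p.H k k Λ α β γ lo hi) Z0 A ε →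
      RtXf ζ D (rtVm p k) (rtVd p k b (rtCut p (rtTm 0 0) 0 b (rtXnS (-(1 / 4)) a' b' c') v)) (RtXnR Ψ p.H k k (C * Λ ^ 1) α β γ lo hi) Z0 (A * ENNReal.ofReal C)
        (ε + A * ENNReal.ofReal (C * Λ ^ (-(N : ℝ)) * (2 ^ (2 * k) * ‖w‖ ^ 2))) := by
  obtain ⟨Cf, hCf, hf⟩ := rt_xn_far bm N
  refine ⟨64 * Cf + 3000, by linarith, ?_⟩
  intro p k b α β γ lo hi a' b' c' Ψ v w ζ D Z0 hb hα0 hα hβ0 hlo hhi ha' hb' hc' hv hvw Λ A ε hΛ hd hl h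
  have hΛ1 : 1 ≤ Λ := by linarith
  have hΛ0 : 0 < Λ := by linarith
  have hd0 : 0 ≤ rdD p.H k := Real.sqrt_nonneg _
  have hl0 : 0 ≤ rdLen k := (rdLen_pos k).le
  have hd1 : Λ * rdD p.H k ≤ 1 / 3000 := rt_xn_lk_small (by linarith) le_rfl hΛ1 hd0 hd
  have hl1 : Λ * rdLen k ≤ 1 / 3000 := rt_xn_lk_small (by linarith) le_rfl hΛ1 hl0 hl
  have ht0 : rtTm 0 0 = -(1 / 4) := (rt_xg_clock 0 0 (by norm_num)).2.2.1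
  have far := hf p 0 0 k b b Λ (rtXnS (-(1 / 4)) a' b' c') (rtXnZ k (α + 1 / 1000) (β + 1 / 1000) (γ + 1 / 1000)) v hb hb hΛ1 (rt_xg_S_meas _ _ _ _) (rt_xg_Z_meas _ _ _ _).1 hv
    (fun z hz => ⟨Nat.zero_le k, by rw [ht0]; exact hz.1, by rw [ht0]; have := hz.2.1; norm_num; linarith⟩)
    (fun z hz x hx => by
      have ht : |rtTm k z.1| ≤ 1 := by
        rw [abs_le]
        constructor <;> linarith [hz.1, hz.2.1]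
      have := rt_xn_far_geo p.H p.H_pos 0 k (Nat.zero_le k) Λ (rtTm 0 0) (α + 1 / 1000) (β + 1 / 1000) (γ + 1 / 1000) hΛ1 hd1 (by linarith) hα (by linarith) z hz.2.2 ht x hx
      rw [ht0] at this
      exact rt_xn_bx_mono (by linarith) (by linarith) (by linarith) (by linarith) (by linarith) this)
  have hmono : Λ ≤ (64 * Cf + 3000) * Λ ^ 1 := by
    rw [pow_one]
    nlinarith
  refine rt_xn_chain h far ?_ ?_ ?_ ?_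
  · intro z _ z' hzz
    have t := rt_xn_r_time hzz
    exact ⟨by linarith [t.1], by linarith [t.2], rt_xn_r_row p.H_pos hΛ1 hd1 hα0 (by linarith) hβ0 (by linarith) (by linarith) hzz⟩
  · intro z _ z' z'' hzz e
    rw [e]
    exact rt_xn_r_mono p.H_pos hΛ0.le hmono hzz
  · rw [show (2 : ℝ≥0∞) = ENNReal.ofReal 2 by simp]
    exact rt_xn_lk_A (by linarith)
  · refine rt_xn_lk_eps ?_
    have hp1 : 0 ≤ Λ ^ (-(N : ℝ)) := by positivity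
    have hv2 : ‖v‖ ^ 2 ≤ 64 * ‖w‖ ^ 2 := by
      calc ‖v‖ ^ 2 ≤ (8 * ‖w‖) ^ 2 := pow_le_pow_left₀ (norm_nonneg _) hvw 2
        _ = 64 * ‖w‖ ^ 2 := by ring
    calc Cf * Λ ^ (-(N : ℝ)) * 2 ^ (2 * k) * ‖v‖ ^ 2 ≤ Cf * Λ ^ (-(N : ℝ)) * 2 ^ (2 * k) * (64 * ‖w‖ ^ 2) := by gcongr
      _ = 64 * Cf * Λ ^ (-(N : ℝ)) * (2 ^ (2 * k) * ‖w‖ ^ 2) := by ring
      _ ≤ (64 * Cf + 3000) * Λ ^ (-(N : ℝ)) * (2 ^ (2 * k) * ‖w‖ ^ 2) := by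
        have : 64 * Cf ≤ 64 * Cf + 3000 := by linarith
        gcongr

/-- the error of an arrow in the unit of the chain -/
theorem rt_xn_lk_err {Ca C x nu nw : ℝ} (k : ℕ) (hCa : 0 ≤ Ca) (hC : 64 * Ca ≤ C) (hx : 0 ≤ x) (h0 : 0 ≤ nu) (h : nu ≤ 8 * nw) :
    Ca * x * 2 ^ k * nu ^ 2 ≤ C * x * (2 ^ (2 * k) * nw ^ 2) := by
  have hv2 : nu ^ 2 ≤ 64 * nw ^ 2 := by
    calc nu ^ 2 ≤ (8 * nw) ^ 2 := pow_le_pow_left₀ h0 h 2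
      _ = 64 * nw ^ 2 := by ring
  have hk : (2 : ℝ) ^ k ≤ 2 ^ (2 * k) := pow_le_pow_right₀ (by norm_num) (by omega)
  calc Ca * x * 2 ^ k * nu ^ 2 ≤ Ca * x * 2 ^ (2 * k) * (64 * nw ^ 2) := by gcongr
    _ = 64 * Ca * x * (2 ^ (2 * k) * nw ^ 2) := by ring
    _ ≤ C * x * (2 ^ (2 * k) * nw ^ 2) := by gcongr

/-- LINK: a dual boost arrow (`rt_xd_arrow` with `γ = -δ`, `rt_xn_r_db`, `rt_xn_w_db`).   Exponent `6`. -/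
theorem rt_xn_lk_db (bm N : ℕ) : ∃ C : ℝ, 3000 ≤ C ∧ ∀ (p : RdWvPar) (k b b' : ℕ) (δ g α β γ lo hi mt α' β' γ' lo' hi' : ℝ) (Ψ : RtCh) (u w : RtKc)
    (ζ : Measure RtZ) (D : RtZ → ℝ≥0∞) (Z0 : Set RtZ), b ≤ bm → b' ≤ bm → |δ| ≤ g → g ≤ 1 → 0 ≤ α → α + 1 / 1000 ≤ 6 / 100 → 0 ≤ β → β + 1 / 1000 ≤ 4 / 100 → γ + 1 / 1000 ≤ 2 / 100 →
    -(1 / 10) ≤ lo → hi ≤ 1 / 2 → α ≤ α' * (1 - g * α) → β + g * γ + (2 * g * β + g ^ 2 * γ) * α' ≤ β' → γ + (2 * g * β + g ^ 2 * γ) * α' ^ 2 ≤ γ' → -mt ≤ lo → hi ≤ mt →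
    lo' + (2 * g * β + g ^ 2 * γ + mt * (2 * g * α + g ^ 2 * α ^ 2)) ≤ lo → hi + (2 * g * β + g ^ 2 * γ + mt * (2 * g * α + g ^ 2 * α ^ 2)) ≤ hi' →
    p.Spec b u → RtCone (1 / 10) u → ‖u‖ ≤ 8 * ‖w‖ →
    ∀ (Λ : ℝ) (A ε : ℝ≥0∞), C ≤ Λ → C * Λ ^ 6 * rdD p.H k ≤ 1 → C * Λ ^ 6 * rdLen k ≤ 1 →
      RtXf ζ D (rtVm p k) (rtVd p k b' (rtXdOp (-δ) u)) (RtXnR Ψ p.H k k Λ α β γ lo hi) Z0 A ε →
      RtXf ζ D (rtVm p k) (rtVd p k b u) (RtXnR ((rtChDb δ).comp Ψ) p.H k k (C * Λ ^ 6) α' β' γ' lo' hi') Z0 (A * ENNReal.ofReal C)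
        (ε + A * ENNReal.ofReal (C * Λ ^ (-(N : ℝ)) * (2 ^ (2 * k) * ‖w‖ ^ 2))) := by
  obtain ⟨Ca, hCa, ha⟩ := rt_xd_arrow bm N
  refine ⟨64 * Ca + 10 ^ 6, by linarith, ?_⟩
  intro p k b b' δ g α β γ lo hi mt α' β' γ' lo' hi' Ψ u w ζ D Z0 hb hb' hδ hg hα0 hα hβ0 hβ hγ hlo hhi n1 n2 n3 n4 n5 n6 n7 hu hcone huw Λ A ε hΛ hd hl h
  have hΛ1 : 1 ≤ Λ := by linarith
  have hΛ0 : 0 < Λ := by linarith
  have hd0 : 0 ≤ rdD p.H k := Real.sqrt_nonneg _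
  have hl0 : 0 ≤ rdLen k := (rdLen_pos k).le
  have hd1 : Λ * rdD p.H k ≤ 1 / 3000 := rt_xn_lk_small (by linarith) (by omega) hΛ1 hd0 hd
  have hl1 : Λ * rdLen k ≤ 1 / 3000 := rt_xn_lk_small (by linarith) (by omega) hΛ1 hl0 hl
  have hd2 : rdD p.H k ≤ 1 / 100 := by nlinarith
  have hδ1 : |δ| ≤ 1 := hδ.trans hg
  have arrow := ha p k b b' (-δ) Λ u hb hb' (by rw [abs_neg]; linarith) (by linarith) hd2 hu hcone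
  rw [neg_neg] at arrow
  have hmono : 10 ^ 6 * Λ ^ 4 * Λ ^ 2 ≤ (64 * Ca + 10 ^ 6) * Λ ^ 6 := by
    have h1 : (10 : ℝ) ^ 6 * Λ ^ 4 * Λ ^ 2 = 10 ^ 6 * Λ ^ 6 := by ring
    have h2 : (10 : ℝ) ^ 6 ≤ 64 * Ca + 10 ^ 6 := by linarith
    rw [h1]
    gcongr
  refine rt_xn_chain h arrow ?_ ?_ (rt_xn_lk_A (by linarith)) ?_
  · intro z _ z' hzz
    have t := rt_xn_r_time hzz
    have bx := rt_xn_r_row p.H_pos hΛ1 hd1 hα0 (by linarith) hβ0 (by linarith) (by linarith) hzz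
    have wd := abs_le.1 (rt_xn_w_db k δ z' hδ1 (rt_xn_bx_mono (by linarith) (by linarith) hα hβ hγ bx))
    show -(1 / 4) - rdLen k ≤ rtZt (rtChDb δ) k z' ∧ rtZt (rtChDb δ) k z' ≤ 3 / 4
    rcases abs_cases (rtTm k z'.1) with ⟨e, _⟩ | ⟨e, _⟩ <;> rw [e] at wd <;> constructor <;> linarith [wd.1, wd.2, t.1, t.2]
  · intro z _ z' z'' hzz has
    exact rt_xn_r_mono p.H_pos (by positivity) hmono
      (rt_xn_r_db p.H_pos hΛ1 hΛ1 hδ hg hα0 (by linarith) hβ0 (by linarith) n1 n2 n3 n4 n5 n6 n7 hzz has)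
  · refine rt_xn_lk_eps ?_
    exact rt_xn_lk_err k (by linarith) (by linarith) (by positivity) (norm_nonneg _) huw

/-- LINK: a lens arrow (`rt_xl_arrow` with `c := -c`, `rt_xn_r_ln`, `rt_xn_w_ln`).   Exponent `6`. -/
theorem rt_xn_lk_ln (bm N : ℕ) : ∃ C : ℝ, 3000 ≤ C ∧ ∀ (p : RdWvPar) (k b b' : ℕ) (c α β γ lo hi γ' lo' hi' : ℝ) (Ψ : RtCh) (u w : RtKc)
    (ζ : Measure RtZ) (D : RtZ → ℝ≥0∞) (Z0 : Set RtZ), b ≤ bm → b' ≤ bm → |c| ≤ 1 → 0 ≤ α → 0 ≤ β →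
    -(1 / 10) ≤ lo → hi ≤ 42 / 100 → γ + β ^ 2 ≤ γ' → lo' * (1 + lo * c) ≤ lo → hi ≤ hi' * (1 + hi * c) → p.Spec b u → ‖u‖ ≤ 8 * ‖w‖ →
    ∀ (Λ : ℝ) (A ε : ℝ≥0∞), C ≤ Λ → C * Λ ^ 6 * rdD p.H k ≤ 1 → C * Λ ^ 6 * rdLen k ≤ 1 →
      RtXf ζ D (rtVm p k) (rtVd p k b' (rtXlOp (-c) u)) (RtXnR Ψ p.H k k Λ α β γ lo hi) Z0 A ε →
      RtXf ζ D (rtVm p k) (rtVd p k b u) (RtXnR ((rtChLn c).comp Ψ) p.H k k (C * Λ ^ 6) (α + β) β γ' lo' hi') Z0 (A * ENNReal.ofReal C)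
        (ε + A * ENNReal.ofReal (C * Λ ^ (-(N : ℝ)) * (2 ^ (2 * k) * ‖w‖ ^ 2))) := by
  obtain ⟨Ca, hCa, ha⟩ := rt_xl_arrow bm N
  refine ⟨64 * Ca + 10 ^ 12, by linarith, ?_⟩
  intro p k b b' c α β γ lo hi γ' lo' hi' Ψ u w ζ D Z0 hb hb' hc hα0 hβ0 hlo hhi n1 n2 n3 hu huw Λ A ε hΛ hd hl h
  have hΛ1 : 1 ≤ Λ := by linarith
  have hΛ0 : 0 < Λ := by linarith
  have hl0 : 0 ≤ rdLen k := (rdLen_pos k).le
  have hl1 : Λ * rdLen k ≤ 1 / 3000 := rt_xn_lk_small (by linarith) (by omega) hΛ1 hl0 hl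
  have arrow := ha p k b b' (-c) Λ u hb hb' (by rw [abs_neg]; exact hc) hΛ1 hu
  rw [neg_neg] at arrow
  have hmono : 10 ^ 12 * Λ ^ 4 * Λ ^ 2 ≤ (64 * Ca + 10 ^ 12) * Λ ^ 6 := by
    have h1 : (10 : ℝ) ^ 12 * Λ ^ 4 * Λ ^ 2 = 10 ^ 12 * Λ ^ 6 := by ring
    have h2 : (10 : ℝ) ^ 12 ≤ 64 * Ca + 10 ^ 12 := by linarith
    rw [h1]
    gcongr
  have hc' := abs_le.1 hc
  refine rt_xn_chain h arrow ?_ ?_ (rt_xn_lk_A (by linarith)) ?_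
  · intro z _ z' hzz
    have t := rt_xn_r_time hzz
    show -(1 / 4) - rdLen k ≤ rtZt (rtChLn c) k z' ∧ rtZt (rtChLn c) k z' ≤ 3 / 4
    rw [rt_xn_w_ln]
    generalize rtTm k z'.1 = T at *
    have hT1 : -(101 / 1000) ≤ T := by linarith [t.1]
    have hT2 : T ≤ 421 / 1000 := by linarith [t.2]
    have hden : 0 < 1 + c * T := by nlinarith [hc'.1, hc'.2]
    constructor
    · rw [le_div_iff₀ hden]
      nlinarith [hc'.1, hc'.2]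
    · rw [div_le_iff₀ hden]
      nlinarith [hc'.1, hc'.2]
  · intro z _ z' z'' hzz has
    have t := rt_xn_r_time hzz
    have ht : |rtTm k z'.1| ≤ 7 / 8 := by
      rw [abs_le]
      constructor <;> linarith [t.1, t.2]
    exact rt_xn_r_mono p.H_pos (by positivity) hmono
      (rt_xn_r_ln p.H_pos hΛ1 hΛ1 hc hα0 hβ0 (by linarith) (by linarith) ht n1 n2 n3 hzz has)
  · refine rt_xn_lk_eps ?_
    exact rt_xn_lk_err k (by linarith) (by linarith) (by positivity) (norm_nonneg _) huw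

/-! ## 4. The OUT chain -/

/-- the window of a lens arrow -/
theorem rt_xn_o_win {t l c lo hi : ℝ} (hl : 0 ≤ l) (hc : |c| ≤ 1) (h1 : lo ≤ t) (h2 : t ≤ hi) (hlo : -(1 / 5) ≤ lo) (hhi : hi ≤ 3 / 7) :
    -(1 / 4) - l ≤ t / (1 + c * t) ∧ t / (1 + c * t) ≤ 3 / 4 := by
  rw [abs_le] at hc
  have hden : 0 < 1 + c * t := by nlinarith [hc.1, hc.2]
  exact ⟨by rw [le_div_iff₀ hden]; nlinarith [hc.1, hc.2], by rw [div_le_iff₀ hden]; nlinarith [hc.1, hc.2]⟩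

theorem rt_xn_o_dmono {H : ℝ} (hH : 0 < H) {k₀ k : ℕ} (hk : k₀ ≤ k) : rdD H k₀ ≤ rdD H k := by
  unfold rdD
  refine Real.sqrt_le_sqrt (div_le_div_of_nonneg_left hH.le (rdLen_pos k) ?_)
  unfold rdLen
  exact pow_le_pow_of_le_one (by norm_num) (by norm_num) hk

/-- LEAF `L-256-RT-XN-O1`.   `Vk(w) → Vk(u2)` -/
theorem rt_xn_out1 : ∃ m : ℕ, ∀ bm N : ℕ, ∃ C : ℝ, 1 ≤ C ∧ ∀ (p : RdWvPar) (b0 k b' : ℕ) (β κ Λ : ℝ) (w : RtKc), b0 + 7 ≤ bm → b' ≤ bm → 2 ≤ k → |β| ≤ 1 / 4 → |κ| ≤ 1 → C ≤ Λ →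
    C * Λ ^ m * rdD p.H k ≤ 1 → C * Λ ^ m * rdLen k ≤ 1 → p.Spec b0 w →
    RtXf (rtVm p k) (rtVd p k b' w) (rtVm p k) (rtVd p k (b0 + 2) (rtXnU2 p b0 β κ w))
      (RtXnR ((rtChLn (-1)).comp (rtChDb (κ / 2 + β))) p.H k k (C * Λ ^ m) (15 / 1000) (9 / 1000) (7 / 1000) (-(2 / 100)) (37 / 100)) (rtXnZ0 k)
      (ENNReal.ofReal C) (ENNReal.ofReal (C * Λ ^ (-(N : ℝ)) * 2 ^ (2 * k) * ‖w‖ ^ 2)) := by
  refine ⟨6, fun bm N => ?_⟩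
  obtain ⟨Cf, hCf, Hf⟩ := rt_xn_far bm N
  obtain ⟨Cd, hCd, Hd⟩ := rt_xd_arrow bm N
  obtain ⟨Cx, hCx, Hx⟩ := rt_xl_arrow bm N
  obtain ⟨C, hC⟩ : ∃ C : ℝ, C = 10 ^ 12 + Cf + Cd + 2 * Cd * Cx + 8 * Cd + 8 * Cd * Cx := ⟨_, rfl⟩
  have hdx : 0 ≤ Cd * Cx := by positivity
  have c3 : 10 ^ 12 ≤ C := by rw [hC]; nlinarith
  have c1 : 3000 ≤ C := by linarith
  have c2 : Cd ≤ C := by rw [hC]; nlinarith
  have c4 : 2 * Cd * Cx ≤ C := by rw [hC]; nlinarith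
  have c5 : Cf + 8 * Cd + 8 * Cd * Cx ≤ C := by rw [hC]; nlinarith
  refine ⟨C, by linarith, ?_⟩
  intro p b0 k b' β κ Λ w hb0 hb' hk hβ hκ hΛ hD hL hw
  have hH := p.H_pos
  have hΛ1 : 1 ≤ Λ := by linarith
  have hΛ0 : 0 < Λ := by linarith
  have hΛm : Λ ≤ Λ ^ 6 := le_self_pow₀ hΛ1 (by omega)
  have hsc := rt_xg_scales p.H hH k
  have hDpos : 0 < rdD p.H k := hsc.1
  have hLpos : 0 < rdLen k := rdLen_pos k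
  have hd2000 : Λ * rdD p.H k ≤ 1 / 3000 := by
    have : 3000 * Λ * rdD p.H k ≤ C * Λ ^ 6 * rdD p.H k :=
      mul_le_mul_of_nonneg_right (mul_le_mul c1 hΛm hΛ0.le (by linarith)) hDpos.le
    linarith
  have hl2000 : Λ * rdLen k ≤ 1 / 3000 := by
    have : 3000 * Λ * rdLen k ≤ C * Λ ^ 6 * rdLen k :=
      mul_le_mul_of_nonneg_right (mul_le_mul c1 hΛm hΛ0.le (by linarith)) hLpos.le
    linarith
  have hdk : rdD p.H k ≤ 1 / 3000 := rt_xn_d_le hH hΛ1 hd2000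
  have hd2 : rdD p.H 2 ≤ 1 / 200 := by
    have := rt_xn_o_dmono hH hk
    linarith
  obtain ⟨-, ⟨sU1, cU1, nU1, iU1⟩, ⟨sU2, nU2, iU2⟩, -⟩ := rt_xn_st p b0 β κ w hβ hκ hd2 hw
  have hγ : |κ / 2 + β| ≤ 3 / 4 := by
    rw [abs_le] at hβ hκ ⊢
    constructor <;> linarith [hβ.1, hβ.2, hκ.1, hκ.2]
  have tm21 : rtTm 2 1 = 0 := by unfold rtTm tmL; norm_num
  have hbx : ∀ z ∈ rtXnZ0 k, rtZr k z ∈ rtXnBx (1 / 200) (1 / 200) (1 / 200) := fun z hz => by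
    rw [← rt_xn_bx_iso]
    exact hz.2.2
  -- the three arrows
  have L1 := Hf p 2 1 k b0 b' Λ rtXnS0 (rtXnZ0 k) w (by omega) hb' hΛ1 (rt_xg_S_meas _ _ _ _) (rt_xg_Z_meas k 0 0 0).2 hw
    (fun z hz => ⟨hk, by rw [tm21]; exact hz.1, by rw [tm21]; norm_num; linarith [hz.2.1]⟩)
    (fun z hz x h => by
      have h1 := rt_xn_far_geo p.H hH 2 k hk Λ (rtTm 2 1) (1 / 200) (1 / 200) (1 / 200) hΛ1 hd2000 (by norm_num) (by norm_num) (by norm_num) z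
        (hbx z hz) (by rw [abs_le]; constructor <;> linarith [hz.1, hz.2.1]) x h
      rw [tm21] at h1
      exact rt_xn_bx_mono (by norm_num) (by norm_num) (by norm_num) (by norm_num) (by norm_num) h1)
  have L2 := Hd p k (b0 + 2) b' (-(κ / 2 + β)) Λ (rtXnU1 p b0 β κ w) (by omega) hb' (by rw [abs_neg]; linarith) (by linarith) (by linarith) sU1 cU1
  rw [neg_neg, iU1] at L2
  have L3 := Hx p k (b0 + 2) (b0 + 2) 1 Λ (rtXnU2 p b0 β κ w) (by omega) (by omega) (by norm_num) hΛ1 sU2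
  rw [iU2] at L3
  have e2 : (2 : ℝ≥0∞) = ENNReal.ofReal 2 := by simp
  replace L1 := rt_xa_mono L1 (fun _ _ _ h => h) subset_rfl (le_of_eq e2) le_rfl
  -- the errors
  obtain ⟨X, hX⟩ : ∃ X : ℝ, X = Λ ^ (-(N : ℝ)) * 2 ^ (2 * k) * ‖w‖ ^ 2 := ⟨_, rfl⟩
  have hP : 0 ≤ Λ ^ (-(N : ℝ)) := Real.rpow_nonneg hΛ0.le _
  have hX0 : 0 ≤ X := by rw [hX]; positivity
  have h2k : (2 : ℝ) ^ k ≤ 2 ^ (2 * k) := pow_le_pow_right₀ (by norm_num) (by omega)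
  have hnrm : ∀ u : RtKc, ‖u‖ ≤ 2 * ‖w‖ → Λ ^ (-(N : ℝ)) * 2 ^ k * ‖u‖ ^ 2 ≤ 4 * X := by
    intro u hu
    have h1 : ‖u‖ ^ 2 ≤ 4 * ‖w‖ ^ 2 := by nlinarith [norm_nonneg u, norm_nonneg w]
    calc Λ ^ (-(N : ℝ)) * 2 ^ k * ‖u‖ ^ 2 ≤ Λ ^ (-(N : ℝ)) * 2 ^ (2 * k) * (4 * ‖w‖ ^ 2) :=
          mul_le_mul (mul_le_mul_of_nonneg_left h2k hP) h1 (by positivity) (by positivity)
      _ = 4 * X := by rw [hX]; ring
  -- first link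
  have L12 : RtXf (rtVm p k) (rtVd p k b' w) (rtVm p k) (rtVd p k (b0 + 2) (rtXnU1 p b0 β κ w))
      (RtXnR (rtChDb (κ / 2 + β)) p.H k k Λ (6 / 1000) (9 / 1000) (6 / 1000) (-(2 / 100)) (27 / 100)) (rtXnZ0 k)
      (ENNReal.ofReal (2 * Cd)) (ENNReal.ofReal ((Cf + 8 * Cd) * X)) := by
    refine rt_xn_chain L1 L2 ?_ ?_ ?_ ?_
    · rintro z hz z' rfl
      have h1 := rt_xn_w_db k (κ / 2 + β) z' (by linarith)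
        (rt_xn_bx_mono (by norm_num) (by norm_num) (by norm_num) (by norm_num) (by norm_num) (hbx z' hz))
      rw [abs_of_nonneg hz.1, abs_le] at h1
      exact ⟨by linarith [h1.1, hz.1, hz.2.1], by linarith [h1.2, hz.1, hz.2.1]⟩
    · rintro z hz z' z'' rfl h
      exact rt_xn_r_start (g := 3 / 4) (α := 1 / 200) (β := 1 / 200) (γ := 1 / 200) (lo := 0) (hi := 1 / 4) (mt := 1 / 4) hγ (by norm_num) (by norm_num)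
        (by norm_num) (hbx z' hz) hz.1 hz.2.1 (by norm_num) (by norm_num) (by norm_num) (by norm_num) (by norm_num) (by norm_num) (by norm_num) h
    · rw [← ENNReal.ofReal_mul (by norm_num)]
    · refine rt_xn_ofReal_link (by positivity) (by norm_num) (by positivity) ?_
      have := hnrm _ nU1
      have e : Cf * Λ ^ (-(N : ℝ)) * 2 ^ (2 * k) * ‖w‖ ^ 2 = Cf * X := by rw [hX]; ring
      have e' : Cd * Λ ^ (-(N : ℝ)) * 2 ^ k * ‖rtXnU1 p b0 β κ w‖ ^ 2 = Cd * (Λ ^ (-(N : ℝ)) * 2 ^ k * ‖rtXnU1 p b0 β κ w‖ ^ 2) := by ring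
      rw [e, e']
      have h3 : Cd * (Λ ^ (-(N : ℝ)) * 2 ^ k * ‖rtXnU1 p b0 β κ w‖ ^ 2) ≤ Cd * (4 * X) := mul_le_mul_of_nonneg_left this (by linarith)
      linarith
  -- second link
  refine rt_xn_chain L12 L3 ?_ ?_ ?_ ?_
  · intro z hz z' h
    obtain ⟨t1, t2⟩ := rt_xn_r_time h
    show -(1 / 4) - rdLen k ≤ rtZt (rtChLn (-1)) k z' ∧ rtZt (rtChLn (-1)) k z' ≤ 3 / 4
    rw [rt_xn_w_ln]
    exact rt_xn_o_win hLpos.le (by norm_num) t1 t2 (by linarith) (by linarith)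
  · intro z hz z' z'' h h'
    obtain ⟨t1, t2⟩ := rt_xn_r_time h
    have h1 := rt_xn_r_ln (γ' := 7 / 1000) (lo' := -(2 / 100)) (hi' := 37 / 100) hH hΛ1 hΛ1 (c := -1) (by norm_num) (by norm_num) (by norm_num) (by norm_num) (by norm_num)
      (by rw [abs_le]; constructor <;> linarith) (by norm_num) (by norm_num) (by norm_num) h h'
    have e : (6 / 1000 + 9 / 1000 : ℝ) = 15 / 1000 := by norm_num
    rw [e] at h1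
    refine rt_xn_r_mono hH (by positivity) ?_ h1
    calc (10 : ℝ) ^ 12 * Λ ^ 4 * Λ ^ 2 = 10 ^ 12 * Λ ^ 6 := by ring
      _ ≤ C * Λ ^ 6 := mul_le_mul_of_nonneg_right c3 (by positivity)
  · rw [← ENNReal.ofReal_mul (by positivity)]
    exact ENNReal.ofReal_le_ofReal (by linarith)
  · refine rt_xn_ofReal_link (by positivity) (by positivity) (by positivity) ?_
    have := hnrm _ nU2
    have e : C * Λ ^ (-(N : ℝ)) * 2 ^ (2 * k) * ‖w‖ ^ 2 = C * X := by rw [hX]; ring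
    have e' : Cx * Λ ^ (-(N : ℝ)) * 2 ^ k * ‖rtXnU2 p b0 β κ w‖ ^ 2 = Cx * (Λ ^ (-(N : ℝ)) * 2 ^ k * ‖rtXnU2 p b0 β κ w‖ ^ 2) := by ring
    rw [e, e']
    have h3 : 2 * Cd * (Cx * (Λ ^ (-(N : ℝ)) * 2 ^ k * ‖rtXnU2 p b0 β κ w‖ ^ 2)) ≤ 2 * Cd * (Cx * (4 * X)) :=
      mul_le_mul_of_nonneg_left (mul_le_mul_of_nonneg_left this (by linarith)) (by linarith)
    have h4 : (Cf + 8 * Cd + 8 * Cd * Cx) * X ≤ C * X := mul_le_mul_of_nonneg_right c5 hX0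
    linarith

/-- LEAF `L-256-RT-XN-O2`.   `Vk(w) → Vk(u4)`   (from `rt_xn_out1`) -/
theorem rt_xn_out2 : ∃ m : ℕ, ∀ bm N : ℕ, ∃ C : ℝ, 1 ≤ C ∧ ∀ (p : RdWvPar) (b0 k b' : ℕ) (β κ Λ : ℝ) (w : RtKc), b0 + 7 ≤ bm → b' ≤ bm → 2 ≤ k → |β| ≤ 1 / 4 → |κ| ≤ 1 → C ≤ Λ →
    C * Λ ^ m * rdD p.H k ≤ 1 → C * Λ ^ m * rdLen k ≤ 1 → p.Spec b0 w →
    RtXf (rtVm p k) (rtVd p k b' w) (rtVm p k) (rtVd p k (b0 + 4) (rtXnU4 p b0 β κ w))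
      (RtXnR ((rtChLn 1).comp ((rtChDb (-κ)).comp ((rtChLn (-1)).comp (rtChDb (κ / 2 + β))))) p.H k k (C * Λ ^ m) (33 / 1000) (17 / 1000) (9 / 1000) (-(7 / 100)) (30 / 100)) (rtXnZ0 k)
      (ENNReal.ofReal C) (ENNReal.ofReal (C * Λ ^ (-(N : ℝ)) * 2 ^ (2 * k) * ‖w‖ ^ 2)) := by
  obtain ⟨m₁, H1⟩ := rt_xn_out1
  refine ⟨(((m₁ + 1) * 1 + 1) * 6 + 1) * 6, fun bm N => ?_⟩
  obtain ⟨C₁, hC₁, H1⟩ := H1 bm N
  obtain ⟨Cf, hCf, Hf⟩ := rt_xn_lk_far bm N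
  obtain ⟨Cd, hCd, Hd⟩ := rt_xn_lk_db bm N
  obtain ⟨Cl, hCl, Hl⟩ := rt_xn_lk_ln bm N
  obtain ⟨C₂, hC₂, hC₂', K2⟩ := rt_xn_lk_comp N C₁ m₁ Cf 1 hC₁ (by linarith) le_rfl
  obtain ⟨C₃, hC₃, _, K3⟩ := rt_xn_lk_comp N C₂ ((m₁ + 1) * 1) Cd 6 (by linarith) (by linarith) (by norm_num)
  obtain ⟨C₄, hC₄, _, K4⟩ := rt_xn_lk_comp N C₃ (((m₁ + 1) * 1 + 1) * 6) Cl 6 (by linarith) (by linarith) (by norm_num)
  refine ⟨C₄, by linarith, ?_⟩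
  generalize (((m₁ + 1) * 1 + 1) * 6 + 1) * 6 = m₄ at *
  intro p b0 k b' β κ Λ w hb hb' hk hβ hκ hΛ hd hl hw
  have hd0 : 0 ≤ rdD p.H k := Real.sqrt_nonneg _
  have hl0 : 0 ≤ rdLen k := (rdLen_pos k).le
  have hΛ1 : 1 ≤ Λ := by linarith
  have hd200 : rdD p.H 2 ≤ 1 / 200 := by
    have h1 := rt_xn_lk_d2 p.H_pos hk
    have h2 : 3000 * 1 * rdD p.H k ≤ C₄ * Λ ^ m₄ * rdD p.H k := by
      have : (1 : ℝ) ≤ Λ ^ m₄ := one_le_pow₀ hΛ1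
      have : (3000 : ℝ) ≤ C₄ := by linarith
      gcongr
    linarith
  obtain ⟨-, -, s2, s3, s4, s5, -, -, -⟩ := rt_xn_st p b0 β κ w hβ hκ hd200 hw
  have hw0 : 0 ≤ ‖w‖ := norm_nonneg _
  have mono : ∀ (Ψ : RtCh) (a b c lo hi : ℝ) (Λ₁ Λ₂ : ℝ) (z z' : RtZ), 0 ≤ Λ₁ → Λ₁ ≤ Λ₂ → RtXnR Ψ p.H k k Λ₁ a b c lo hi z z' → RtXnR Ψ p.H k k Λ₂ a b c lo hi z z' :=
    fun Ψ a b c lo hi Λ₁ Λ₂ z z' h0 h h' => rt_xn_r_mono p.H_pos h0 h h'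
  have e : ∀ c : ℝ, c * Λ ^ (-(N : ℝ)) * 2 ^ (2 * k) * ‖w‖ ^ 2 = c * Λ ^ (-(N : ℝ)) * (2 ^ (2 * k) * ‖w‖ ^ 2) := fun c => by ring
  have hκ' : |(-κ)| ≤ 1 := by rw [abs_neg]; exact hκ
  rw [e]
  refine K4 (rtVm p k) (rtVd p k b' w) (rtVm p k) (rtVd p k (b0 + 4) (rtXnU3 p b0 β κ w)) (rtVm p k) (rtVd p k (b0 + 4) (rtXnU4 p b0 β κ w)) (rtXnZ0 k)
    (fun L => RtXnR ((rtChDb (-κ)).comp ((rtChLn (-1)).comp (rtChDb (κ / 2 + β)))) p.H k k L (16 / 1000) (17 / 1000) (8 / 1000) (-(6 / 100)) (41 / 100))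
    (fun L => RtXnR ((rtChLn 1).comp ((rtChDb (-κ)).comp ((rtChLn (-1)).comp (rtChDb (κ / 2 + β))))) p.H k k L (33 / 1000) (17 / 1000) (9 / 1000) (-(7 / 100)) (30 / 100))
    (rdD p.H k) (rdLen k) (2 ^ (2 * k) * ‖w‖ ^ 2) Λ hd0 hl0 (by positivity) (mono _ _ _ _ _ _) (mono _ _ _ _ _ _) ?_ ?_ hΛ hd hl
  · intro g1 g2 g3
    refine K3 (rtVm p k) (rtVd p k b' w) (rtVm p k) (rtVd p k (b0 + 2) (rtXnC2 p b0 β κ w)) (rtVm p k) (rtVd p k (b0 + 4) (rtXnU3 p b0 β κ w)) (rtXnZ0 k)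
      (fun L => RtXnR ((rtChLn (-1)).comp (rtChDb (κ / 2 + β))) p.H k k L (15 / 1000) (9 / 1000) (7 / 1000) (-(2 / 100)) (37 / 100))
      (fun L => RtXnR ((rtChDb (-κ)).comp ((rtChLn (-1)).comp (rtChDb (κ / 2 + β)))) p.H k k L (16 / 1000) (17 / 1000) (8 / 1000) (-(6 / 100)) (41 / 100))
      (rdD p.H k) (rdLen k) (2 ^ (2 * k) * ‖w‖ ^ 2) Λ hd0 hl0 (by positivity) (mono _ _ _ _ _ _) (mono _ _ _ _ _ _) ?_ ?_ g1 g2 g3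
    · intro g1 g2 g3
      refine K2 (rtVm p k) (rtVd p k b' w) (rtVm p k) (rtVd p k (b0 + 2) (rtXnU2 p b0 β κ w)) (rtVm p k) (rtVd p k (b0 + 2) (rtXnC2 p b0 β κ w)) (rtXnZ0 k)
        (fun L => RtXnR ((rtChLn (-1)).comp (rtChDb (κ / 2 + β))) p.H k k L (15 / 1000) (9 / 1000) (7 / 1000) (-(2 / 100)) (37 / 100))
        (fun L => RtXnR ((rtChLn (-1)).comp (rtChDb (κ / 2 + β))) p.H k k L (15 / 1000) (9 / 1000) (7 / 1000) (-(2 / 100)) (37 / 100))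
        (rdD p.H k) (rdLen k) (2 ^ (2 * k) * ‖w‖ ^ 2) Λ hd0 hl0 (by positivity) (mono _ _ _ _ _ _) (mono _ _ _ _ _ _) ?_ ?_ g1 g2 g3
      · intro g1 g2 g3
        rw [← e]
        exact H1 p b0 k b' β κ Λ w hb hb' hk hβ hκ g1 g2 g3 hw
      · intro L A ε g1 g2 g3 g
        exact Hf p k (b0 + 2) (15 / 1000) (9 / 1000) (7 / 1000) (-(2 / 100)) (37 / 100) (17 / 1000) (11 / 1000) (9 / 1000) _ (rtXnU2 p b0 β κ w) w _ _ _ (by omega)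
          (by norm_num) (by norm_num) (by norm_num) (by norm_num) (by norm_num) (by norm_num) (by norm_num) (by norm_num) s2.1 (by linarith [s2.2.1]) L A ε g1 g2 g3 g
    · intro L A ε g1 g2 g3 g
      refine Hd p k (b0 + 4) (b0 + 2) (-κ) 1 (15 / 1000) (9 / 1000) (7 / 1000) (-(2 / 100)) (37 / 100) (37 / 100) (16 / 1000) (17 / 1000) (8 / 1000) (-(6 / 100)) (41 / 100) _
        (rtXnU3 p b0 β κ w) w _ _ _ (by omega) (by omega) hκ' le_rfl (by norm_num) (by norm_num) (by norm_num) (by norm_num) (by norm_num) (by norm_num) (by norm_num)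
        (by norm_num) (by norm_num) (by norm_num) (by norm_num) (by norm_num) (by norm_num) (by norm_num) s4.1 s4.2.1 (by linarith [s4.2.2.1]) L A ε g1 g2 g3 ?_
      rw [neg_neg, s4.2.2.2]
      exact g
  · intro L A ε g1 g2 g3 g
    have e33 : (16 / 1000 : ℝ) + 17 / 1000 = 33 / 1000 := by norm_num
    have := Hl p k (b0 + 4) (b0 + 4) 1 (16 / 1000) (17 / 1000) (8 / 1000) (-(6 / 100)) (41 / 100) (9 / 1000) (-(7 / 100)) (30 / 100)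
      ((rtChDb (-κ)).comp ((rtChLn (-1)).comp (rtChDb (κ / 2 + β)))) (rtXnU4 p b0 β κ w) w (rtVm p k) (rtVd p k b' w) (rtXnZ0 k) (by omega) (by omega) (by norm_num)
      (by norm_num) (by norm_num) (by norm_num) (by norm_num) (by norm_num) (by norm_num) (by norm_num) s5.1 (by linarith [s5.2.1])
      L A ε g1 g2 g3 (by rw [s5.2.2]; exact g)
    rw [e33] at this
    exact this

/-- numbers of `rt_xn_out` -/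
theorem rt_xn_o3_num {C2 X C Λ : ℝ} (m2 : ℕ) (h2 : 1 ≤ C2) (hX : 0 ≤ X) (hC : C = 3000 * (10 ^ 6 * C2 ^ 4) + X) (hΛ : 1 ≤ Λ) :
    1 ≤ C2 * Λ ^ m2 ∧ C2 * Λ ^ m2 ≤ 10 ^ 6 * (C2 * Λ ^ m2) ^ 4 * Λ ^ 2 ∧ Λ ≤ 10 ^ 6 * (C2 * Λ ^ m2) ^ 4 * Λ ^ 2 ∧
      3000 * (10 ^ 6 * (C2 * Λ ^ m2) ^ 4 * Λ ^ 2) ≤ C * Λ ^ (4 * m2 + 2) := by
  have hm1 : 1 ≤ Λ ^ m2 := one_le_pow₀ hΛ
  have ha : 1 ≤ C2 * Λ ^ m2 := by nlinarith
  have e : 3000 * (10 ^ 6 * (C2 * Λ ^ m2) ^ 4 * Λ ^ 2) = 3000 * (10 ^ 6 * C2 ^ 4) * Λ ^ (4 * m2 + 2) := by ring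
  have hM : 0 ≤ Λ ^ (4 * m2 + 2) := by positivity
  have ha4 : C2 * Λ ^ m2 ≤ (C2 * Λ ^ m2) ^ 4 := le_self_pow₀ ha (by norm_num)
  have h4 : 1 ≤ (C2 * Λ ^ m2) ^ 4 := one_le_pow₀ ha
  have hl2 : Λ ≤ Λ ^ 2 := le_self_pow₀ hΛ (by norm_num)
  have hl1 : 1 ≤ Λ ^ 2 := one_le_pow₀ hΛ
  refine ⟨ha, ?_, ?_, ?_⟩
  · obtain ⟨a, hae⟩ : ∃ a, a = (C2 * Λ ^ m2) ^ 4 := ⟨_, rfl⟩
    obtain ⟨b, hbe⟩ : ∃ b, b = Λ ^ 2 := ⟨_, rfl⟩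
    rw [← hae] at ha4 h4 ⊢
    rw [← hbe] at hl1 ⊢
    have : a ≤ a * b := le_mul_of_one_le_right (by linarith) hl1
    nlinarith
  · obtain ⟨a, hae⟩ : ∃ a, a = (C2 * Λ ^ m2) ^ 4 := ⟨_, rfl⟩
    obtain ⟨b, hbe⟩ : ∃ b, b = Λ ^ 2 := ⟨_, rfl⟩
    rw [← hae] at h4 ⊢
    rw [← hbe] at hl1 hl2 ⊢
    have : b ≤ a * b := le_mul_of_one_le_left (by linarith) h4
    nlinarith
  · rw [e, hC, add_mul]
    have := mul_nonneg hX hM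
    linarith

/-- errors of `rt_xn_out` -/
theorem rt_xn_o3_err {a A c s L K K' U W C : ℝ} (hA : 0 ≤ A) (hc : 0 ≤ c) (hL : 0 ≤ L) (hK' : 0 ≤ K') (hK : K' ≤ K) (hU0 : 0 ≤ U) (hU : U ≤ s * W) (hW : 0 ≤ W)
    (hC : a + s * (A * c) ≤ C) : a * L * K * W + A * (c * L * K' * U) ≤ C * L * K * W := by
  have hK0 : 0 ≤ K := hK'.trans hK
  have h1 : c * L * K' * U ≤ c * L * K * (s * W) := mul_le_mul (mul_le_mul_of_nonneg_left hK (by positivity)) hU hU0 (by positivity)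
  have h2 := mul_le_mul_of_nonneg_left h1 hA
  have h3 : (a + s * (A * c)) * (L * K * W) ≤ C * (L * K * W) := mul_le_mul_of_nonneg_right hC (by positivity)
  calc a * L * K * W + A * (c * L * K' * U) ≤ a * L * K * W + A * (c * L * K * (s * W)) := by linarith
    _ = (a + s * (A * c)) * (L * K * W) := by ring
    _ ≤ C * (L * K * W) := h3
    _ = _ := by ring

/-- the far link for a cut of depth `0` along a box -/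
theorem rt_xn_o3_far (bm N : ℕ) : ∃ C : ℝ, 1 ≤ C ∧ ∀ (p : RdWvPar) (k b b' : ℕ) (Λ α β γ α' β' γ' : ℝ) (v : RtKc), b ≤ bm → b' ≤ bm → 1 ≤ Λ → Λ * rdD p.H k ≤ 1 / 3000 →
    0 ≤ α → α ≤ 1 / 5 → 0 ≤ β → α + 1 / 1000 = α' → β + 1 / 1000 = β' → γ + 1 / 1000 = γ' → p.Spec b v →
    RtXf (rtVm p k) (rtVd p k b' v) (rtVm p k) (rtVd p k b' (rtCut p (rtTm 0 0) 0 b (rtXnS (-(1 / 4)) α' β' γ') v)) (fun z z' => z' = z) (rtXnZ k α β γ) 2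
      (ENNReal.ofReal (C * Λ ^ (-(N : ℝ)) * 2 ^ (2 * k) * ‖v‖ ^ 2)) := by
  obtain ⟨Cf, hCf, hf⟩ := rt_xn_far bm N
  refine ⟨Cf, hCf, ?_⟩
  intro p k b b' Λ α β γ α' β' γ' v hb hb' hΛ hd hα0 hα hβ0 eα eβ eγ hv
  have t0 : rtTm 0 0 = -(1 / 4) := (rt_xg_clock 0 0 (by norm_num)).2.2.1
  refine hf p 0 0 k b b' Λ _ _ v hb hb' hΛ (rt_xg_S_meas _ _ _ _) (rt_xg_Z_meas k _ _ _).1 hv ?_ ?_
  · intro z hz
    refine ⟨Nat.zero_le _, ?_, ?_⟩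
    · rw [t0]; exact hz.1
    · rw [t0, pow_zero]; linarith [hz.2.1]
  · intro z hz x hx
    have h1 := rt_xn_far_geo p.H p.H_pos 0 k (Nat.zero_le _) Λ (rtTm 0 0) α β γ hΛ hd hα0 hα hβ0 z hz.2.2 (abs_le.2 ⟨by linarith [hz.1], by linarith [hz.2.1]⟩) x hx
    rw [t0, eα, eβ, eγ] at h1
    exact h1

/-- LEAF `L-256-RT-XN-O3`.   **EXIT OUT**: `Vk(w) → Vk(v1)`   (from `rt_xn_out2`) -/
theorem rt_xn_out : ∃ m : ℕ, ∀ bm N : ℕ, ∃ C : ℝ, 1 ≤ C ∧ ∀ (p : RdWvPar) (b0 k b' : ℕ) (β κ Λ : ℝ) (w : RtKc), b0 + 7 ≤ bm → b' ≤ bm → 2 ≤ k → |β| ≤ 1 / 4 → |κ| ≤ 1 → C ≤ Λ →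
    C * Λ ^ m * rdD p.H k ≤ 1 → C * Λ ^ m * rdLen k ≤ 1 → p.Spec b0 w →
    RtXf (rtVm p k) (rtVd p k b' w) (rtVm p k) (rtVd p k (b0 + 6) (rtXnV p b0 β κ w))
      (RtXnR (rtChN β κ) p.H k k (C * Λ ^ m) (34 / 1000) (23 / 1000) (10 / 1000) (-(10 / 100)) (33 / 100)) (rtXnZ0 k)
      (ENNReal.ofReal C) (ENNReal.ofReal (C * Λ ^ (-(N : ℝ)) * 2 ^ (2 * k) * ‖w‖ ^ 2)) := by
  obtain ⟨m2, h2'⟩ := rt_xn_out2
  refine ⟨4 * m2 + 2, fun bm N => ?_⟩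
  obtain ⟨C2, hC2, h2⟩ := h2' bm N
  obtain ⟨Cf, hCf, hf⟩ := rt_xn_o3_far bm N
  obtain ⟨Cd, hCd, hd⟩ := rt_xd_arrow bm N
  have p1 : 0 ≤ C2 * Cd := by positivity
  have p2 : 0 ≤ C2 * Cf := by positivity
  have p3 : 0 ≤ C2 * Cd * Cf := by positivity
  have p4 : 1 ≤ C2 ^ 4 := one_le_pow₀ hC2
  obtain ⟨X, hX⟩ : ∃ X, X = C2 + Cd + 4 * (C2 * Cd) + 16 * (C2 * Cf) + 128 * (C2 * Cd) + 128 * (C2 * Cd * Cf) := ⟨_, rfl⟩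
  have hX0 : 0 ≤ X := by rw [hX]; linarith
  obtain ⟨C, hC⟩ : ∃ C, C = 3000 * (10 ^ 6 * C2 ^ 4) + X := ⟨_, rfl⟩
  have hXC : X ≤ C := by rw [hC]; linarith
  refine ⟨C, by rw [hC, hX]; linarith, ?_⟩
  intro p b0 k b' β κ Λ w hb0 hb' hk hβ hκ hΛ hD hL hw
  have hH := p.H_pos
  have hΛ1 : 1 ≤ Λ := by rw [hX] at hXC; linarith
  have hΛ0 : 0 < Λ := by linarith
  have hDpos : 0 < rdD p.H k := (rt_xg_scales p.H hH k).1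
  have hLpos : 0 < rdLen k := rdLen_pos k
  obtain ⟨hΛa1, hab, hΛb', hbC⟩ := rt_xn_o3_num m2 hC2 hX0 hC hΛ1
  obtain ⟨M, hM⟩ : ∃ M, M = Λ ^ (4 * m2 + 2) := ⟨_, rfl⟩
  obtain ⟨Λa, hΛa⟩ : ∃ Λa, Λa = C2 * Λ ^ m2 := ⟨_, rfl⟩
  rw [← hM] at hD hL hbC ⊢
  rw [← hΛa] at hΛa1 hab hΛb' hbC
  obtain ⟨Λb, hΛb⟩ : ∃ Λb, Λb = 10 ^ 6 * Λa ^ 4 * Λ ^ 2 := ⟨_, rfl⟩
  rw [← hΛb] at hab hΛb' hbC
  have hΛb1 : 1 ≤ Λb := hΛa1.trans hab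
  have hbD : Λb * rdD p.H k ≤ 1 / 3000 := by
    have := mul_le_mul_of_nonneg_right hbC hDpos.le
    linarith
  have hbL : Λb * rdLen k ≤ 1 / 3000 := by
    have := mul_le_mul_of_nonneg_right hbC hLpos.le
    linarith
  have haD : Λa * rdD p.H k ≤ 1 / 3000 := (mul_le_mul_of_nonneg_right hab hDpos.le).trans hbD
  have haL : Λa * rdLen k ≤ 1 / 3000 := (mul_le_mul_of_nonneg_right hab hLpos.le).trans hbL
  have hΛD : Λ * rdD p.H k ≤ 1 / 3000 := (mul_le_mul_of_nonneg_right hΛb' hDpos.le).trans hbD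
  have hDk : rdD p.H k ≤ 1 / 3000 := rt_xn_d_le hH hΛ1 hΛD
  have hD2k : rdD p.H 2 ≤ rdD p.H k := by
    unfold rdD
    apply Real.sqrt_le_sqrt
    apply div_le_div_of_nonneg_left hH.le (rdLen_pos k)
    unfold rdLen
    exact pow_le_pow_of_le_one (by norm_num) (by norm_num) hk
  obtain ⟨-, -, -, -, -, ⟨u4s, u4n, -⟩, -, ⟨u5s, u5c, u5n, u5e⟩, -⟩ := rt_xn_st p b0 β κ w hβ hκ (by linarith) hw
  have hκ2 : |κ / 2| ≤ 1 / 2 := by rw [abs_div]; norm_num; linarith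
  -- the four arrows
  have a1 := h2 p b0 k b' β κ Λ w hb0 hb' hk hβ hκ (by rw [hX] at hXC; linarith) (by rw [← hΛa]; linarith) (by rw [← hΛa]; linarith) hw
  rw [← hΛa] at a1
  have a2 : RtXf (rtVm p k) (rtVd p k (b0 + 4) (rtXnU4 p b0 β κ w)) (rtVm p k) (rtVd p k (b0 + 4) (rtXnC4 p b0 β κ w)) (fun z z' => z' = z)
      (rtXnZ k (34 / 1000) (18 / 1000) (10 / 1000)) 2 (ENNReal.ofReal (Cf * Λ ^ (-(N : ℝ)) * 2 ^ (2 * k) * ‖rtXnU4 p b0 β κ w‖ ^ 2)) :=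
    hf p k (b0 + 4) (b0 + 4) Λ _ _ _ _ _ _ (rtXnU4 p b0 β κ w) (by omega) (by omega) hΛ1 hΛD (by norm_num) (by norm_num) (by norm_num) (by norm_num) (by norm_num) (by norm_num) u4s
  have a3 : RtXf (rtVm p k) (rtVd p k (b0 + 4) (rtXnC4 p b0 β κ w)) (rtVm p k) (rtVd p k (b0 + 6) (rtXnU5 p b0 β κ w)) (RtAs (rtChDb (κ / 2)) k p.H k Λ)
      {z | -(1 / 4) - rdLen k ≤ rtZt (rtChDb (κ / 2)) k z ∧ rtZt (rtChDb (κ / 2)) k z ≤ 3 / 4}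
      (ENNReal.ofReal Cd) (ENNReal.ofReal (Cd * Λ ^ (-(N : ℝ)) * 2 ^ k * ‖rtXnU5 p b0 β κ w‖ ^ 2)) := by
    have := hd p k (b0 + 6) (b0 + 4) (-(κ / 2)) Λ (rtXnU5 p b0 β κ w) (by omega) (by omega) (by rw [abs_neg]; linarith) (by rw [hX] at hXC; linarith)
      (by linarith) u5s u5c
    rw [u5e, neg_neg] at this
    exact this
  have a4 : RtXf (rtVm p k) (rtVd p k (b0 + 6) (rtXnU5 p b0 β κ w)) (rtVm p k) (rtVd p k (b0 + 6) (rtXnV p b0 β κ w)) (fun z z' => z' = z)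
      (rtXnZ k (35 / 1000) (24 / 1000) (11 / 1000)) 2 (ENNReal.ofReal (Cf * Λ ^ (-(N : ℝ)) * 2 ^ (2 * k) * ‖rtXnU5 p b0 β κ w‖ ^ 2)) :=
    hf p k (b0 + 6) (b0 + 6) Λ _ _ _ _ _ _ (rtXnU5 p b0 β κ w) (by omega) (by omega) hΛ1 hΛD (by norm_num) (by norm_num) (by norm_num) (by norm_num) (by norm_num) (by norm_num) u5s
  -- sizes
  have hN0 : 0 ≤ Λ ^ (-(N : ℝ)) := (Real.rpow_pos_of_pos hΛ0 _).le
  have hW0 : 0 ≤ ‖w‖ ^ 2 := by positivity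
  have hu4sq : ‖rtXnU4 p b0 β κ w‖ ^ 2 ≤ 16 * ‖w‖ ^ 2 :=
    calc _ ≤ (4 * ‖w‖) ^ 2 := pow_le_pow_left₀ (norm_nonneg _) u4n 2
      _ = _ := by ring
  have hu5sq : ‖rtXnU5 p b0 β κ w‖ ^ 2 ≤ 64 * ‖w‖ ^ 2 :=
    calc _ ≤ (8 * ‖w‖) ^ 2 := pow_le_pow_left₀ (norm_nonneg _) u5n 2
      _ = _ := by ring
  have h2k : (2 : ℝ) ^ k ≤ 2 ^ (2 * k) := pow_le_pow_right₀ (by norm_num) (by omega)
  have e2 : (2 : ℝ≥0∞) = ENNReal.ofReal 2 := by simp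
  -- link 1
  have c1 : RtXf (rtVm p k) (rtVd p k b' w) (rtVm p k) (rtVd p k (b0 + 4) (rtXnC4 p b0 β κ w))
      (RtXnR ((rtChLn 1).comp ((rtChDb (-κ)).comp ((rtChLn (-1)).comp (rtChDb (κ / 2 + β))))) p.H k k Λa (33 / 1000) (17 / 1000) (9 / 1000) (-(7 / 100)) (30 / 100)) (rtXnZ0 k)
      (ENNReal.ofReal (2 * C2)) (ENNReal.ofReal ((C2 + 16 * (C2 * Cf)) * Λ ^ (-(N : ℝ)) * 2 ^ (2 * k) * ‖w‖ ^ 2)) := by
    refine rt_xn_chain a1 a2 ?_ ?_ ?_ ?_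
    · intro z _ z' hz
      have hr := rt_xn_r_row hH hΛa1 haD (by norm_num) (by norm_num) (by norm_num) (by norm_num) (by norm_num) hz
      have ht := rt_xn_r_time hz
      refine ⟨by linarith [ht.1], by linarith [ht.2], ?_⟩
      exact rt_xn_bx_mono (by norm_num) (by norm_num) (by norm_num) (by norm_num) (by norm_num) hr
    · intro z _ z' z'' hz hz'
      rw [hz']
      exact hz
    · rw [e2, ← ENNReal.ofReal_mul (by linarith)]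
      exact ENNReal.ofReal_le_ofReal (by linarith)
    · exact rt_xn_ofReal_link (by positivity) (by linarith) (by positivity)
        (rt_xn_o3_err (by linarith) (by linarith) hN0 (by positivity) le_rfl (by positivity) hu4sq hW0 le_rfl)
  -- link 2
  have c2 : RtXf (rtVm p k) (rtVd p k b' w) (rtVm p k) (rtVd p k (b0 + 6) (rtXnU5 p b0 β κ w))
      (RtXnR (rtChN β κ) p.H k k Λb (34 / 1000) (23 / 1000) (10 / 1000) (-(10 / 100)) (33 / 100)) (rtXnZ0 k)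
      (ENNReal.ofReal (2 * (C2 * Cd))) (ENNReal.ofReal ((C2 + 16 * (C2 * Cf) + 128 * (C2 * Cd)) * Λ ^ (-(N : ℝ)) * 2 ^ (2 * k) * ‖w‖ ^ 2)) := by
    refine rt_xn_chain c1 a3 ?_ ?_ ?_ ?_
    · intro z _ z' hz
      have hr := rt_xn_r_row hH hΛa1 haD (by norm_num) (by norm_num) (by norm_num) (by norm_num) (by norm_num) hz
      have ht := rt_xn_r_time hz
      have hw' := rt_xn_w_db k (κ / 2) z' (by linarith) (rt_xn_bx_mono (by norm_num) (by norm_num) (by norm_num) (by norm_num) (by norm_num) hr)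
      have hta : |rtTm k z'.1| ≤ 4 / 10 := abs_le.2 ⟨by linarith [ht.1], by linarith [ht.2]⟩
      obtain ⟨w1, w2⟩ := abs_le.1 hw'
      exact ⟨by linarith [ht.1], by linarith [ht.2]⟩
    · intro z _ z' z'' hz hz'
      have hr := rt_xn_r_db (δ := κ / 2) (g := 1 / 2) (mt := 30 / 100) (α' := 34 / 1000) (β' := 23 / 1000) (γ' := 10 / 1000) (lo' := -(10 / 100)) (hi' := 33 / 100)
        hH hΛa1 hΛ1 hκ2 (by norm_num) (by norm_num) (by norm_num) (by norm_num) (by linarith) (by norm_num) (by norm_num) (by norm_num) (by norm_num) (by norm_num)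
        (by norm_num) (by norm_num) hz hz'
      rw [← hΛb] at hr
      exact hr
    · rw [← ENNReal.ofReal_mul (by linarith)]
      exact ENNReal.ofReal_le_ofReal (by linarith)
    · exact rt_xn_ofReal_link (by positivity) (by linarith) (by positivity)
        (rt_xn_o3_err (by linarith) (by linarith) hN0 (by positivity) h2k (by positivity) hu5sq hW0 (by linarith))
  -- link 3
  refine rt_xn_chain c2 a4 ?_ ?_ ?_ ?_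
  · intro z _ z' hz
    have hr := rt_xn_r_row hH hΛb1 hbD (by norm_num) (by norm_num) (by norm_num) (by norm_num) (by norm_num) hz
    have ht := rt_xn_r_time hz
    refine ⟨by linarith [ht.1], by linarith [ht.2], ?_⟩
    exact rt_xn_bx_mono (by norm_num) (by norm_num) (by norm_num) (by norm_num) (by norm_num) hr
  · intro z _ z' z'' hz hz'
    rw [hz']
    exact rt_xn_r_mono hH (by linarith) (by linarith) hz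
  · rw [e2, ← ENNReal.ofReal_mul (by positivity)]
    exact ENNReal.ofReal_le_ofReal (by rw [hX] at hXC; linarith)
  · exact rt_xn_ofReal_link (by positivity) (by positivity) (by positivity)
      (rt_xn_o3_err (by positivity) (by linarith) hN0 (by positivity) le_rfl (by positivity) hu5sq hW0 (by rw [hX] at hXC; linarith))

/-! ## 5. The IN chain -/

/-- after any transfer into a lattice view the indices `≥ 2^k` may be dropped -/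
theorem rt_xn_inx_idx {Z : Type} [MeasurableSpace Z] {ζ : Measure Z} {D : Z → ℝ≥0∞} {R : Z → RtZ → Prop} {Z0 : Set Z} {A ε : ℝ≥0∞} (p : RdWvPar) (k b : ℕ) (v : RtKc)
    (h : RtXf ζ D (rtVm p k) (rtVd p k b v) R Z0 A ε) : RtXf ζ D (rtVm p k) (rtVd p k b v) (fun z z' => R z z' ∧ z'.1 < 2 ^ k) Z0 A ε :=
  rt_xn_chain h (rt_xn_idx p k b v Set.univ) (fun _ _ _ _ => Set.mem_univ _) (fun z _ z' z'' h1 h2 => by rw [h2.1]; exact ⟨h1, h2.2⟩)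
    (by rw [mul_one]) (by rw [mul_zero, add_zero])

/-- the ray of a row of the root index of depth `0` -/
theorem rt_xn_inx_zr (z : RtZ) (hz : z.1 = 0) : rtZr 0 z = rtRay (-(1 / 4)) z.2 := by
  unfold rtZr
  rw [hz, (rt_xg_clock 0 0 (by norm_num)).2.2.1]

/-- the region of a dual boost arrow, root index of depth `0` -/
theorem rt_xn_inx_reg_db (δ : ℝ) (z : RtZ) (hδ : |δ| ≤ 1) (hz0 : z.1 = 0) (hz : rtZr 0 z ∈ rtXnBx (6 / 100) (4 / 100) (2 / 100)) :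
    -(1 / 4) - rdLen 0 ≤ rtZt (rtChDb δ) 0 z ∧ rtZt (rtChDb δ) 0 z ≤ 3 / 4 := by
  have h := rt_xn_w_db 0 δ z hδ hz
  rw [hz0, (rt_xg_clock 0 0 (by norm_num)).2.2.1] at h
  have e : |(-(1 / 4) : ℝ)| = 1 / 4 := by rw [abs_neg]; norm_num
  rw [e, abs_le] at h
  have hl : rdLen 0 = 1 := by simp [rdLen]
  rw [hl]
  constructor <;> linarith [h.1, h.2]

/-- LEAF `L-256-RT-XN-I1`.   `V0(v1) → V0(c4)` -/
theorem rt_xn_in1 : ∃ m : ℕ, ∀ bm N : ℕ, ∃ C : ℝ, 1 ≤ C ∧ ∀ (p : RdWvPar) (b0 b' : ℕ) (β κ Λ : ℝ) (w : RtKc), b0 + 7 ≤ bm → b' ≤ bm → |β| ≤ 1 / 4 → |κ| ≤ 1 → C ≤ Λ →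
    C * Λ ^ m * rdD p.H 2 ≤ 1 → p.Spec b0 w →
    RtXf (rtVm p 0) (rtVd p 0 b' (rtXnV p b0 β κ w)) (rtVm p 0) (rtVd p 0 (b0 + 5) (rtXnC4 p b0 β κ w))
      (fun z z' => z.1 = 0 ∧ z'.1 = 0 ∧ RtXnR (rtChDb (-(κ / 2))) p.H 0 0 (C * Λ ^ m) (38 / 1000) (34 / 1000) (14 / 1000) (-(29 / 100)) (-(21 / 100)) z z') Set.univ
      (ENNReal.ofReal C) (ENNReal.ofReal (C * Λ ^ (-(N : ℝ)) * ‖w‖ ^ 2)) := by
  refine ⟨6, fun bm N => ?_⟩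
  obtain ⟨Ck, hCk, hk⟩ := rt_xk_cut bm N
  obtain ⟨Cd, hCd, hd⟩ := rt_xd_arrow bm N
  have hCkd : 0 ≤ Ck * Cd := by positivity
  obtain ⟨C, hC⟩ : ∃ C, C = 10 ^ 6 + Ck + Cd + 64 * Ck + 17 * (Ck * Cd) := ⟨_, rfl⟩
  refine ⟨C, by rw [hC]; linarith, ?_⟩
  intro p b0 b' β κ Λ w hb0 hb' hβ hκ hΛ hD hw
  have hH := p.H_pos
  have hΛ1 : 1 ≤ Λ := by rw [hC] at hΛ; linarith
  have hΛ0 : 0 < Λ := by linarith
  have hΛm : 1 ≤ Λ ^ 6 := one_le_pow₀ hΛ1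
  have hD02 : rdD p.H 0 ≤ rdD p.H 2 := (rt_xg_depth p.H hH 0 2 (by norm_num) (by norm_num)).2.2.2.1
  have hD0pos : 0 < rdD p.H 0 := (rt_xg_scales p.H hH 0).1
  have hD2pos : 0 < rdD p.H 2 := (rt_xg_scales p.H hH 2).1
  have hX : ∀ c : ℝ, 0 ≤ c → c ≤ C → c * Λ ^ 6 * rdD p.H 2 ≤ 1 := by
    intro c _ hc
    refine le_trans ?_ hD
    exact mul_le_mul_of_nonneg_right (mul_le_mul_of_nonneg_right hc (by linarith)) hD2pos.le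
  have hD2 : rdD p.H 2 ≤ 1 / 200 := by
    have h1 := hX 200 (by norm_num) (by rw [hC]; linarith)
    have h2 : 200 * 1 * rdD p.H 2 ≤ 200 * Λ ^ 6 * rdD p.H 2 :=
      mul_le_mul_of_nonneg_right (mul_le_mul_of_nonneg_left hΛm (by norm_num)) hD2pos.le
    linarith
  obtain ⟨-, -, -, -, -, -, ⟨c4s, c4c, c4n⟩, ⟨u5s, u5c, u5n, -⟩, -⟩ := rt_xn_st p b0 β κ w hβ hκ hD2 hw
  have hΛD : Λ * rdD p.H 0 ≤ 1 / 3000 := by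
    have h1 := hX 3000 (by norm_num) (by rw [hC]; linarith)
    have h2 : Λ ≤ Λ ^ 6 := le_self_pow₀ hΛ1 (by norm_num)
    have h3 : Λ * rdD p.H 0 ≤ Λ ^ 6 * rdD p.H 2 := mul_le_mul h2 hD02 hD0pos.le (by linarith)
    linarith
  have hκ2 : |κ / 2| ≤ 1 / 2 := by rw [abs_div]; norm_num; linarith
  have hκ2' : |-(κ / 2)| ≤ 1 / 2 := by rw [abs_neg]; exact hκ2
  have t0 : rtTm 0 0 = -(1 / 4) := (rt_xg_clock 0 0 (by norm_num)).2.2.1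
  -- the three arrows
  have h0 := rt_xn_idx p 0 b' (rtXnV p b0 β κ w) Set.univ
  have h1 := hk p 0 0 (b0 + 6) b' Λ rtXnS5 (rtXnU5 p b0 β κ w) (by omega) hb' (by rw [hC] at hΛ; linarith) (by norm_num)
    (rt_xg_S_meas _ _ _ _) (rt_xg_S_vol _ _ _ _)
  have h2 := hd p 0 (b0 + 5) (b0 + 6) (κ / 2) Λ (rtXnC4 p b0 β κ w) (by omega) (by omega) (by linarith) (by rw [hC] at hΛ; linarith)
    (by linarith) c4s (rt_xn_cone_mono (by norm_num) (by norm_num) _ c4c)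
  have h01 : RtXf (rtVm p 0) (rtVd p 0 b' (rtXnV p b0 β κ w)) (rtVm p 0) (rtVd p 0 (b0 + 6) (rtXnU5 p b0 β κ w))
      (fun z z' => z.1 = 0 ∧ z'.1 = 0 ∧ z'.2 ∈ rtXnS5 ∧ RtAs (rtChTr 0) 0 p.H 0 Λ z z') Set.univ
      (ENNReal.ofReal Ck) (ENNReal.ofReal (Ck * Λ ^ (-(N : ℝ)) * ‖rtXnU5 p b0 β κ w‖ ^ 2)) := by
    refine rt_xn_chain h0 h1 ?_ ?_ (by rw [one_mul]) (by rw [one_mul, zero_add])
    · intro z _ z' hz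
      show z'.1 = 0
      rw [hz.1]
      have := hz.2
      simpa using this
    · intro z _ z' z'' hz hz'
      have hz0 : z.1 = 0 := by simpa using hz.2
      rw [hz.1] at hz'
      exact ⟨hz0, hz'.1, hz'.2.1, hz'.2.2⟩
  have hbox : ∀ z' : RtZ, z'.1 = 0 → z'.2 ∈ rtXnS5 → rtZr 0 z' ∈ rtXnBx (36 / 1000) (25 / 1000) (12 / 1000) := by
    intro z' h0' hS
    rw [rt_xn_inx_zr z' h0']
    exact hS
  have hN0 : 0 < Λ ^ (-(N : ℝ)) := Real.rpow_pos_of_pos hΛ0 _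
  have hw0 := norm_nonneg w
  have hu5sq : ‖rtXnU5 p b0 β κ w‖ ^ 2 ≤ 64 * ‖w‖ ^ 2 := by
    have := pow_le_pow_left₀ (norm_nonneg _) u5n 2
    nlinarith
  have hc4sq : ‖rtXnC4 p b0 β κ w‖ ^ 2 ≤ 16 * ‖w‖ ^ 2 := by
    have := pow_le_pow_left₀ (norm_nonneg _) c4n 2
    nlinarith
  have h012 : RtXf (rtVm p 0) (rtVd p 0 b' (rtXnV p b0 β κ w)) (rtVm p 0) (rtVd p 0 (b0 + 5) (rtXnC4 p b0 β κ w))
      (fun z z' => z.1 = 0 ∧ RtXnR (rtChDb (-(κ / 2))) p.H 0 0 (C * Λ ^ 6) (38 / 1000) (34 / 1000) (14 / 1000) (-(29 / 100)) (-(21 / 100)) z z') Set.univ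
      (ENNReal.ofReal C) (ENNReal.ofReal (C * Λ ^ (-(N : ℝ)) * ‖w‖ ^ 2)) := by
    refine rt_xn_chain h01 h2 ?_ ?_ ?_ ?_
    · intro z _ z' hz
      refine rt_xn_inx_reg_db _ z' (by linarith) hz.2.1 ?_
      exact rt_xn_bx_mono (by norm_num) (by norm_num) (by norm_num) (by norm_num) (by norm_num) (hbox z' hz.2.1 hz.2.2.1)
    · intro z _ z' z'' hz hz'
      refine ⟨hz.1, ?_⟩
      have hr := rt_xn_r_start_in (δ := -(κ / 2)) (g := 1 / 2) (α := 37 / 1000) (β := 26 / 1000) (γ := 13 / 1000) (lo := -(1 / 4)) (hi := -(1 / 4)) (mt := 1 / 4)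
        (α' := 38 / 1000) (β' := 34 / 1000) (γ' := 14 / 1000) (lo' := -(29 / 100)) (hi' := -(21 / 100)) hH hΛ1 hΛ1 hκ2' (by norm_num) (by norm_num) (by norm_num) (by norm_num)
        (by rw [hz.1, t0]) (by rw [hz.1, t0]) hΛD (by norm_num) (by norm_num) (by norm_num) (by norm_num) (by norm_num) (by norm_num) (by norm_num) (by norm_num)
        (rt_xn_bx_mono (by norm_num) (by norm_num) (by norm_num) (by norm_num) (by norm_num) (hbox z' hz.2.1 hz.2.2.1)) hz.2.2.2 hz'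
      have e6 : (10:ℝ) ^ 6 * Λ ^ 4 * Λ ^ 2 = 10 ^ 6 * Λ ^ 6 := by ring
      rw [e6] at hr
      exact rt_xn_r_mono hH (by positivity) (mul_le_mul_of_nonneg_right (by rw [hC]; linarith) (by linarith)) hr
    · rw [← ENNReal.ofReal_mul (by linarith)]
      exact ENNReal.ofReal_le_ofReal (by rw [hC]; linarith)
    · refine rt_xn_ofReal_link (by positivity) (by linarith) (by positivity) ?_
      have e1 : Ck * Λ ^ (-(N : ℝ)) * ‖rtXnU5 p b0 β κ w‖ ^ 2 ≤ Ck * Λ ^ (-(N : ℝ)) * (64 * ‖w‖ ^ 2) :=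
        mul_le_mul_of_nonneg_left hu5sq (by positivity)
      have e2 : Ck * (Cd * Λ ^ (-(N : ℝ)) * 2 ^ 0 * ‖rtXnC4 p b0 β κ w‖ ^ 2) ≤ Ck * (Cd * Λ ^ (-(N : ℝ)) * 2 ^ 0 * (16 * ‖w‖ ^ 2)) :=
        mul_le_mul_of_nonneg_left (mul_le_mul_of_nonneg_left hc4sq (by positivity)) (by linarith)
      have e3 : (64 * Ck + 16 * (Ck * Cd)) * (Λ ^ (-(N : ℝ)) * ‖w‖ ^ 2) ≤ C * (Λ ^ (-(N : ℝ)) * ‖w‖ ^ 2) :=
        mul_le_mul_of_nonneg_right (by rw [hC]; linarith) (by positivity)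
      nlinarith
  refine rt_xa_mono (rt_xn_inx_idx p 0 (b0 + 5) _ h012) ?_ subset_rfl le_rfl le_rfl
  intro z _ z' hz
  exact ⟨hz.1.1, by simpa using hz.2, hz.1.2⟩

/-- the region of a lens arrow, root index of depth `0` -/
theorem rt_xn_inx_reg_ln (c : ℝ) (z : RtZ) (hc : |c| ≤ 1) (hz0 : z.1 = 0) :
    -(1 / 4) - rdLen 0 ≤ rtZt (rtChLn c) 0 z ∧ rtZt (rtChLn c) 0 z ≤ 3 / 4 := by
  rw [rt_xn_w_ln, hz0, (rt_xg_clock 0 0 (by norm_num)).2.2.1]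
  have hl : rdLen 0 = 1 := by simp [rdLen]
  rw [hl]
  obtain ⟨c1, c2⟩ := abs_le.1 hc
  have hp : 0 < 1 + c * -(1 / 4) := by linarith
  constructor
  · rw [le_div_iff₀ hp]; nlinarith
  · rw [div_le_iff₀ hp]; nlinarith

/-- the growth of the constants along `IN2`, `IN3` -/
theorem rt_xn_inx_num {C1 Λ d0 d2 : ℝ} (m1 : ℕ) (hC1 : 1 ≤ C1) (hΛ : 1 ≤ Λ) (hd0 : 0 ≤ d0) (hd : d0 ≤ d2) (h : 10 ^ 70 * C1 ^ 32 * Λ ^ (32 * m1 + 42) * d2 ≤ 1) :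
    1 ≤ C1 * Λ ^ m1 ∧ C1 * Λ ^ m1 * d2 ≤ 1 ∧ 1 ≤ 10 * (C1 * Λ ^ m1) ^ 2 * Λ ^ 2 ∧ 10 * (C1 * Λ ^ m1) ^ 2 * Λ ^ 2 * d0 ≤ 1 / 3000 ∧
    1 ≤ 10 ^ 12 * (10 * (C1 * Λ ^ m1) ^ 2 * Λ ^ 2) ^ 4 * Λ ^ 2 ∧ 10 ^ 12 * (10 * (C1 * Λ ^ m1) ^ 2 * Λ ^ 2) ^ 4 * Λ ^ 2 * d0 ≤ 1 / 3000 ∧
    10 ^ 6 * (10 ^ 12 * (10 * (C1 * Λ ^ m1) ^ 2 * Λ ^ 2) ^ 4 * Λ ^ 2) ^ 4 * Λ ^ 2 = 10 ^ 70 * C1 ^ 32 * Λ ^ (32 * m1 + 42) := by
  have hd2 : 0 ≤ d2 := hd0.trans hd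
  obtain ⟨a, ha⟩ : ∃ a, a = C1 * Λ ^ m1 := ⟨_, rfl⟩
  have ha1 : 1 ≤ a := by
    rw [ha]
    exact one_le_mul_of_one_le_of_one_le hC1 (one_le_pow₀ hΛ)
  have hL2 : 1 ≤ Λ ^ 2 := one_le_pow₀ hΛ
  obtain ⟨b, hb⟩ : ∃ b, b = 10 * a ^ 2 * Λ ^ 2 := ⟨_, rfl⟩
  have hab : a ≤ b := by
    rw [hb]
    have h1 : a ≤ a ^ 2 := le_self_pow₀ ha1 (by norm_num)
    have h2 : a ^ 2 * 1 ≤ a ^ 2 * Λ ^ 2 := mul_le_mul_of_nonneg_left hL2 (by positivity)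
    nlinarith
  have hb1 : 1 ≤ b := ha1.trans hab
  obtain ⟨c, hc⟩ : ∃ c, c = 10 ^ 12 * b ^ 4 * Λ ^ 2 := ⟨_, rfl⟩
  have hbc : b ≤ c := by
    rw [hc]
    have h1 : b ≤ b ^ 4 := le_self_pow₀ hb1 (by norm_num)
    have h2 : b ^ 4 * 1 ≤ b ^ 4 * Λ ^ 2 := mul_le_mul_of_nonneg_left hL2 (by positivity)
    nlinarith
  have hc1 : 1 ≤ c := hb1.trans hbc
  obtain ⟨e, he⟩ : ∃ e, e = 10 ^ 6 * c ^ 4 * Λ ^ 2 := ⟨_, rfl⟩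
  have hce : 3000 * c ≤ e := by
    rw [he]
    have h1 : c ≤ c ^ 4 := le_self_pow₀ hc1 (by norm_num)
    have h2 : c ^ 4 * 1 ≤ c ^ 4 * Λ ^ 2 := mul_le_mul_of_nonneg_left hL2 (by positivity)
    nlinarith
  have hfin : e = 10 ^ 70 * C1 ^ 32 * Λ ^ (32 * m1 + 42) := by
    rw [he, hc, hb, ha]
    ring
  rw [← hfin] at h
  rw [← ha, ← hb, ← hc, ← he]
  have k1 : 3000 * c * d2 ≤ e * d2 := mul_le_mul_of_nonneg_right hce hd2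
  have k2 : c * d0 ≤ c * d2 := mul_le_mul_of_nonneg_left hd (by linarith)
  have k3 : b * d0 ≤ c * d0 := mul_le_mul_of_nonneg_right hbc hd0
  have k4 : a * d2 ≤ c * d2 := mul_le_mul_of_nonneg_right (hab.trans hbc) hd2
  have k5 : 0 ≤ c * d2 := by positivity
  refine ⟨ha1, by linarith, hb1, by linarith, hc1, by linarith, hfin⟩

/-- the error of one more link -/
theorem rt_xn_inx_eps {a A c L n2 w2 k : ℝ} (hA : 0 ≤ A) (hc : 0 ≤ c) (hL : 0 ≤ L) (hn : n2 ≤ k * w2) :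
    a * (L * w2) + A * (c * L * n2) ≤ (a + k * (A * c)) * (L * w2) := by
  have h1 : A * (c * L * n2) ≤ A * (c * L * (k * w2)) := mul_le_mul_of_nonneg_left (mul_le_mul_of_nonneg_left hn (by positivity)) hA
  have h2 : A * (c * L * (k * w2)) = k * (A * c) * (L * w2) := by ring
  linarith

/-- LEAF `L-256-RT-XN-I2`.   `V0(v1) → V0(c2)`   (from `rt_xn_in1`) -/
theorem rt_xn_in2 : ∃ m : ℕ, ∀ bm N : ℕ, ∃ C : ℝ, 1 ≤ C ∧ ∀ (p : RdWvPar) (b0 b' : ℕ) (β κ Λ : ℝ) (w : RtKc), b0 + 7 ≤ bm → b' ≤ bm → |β| ≤ 1 / 4 → |κ| ≤ 1 → C ≤ Λ →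
    C * Λ ^ m * rdD p.H 2 ≤ 1 → p.Spec b0 w →
    RtXf (rtVm p 0) (rtVd p 0 b' (rtXnV p b0 β κ w)) (rtVm p 0) (rtVd p 0 (b0 + 3) (rtXnC2 p b0 β κ w))
      (fun z z' => z.1 = 0 ∧ z'.1 = 0 ∧ RtXnR ((rtChDb κ).comp ((rtChLn (-1)).comp (rtChDb (-(κ / 2))))) p.H 0 0 (C * Λ ^ m) (60 / 1000) (37 / 1000) (14 / 1000) (-(31 / 100)) (-(9 / 100)) z z') Set.univ
      (ENNReal.ofReal C) (ENNReal.ofReal (C * Λ ^ (-(N : ℝ)) * ‖w‖ ^ 2)) := by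
  obtain ⟨m1, h1'⟩ := rt_xn_in1
  refine ⟨32 * m1 + 42, fun bm N => ?_⟩
  obtain ⟨C1, hC1, h1⟩ := h1' bm N
  obtain ⟨Ck, hCk, hk⟩ := rt_xk_cut bm N
  obtain ⟨Cl, hCl, hl⟩ := rt_xl_arrow bm N
  obtain ⟨Cd, hCd, hd⟩ := rt_xd_arrow bm N
  have q1 : 0 ≤ C1 * Ck := by positivity
  have q2 : 0 ≤ C1 * Ck * Cl := by positivity
  have q3 : 0 ≤ C1 * Ck * Cl * Cd := by positivity
  have q4 : (1:ℝ) ≤ C1 ^ 32 := one_le_pow₀ hC1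
  obtain ⟨C, hC⟩ : ∃ C, C = 10 ^ 70 * C1 ^ 32 + C1 + Ck + Cd + 16 * (C1 * Ck) + 16 * (C1 * Ck * Cl) + 5 * (C1 * Ck * Cl * Cd) := ⟨_, rfl⟩
  have hCbig : 10 ^ 70 * C1 ^ 32 ≤ C := by rw [hC]; linarith
  refine ⟨C, by linarith, ?_⟩
  intro p b0 b' β κ Λ w hb0 hb' hβ hκ hΛ hD hw
  have hH := p.H_pos
  have hΛ1 : 1 ≤ Λ := by linarith
  have hΛ0 : 0 < Λ := by linarith
  have hD02 : rdD p.H 0 ≤ rdD p.H 2 := (rt_xg_depth p.H hH 0 2 (by norm_num) (by norm_num)).2.2.2.1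
  have hD0pos : 0 < rdD p.H 0 := (rt_xg_scales p.H hH 0).1
  have hD2pos : 0 < rdD p.H 2 := (rt_xg_scales p.H hH 2).1
  have hΛm : 1 ≤ Λ ^ (32 * m1 + 42) := one_le_pow₀ hΛ1
  have hD' : 10 ^ 70 * C1 ^ 32 * Λ ^ (32 * m1 + 42) * rdD p.H 2 ≤ 1 := by
    refine le_trans ?_ hD
    exact mul_le_mul_of_nonneg_right (mul_le_mul_of_nonneg_right hCbig (by linarith)) hD2pos.le
  obtain ⟨na1, na2, nb1, nb2, nc1, nc2, nfin⟩ := rt_xn_inx_num m1 hC1 hΛ1 hD0pos.le hD02 hD'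
  have hD2 : rdD p.H 2 ≤ 1 / 200 := by
    have h2 : 200 * rdD p.H 2 ≤ 10 ^ 70 * C1 ^ 32 * Λ ^ (32 * m1 + 42) * rdD p.H 2 := by
      refine mul_le_mul_of_nonneg_right ?_ hD2pos.le
      have : (1:ℝ) * 1 ≤ C1 ^ 32 * Λ ^ (32 * m1 + 42) := mul_le_mul q4 hΛm (by norm_num) (by linarith)
      linarith
    linarith
  obtain ⟨-, -, -, ⟨c2s, c2c, c2n⟩, ⟨u3s, u3c, u3n, -⟩, ⟨u4s, u4n, -⟩, -, -, -⟩ := rt_xn_st p b0 β κ w hβ hκ hD2 hw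
  have t0 : rtTm 0 0 = -(1 / 4) := (rt_xg_clock 0 0 (by norm_num)).2.2.1
  obtain ⟨Λa, hΛa⟩ : ∃ x, x = C1 * Λ ^ m1 := ⟨_, rfl⟩
  rw [← hΛa] at na1 na2 nb1 nb2 nc1 nc2 nfin
  obtain ⟨Λb, hΛb⟩ : ∃ x, x = 10 * Λa ^ 2 * Λ ^ 2 := ⟨_, rfl⟩
  rw [← hΛb] at nb1 nb2 nc1 nc2 nfin
  obtain ⟨Λc, hΛc⟩ : ∃ x, x = 10 ^ 12 * Λb ^ 4 * Λ ^ 2 := ⟨_, rfl⟩
  rw [← hΛc] at nc1 nc2 nfin
  obtain ⟨E, hE⟩ : ∃ E, E = Λ ^ (-(N : ℝ)) * ‖w‖ ^ 2 := ⟨_, rfl⟩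
  have hN0 : 0 < Λ ^ (-(N : ℝ)) := Real.rpow_pos_of_pos hΛ0 _
  have hE0 : 0 ≤ E := by rw [hE]; positivity
  have hu4sq : ‖rtXnU4 p b0 β κ w‖ ^ 2 ≤ 16 * ‖w‖ ^ 2 :=
    (pow_le_pow_left₀ (norm_nonneg _) u4n 2).trans (le_of_eq (by ring))
  have hu3sq : ‖rtXnU3 p b0 β κ w‖ ^ 2 ≤ 16 * ‖w‖ ^ 2 :=
    (pow_le_pow_left₀ (norm_nonneg _) u3n 2).trans (le_of_eq (by ring))
  have hc2sq : ‖rtXnC2 p b0 β κ w‖ ^ 2 ≤ 4 * ‖w‖ ^ 2 :=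
    (pow_le_pow_left₀ (norm_nonneg _) c2n 2).trans (le_of_eq (by ring))
  -- the arrows
  have a0 := h1 p b0 b' β κ Λ w hb0 hb' hβ hκ (by rw [hC] at hΛ; linarith) (by rw [← hΛa]; exact na2) hw
  rw [← hΛa] at a0
  have a1 := hk p 0 0 (b0 + 4) (b0 + 5) Λ rtXnS4 (rtXnU4 p b0 β κ w) (by omega) (by omega) (by rw [hC] at hΛ; linarith) (by norm_num)
    (rt_xg_S_meas _ _ _ _) (rt_xg_S_vol _ _ _ _)
  have a2 := hl p 0 (b0 + 4) (b0 + 4) 1 Λ (rtXnU3 p b0 β κ w) (by omega) (by omega) (by norm_num) hΛ1 u3s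
  have a3 := hd p 0 (b0 + 3) (b0 + 4) (-κ) Λ (rtXnC2 p b0 β κ w) (by omega) (by omega) (by rw [abs_neg]; linarith) (by rw [hC] at hΛ; linarith)
    (by linarith) c2s (rt_xn_cone_mono (by norm_num) (by norm_num) _ c2c)
  rw [neg_neg] at a3
  -- link A: the cut `S4`, re-confinement
  have lA : RtXf (rtVm p 0) (rtVd p 0 b' (rtXnV p b0 β κ w)) (rtVm p 0) (rtVd p 0 (b0 + 4) (rtXnU4 p b0 β κ w))
      (fun z z' => z.1 = 0 ∧ z'.1 = 0 ∧ RtXnR (rtChDb (-(κ / 2))) p.H 0 0 Λb (36 / 1000) (20 / 1000) (12 / 1000) (-(29 / 100)) (-(21 / 100)) z z') Set.univ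
      (ENNReal.ofReal (C1 * Ck)) (ENNReal.ofReal ((C1 + 16 * (C1 * Ck)) * E)) := by
    refine rt_xn_chain a0 a1 ?_ ?_ ?_ ?_
    · intro z _ z' hz
      exact hz.2.1
    · intro z _ z' z'' hz hz'
      refine ⟨hz.1, hz'.1, ?_⟩
      have r1 := rt_xn_r_tr hH na1 hΛ1 hz.2.2 hz'.2.2
      rw [← hΛb] at r1
      have hbx : rtZr 0 z'' ∈ rtXnBx (35 / 1000) (19 / 1000) (11 / 1000) := by
        rw [rt_xn_inx_zr z'' hz'.1]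
        exact hz'.2.1
      have r2 := rt_xn_r_conf hH nb1 nb2 (by norm_num) (by norm_num) (by norm_num) (by norm_num) (by norm_num) r1 hbx
      norm_num at r2 ⊢
      exact r2
    · rw [← ENNReal.ofReal_mul (by linarith)]
    · refine rt_xn_ofReal_link (by positivity) (by linarith) (by positivity) ?_
      have e1 := rt_xn_inx_eps (a := C1) (A := C1) (c := Ck) (by linarith) (by linarith) hN0.le hu4sq
      rw [hE]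
      linarith
  -- link B: the lens
  have lB : RtXf (rtVm p 0) (rtVd p 0 b' (rtXnV p b0 β κ w)) (rtVm p 0) (rtVd p 0 (b0 + 4) (rtXnU3 p b0 β κ w))
      (fun z z' => z.1 = 0 ∧ RtXnR ((rtChLn (-1)).comp (rtChDb (-(κ / 2)))) p.H 0 0 Λc (56 / 1000) (20 / 1000) (13 / 1000) (-(23 / 100)) (-(17 / 100)) z z') Set.univ
      (ENNReal.ofReal (C1 * Ck * Cl)) (ENNReal.ofReal ((C1 + 16 * (C1 * Ck) + 16 * (C1 * Ck * Cl)) * E)) := by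
    refine rt_xn_chain lA a2 ?_ ?_ ?_ ?_
    · intro z _ z' hz
      exact rt_xn_inx_reg_ln (-1) z' (by norm_num) hz.2.1
    · intro z _ z' z'' hz hz'
      refine ⟨hz.1, ?_⟩
      have r1 := rt_xn_r_ln (γ' := 13 / 1000) (lo' := -(23 / 100)) (hi' := -(17 / 100)) hH nb1 hΛ1 (by norm_num : |(-1:ℝ)| ≤ 1) (by norm_num) (by norm_num) (by norm_num) (by norm_num)
        (by rw [hz.2.1, t0, abs_neg]; norm_num) (by norm_num) (by norm_num) (by norm_num) hz.2.2 hz'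
      rw [← hΛc] at r1
      norm_num at r1 ⊢
      exact r1
    · rw [← ENNReal.ofReal_mul q1]
    · refine rt_xn_ofReal_link (by positivity) q1 (by positivity) ?_
      have e1 := rt_xn_inx_eps (a := C1 + 16 * (C1 * Ck)) (A := C1 * Ck) (c := Cl) q1 (by linarith) hN0.le hu3sq
      rw [hE, pow_zero, mul_one]
      linarith
  have lB' := rt_xn_inx_idx p 0 (b0 + 4) _ lB
  -- link C: the dual boost
  have lC : RtXf (rtVm p 0) (rtVd p 0 b' (rtXnV p b0 β κ w)) (rtVm p 0) (rtVd p 0 (b0 + 3) (rtXnC2 p b0 β κ w))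
      (fun z z' => z.1 = 0 ∧ RtXnR ((rtChDb κ).comp ((rtChLn (-1)).comp (rtChDb (-(κ / 2))))) p.H 0 0 (C * Λ ^ (32 * m1 + 42)) (60 / 1000) (37 / 1000) (14 / 1000) (-(31 / 100)) (-(9 / 100)) z z') Set.univ
      (ENNReal.ofReal C) (ENNReal.ofReal (C * Λ ^ (-(N : ℝ)) * ‖w‖ ^ 2)) := by
    refine rt_xn_chain lB' a3 ?_ ?_ ?_ ?_
    · intro z _ z' hz
      have hz0 : z'.1 = 0 := by simpa using hz.2
      refine rt_xn_inx_reg_db κ z' hκ hz0 ?_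
      have r1 := rt_xn_r_row hH nc1 nc2 (by norm_num) (by norm_num) (by norm_num) (by norm_num) (by norm_num) hz.1.2
      exact rt_xn_bx_mono (by norm_num) (by norm_num) (by norm_num) (by norm_num) (by norm_num) r1
    · intro z _ z' z'' hz hz'
      refine ⟨hz.1.1, ?_⟩
      have r1 := rt_xn_r_db (g := 1) (mt := 23 / 100) (α' := 60 / 1000) (β' := 37 / 1000) (γ' := 14 / 1000) (lo' := -(31 / 100)) (hi' := -(9 / 100)) hH nc1 hΛ1 hκ le_rfl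
        (by norm_num) (by norm_num) (by norm_num) (by linarith) (by norm_num) (by norm_num) (by norm_num) (by norm_num) (by norm_num) (by norm_num) (by norm_num) hz.1.2 hz'
      rw [nfin] at r1
      exact rt_xn_r_mono hH (by positivity) (mul_le_mul_of_nonneg_right hCbig (by linarith)) r1
    · rw [← ENNReal.ofReal_mul q2]
      exact ENNReal.ofReal_le_ofReal (by rw [hC]; linarith)
    · refine rt_xn_ofReal_link (by positivity) q2 (by positivity) ?_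
      have e1 := rt_xn_inx_eps (a := C1 + 16 * (C1 * Ck) + 16 * (C1 * Ck * Cl)) (A := C1 * Ck * Cl) (c := Cd) q2 (by linarith) hN0.le hc2sq
      have e3 : (C1 + 16 * (C1 * Ck) + 16 * (C1 * Ck * Cl) + 4 * (C1 * Ck * Cl * Cd)) * E ≤ C * E :=
        mul_le_mul_of_nonneg_right (by rw [hC]; linarith) hE0
      rw [hE] at e3 ⊢
      rw [pow_zero, mul_one]
      linarith
  refine rt_xa_mono (rt_xn_inx_idx p 0 (b0 + 3) _ lC) ?_ subset_rfl le_rfl le_rfl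
  intro z _ z' hz
  exact ⟨hz.1.1, by simpa using hz.2, hz.1.2⟩

/-- LEAF `L-256-RT-XN-I3`.   `V0(v1) → V0(c0)`   (from `rt_xn_in2`) -/
theorem rt_xn_in3 : ∃ m : ℕ, ∀ bm N : ℕ, ∃ C : ℝ, 1 ≤ C ∧ ∀ (p : RdWvPar) (b0 b' : ℕ) (β κ Λ : ℝ) (w : RtKc), b0 + 7 ≤ bm → b' ≤ bm → |β| ≤ 1 / 4 → |κ| ≤ 1 → C ≤ Λ →
    C * Λ ^ m * rdD p.H 2 ≤ 1 → p.Spec b0 w →
    RtXf (rtVm p 0) (rtVd p 0 b' (rtXnV p b0 β κ w)) (rtVm p 0) (rtVd p 0 (b0 + 1) (rtXnC0 p b0 w))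
      (fun z z' => z.1 = 0 ∧ z'.1 = 0 ∧ RtXnR (rtChNi β κ) p.H 0 0 (C * Λ ^ m) (31 / 1000) (22 / 1000) (12 / 1000) (-(50 / 100)) (-(4 / 100)) z z') Set.univ
      (ENNReal.ofReal C) (ENNReal.ofReal (C * Λ ^ (-(N : ℝ)) * ‖w‖ ^ 2)) := by
  obtain ⟨m1, h1'⟩ := rt_xn_in2
  refine ⟨32 * m1 + 42, fun bm N => ?_⟩
  obtain ⟨C1, hC1, h1⟩ := h1' bm N
  obtain ⟨Ck, hCk, hk⟩ := rt_xk_cut bm N
  obtain ⟨Cl, hCl, hl⟩ := rt_xl_arrow bm N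
  obtain ⟨Cd, hCd, hd⟩ := rt_xd_arrow bm N
  have q1 : 0 ≤ C1 * Ck := by positivity
  have q2 : 0 ≤ C1 * Ck * Cl := by positivity
  have q3 : 0 ≤ C1 * Ck * Cl * Cd := by positivity
  have q4 : (1:ℝ) ≤ C1 ^ 32 := one_le_pow₀ hC1
  obtain ⟨C, hC⟩ : ∃ C, C = 10 ^ 70 * C1 ^ 32 + C1 + Ck + Cd + 4 * (C1 * Ck) + 4 * (C1 * Ck * Cl) + 2 * (C1 * Ck * Cl * Cd) := ⟨_, rfl⟩
  have hCbig : 10 ^ 70 * C1 ^ 32 ≤ C := by rw [hC]; linarith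
  refine ⟨C, by linarith, ?_⟩
  intro p b0 b' β κ Λ w hb0 hb' hβ hκ hΛ hD hw
  have hH := p.H_pos
  have hΛ1 : 1 ≤ Λ := by linarith
  have hΛ0 : 0 < Λ := by linarith
  have hD02 : rdD p.H 0 ≤ rdD p.H 2 := (rt_xg_depth p.H hH 0 2 (by norm_num) (by norm_num)).2.2.2.1
  have hD0pos : 0 < rdD p.H 0 := (rt_xg_scales p.H hH 0).1
  have hD2pos : 0 < rdD p.H 2 := (rt_xg_scales p.H hH 2).1
  have hΛm : 1 ≤ Λ ^ (32 * m1 + 42) := one_le_pow₀ hΛ1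
  have hD' : 10 ^ 70 * C1 ^ 32 * Λ ^ (32 * m1 + 42) * rdD p.H 2 ≤ 1 := by
    refine le_trans ?_ hD
    exact mul_le_mul_of_nonneg_right (mul_le_mul_of_nonneg_right hCbig (by linarith)) hD2pos.le
  obtain ⟨na1, na2, nb1, nb2, nc1, nc2, nfin⟩ := rt_xn_inx_num m1 hC1 hΛ1 hD0pos.le hD02 hD'
  have hD2 : rdD p.H 2 ≤ 1 / 200 := by
    have h2 : 200 * rdD p.H 2 ≤ 10 ^ 70 * C1 ^ 32 * Λ ^ (32 * m1 + 42) * rdD p.H 2 := by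
      refine mul_le_mul_of_nonneg_right ?_ hD2pos.le
      have : (1:ℝ) * 1 ≤ C1 ^ 32 * Λ ^ (32 * m1 + 42) := mul_le_mul q4 hΛm (by norm_num) (by linarith)
      linarith
    linarith
  obtain ⟨⟨c2s, c2c, c2n⟩, ⟨u3s, u3c, u3n, -⟩, ⟨u4s, u4n, -⟩, -, -, -, -, -, -⟩ := rt_xn_st p b0 β κ w hβ hκ hD2 hw
  have hγ1 : |κ / 2 + β| ≤ 3 / 4 := by
    obtain ⟨k1, k2⟩ := abs_le.1 hκ
    obtain ⟨b1, b2⟩ := abs_le.1 hβ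
    rw [abs_le]; constructor <;> linarith
  have hγ1' : |-(κ / 2 + β)| ≤ 3 / 4 := by rw [abs_neg]; exact hγ1
  have t0 : rtTm 0 0 = -(1 / 4) := (rt_xg_clock 0 0 (by norm_num)).2.2.1
  obtain ⟨Λa, hΛa⟩ : ∃ x, x = C1 * Λ ^ m1 := ⟨_, rfl⟩
  rw [← hΛa] at na1 na2 nb1 nb2 nc1 nc2 nfin
  obtain ⟨Λb, hΛb⟩ : ∃ x, x = 10 * Λa ^ 2 * Λ ^ 2 := ⟨_, rfl⟩
  rw [← hΛb] at nb1 nb2 nc1 nc2 nfin
  obtain ⟨Λc, hΛc⟩ : ∃ x, x = 10 ^ 12 * Λb ^ 4 * Λ ^ 2 := ⟨_, rfl⟩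
  rw [← hΛc] at nc1 nc2 nfin
  obtain ⟨E, hE⟩ : ∃ E, E = Λ ^ (-(N : ℝ)) * ‖w‖ ^ 2 := ⟨_, rfl⟩
  have hN0 : 0 < Λ ^ (-(N : ℝ)) := Real.rpow_pos_of_pos hΛ0 _
  have hE0 : 0 ≤ E := by rw [hE]; positivity
  have hu4sq : ‖rtXnU2 p b0 β κ w‖ ^ 2 ≤ 4 * ‖w‖ ^ 2 :=
    (pow_le_pow_left₀ (norm_nonneg _) u4n 2).trans (le_of_eq (by ring))
  have hu3sq : ‖rtXnU1 p b0 β κ w‖ ^ 2 ≤ 4 * ‖w‖ ^ 2 :=
    (pow_le_pow_left₀ (norm_nonneg _) u3n 2).trans (le_of_eq (by ring))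
  have hc2sq : ‖rtXnC0 p b0 w‖ ^ 2 ≤ 1 * ‖w‖ ^ 2 :=
    (pow_le_pow_left₀ (norm_nonneg _) c2n 2).trans (le_of_eq (by ring))
  -- the arrows
  have a0 := h1 p b0 b' β κ Λ w hb0 hb' hβ hκ (by rw [hC] at hΛ; linarith) (by rw [← hΛa]; exact na2) hw
  rw [← hΛa] at a0
  have a1 := hk p 0 0 (b0 + 2) (b0 + 3) Λ rtXnS2 (rtXnU2 p b0 β κ w) (by omega) (by omega) (by rw [hC] at hΛ; linarith) (by norm_num)
    (rt_xg_S_meas _ _ _ _) (rt_xg_S_vol _ _ _ _)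
  have a2 := hl p 0 (b0 + 2) (b0 + 2) (-1) Λ (rtXnU1 p b0 β κ w) (by omega) (by omega) (by norm_num) hΛ1 u3s
  rw [neg_neg] at a2
  have a3 := hd p 0 (b0 + 1) (b0 + 2) (κ / 2 + β) Λ (rtXnC0 p b0 w) (by omega) (by omega) (by linarith) (by rw [hC] at hΛ; linarith)
    (by linarith) c2s (rt_xn_cone_mono (by norm_num) (by norm_num) _ c2c)
  -- link A: the cut `S4`, re-confinement
  have lA : RtXf (rtVm p 0) (rtVd p 0 b' (rtXnV p b0 β κ w)) (rtVm p 0) (rtVd p 0 (b0 + 2) (rtXnU2 p b0 β κ w))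
      (fun z z' => z.1 = 0 ∧ z'.1 = 0 ∧ RtXnR ((rtChDb κ).comp ((rtChLn (-1)).comp (rtChDb (-(κ / 2))))) p.H 0 0 Λb (18 / 1000) (12 / 1000) (10 / 1000) (-(31 / 100)) (-(9 / 100)) z z') Set.univ
      (ENNReal.ofReal (C1 * Ck)) (ENNReal.ofReal ((C1 + 4 * (C1 * Ck)) * E)) := by
    refine rt_xn_chain a0 a1 ?_ ?_ ?_ ?_
    · intro z _ z' hz
      exact hz.2.1
    · intro z _ z' z'' hz hz'
      refine ⟨hz.1, hz'.1, ?_⟩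
      have r1 := rt_xn_r_tr hH na1 hΛ1 hz.2.2 hz'.2.2
      rw [← hΛb] at r1
      have hbx : rtZr 0 z'' ∈ rtXnBx (17 / 1000) (11 / 1000) (9 / 1000) := by
        rw [rt_xn_inx_zr z'' hz'.1]
        exact hz'.2.1
      have r2 := rt_xn_r_conf hH nb1 nb2 (by norm_num) (by norm_num) (by norm_num) (by norm_num) (by norm_num) r1 hbx
      norm_num at r2 ⊢
      exact r2
    · rw [← ENNReal.ofReal_mul (by linarith)]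
    · refine rt_xn_ofReal_link (by positivity) (by linarith) (by positivity) ?_
      have e1 := rt_xn_inx_eps (a := C1) (A := C1) (c := Ck) (by linarith) (by linarith) hN0.le hu4sq
      rw [hE]
      linarith
  -- link B: the lens
  have lB : RtXf (rtVm p 0) (rtVd p 0 b' (rtXnV p b0 β κ w)) (rtVm p 0) (rtVd p 0 (b0 + 2) (rtXnU1 p b0 β κ w))
      (fun z z' => z.1 = 0 ∧ RtXnR ((rtChLn 1).comp ((rtChDb κ).comp ((rtChLn (-1)).comp (rtChDb (-(κ / 2)))))) p.H 0 0 Λc (30 / 1000) (12 / 1000) (11 / 1000) (-(45 / 100)) (-(9 / 100)) z z') Set.univ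
      (ENNReal.ofReal (C1 * Ck * Cl)) (ENNReal.ofReal ((C1 + 4 * (C1 * Ck) + 4 * (C1 * Ck * Cl)) * E)) := by
    refine rt_xn_chain lA a2 ?_ ?_ ?_ ?_
    · intro z _ z' hz
      exact rt_xn_inx_reg_ln 1 z' (by norm_num) hz.2.1
    · intro z _ z' z'' hz hz'
      refine ⟨hz.1, ?_⟩
      have r1 := rt_xn_r_ln (γ' := 11 / 1000) (lo' := -(45 / 100)) (hi' := -(9 / 100)) hH nb1 hΛ1 (by norm_num : |(1:ℝ)| ≤ 1) (by norm_num) (by norm_num) (by norm_num) (by norm_num)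
        (by rw [hz.2.1, t0, abs_neg]; norm_num) (by norm_num) (by norm_num) (by norm_num) hz.2.2 hz'
      rw [← hΛc] at r1
      norm_num at r1 ⊢
      exact r1
    · rw [← ENNReal.ofReal_mul q1]
    · refine rt_xn_ofReal_link (by positivity) q1 (by positivity) ?_
      have e1 := rt_xn_inx_eps (a := C1 + 4 * (C1 * Ck)) (A := C1 * Ck) (c := Cl) q1 (by linarith) hN0.le hu3sq
      rw [hE, pow_zero, mul_one]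
      linarith
  have lB' := rt_xn_inx_idx p 0 (b0 + 2) _ lB
  -- link C: the dual boost
  have lC : RtXf (rtVm p 0) (rtVd p 0 b' (rtXnV p b0 β κ w)) (rtVm p 0) (rtVd p 0 (b0 + 1) (rtXnC0 p b0 w))
      (fun z z' => z.1 = 0 ∧ RtXnR (rtChNi β κ) p.H 0 0 (C * Λ ^ (32 * m1 + 42)) (31 / 1000) (22 / 1000) (12 / 1000) (-(50 / 100)) (-(4 / 100)) z z') Set.univ
      (ENNReal.ofReal C) (ENNReal.ofReal (C * Λ ^ (-(N : ℝ)) * ‖w‖ ^ 2)) := by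
    refine rt_xn_chain lB' a3 ?_ ?_ ?_ ?_
    · intro z _ z' hz
      have hz0 : z'.1 = 0 := by simpa using hz.2
      refine rt_xn_inx_reg_db (-(κ / 2 + β)) z' (by linarith) hz0 ?_
      have r1 := rt_xn_r_row hH nc1 nc2 (by norm_num) (by norm_num) (by norm_num) (by norm_num) (by norm_num) hz.1.2
      exact rt_xn_bx_mono (by norm_num) (by norm_num) (by norm_num) (by norm_num) (by norm_num) r1
    · intro z _ z' z'' hz hz'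
      refine ⟨hz.1.1, ?_⟩
      have r1 := rt_xn_r_db (g := 3 / 4) (mt := 45 / 100) (α' := 31 / 1000) (β' := 22 / 1000) (γ' := 12 / 1000) (lo' := -(50 / 100)) (hi' := -(4 / 100)) hH nc1 hΛ1 hγ1' (by norm_num)
        (by norm_num) (by norm_num) (by norm_num) (by linarith) (by norm_num) (by norm_num) (by norm_num) (by norm_num) (by norm_num) (by norm_num) (by norm_num) hz.1.2 hz'
      rw [nfin] at r1
      exact rt_xn_r_mono hH (by positivity) (mul_le_mul_of_nonneg_right hCbig (by linarith)) r1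
    · rw [← ENNReal.ofReal_mul q2]
      exact ENNReal.ofReal_le_ofReal (by rw [hC]; linarith)
    · refine rt_xn_ofReal_link (by positivity) q2 (by positivity) ?_
      have e1 := rt_xn_inx_eps (a := C1 + 4 * (C1 * Ck) + 4 * (C1 * Ck * Cl)) (A := C1 * Ck * Cl) (c := Cd) q2 (by linarith) hN0.le hc2sq
      have e3 : (C1 + 4 * (C1 * Ck) + 4 * (C1 * Ck * Cl) + 1 * (C1 * Ck * Cl * Cd)) * E ≤ C * E :=
        mul_le_mul_of_nonneg_right (by rw [hC]; linarith) hE0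
      rw [hE] at e3 ⊢
      rw [pow_zero, mul_one]
      linarith
  refine rt_xa_mono (rt_xn_inx_idx p 0 (b0 + 1) _ lC) ?_ subset_rfl le_rfl le_rfl
  intro z _ z' hz
  exact ⟨hz.1.1, by simpa using hz.2, hz.1.2⟩

/-- LEAF `L-256-RT-XN-I4`.   **EXIT IN**: `V0(v1) → V2(w)`, index `1`, rows of `S0`   (from `rt_xn_in3`, `rt_xk_chg` with `(k, j, k', j') = (0, 0, 2, 1)`, `rt_xk_cut` with `(k, j) = (2, 1)`) -/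
theorem rt_xn_in : ∃ m : ℕ, ∀ bm N : ℕ, ∃ C : ℝ, 1 ≤ C ∧ ∀ (p : RdWvPar) (b0 b' : ℕ) (β κ Λ : ℝ) (w : RtKc), b0 + 7 ≤ bm → b' ≤ bm → |β| ≤ 1 / 4 → |κ| ≤ 1 → C ≤ Λ →
    C * Λ ^ m * rdD p.H 2 ≤ 1 → p.Spec b0 w →
    RtXf (rtVm p 0) (rtVd p 0 b' (rtXnV p b0 β κ w)) (rtVm p 2) (rtVd p 2 b0 w)
      (fun z z' => z.1 = 0 ∧ z'.1 = 1 ∧ z'.2 ∈ rtXnS0 ∧ RtXnR (rtChNi β κ) p.H 0 2 (C * Λ ^ m) (31 / 1000) (22 / 1000) (12 / 1000) (-(50 / 100)) (-(4 / 100)) z z') Set.univ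
      (ENNReal.ofReal C) (ENNReal.ofReal (C * Λ ^ (-(N : ℝ)) * ‖w‖ ^ 2)) := by
  obtain ⟨m3, h3'⟩ := rt_xn_in3
  refine ⟨4 * m3 + 10, fun bm N => ?_⟩
  obtain ⟨C3, hC3, h3⟩ := h3' bm N
  obtain ⟨Cc, hCc, hc⟩ := rt_xk_chg bm N
  obtain ⟨Ck, hCk, hk⟩ := rt_xk_cut bm N
  obtain ⟨C, hC⟩ : ∃ C, C = 200 + C3 + Cc + Ck + C3 * Cc * Ck + 10 ^ 9 * C3 ^ 4 + (C3 + C3 * Cc + C3 * Cc * Ck) := ⟨_, rfl⟩
  have hp1 : 0 ≤ C3 * Cc := by positivity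
  have hp2 : 0 ≤ C3 * Cc * Ck := by positivity
  have hp3 : 0 ≤ 10 ^ 9 * C3 ^ 4 := by positivity
  have hCa : C3 + C3 * Cc + C3 * Cc * Ck ≤ C := by rw [hC]; linarith
  have hCb : 10 ^ 9 * C3 ^ 4 ≤ C := by rw [hC]; linarith
  have hCc' : C3 * Cc * Ck ≤ C := by rw [hC]; linarith
  refine ⟨C, by rw [hC]; linarith, ?_⟩
  intro p b0 b' β κ Λ w hb0 hb' hβ hκ hΛ hD hw
  have hH := p.H_pos
  have hΛ1 : 1 ≤ Λ := by rw [hC] at hΛ; linarith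
  have hΛ0 : 0 < Λ := by linarith
  have hd0 : 0 < rdD p.H 2 := (rt_xg_scales p.H hH 2).1
  have hpw : Λ ^ m3 ≤ Λ ^ (4 * m3 + 10) := pow_le_pow_right₀ hΛ1 (by omega)
  have hpw1 : 1 ≤ Λ ^ m3 := one_le_pow₀ hΛ1
  have hpw2 : 1 ≤ Λ ^ (4 * m3 + 10) := one_le_pow₀ hΛ1
  have hC0 : 0 ≤ C := by rw [hC]; linarith
  -- hypotheses of the links
  have hD3 : C3 * Λ ^ m3 * rdD p.H 2 ≤ 1 := by
    refine le_trans (mul_le_mul_of_nonneg_right ?_ hd0.le) hD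
    exact mul_le_mul (by rw [hC]; linarith) hpw (by positivity) hC0
  have hd200 : rdD p.H 2 ≤ 1 / 200 := by
    have h1 : 200 * rdD p.H 2 ≤ C * Λ ^ (4 * m3 + 10) * rdD p.H 2 := by
      refine mul_le_mul_of_nonneg_right ?_ hd0.le
      have : (200 : ℝ) ≤ C := by rw [hC]; linarith
      nlinarith
    linarith
  obtain ⟨⟨hs0, -, hn0⟩, -⟩ := rt_xn_st p b0 β κ w hβ hκ hd200 hw
  obtain ⟨-, -, ht0, ht1⟩ := rt_xg_clock 0 0 (by norm_num)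
  have hcut : CutLe (rtTm 0 0) 0 (rtTm 2 1) 2 := by
    rw [ht0, ht1]
    refine ⟨by norm_num, by norm_num, by norm_num⟩
  have a3 := h3 p b0 b' β κ Λ w hb0 hb' hβ hκ (by rw [hC] at hΛ; linarith) hD3 hw
  have ac := hc p 0 0 2 1 (b0 + 1) (b0 + 1) Λ (rtXnC0 p b0 w) (by omega) (by omega) (by rw [hC] at hΛ; linarith) (by norm_num) (by norm_num) (by norm_num) hcut hs0
  have ak := hk p 2 1 b0 (b0 + 1) Λ rtXnS0 w (by omega) (by omega) (by rw [hC] at hΛ; linarith) (by norm_num) (rt_xg_S_meas _ _ _ _) (rt_xg_S_vol _ _ _ _)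
  have hΛN : 0 < Λ ^ (-(N : ℝ)) := Real.rpow_pos_of_pos hΛ0 _
  have hw2 : 0 ≤ ‖w‖ ^ 2 := sq_nonneg _
  have hn2 : ‖rtXnC0 p b0 w‖ ^ 2 ≤ ‖w‖ ^ 2 := pow_le_pow_left₀ (norm_nonneg _) hn0 2
  have hL1 : 1 ≤ C3 * Λ ^ m3 := by nlinarith
  -- first link
  have b1 : RtXf (rtVm p 0) (rtVd p 0 b' (rtXnV p b0 β κ w)) (rtVm p 2) (rtVd p 2 (b0 + 1) (rtXnC0 p b0 w))
      (fun z z' => z.1 = 0 ∧ z'.1 = 1 ∧ RtXnR (rtChNi β κ) p.H 0 2 (10 ^ 4 * (C3 * Λ ^ m3) ^ 2 * Λ ^ 4) (31 / 1000) (22 / 1000) (12 / 1000) (-(50 / 100)) (-(4 / 100)) z z') Set.univ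
      (ENNReal.ofReal (C3 * Cc)) (ENNReal.ofReal ((C3 + C3 * Cc) * Λ ^ (-(N : ℝ)) * ‖w‖ ^ 2)) := by
    refine rt_xn_chain a3 ac (fun z _ z' h => h.2.1) ?_ ?_ ?_
    · rintro z - z' z'' ⟨e0, e1, hr⟩ ⟨e2, hnr⟩
      refine ⟨e0, e2, rt_xn_r_chg hH hL1 hΛ1 ?_ hr ?_⟩
      · rw [e2, e1, ht0, ht1]
        norm_num
      · rw [e2, e1]
        exact hnr
    · rw [← ENNReal.ofReal_mul (by linarith)]
    · refine rt_xn_ofReal_link (by positivity) (by linarith) (by positivity) ?_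
      have : C3 * (Cc * Λ ^ (-(N : ℝ)) * ‖rtXnC0 p b0 w‖ ^ 2) ≤ C3 * (Cc * Λ ^ (-(N : ℝ)) * ‖w‖ ^ 2) :=
        mul_le_mul_of_nonneg_left (mul_le_mul_of_nonneg_left hn2 (by positivity)) (by linarith)
      nlinarith
  have hL2 : 1 ≤ 10 ^ 4 * (C3 * Λ ^ m3) ^ 2 * Λ ^ 4 := by
    have h1 : 1 ≤ (C3 * Λ ^ m3) ^ 2 := one_le_pow₀ hL1
    have h2 : 1 ≤ Λ ^ 4 := one_le_pow₀ hΛ1
    nlinarith
  refine rt_xn_chain b1 ak (fun z _ z' h => h.2.1) ?_ ?_ ?_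
  · rintro z - z' z'' ⟨e0, e1, hr⟩ ⟨e2, hS, has⟩
    refine ⟨e0, e2, hS, rt_xn_r_mono hH (by positivity) ?_ (rt_xn_r_tr hH hL2 hΛ1 hr has)⟩
    have e : 10 * (10 ^ 4 * (C3 * Λ ^ m3) ^ 2 * Λ ^ 4) ^ 2 * Λ ^ 2 = 10 ^ 9 * C3 ^ 4 * Λ ^ (4 * m3 + 10) := by
      ring
    rw [e]
    exact mul_le_mul_of_nonneg_right hCb (by positivity)
  · rw [← ENNReal.ofReal_mul hp1]
    exact ENNReal.ofReal_le_ofReal hCc'
  · refine rt_xn_ofReal_link (by positivity) hp1 (by positivity) ?_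
    have h1 : (C3 + C3 * Cc) * Λ ^ (-(N : ℝ)) * ‖w‖ ^ 2 + C3 * Cc * (Ck * Λ ^ (-(N : ℝ)) * ‖w‖ ^ 2) = (C3 + C3 * Cc + C3 * Cc * Ck) * (Λ ^ (-(N : ℝ)) * ‖w‖ ^ 2) := by ring
    rw [h1, mul_assoc C]
    exact mul_le_mul_of_nonneg_right hCa (by positivity)

/-- **EXIT**: the transported state -/
theorem rt_xn_state (p : RdWvPar) (b0 : ℕ) (β κ : ℝ) (w : RtKc) (hβ : |β| ≤ 1 / 4) (hκ : |κ| ≤ 1) (hd : rdD p.H 2 ≤ 1 / 200) (hw : p.Spec b0 w) :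
    p.Spec (b0 + 7) (rtXnV p b0 β κ w) ∧ RtCone (1 / 10) (rtXnV p b0 β κ w) ∧ ‖rtXnV p b0 β κ w‖ ≤ 8 * ‖w‖ :=
  (rt_xn_st p b0 β κ w hβ hκ hd hw).2.2.2.2.2.2.2.2

end Claimed.Agent.R256
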