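import Claimed.Agent.R256.Rt.XnContract

/-!
# Row 256, folder Rt, block I1, unit XN, file 3 : THE SOURCE BOX OF THE INPUT ARROW      (helper68, on request of helper225 / helper22; prefix `rt_xn_src`)      SORRY-FREE

`v1 = rtXnV p b0 β κ w` is a cut along `rtXnS5 = (36, 25, 12)/1000` at the root `(0, 0)` of the new picture: in ANY generation `b' ≤ bm` its root view carries only `C Λ^-N ‖w‖²` of energy outside
the index `0` and the box `(37, 26, 13)/1000`.      USE: compose `rt_xn_src` with `rt_xn_in` (`rt_xn_chain`): the relation of the input arrow then remembers the SOURCE box, on which all the charts are regular (`F ∘ B = id`).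
* `rt_xn_src_nul`      a transfer whose relation never holds on a measurable set `Zb`: the energy of `Zb` is `≤ ε`      (generic)
* `rt_xn_src`          the exit
-/

set_option autoImplicit false

namespace Claimed.Agent.R256

open MeasureTheory
open scoped ENNReal

/-- a transfer whose relation never holds on `Zb` bounds the energy of `Zb` by its error -/
theorem rt_xn_src_nul {Z Z' : Type} [MeasurableSpace Z] [MeasurableSpace Z'] {ζ : Measure Z} {D : Z → ℝ≥0∞} {ζ' : Measure Z'} {D' : Z' → ℝ≥0∞}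
    {R : Z → Z' → Prop} {Z0 Zb : Set Z} {A ε : ℝ≥0∞} (h : RtXf ζ D ζ' D' R Z0 A ε) (hZb : MeasurableSet Zb) (hsub : Zb ⊆ Z0) (hR : ∀ z ∈ Zb, ∀ z', ¬ R z z') :
    ∫⁻ z in Zb, D z ∂ζ ≤ ε := by
  obtain ⟨θ', e, -, h2, h3, h4⟩ := h 1 (fun _ => Zb.indicator 1) ⟨fun _ => measurable_one.indicator hZb, fun z => by
    simp only [Finset.univ_unique, Finset.sum_singleton]
    by_cases hz : z ∈ Zb
    · simp [hz]
    · simp [hz]⟩ (fun l z hz => hsub (Set.mem_of_indicator_ne_zero hz))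
  have hθ' : ∀ z', θ' 0 z' = 0 := by
    intro z'
    by_contra hne
    obtain ⟨z, hz, hr⟩ := h2 0 z' hne
    exact hR z (Set.mem_of_indicator_ne_zero hz) z' hr
  have h5 := h3 0
  simp only [hθ', zero_mul, lintegral_zero, mul_zero, zero_add] at h5
  have h6 : ∫⁻ z in Zb, D z ∂ζ = ∫⁻ z, Zb.indicator 1 z * D z ∂ζ := by
    rw [← lintegral_indicator hZb]
    congr 1
    funext z
    by_cases hz : z ∈ Zb
    · simp [hz]
    · simp [hz]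
  rw [h6]
  refine h5.trans (le_trans ?_ h4)
  simp

/-- **EXIT: the source box of the input arrow** -/
theorem rt_xn_src (bm N : ℕ) : ∃ C : ℝ, 1 ≤ C ∧ ∀ (p : RdWvPar) (b0 b' : ℕ) (β κ Λ : ℝ) (w : RtKc), b0 + 7 ≤ bm → b' ≤ bm → |β| ≤ 1 / 4 → |κ| ≤ 1 → C ≤ Λ →
    C * Λ * rdD p.H 2 ≤ 1 → p.Spec b0 w →
    RtXf (rtVm p 0) (rtVd p 0 b' (rtXnV p b0 β κ w)) (rtVm p 0) (rtVd p 0 b' (rtXnV p b0 β κ w))
      (fun z z' => z' = z ∧ z.1 = 0 ∧ rtZr 0 z ∈ rtXnBx (37 / 1000) (26 / 1000) (13 / 1000)) Set.univ 1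
      (ENNReal.ofReal (C * Λ ^ (-(N : ℝ)) * ‖w‖ ^ 2)) := by
  obtain ⟨Ck, hCk, hk⟩ := rt_xk_cut bm N
  refine ⟨3000 + 64 * Ck, by linarith, ?_⟩
  intro p b0 b' β κ Λ w hb0 hb' hβ hκ hΛ hD hw
  have hH := p.H_pos
  have hΛ1 : 1 ≤ Λ := by linarith
  have hΛ0 : 0 < Λ := by linarith
  have hD02 : rdD p.H 0 ≤ rdD p.H 2 := (rt_xg_depth p.H hH 0 2 (by norm_num) (by norm_num)).2.2.2.1
  have hD0pos : 0 < rdD p.H 0 := (rt_xg_scales p.H hH 0).1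
  have hD2pos : 0 < rdD p.H 2 := (rt_xg_scales p.H hH 2).1
  have hΛD2 : Λ * rdD p.H 2 ≤ 1 / 3000 := by
    have h1 : 3000 * (Λ * rdD p.H 2) ≤ (3000 + 64 * Ck) * (Λ * rdD p.H 2) := mul_le_mul_of_nonneg_right (by linarith) (by positivity)
    have h2 : (3000 + 64 * Ck) * (Λ * rdD p.H 2) = (3000 + 64 * Ck) * Λ * rdD p.H 2 := by ring
    linarith
  have hΛD : Λ * rdD p.H 0 ≤ 1 / 3000 := (mul_le_mul_of_nonneg_left hD02 hΛ0.le).trans hΛD2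
  have hD2 : rdD p.H 2 ≤ 1 / 200 := by
    have := rt_xn_d_le hH hΛ1 hΛD2
    linarith
  obtain ⟨-, -, -, -, -, -, -, ⟨-, -, u5n, -⟩, -⟩ := rt_xn_st p b0 β κ w hβ hκ hD2 hw
  have t0 : rtTm 0 0 = -(1 / 4) := (rt_xg_clock 0 0 (by norm_num)).2.2.1
  have h0 := rt_xn_idx p 0 b' (rtXnV p b0 β κ w) Set.univ
  have h1 := hk p 0 0 (b0 + 6) b' Λ rtXnS5 (rtXnU5 p b0 β κ w) (by omega) hb' (by linarith) (by norm_num)
    (rt_xg_S_meas _ _ _ _) (rt_xg_S_vol _ _ _ _)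
  have h01 : RtXf (rtVm p 0) (rtVd p 0 b' (rtXnV p b0 β κ w)) (rtVm p 0) (rtVd p 0 (b0 + 6) (rtXnU5 p b0 β κ w))
      (fun z z' => z.1 = 0 ∧ z'.1 = 0 ∧ z'.2 ∈ rtXnS5 ∧ RtAs (rtChTr 0) 0 p.H 0 Λ z z') Set.univ
      (ENNReal.ofReal Ck) (ENNReal.ofReal (Ck * Λ ^ (-(N : ℝ)) * ‖rtXnU5 p b0 β κ w‖ ^ 2)) := by
    refine rt_xn_chain h0 h1 ?_ ?_ (by rw [one_mul]) (by rw [one_mul, zero_add])
    · intro z _ z' hz
      show z'.1 = 0
      rw [hz.1]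
      have := hz.2
      simpa using this
    · intro z _ z' z'' hz hz'
      have hz0 : z.1 = 0 := by simpa using hz.2
      rw [hz.1] at hz'
      exact ⟨hz0, hz'.1, hz'.2.1, hz'.2.2⟩
  obtain ⟨Z1, hZ1⟩ : ∃ Z1 : Set RtZ, Z1 = {z | z.1 = 0 ∧ rtZr 0 z ∈ rtXnBx (37 / 1000) (26 / 1000) (13 / 1000)} := ⟨_, rfl⟩
  have hZ1m : MeasurableSet Z1 := by
    have e : Z1 = {z : RtZ | z.1 = 0} ∩ rtXnZ 0 (37 / 1000) (26 / 1000) (13 / 1000) := by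
      rw [hZ1]
      ext z
      constructor
      · rintro ⟨a, b⟩
        refine ⟨a, ?_, ?_, b⟩
        · rw [a, t0]
        · rw [a, t0]; norm_num
      · rintro ⟨a, -, -, b⟩
        exact ⟨a, b⟩
    rw [e]
    exact (measurable_fst (measurableSet_singleton (0 : ℕ))).inter (rt_xg_Z_meas 0 _ _ _).1
  have hgeo : ∀ z ∈ Z1ᶜ, ∀ z', ¬ (z.1 = 0 ∧ z'.1 = 0 ∧ z'.2 ∈ rtXnS5 ∧ RtAs (rtChTr 0) 0 p.H 0 Λ z z') := by
    rintro z hz z' ⟨a0, a1, a2, a3⟩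
    apply hz
    rw [hZ1]
    refine ⟨a0, ?_⟩
    have a : RtAsP p.H 0 Λ (rtZr 0 z) (rtTm 0 z.1) (rtTm 0 z'.1) z'.2 := by
      have h0 : RtAsP p.H 0 Λ ((rtChTr 0).row (rtZr 0 z)) ((rtChTr 0).tm (rtZr 0 z) (rtTm 0 z.1)) (rtTm 0 z'.1) z'.2 := a3
      rwa [(rt_xg_tr_fm _ _).1, (rt_xg_tr_fm (rtZr 0 z) 0).2.2] at h0
    have hT : |rtTm 0 z.1| ≤ 1 := by
      rw [a0, t0, abs_neg]
      norm_num
    have hz' : rtRay (rtTm 0 z'.1) z'.2 ∈ rtXnBx (36 / 1000) (25 / 1000) (12 / 1000) := by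
      rw [a1, t0]
      exact a2
    have hb := (rt_xg_asp_bx (α := 36 / 1000) (β := 25 / 1000) (γ := 12 / 1000) hH hΛ0.le a hΛD (by linarith [rt_xn_d_le hH hΛ1 hΛD]) hT (by norm_num) (by norm_num) (by norm_num)).2 hz'
    exact rt_xn_bx_mono (by norm_num) (by norm_num) (by norm_num) (by norm_num) (by norm_num) hb
  have hnul := rt_xn_src_nul h01 hZ1m.compl (Set.subset_univ _) hgeo
  have hfin := rt_xa_restr (Z0 := Set.univ) hZ1m (rt_xk_meas p 0 b' (rtXnV p b0 β κ w)) Z1ᶜ (fun z hz => hz.2) hnul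
  refine rt_xa_mono hfin ?_ subset_rfl le_rfl (ENNReal.ofReal_le_ofReal ?_)
  · intro z _ z' hz
    have := hz.2
    rw [hZ1] at this
    exact ⟨hz.1, this.1, this.2⟩
  · have hu5sq : ‖rtXnU5 p b0 β κ w‖ ^ 2 ≤ 64 * ‖w‖ ^ 2 := by
      have := pow_le_pow_left₀ (norm_nonneg _) u5n 2
      nlinarith
    have hN0 : 0 < Λ ^ (-(N : ℝ)) := Real.rpow_pos_of_pos hΛ0 _
    calc Ck * Λ ^ (-(N : ℝ)) * ‖rtXnU5 p b0 β κ w‖ ^ 2 ≤ Ck * Λ ^ (-(N : ℝ)) * (64 * ‖w‖ ^ 2) := mul_le_mul_of_nonneg_left hu5sq (by positivity)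
      _ = 64 * Ck * (Λ ^ (-(N : ℝ)) * ‖w‖ ^ 2) := by ring
      _ ≤ (3000 + 64 * Ck) * (Λ ^ (-(N : ℝ)) * ‖w‖ ^ 2) := mul_le_mul_of_nonneg_right (by linarith) (by positivity)
      _ = _ := by ring

end Claimed.Agent.R256
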