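import Claimed.Agent.R256.Rt.XoStep2Contract
import Claimed.Agent.R256.Rt.XnContract
import Claimed.Agent.R256.Rt.XnSrc

/-!
# Row 256, folder Rt, block I1 = Lemma rt:wave-transport (07 l.649-826), unit XO (assembly), file 2/2 : THE EXIT OF TRANSPORT      (architect helper76; prefix `rt_xo_`)      CONTRACT FILE

**EXIT `rt_xo_main`** (consumers: `Rt/Pw*.lean`, `Rt/Jt*.lean`: helper167, helper22, helper236; interface `Fz/Flat.lean` of helper207).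
DATA.  `p` (Planck parameter `H`), old root `(k0, i0)`, `T0 = tmL k0 i0`, `ℓ0 = rdLen k0`, relative depth `n`; normalising chart `S = rtChS T0 (4ℓ0) r c e` (`c` = centre ray parametrised at `T0`, `e` = unit normal, `r` = width unit);
   in the normalised picture the group hyperquadric is `b₂ + β y + κ q`, `|β| ≤ 1/4`, `|κ| ≤ 1`.      FOR PATCH DATA `d : RtPd`: `r = r₂ ψ.r`, `r₂ = 1/(4P)`, `c = rtXgCen ℓ0 ψ.r ψ.cen p0`, `e = nL.g 0 p0.b p0.A`, `β = nL.be r₂`, `κ = 4 nL.k r₂`;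
   then `rtXoF = Sc(4, r₂) ∘ rtChart p0 nL ∘ N_E ∘ Tr(T0)` on rows and times (`rt_xg_paper`), and the buffered patch `rtBx p0 1 (ρ/2)` is contained in the root box `(3, 1, 5)/1000` (`2Pρ, Pρ/2, 2P²ρ`).
NEW PICTURE.  `p1 = rtXoP p k0 r` (`H1 = H/(4 ℓ0 r²)`), clock `rtTm k j = j 2^-k - 1/4`: new root = depth `0` (time `-1/4`, length `1` = time `-1`, length `4` of the paper), old root interval = `[0, 1/4)`, terminal depth `n + 2`.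
   TO PASS TO THE CLOCK `tmL` (`FzDat`, `i0 = 0`): `rt_xs_shift` below with `θ = 1/4`: `rtVdP p1 k b (U v1) = rtVd p1 k b v1`.
v2 (15 Oct 00:30Z): `∃ M, ∀ bm N, ∃ C`;   `S₀` = ANY measurable subset of the root box `rtS3 0 (3,1,2)/1000` (take the normalised image of `d.In`), hypothesis: root energy outside `S₀` is `≤ ε₀`; (in) remembers `rtZm S T0 z'.2 ∈ S₀`;   generations `b0+8` (spectrum), `b0+7` (terminal views).
   PROOF: `u = U v` (XS), `w₀ = cut S₀ u`, `v1 = rtXnV p1 (b0+1) β κ w₀` (core `Rt/XnContract.lean`, helper68);   OUT = `rt_xo_so2` ∘ `rt_xn_out`, IN = `rt_xn_in` ∘ `rt_xo_tl2`.      (The lists STATES / CHAINS below describe the core.)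
CONCLUSION.  `v1` with `‖v1‖ ≤ 8 ‖v‖`, `Spec (b0+8)`, cone `1/10`,
  (in)   transfer NEW ROOT VIEW (any generation `b' ≤ bm`, ALL rows) → OLD ROOT VIEW (generation `b0`), relation `RtAsR` of the inverse chart `rtXoB`, tolerance `Λ^M`, scales of the old root; `A = C`, `ε = C Λ^-N ‖v‖²`;
  (out)  transfer OLD TERMINAL VIEWS (any generation `bT ≤ bm`, times of the root interval) → NEW TERMINAL VIEWS (depth `n+2`, generation `b0+6`), relation `RtRl` = `RtAg` (`RtAsR` of `rtXoF`, tolerance `Λ^M`, `dn ≠ 0`,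
         exact image ray in the box `(36, 24, 8)/1000`, exact image time in `[-0.128, 0.347]`) + `z'.1 < 2^(n+2)`;   `A = C`, `ε = C 4^(n+2) (ε₀ + Λ^-N ‖v‖²)`.
`C = C(bm, N)`, `M` absolute.      Use: `Λ = s^(-γ/M)`, `N` large.      `Λ^M d' ≤ 1`: `d' = rdD H kf / r ≤ 8 P s^Z` by the uncertainty condition of one label.
STATES.  `u = U v` (XS), `w₀ = cut S₀ u` (root `(2,1)`), `w₁ = T_{g+β} w₀`, `w₂ = L_{-1} w₁`, `w₂' = cut S₂ w₂`, `w₃ = T_{-κ} w₂'`, `w₄ = L_1 w₃`, `w₄' = cut S₄ w₄`, `w₅ = T_g w₄'`, `v1 = cut S₅ w₅` (`g = κ/2`; cuts 2, 4, 5 at the root `(0,0)`).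
   generations of the spectra: `b0, +1, +2, +2, +3, +4, +4, +5, +6, +7`.      `S₀ = (3,1,5)`, `S₂ = (16,16,12)`, `S₄ = (34,24,12)`, `S₅ = (38,30,12)` (`/1000`).
OUTPUT CHAIN (depth `K = n+2`): SO, DB, LN, CF, DB, LN, CF, DB, CF.   boxes `(4,4,7) → (4.1,9.4,7.1) → (13.5,9.4,7.2) → (14.3,17.4,7.3) → (31.7,17.4,7.7) → (35.8,24,7.8)`; windows `[0,.25] → [-.016,.266] → [-.016,.363] → [-.07,.417] → [-.076,.295] → [-.128,.347]`.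
INPUT CHAIN (depth `0`): SI, DB, CB, LN, DB, CB, LN, DB, TL.      exponents `m ↦ 4m+5`.
-/

set_option autoImplicit false

namespace Claimed.Agent.R256

open MeasureTheory
open scoped ENNReal

/-- the transport chart: physical coordinates → flat normalised coordinates -/
noncomputable def rtXoF (θ l r : ℝ) (c : RtRow) (e : ℝ × ℝ) (β κ : ℝ) : RtCh :=
  (rtChDb (κ / 2)).comp ((rtChLn 1).comp ((rtChDb (-κ)).comp ((rtChLn (-1)).comp ((rtChDb (κ / 2 + β)).comp (rtChS θ l r c e)))))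

/-- the inverse chart -/
noncomputable def rtXoB (θ l r : ℝ) (c : RtRow) (e : ℝ × ℝ) (β κ : ℝ) : RtCh :=
  (rtChSi θ l r c e).comp ((rtChDb (-(κ / 2 + β))).comp ((rtChLn 1).comp ((rtChDb κ).comp ((rtChLn (-1)).comp (rtChDb (-(κ / 2)))))))

/-- the Planck parameter of the new picture -/
noncomputable def rtXoP (p : RdWvPar) (k0 : ℕ) (r : ℝ) (hr : 0 < r) : RdWvPar := p.sc (4 * rdLen k0) r (mul_pos (by norm_num) (rdLen_pos k0)) hr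

theorem rt_xo_eqns_cite : True := by
  have := @rtXoF.eq_1
  have := @rtXoB.eq_1
  have := @rtXoP.eq_1
  trivial

/-- LEAF `L-256-RT-XO-SH`.  **time shift** (exact): `U G = e^{iθ|ξ|²/(4ρ)} G`, `pk (T+θ) = pk T · e^{-iθ|ξ|²/(4ρ)}`; `rt_w1_an_spec`.   ~150 l. -/
theorem rt_xs_shift (p : RdWvPar) (θ : ℝ) : ∃ U : RtKc →L[ℂ] RtKc, (∀ G, ‖U G‖ = ‖G‖) ∧ (∀ (b : ℕ) (G : RtKc), p.Spec b G → p.Spec b (U G)) ∧
    (∀ (a : ℝ) (G : RtKc), RtCone a G → RtCone a (U G)) ∧ ∀ (T : ℝ) (k b : ℕ) (G : RtKc), p.an (T + θ) k b (U G) = p.an T k b G := by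
  have hw : Measurable fun q : RdWvPar.Mo => Complex.exp (Complex.I * ((θ * rtSq q.1 / (4 * q.2) : ℝ) : ℂ)) := by
    unfold rtSq
    fun_prop
  obtain ⟨U, hU1, hU2⟩ := rt_xs_wc (volume : Measure RdWvPar.Mo) id measurable_id _ hw 1 one_pos (by simp) (fun x => by
    rw [mul_comm, Complex.norm_exp_ofReal_mul_I]
    simp)
  refine ⟨U, hU1, fun b G hG => ?_, fun a G hG => ?_, fun T k b G => ?_⟩
  · filter_upwards [hG, hU2 G] with z hz hz2 hne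
    apply hz
    intro h0
    apply hne
    rw [hz2]
    simp [h0]
  · filter_upwards [hG, hU2 G] with z hz hz2 hne
    apply hz
    intro h0
    apply hne
    rw [hz2]
    simp [h0]
  · apply Lp.ext
    filter_upwards [rt_w1_an_spec p (T + θ) k b (U G), rt_w1_an_spec p T k b G] with x h1 h2
    rw [h1, h2]
    unfold RdWvPar.row
    apply integral_congr_ae
    filter_upwards [hU2 G] with q hq
    rw [hq]
    simp only [id]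
    rw [← mul_assoc]
    congr 1
    unfold RdWvPar.pk
    rw [mul_assoc, ← Complex.exp_add]
    congr 2
    push_cast
    ring

/-! ## the glue -/

theorem rt_xo_comp_assoc (Φ Ψ S : RtCh) : (Φ.comp Ψ).comp S = Φ.comp (Ψ.comp S) := by
  simp only [RtCh.comp, RtCh.mk.injEq]
  refine ⟨trivial, ?_, trivial, ?_, ?_, ?_, ?_, trivial⟩ <;> funext x <;> ring

theorem rt_xo_F_eq (θ l r : ℝ) (c : RtRow) (e : ℝ × ℝ) (β κ : ℝ) : rtXoF θ l r c e β κ = (rtChN β κ).comp (rtChS θ l r c e) := by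
  unfold rtXoF rtChN
  simp only [rt_xo_comp_assoc]

theorem rt_xo_B_eq (θ l r : ℝ) (c : RtRow) (e : ℝ × ℝ) (β κ : ℝ) : rtXoB θ l r c e β κ = (rtChSi θ l r c e).comp (rtChNi β κ) := rfl

theorem rt_xo_d_mono (H : ℝ) (hH : 0 < H) {k k' : ℕ} (h : k ≤ k') : rdD H k ≤ rdD H k' := by
  unfold rdD
  apply Real.sqrt_le_sqrt
  have h1 : rdLen k' ≤ rdLen k := by
    unfold rdLen
    exact pow_le_pow_of_le_one (by norm_num) (by norm_num) h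
  exact div_le_div_of_nonneg_left hH.le (rdLen_pos k') h1

/-- the exact relabelling followed by an association -/
theorem rt_xo_pre (θ l r : ℝ) (c : RtRow) (e : ℝ × ℝ) (hl : 0 < l) (hr : 0 < r) (k k' s₁ s₂ : ℕ) (hlen : rdLen k = l * rdLen k')
    (hclk : (θ / l - 1 / 4) * 2 ^ k' = (s₁ : ℝ) - s₂) {Ψ : RtCh} {H Λ α β υ t₁ t₂ : ℝ} {z z' z'' : RtZ}
    (h : RtXsR (rtChS θ l r c e) k s₁ s₂ z z') (h' : RtXnR Ψ H k' k' Λ α β υ t₁ t₂ z' z'') :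
    RtAg (Ψ.comp (rtChS θ l r c e)) H k' Λ α β υ t₁ t₂ (tmL k z.1) z.2 z'' := by
  obtain ⟨h1, h2⟩ := h
  obtain ⟨⟨hdn, hbox, hlo, hhi⟩, has⟩ := h'
  have htm : (rtChS θ l r c e).tm (rtRay (tmL k z.1) z.2) (tmL k z.1) = rtTm k' z'.1 := by
    rw [rt_xs_tm θ l r c e hl.ne' hr.ne']
    exact rt_xg_xs_clk hl hlen hclk h1
  have hrow : (rtChS θ l r c e).row (rtRay (tmL k z.1) z.2) = rtZr k' z' := by
    have e1 : rtZr k' z' = (RdWvPar.co (rtTm k' z'.1) z'.2).flow (-(rtTm k' z'.1)) := rfl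
    rw [e1, h2, rt_xg_xs_co, htm, rt_xg_xs_ff, add_neg_cancel, rt_xg_xs_f0]
  have hdS : (rtChS θ l r c e).dn (rtRay (tmL k z.1) z.2) (tmL k z.1) ≠ 0 := by
    rw [rt_xg_xs_dn]
    positivity
  have eT : (Ψ.comp (rtChS θ l r c e)).tm (rtRay (tmL k z.1) z.2) (tmL k z.1) = Ψ.tm (rtZr k' z') (rtTm k' z'.1) := by
    rw [rt_ch_comp_tm _ _ _ _ hdS, hrow, htm]
  have eR : (Ψ.comp (rtChS θ l r c e)).row (rtRay (tmL k z.1) z.2) = Ψ.row (rtZr k' z') := by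
    show Ψ.row ((rtChS θ l r c e).row (rtRay (tmL k z.1) z.2)) = _
    rw [hrow]
  refine ⟨?_, ?_, ?_, ?_, ?_⟩
  · unfold RtAsR
    rw [eT, eR]
    exact has
  · rw [rt_ch_comp_dn _ _ _ _ hdS, hrow, htm]
    exact mul_ne_zero hdn hdS
  · rw [eR]
    exact hbox
  · rw [eT]
    exact hlo
  · rw [eT]
    exact hhi

theorem rt_xo_clk (k0 i0 : ℕ) : tmL k0 i0 / (4 * rdLen k0) = (i0 : ℝ) / 4 := by
  unfold tmL rdLen
  rw [inv_pow]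
  field_simp

theorem rt_xo_pw {C Λ : ℝ} (_hC : 0 ≤ C) (hΛ : 1 ≤ Λ) (hCΛ : C ≤ Λ) {m M : ℕ} (hm : m + 1 ≤ M) : C * Λ ^ m ≤ Λ ^ M :=
  calc C * Λ ^ m ≤ Λ * Λ ^ m := mul_le_mul_of_nonneg_right hCΛ (by positivity)
    _ = Λ ^ (m + 1) := by ring
    _ ≤ Λ ^ M := pow_le_pow_right₀ hΛ hm

/-- **EXIT OF TRANSPORT, FULL FORM**      (v2, 15 Oct 00:30Z: `M` ABSOLUTE; `S₀` = ANY measurable subset of the root box, remembered by the relation of (in); generations `b0+8`, `b0+7`;   v3, 00:40Z: + the conjunct `v1 = cut S₅ w5`, asked by 225;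
v4, 00:50Z: + LAST conjunct (src) = the new root view lives on the rows of index `0` whose ray lies in the box `(37, 26, 13)/1000` (`rt_xn_src`, helper68)) -/
theorem rt_xo_main4 : ∃ M : ℕ, ∀ bm N : ℕ, ∃ C : ℝ, 1 ≤ C ∧ ∀ (p : RdWvPar) (k0 i0 n b0 : ℕ) (r : ℝ) (hr : 0 < r) (c : RtRow) (e : ℝ × ℝ) (β κ Λ ε₀ : ℝ)
    (S₀ : Set RdWvPar.Ph) (v : RtKc),
    rtSq e = 1 → |β| ≤ 1 / 4 → |κ| ≤ 1 → C ≤ Λ → b0 + 8 ≤ bm → MeasurableSet S₀ → S₀ ⊆ rtS3 0 (3 / 1000) (1 / 1000) (2 / 1000) →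
    Λ ^ M * rdD (rtXoP p k0 r hr).H (n + 2) ≤ 1 → Λ ^ M * rdLen (n + 2) ≤ 1 → p.Spec b0 v →
    (p.sys 0).ms (tmL k0 i0) k0 b0 {x | rtZm (rtChS (tmL k0 i0) (4 * rdLen k0) r c e) (tmL k0 i0) x ∉ S₀} v ≤ ε₀ →
    ∃ v1 : RtKc, ‖v1‖ ≤ 8 * ‖v‖ ∧ (rtXoP p k0 r hr).Spec (b0 + 8) v1 ∧ RtCone (1 / 10) v1 ∧
      (∃ w5 : RtKc, ‖w5‖ ≤ 8 * ‖v‖ ∧ (rtXoP p k0 r hr).Spec (b0 + 7) w5 ∧
        v1 = rtCut (rtXoP p k0 r hr) (rtTm 0 0) 0 (b0 + 7) (rtS3 (-(1 / 4)) (36 / 1000) (25 / 1000) (12 / 1000)) w5) ∧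
      (∀ b' ≤ bm, RtXf (rtVm (rtXoP p k0 r hr) 0) (rtVd (rtXoP p k0 r hr) 0 b' v1) (rtVmP p k0 {i0}) (rtVdP p k0 b0 v)
        (fun z z' => z'.1 = i0 ∧ rtZm (rtChS (tmL k0 i0) (4 * rdLen k0) r c e) (tmL k0 i0) z'.2 ∈ S₀ ∧
          RtAsR (rtXoB (tmL k0 i0) (4 * rdLen k0) r c e β κ) p.H k0 (Λ ^ M) (rtTm 0 z.1) z.2 (tmL k0 z'.1) z'.2) Set.univ
        (ENNReal.ofReal C) (ENNReal.ofReal (C * (Λ ^ (-(N : ℝ)) * ‖v‖ ^ 2)))) ∧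
      (∀ bT ≤ bm, RtXf (rtVmP p (k0 + n) {j | i0 * 2 ^ n ≤ j ∧ j < (i0 + 1) * 2 ^ n}) (rtVdP p (k0 + n) bT v)
        (rtVm (rtXoP p k0 r hr) (n + 2)) (rtVd (rtXoP p k0 r hr) (n + 2) (b0 + 7) v1)
        (RtRl (tmL (k0 + n)) (rtXoF (tmL k0 i0) (4 * rdLen k0) r c e β κ) (rtXoP p k0 r hr).H (n + 2) (Λ ^ M)
          (36 / 1000) (24 / 1000) (10 / 1000) (-(128 / 1000)) (347 / 1000))
        {z | i0 * 2 ^ n ≤ z.1 ∧ z.1 < (i0 + 1) * 2 ^ n}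
        (ENNReal.ofReal C) (ENNReal.ofReal (C * (2 ^ (2 * (n + 2)) * (ε₀ + Λ ^ (-(N : ℝ)) * ‖v‖ ^ 2))))) ∧
      (∀ b' ≤ bm, RtXf (rtVm (rtXoP p k0 r hr) 0) (rtVd (rtXoP p k0 r hr) 0 b' v1) (rtVm (rtXoP p k0 r hr) 0) (rtVd (rtXoP p k0 r hr) 0 b' v1)
        (fun z z' => z' = z ∧ z.1 = 0 ∧ rtZr 0 z ∈ rtXnBx (37 / 1000) (26 / 1000) (13 / 1000)) Set.univ
        1 (ENNReal.ofReal (C * (Λ ^ (-(N : ℝ)) * ‖v‖ ^ 2)))) := by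
  obtain ⟨mo, Ho⟩ := rt_xn_out
  obtain ⟨mi, Hi⟩ := rt_xn_in
  refine ⟨max (mo + 1) (4 * (mi + 1) + 5), fun bm N => ?_⟩
  obtain ⟨Co, hCo, Ho⟩ := Ho bm N
  obtain ⟨Ci, hCi, Hi⟩ := Hi bm N
  obtain ⟨Cs, hCs, Hs⟩ := rt_xo_so2 bm N
  obtain ⟨Ct, hCt, Ht⟩ := rt_xo_tl2 bm N
  obtain ⟨Cr, hCr, Hr⟩ := rt_xn_src bm N
  set M : ℕ := max (mo + 1) (4 * (mi + 1) + 5) with hM
  have hMo : mo + 1 ≤ M := le_max_left _ _
  have hMi : 4 * (mi + 1) + 5 ≤ M := le_max_right _ _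
  refine ⟨Cs * (1 + Co) + 2 * Ci * Ct + Co + Ci + Cr, by nlinarith, ?_⟩
  intro p k0 i0 n b0 r hr c e β κ Λ ε₀ S₀ v he hβ hκ hΛ hb hS₀ hsub hd hlen hv hroot
  have hΛs : Cs ≤ Λ := by nlinarith
  have hΛt : Ct ≤ Λ := by nlinarith
  have hΛo : Co ≤ Λ := by nlinarith
  have hΛi : Ci ≤ Λ := by nlinarith
  have hΛr : Cr ≤ Λ := by nlinarith
  have hΛ3 : (1000 : ℝ) ≤ Λ := hCs.trans hΛs
  have hΛ1 : (1 : ℝ) ≤ Λ := by linarith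
  have hl : 0 < 4 * rdLen k0 := mul_pos (by norm_num) (rdLen_pos k0)
  obtain ⟨U, hUn, hUs, -, hUx⟩ := rt_xs_main p (tmL k0 i0) (4 * rdLen k0) r c e hl hr he
  have hp1 : rtXoP p k0 r hr = p.sc (4 * rdLen k0) r hl hr := rfl
  rw [hp1] at hd ⊢
  set p1 : RdWvPar := p.sc (4 * rdLen k0) r hl hr with hp1'
  have hH1 : p1.H = p.H / (4 * rdLen k0 * r ^ 2) := rfl
  have hH1p : 0 < p1.H := p1.H_pos
  have hdK0 : 0 ≤ rdD p1.H (n + 2) := Real.sqrt_nonneg _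
  have hd2K : rdD p1.H 2 ≤ rdD p1.H (n + 2) := rt_xo_d_mono _ hH1p (by omega)
  have hpw : ∀ m : ℕ, m ≤ M → Λ ^ m * rdD p1.H (n + 2) ≤ 1 := fun m hm =>
    (mul_le_mul_of_nonneg_right (pow_le_pow_right₀ hΛ1 hm) hdK0).trans hd
  have hpl : ∀ m : ℕ, m ≤ M → Λ ^ m * rdLen (n + 2) ≤ 1 := fun m hm =>
    (mul_le_mul_of_nonneg_right (pow_le_pow_right₀ hΛ1 hm) (rdLen_pos _).le).trans hlen
  have hdK : rdD p1.H (n + 2) ≤ 1 / 1000 := by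
    have := hpw 1 (by omega)
    rw [pow_one] at this
    rw [le_div_iff₀ (by norm_num)]
    nlinarith
  -- the states
  set u : RtKc := U v with hu
  have hus : p1.Spec b0 u := hUs b0 v hv
  have hun : ‖u‖ = ‖v‖ := hUn v
  set w₀ : RtKc := rtCut p1 (rtTm 2 1) 2 b0 S₀ u with hw₀
  have hws : p1.Spec (b0 + 1) w₀ := rt_xk_cut_band p1 (rtTm 2 1) 2 b0 S₀ u
  have hwn : ‖w₀‖ ≤ ‖v‖ := (rt_xk_cut_le p1 (rtTm 2 1) 2 b0 S₀ hS₀ u).trans hun.le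
  have hwn2 : ‖w₀‖ ^ 2 ≤ ‖v‖ ^ 2 := pow_le_pow_left₀ (norm_nonneg _) hwn 2
  obtain ⟨s1, s2, s3⟩ := rt_xn_state p1 (b0 + 1) β κ w₀ hβ hκ (by linarith) hws
  have hLN : 0 ≤ Λ ^ (-(N : ℝ)) := by positivity
  -- the exact symmetry at the root
  have hlen2 : rdLen k0 = 4 * rdLen k0 * rdLen 2 := by
    unfold rdLen
    ring
  have hclk2 : (tmL k0 i0 / (4 * rdLen k0) - 1 / 4) * 2 ^ 2 = ((i0 : ℕ) : ℝ) - ((1 : ℕ) : ℝ) := by
    rw [rt_xo_clk]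
    push_cast
    ring
  have hx2 := (hUx k0 2 b0 i0 1 {i0} v hlen2 hclk2 (fun j hj => ⟨1, by norm_num, by rw [Set.mem_singleton_iff.1 hj]; ring⟩)).2
  have hm : MeasurableSet {x | rtZm (rtChS (tmL k0 i0) (4 * rdLen k0) r c e) (tmL k0 i0) x ∉ S₀} :=
    (rt_xo_zm_meas (tmL k0 i0) (4 * rdLen k0) r c e (tmL k0 i0)) hS₀.compl
  have hroot' : (p1.sys 0).ms (rtTm 2 1) 2 b0 S₀ᶜ u ≤ ε₀ := (rt_xo_root p p1 k0 i0 b0 r c e S₀ hS₀ u v hm hx2).trans hroot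
  have s5 := (rt_xn_st p1 (b0 + 1) β κ w₀ hβ hκ (by linarith) hws).2.2.2.2.2.2.2.1
  refine ⟨rtXnV p1 (b0 + 1) β κ w₀, s3.trans (by linarith), s1, s2, ⟨rtXnU5 p1 (b0 + 1) β κ w₀, s5.2.2.1.trans (by linarith), s5.1, rfl⟩,
    fun b' hb' => ?_, fun bT hbT => ?_, fun b' hb' => ?_⟩
  · -- the input arrow
    have hin := Hi p1 (b0 + 1) b' β κ Λ w₀ (by omega) hb' hβ hκ hΛi
      ((mul_le_mul_of_nonneg_left hd2K (by positivity)).trans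
        ((mul_le_mul_of_nonneg_right (rt_xo_pw (by linarith) hΛ1 hΛi (by omega : mi + 1 ≤ M)) hdK0).trans hd)) hws
    have h1 : RtXf (rtVm p1 0) (rtVd p1 0 b' (rtXnV p1 (b0 + 1) β κ w₀)) (rtVm p1 2) (rtVd p1 2 (b0 + 1) w₀)
        (fun z z' => RtRl (rtTm 0) (rtChNi β κ) p1.H 2 (Λ ^ (mi + 1)) (31 / 1000) (22 / 1000) (12 / 1000) (-(50 / 100)) (-(4 / 100)) z z' ∧ z'.1 = 1)
        Set.univ (ENNReal.ofReal Ci) (ENNReal.ofReal (Ci * (Λ ^ (-(N : ℝ)) * ‖v‖ ^ 2))) := by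
      refine rt_xa_mono hin ?_ subset_rfl le_rfl (ENNReal.ofReal_le_ofReal ?_)
      · rintro z - z' ⟨-, hz1, -, ⟨hdn, hbox, hlo, hhi⟩, has⟩
        refine ⟨⟨⟨rt_xo_tl_as_mono hH1p (by positivity) (rt_xo_pw (by linarith) hΛ1 hΛi le_rfl) has, hdn, hbox, hlo, hhi⟩, ?_⟩, hz1⟩
        rw [hz1]
        norm_num
      · rw [mul_assoc]
        exact mul_le_mul_of_nonneg_left (mul_le_mul_of_nonneg_left hwn2 hLN) (by linarith)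
    have h2 := Ht (rtVm p1 0) (rtVd p1 0 b' (rtXnV p1 (b0 + 1) β κ w₀)) (rtTm 0) Set.univ (rtChNi β κ) p p1 k0 i0 b0 (b0 + 1) (mi + 1) r c e Λ
      (31 / 1000) (22 / 1000) (12 / 1000) (-(50 / 100)) (-(4 / 100)) (3 / 1000) (1 / 1000) (2 / 1000) Ci (Λ ^ (-(N : ℝ)) * ‖v‖ ^ 2) S₀ u v
      (by omega) (by omega) hΛt hr he hH1 hS₀ hsub (by linarith) (by positivity) (by rw [hun]) hx2 h1
    refine rt_xa_mono h2 ?_ subset_rfl (ENNReal.ofReal_le_ofReal ?_) (ENNReal.ofReal_le_ofReal ?_)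
    · rintro z - z' ⟨g1, g2, g3⟩
      exact ⟨g1, g2, rt_xo_tl_as_mono p.H_pos (by positivity) (pow_le_pow_right₀ hΛ1 hMi) g3⟩
    · linarith [mul_nonneg (by linarith : 0 ≤ Cs) (by linarith : 0 ≤ 1 + Co)]
    · refine mul_le_mul_of_nonneg_right ?_ (by positivity)
      linarith [mul_nonneg (by linarith : 0 ≤ Cs) (by linarith : 0 ≤ 1 + Co)]
  · -- the output arrow
    have hlenT : rdLen (k0 + n) = 4 * rdLen k0 * rdLen (n + 2) := by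
      unfold rdLen
      rw [pow_add, pow_add]
      ring
    have hclkT : (tmL k0 i0 / (4 * rdLen k0) - 1 / 4) * 2 ^ (n + 2) = ((i0 * 2 ^ n : ℕ) : ℝ) - ((2 ^ n : ℕ) : ℝ) := by
      rw [rt_xo_clk]
      push_cast
      ring
    have hxT := (hUx (k0 + n) (n + 2) bT (i0 * 2 ^ n) (2 ^ n) {j | i0 * 2 ^ n ≤ j ∧ j < (i0 + 1) * 2 ^ n} v hlenT hclkT (fun j hj => by
      obtain ⟨j1, j2⟩ := hj
      have e1 : (i0 + 1) * 2 ^ n = i0 * 2 ^ n + 2 ^ n := by ring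
      have e2 : 2 ^ (n + 2) = 4 * 2 ^ n := by ring
      have e3 : 0 < 2 ^ n := by positivity
      rw [e1] at j2
      rw [e2]
      generalize 2 ^ n = a at *
      generalize i0 * a = b at *
      exact ⟨j + a - b, by omega, by omega⟩)).1
    have hso := Hs p p1 k0 i0 n b0 bT r c e Λ (3 / 1000) (1 / 1000) (2 / 1000) ε₀ (2 ^ (2 * (n + 2)) * (ε₀ + Λ ^ (-(N : ℝ)) * ‖v‖ ^ 2)) S₀ u v
      (by omega) hbT hΛs hr he (hpw 2 (by omega)) (by norm_num) (by norm_num) (by norm_num) hus hS₀ hsub hroot' (by rw [hun]) hxT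
    have hxn := Ho p1 (b0 + 1) (n + 2) bT β κ Λ w₀ (by omega) hbT (by omega) hβ hκ hΛo
      ((mul_le_mul_of_nonneg_right (rt_xo_pw (by linarith) hΛ1 hΛo hMo) hdK0).trans hd)
      ((mul_le_mul_of_nonneg_right (rt_xo_pw (by linarith) hΛ1 hΛo hMo) (rdLen_pos _).le).trans hlen) hws
    have hxn' := rt_xo_null hxn (rt_xo_vm_null p1 (n + 2)).1 (rt_xo_vm_null p1 (n + 2)).2
    have hε₀ : 0 ≤ ε₀ := le_trans (le_of_le_of_eq (integral_nonneg fun x => by positivity) (rt_k_ms p1 0 (rtTm 2 1) 2 b0 S₀ᶜ hS₀.compl u).1.symm) hroot'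
    refine rt_xn_chain hso hxn' ?_ ?_ ?_ ?_
    · rintro z - z' ⟨-, -, hb3, ht1, ht2⟩
      refine ⟨ht1, ht2, ?_⟩
      rw [rt_xn_bx_iso]
      exact rt_xg_ag_b3_mono (by norm_num) (by norm_num) (by norm_num) (by norm_num) (by norm_num) hb3
    · rintro z - z' z'' ⟨hxs, -⟩ ⟨hR, hz''⟩
      refine ⟨?_, hz''⟩
      rw [rt_xo_F_eq]
      exact rt_xg_mono hH1p (by positivity) (rt_xo_pw (by linarith) hΛ1 hΛo hMo) (by norm_num) (by norm_num) (by norm_num) (by norm_num) (by norm_num)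
        (by norm_num) (by norm_num) (rt_xo_pre _ _ _ _ _ hl hr _ _ _ _ hlenT hclkT hxs hR)
    · rw [← ENNReal.ofReal_mul (by linarith)]
      apply ENNReal.ofReal_le_ofReal
      linarith [mul_nonneg (by linarith : 0 ≤ Ci) (by linarith : 0 ≤ Ct)]
    · refine rt_xn_ofReal_link (by positivity) (by linarith) (by positivity) ?_
      have hX : Co * Λ ^ (-(N : ℝ)) * 2 ^ (2 * (n + 2)) * ‖w₀‖ ^ 2 ≤ Co * (2 ^ (2 * (n + 2)) * (ε₀ + Λ ^ (-(N : ℝ)) * ‖v‖ ^ 2)) := by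
        have : Λ ^ (-(N : ℝ)) * ‖w₀‖ ^ 2 ≤ ε₀ + Λ ^ (-(N : ℝ)) * ‖v‖ ^ 2 := by
          have := mul_le_mul_of_nonneg_left hwn2 hLN
          linarith
        calc Co * Λ ^ (-(N : ℝ)) * 2 ^ (2 * (n + 2)) * ‖w₀‖ ^ 2 = Co * (2 ^ (2 * (n + 2)) * (Λ ^ (-(N : ℝ)) * ‖w₀‖ ^ 2)) := by ring
          _ ≤ _ := mul_le_mul_of_nonneg_left (mul_le_mul_of_nonneg_left this (by positivity)) (by linarith)
      have hX0 : 0 ≤ 2 ^ (2 * (n + 2)) * (ε₀ + Λ ^ (-(N : ℝ)) * ‖v‖ ^ 2) := by positivity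
      have h3 := mul_le_mul_of_nonneg_left hX (by linarith : 0 ≤ Cs)
      have h4 : 0 ≤ (2 * Ci * Ct + Co + Ci + Cr) * (2 ^ (2 * (n + 2)) * (ε₀ + Λ ^ (-(N : ℝ)) * ‖v‖ ^ 2)) :=
        mul_nonneg (by linarith [mul_nonneg (by linarith : 0 ≤ Ci) (by linarith : 0 ≤ Ct)]) hX0
      generalize 2 ^ (2 * (n + 2)) * (ε₀ + Λ ^ (-(N : ℝ)) * ‖v‖ ^ 2) = X at *
      generalize Co * Λ ^ (-(N : ℝ)) * 2 ^ (2 * (n + 2)) * ‖w₀‖ ^ 2 = Y at *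
      linarith
  · -- the source box
    have hsrc := Hr p1 (b0 + 1) b' β κ Λ w₀ (by omega) hb' hβ hκ hΛr
      ((mul_le_mul_of_nonneg_left hd2K (by positivity)).trans (by
        have := (mul_le_mul_of_nonneg_right (rt_xo_pw (by linarith) hΛ1 hΛr (by omega : 1 + 1 ≤ M)) hdK0).trans hd
        rwa [pow_one] at this)) hws
    refine rt_xa_mono hsrc (fun z _ z' hz => hz) subset_rfl le_rfl (ENNReal.ofReal_le_ofReal ?_)
    rw [mul_assoc]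
    have h5 : 0 ≤ Cs * (1 + Co) + 2 * Ci * Ct + Co + Ci := by
      linarith [mul_nonneg (by linarith : 0 ≤ Cs) (by linarith : 0 ≤ 1 + Co), mul_nonneg (by linarith : 0 ≤ Ci) (by linarith : 0 ≤ Ct)]
    calc Cr * (Λ ^ (-(N : ℝ)) * ‖w₀‖ ^ 2) ≤ Cr * (Λ ^ (-(N : ℝ)) * ‖v‖ ^ 2) :=
          mul_le_mul_of_nonneg_left (mul_le_mul_of_nonneg_left hwn2 hLN) (by linarith)
      _ ≤ _ := mul_le_mul_of_nonneg_right (by linarith) (by positivity)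

/-- **EXIT OF TRANSPORT** (v3 = `rt_xo_main4` without the conjunct (src)) -/
theorem rt_xo_main : ∃ M : ℕ, ∀ bm N : ℕ, ∃ C : ℝ, 1 ≤ C ∧ ∀ (p : RdWvPar) (k0 i0 n b0 : ℕ) (r : ℝ) (hr : 0 < r) (c : RtRow) (e : ℝ × ℝ) (β κ Λ ε₀ : ℝ)
    (S₀ : Set RdWvPar.Ph) (v : RtKc),
    rtSq e = 1 → |β| ≤ 1 / 4 → |κ| ≤ 1 → C ≤ Λ → b0 + 8 ≤ bm → MeasurableSet S₀ → S₀ ⊆ rtS3 0 (3 / 1000) (1 / 1000) (2 / 1000) →
    Λ ^ M * rdD (rtXoP p k0 r hr).H (n + 2) ≤ 1 → Λ ^ M * rdLen (n + 2) ≤ 1 → p.Spec b0 v →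
    (p.sys 0).ms (tmL k0 i0) k0 b0 {x | rtZm (rtChS (tmL k0 i0) (4 * rdLen k0) r c e) (tmL k0 i0) x ∉ S₀} v ≤ ε₀ →
    ∃ v1 : RtKc, ‖v1‖ ≤ 8 * ‖v‖ ∧ (rtXoP p k0 r hr).Spec (b0 + 8) v1 ∧ RtCone (1 / 10) v1 ∧
      (∃ w5 : RtKc, ‖w5‖ ≤ 8 * ‖v‖ ∧ (rtXoP p k0 r hr).Spec (b0 + 7) w5 ∧
        v1 = rtCut (rtXoP p k0 r hr) (rtTm 0 0) 0 (b0 + 7) (rtS3 (-(1 / 4)) (36 / 1000) (25 / 1000) (12 / 1000)) w5) ∧
      (∀ b' ≤ bm, RtXf (rtVm (rtXoP p k0 r hr) 0) (rtVd (rtXoP p k0 r hr) 0 b' v1) (rtVmP p k0 {i0}) (rtVdP p k0 b0 v)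
        (fun z z' => z'.1 = i0 ∧ rtZm (rtChS (tmL k0 i0) (4 * rdLen k0) r c e) (tmL k0 i0) z'.2 ∈ S₀ ∧
          RtAsR (rtXoB (tmL k0 i0) (4 * rdLen k0) r c e β κ) p.H k0 (Λ ^ M) (rtTm 0 z.1) z.2 (tmL k0 z'.1) z'.2) Set.univ
        (ENNReal.ofReal C) (ENNReal.ofReal (C * (Λ ^ (-(N : ℝ)) * ‖v‖ ^ 2)))) ∧
      (∀ bT ≤ bm, RtXf (rtVmP p (k0 + n) {j | i0 * 2 ^ n ≤ j ∧ j < (i0 + 1) * 2 ^ n}) (rtVdP p (k0 + n) bT v)
        (rtVm (rtXoP p k0 r hr) (n + 2)) (rtVd (rtXoP p k0 r hr) (n + 2) (b0 + 7) v1)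
        (RtRl (tmL (k0 + n)) (rtXoF (tmL k0 i0) (4 * rdLen k0) r c e β κ) (rtXoP p k0 r hr).H (n + 2) (Λ ^ M)
          (36 / 1000) (24 / 1000) (10 / 1000) (-(128 / 1000)) (347 / 1000))
        {z | i0 * 2 ^ n ≤ z.1 ∧ z.1 < (i0 + 1) * 2 ^ n}
        (ENNReal.ofReal C) (ENNReal.ofReal (C * (2 ^ (2 * (n + 2)) * (ε₀ + Λ ^ (-(N : ℝ)) * ‖v‖ ^ 2))))) := by
  obtain ⟨M, h⟩ := rt_xo_main4
  refine ⟨M, fun bm N => ?_⟩
  obtain ⟨C, hC, h⟩ := h bm N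
  refine ⟨C, hC, ?_⟩
  intro p k0 i0 n b0 r hr c e β κ Λ ε₀ S₀ v he hβ hκ hΛ hb hS₀ hsub hd hlen hv hroot
  obtain ⟨v1, a1, a2, a3, a4, a5, a6, -⟩ := h p k0 i0 n b0 r hr c e β κ Λ ε₀ S₀ v he hβ hκ hΛ hb hS₀ hsub hd hlen hv hroot
  exact ⟨v1, a1, a2, a3, a4, a5, a6⟩

end Claimed.Agent.R256
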