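-- KEEP
import Claimed.Agent.R256.Rt.XoContract
import Claimed.Agent.R256.Rt.PwDefs

/-!
# Row 256 (LS paper), folder Rt, file PwxOutGeo : GEOMETRY OF THE OUTPUT ARROW OF THE ADAPTER `RtPwX`          (helper236; owner of `RtPwX`: helper225; prefix `rt_pz_`)

No analysis, no measure (except one measurability statement).      DATA: patch data `d`, old root `(k0, i0)`, `T0 = tmL k0 i0`, `l₀ = rdLen k0`, `r₀ = d.ψ.r`, `c₀ = d.ψ.cen`, `p₀ = d.p0`, `e = d.nL.g 0 p₀.b p₀.A`, auxiliary width `lam`.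
* `rt_pz_unit`      `|e| = 1` (from `RtChartOk.flat`).
* `rt_pz_srow`      the normalising chart `rtChS T0 (4 l₀) (lam r₀) (rtXgCen ..) e` on a ray `p`, in terms of `q = (rtNrm l₀ r₀ c₀).row (p.flow T0)`: `(Rot (q.A - p₀.A)/lam, Rot (q.b - p₀.b)/(4 lam), tilt/(4 lam²))`.
* `rt_pz_b3_iff`    its image lies in `rtB3 α β υ` iff `|q.A - p₀.A| ≤ lam α`, `|q.b - p₀.b| ≤ 4 lam β`, `|tilt| ≤ 4 lam² υ`;   `rt_pz_b3_of_bx`, `rt_pz_bx_of_b3`.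
* `rt_pz_paper`     on the rays of the patch: `rtXoF = Sc(4, r₂) ∘ rtChart` on rows, `(chart time)/4` on times (`rt_xg_paper`).
* `rt_pz_rel`       **`RtRl` of `rtXoF` + exact relabelling `(r₂ A, r₂ b, r₂² y)` ⟹ `RtPwRout`, tolerance `12 Λ⁶`.**
-/

set_option autoImplicit false

namespace Claimed.Agent.R256

open MeasureTheory

/-- the normal of the group hyperquadric at the exact ray is a unit vector -/
theorem rt_pz_unit {P : ℝ} {n : RtPoly} {p₀ : RtRow} (h : RtChartOk P n p₀) : rtSq (n.g 0 p₀.b p₀.A) = 1 := by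
  have h1 := h.flat
  have hc := congrArg (fun m : RtPoly => m.c) h1
  have hd := congrArg (fun m : RtPoly => m.d) h1
  have h2 := congrArg (fun m : RtPoly => m.al.2) h1
  simp only [rtChart, RtCh.comp, rtChCf, rtChDb, rtChRot, rtChCen, RtPoly.cf, RtPoly.db, RtPoly.rot, RtPoly.cen, rtFlat, rtRot,
    Prod.snd_add, Prod.smul_snd, smul_eq_mul] at hc hd h2
  rw [hc] at hd h2
  simp only [zero_mul, sub_zero, mul_zero, add_zero] at hd h2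
  rw [hd] at h2
  unfold rtSq
  nlinarith

/-- the normalising chart of width `lam r₀` around the exact ray, in the coordinates of the frame -/
theorem rt_pz_srow (θ l₀ r₀ lam : ℝ) (c₀ p₀ : RtRow) (e : ℝ × ℝ) (hl : l₀ ≠ 0) (hr : r₀ ≠ 0) (hlam : lam ≠ 0) (p : RtRow) :
    (rtChS θ (4 * l₀) (lam * r₀) (rtXgCen l₀ r₀ c₀ p₀) e).row p =
      ⟨lam⁻¹ • rtRot e (((rtNrm l₀ r₀ c₀).row (p.flow θ)).A - p₀.A), (4 * lam)⁻¹ • rtRot e (((rtNrm l₀ r₀ c₀).row (p.flow θ)).b - p₀.b),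
        (((rtNrm l₀ r₀ c₀).row (p.flow θ)).y - p₀.y - 2 * rtIp p₀.A (((rtNrm l₀ r₀ c₀).row (p.flow θ)).b - p₀.b)) / (4 * lam ^ 2)⟩ := by
  simp only [rtChS, rtNrm, RtCh.comp, rtChSc, rtChRot, rtChCen, rtChTr, rtCfRowRot, rtCfRowCen, rtXgCen, RtRow.flow, rtRot, rtIp, rtSq]
  ext
  · simp only [Prod.fst_add, Prod.smul_fst, Prod.fst_sub, Prod.snd_sub, Prod.snd_add, Prod.smul_snd, smul_eq_mul]
    field_simp
    ring
  · simp only [Prod.fst_add, Prod.smul_fst, Prod.fst_sub, Prod.snd_sub, Prod.snd_add, Prod.smul_snd, smul_eq_mul]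
    field_simp
    ring
  · simp only [Prod.fst_add, Prod.smul_fst, Prod.fst_sub, Prod.snd_sub, Prod.snd_add, Prod.smul_snd, smul_eq_mul]
    field_simp
    ring
  · simp only [Prod.fst_add, Prod.smul_fst, Prod.fst_sub, Prod.snd_sub, Prod.snd_add, Prod.smul_snd, smul_eq_mul]
    field_simp
    ring
  · simp only [Prod.fst_add, Prod.smul_fst, Prod.fst_sub, Prod.snd_sub, Prod.snd_add, Prod.smul_snd, smul_eq_mul]
    field_simp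
    ring

/-- boxes of the normalised picture of width `lam r₀` in the coordinates of the frame -/
theorem rt_pz_b3_iff (θ l₀ r₀ lam : ℝ) (c₀ p₀ : RtRow) (e : ℝ × ℝ) (hl : 0 < l₀) (hr : 0 < r₀) (hlam : 0 < lam) (he : rtSq e = 1) (p : RtRow) (α β υ : ℝ) :
    (rtChS θ (4 * l₀) (lam * r₀) (rtXgCen l₀ r₀ c₀ p₀) e).row p ∈ rtB3 α β υ ↔
      rtSq (((rtNrm l₀ r₀ c₀).row (p.flow θ)).A - p₀.A) ≤ (lam * α) ^ 2 ∧ rtSq (((rtNrm l₀ r₀ c₀).row (p.flow θ)).b - p₀.b) ≤ (4 * lam * β) ^ 2 ∧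
        |((rtNrm l₀ r₀ c₀).row (p.flow θ)).y - p₀.y - 2 * rtIp p₀.A (((rtNrm l₀ r₀ c₀).row (p.flow θ)).b - p₀.b)| ≤ 4 * lam ^ 2 * υ := by
  rw [rt_pz_srow θ l₀ r₀ lam c₀ p₀ e hl.ne' hr.ne' hlam.ne' p]
  obtain ⟨q, hq⟩ : ∃ q, q = (rtNrm l₀ r₀ c₀).row (p.flow θ) := ⟨_, rfl⟩
  rw [← hq]
  have s1 : ∀ (a : ℝ) (w : ℝ × ℝ), rtSq (a • rtRot e w) = a ^ 2 * rtSq w := by
    intro a w
    have := rt_rot_sq e w
    rw [he, one_mul] at this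
    rw [← this]
    simp only [rtSq, Prod.smul_fst, Prod.smul_snd, smul_eq_mul]
    ring
  show rtSq (lam⁻¹ • rtRot e (q.A - p₀.A)) ≤ α ^ 2 ∧ rtSq ((4 * lam)⁻¹ • rtRot e (q.b - p₀.b)) ≤ β ^ 2 ∧
    |(q.y - p₀.y - 2 * rtIp p₀.A (q.b - p₀.b)) / (4 * lam ^ 2)| ≤ υ ↔ _
  rw [s1, s1, abs_div, abs_of_pos (by positivity : (0 : ℝ) < 4 * lam ^ 2), div_le_iff₀ (by positivity)]
  refine and_congr ?_ (and_congr ?_ ?_)
  · rw [inv_pow, inv_mul_le_iff₀ (by positivity), mul_pow]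
  · rw [inv_pow, inv_mul_le_iff₀ (by positivity), ← mul_pow]
  · rw [mul_comm υ]

theorem rt_pz_b3_of_bx {θ l₀ r₀ lam M α β υ : ℝ} {c₀ p₀ : RtRow} {e : ℝ × ℝ} (hl : 0 < l₀) (hr : 0 < r₀) (hlam : 0 < lam) (he : rtSq e = 1) {p : RtRow} (hM : 0 ≤ M)
    (h1 : M ≤ lam * α) (h2 : M ≤ 4 * lam * β) (h3 : M ≤ 4 * lam ^ 2 * υ) (hq : (rtNrm l₀ r₀ c₀).row (p.flow θ) ∈ rtBx p₀ 1 M) :
    (rtChS θ (4 * l₀) (lam * r₀) (rtXgCen l₀ r₀ c₀ p₀) e).row p ∈ rtB3 α β υ := by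
  obtain ⟨a, b, c⟩ := hq
  rw [mul_one] at a c
  rw [one_pow, mul_one] at b
  exact (rt_pz_b3_iff θ l₀ r₀ lam c₀ p₀ e hl hr hlam he p α β υ).2 ⟨c.trans (pow_le_pow_left₀ hM h1 2), a.trans (pow_le_pow_left₀ hM h2 2), b.trans h3⟩

theorem rt_pz_bx_of_b3 {θ l₀ r₀ lam M α β υ : ℝ} {c₀ p₀ : RtRow} {e : ℝ × ℝ} (hl : 0 < l₀) (hr : 0 < r₀) (hlam : 0 < lam) (he : rtSq e = 1) {p : RtRow} (hα : 0 ≤ α) (hβ : 0 ≤ β)
    (h1 : lam * α ≤ M) (h2 : 4 * lam * β ≤ M) (h3 : 4 * lam ^ 2 * υ ≤ M) (hq : (rtChS θ (4 * l₀) (lam * r₀) (rtXgCen l₀ r₀ c₀ p₀) e).row p ∈ rtB3 α β υ) :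
    (rtNrm l₀ r₀ c₀).row (p.flow θ) ∈ rtBx p₀ 1 M := by
  obtain ⟨a, b, c⟩ := (rt_pz_b3_iff θ l₀ r₀ lam c₀ p₀ e hl hr hlam he p α β υ).1 hq
  refine ⟨?_, ?_, ?_⟩
  · rw [mul_one]
    exact b.trans (pow_le_pow_left₀ (by positivity) h2 2)
  · rw [one_pow, mul_one]
    exact c.trans h3
  · rw [mul_one]
    exact a.trans (pow_le_pow_left₀ (by positivity) h1 2)

/-- the ray of an old terminal row at the old root time -/
theorem rt_pz_ray (k0 i0 kf : ℕ) (z : RtZ) : (rtRay (tmL kf z.1) z.2).flow (tmL k0 i0) = rtPwX0 k0 i0 kf z := by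
  unfold rtRay rtPwX0
  rw [rt_xg_flow_flow]
  show (RdWvPar.co 0 z.2).flow _ = _
  congr 1
  ring

/-- the ray of an old root row at the old root time -/
theorem rt_pz_ray0 (T : ℝ) (x : RdWvPar.Ph) : (rtRay T x).flow T = RdWvPar.co 0 x := by
  unfold rtRay
  rw [rt_xg_flow_flow, neg_add_cancel, rt_xg_flow_zero]
  rfl

/-- the times of the old root interval in units of the old root length -/
theorem rt_pz_win {k0 i0 n j : ℕ} (h1 : i0 * 2 ^ n ≤ j) (h2 : j < (i0 + 1) * 2 ^ n) :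
    0 ≤ (tmL (k0 + n) j - tmL k0 i0) / rdLen k0 ∧ (tmL (k0 + n) j - tmL k0 i0) / rdLen k0 < 1 := by
  have e : (tmL (k0 + n) j - tmL k0 i0) / rdLen k0 = (j : ℝ) / 2 ^ n - i0 := by
    unfold tmL rdLen
    rw [inv_pow, pow_add]
    field_simp
  have c1 : (i0 : ℝ) * 2 ^ n ≤ j := by exact_mod_cast h1
  have c2 : (j : ℝ) < ((i0 : ℝ) + 1) * 2 ^ n := by exact_mod_cast h2
  have hp : (0 : ℝ) < 2 ^ n := by positivity
  rw [e]
  constructor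
  · rw [sub_nonneg, le_div_iff₀ hp]
    exact c1
  · rw [sub_lt_iff_lt_add, div_lt_iff₀ hp]
    linarith

/-- the index set of the old root interval -/
theorem rt_pz_idx (k0 i0 n : ℕ) : {j : ℕ | ancI (k0 + n) k0 j = i0} = {j | i0 * 2 ^ n ≤ j ∧ j < (i0 + 1) * 2 ^ n} := by
  ext j
  simp only [Set.mem_ofPred_eq, ancI, Nat.add_sub_cancel_left]
  rw [Nat.div_eq_iff (by positivity)]
  constructor
  · rintro ⟨a, b⟩
    refine ⟨a, ?_⟩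
    have : (i0 + 1) * 2 ^ n = i0 * 2 ^ n + 2 ^ n := by ring
    have h0 : 0 < 2 ^ n := by positivity
    omega
  · rintro ⟨a, b⟩
    refine ⟨a, ?_⟩
    have : (i0 + 1) * 2 ^ n = i0 * 2 ^ n + 2 ^ n := by ring
    omega

/-- the time map of a scaling -/
theorem rt_pz_sc_tm (l r : ℝ) (hl : l ≠ 0) (hr : r ≠ 0) (p : RtRow) (t : ℝ) : (rtChSc l r).tm p t = t / l := by
  simp only [rtChSc, RtCh.tm, RtCh.dn]
  field_simp
  ring

/-- the normalising chart of the frame after the translation of the time -/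
theorem rt_pz_nt (θ l₀ r₀ : ℝ) (c₀ : RtRow) (hl : l₀ ≠ 0) (hr : r₀ ≠ 0) (p : RtRow) (t : ℝ) :
    (((rtChSc l₀ r₀).comp (rtChCen c₀)).comp (rtChTr θ)).dn p t = l₀ * r₀ ∧ (((rtChSc l₀ r₀).comp (rtChCen c₀)).comp (rtChTr θ)).tm p t = (t - θ) / l₀ := by
  constructor
  · simp only [RtCh.dn, RtCh.comp, rtChSc, rtChCen, rtChTr]
    ring
  · simp only [RtCh.tm, RtCh.dn, RtCh.comp, rtChSc, rtChCen, rtChTr]
    field_simp
    ring

/-- **on the rays of the patch the transport chart is the chart of the paper**, up to the scaling `Sc(4, r₂)` -/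
theorem rt_pz_paper {d : RtPd} {k0 i0 n : ℕ} {P r₂ : ℝ} (hP : 1 ≤ P) (hr0 : 0 < d.ψ.r) (h2 : 0 < r₂) (hβ : |d.nL.be * r₂| ≤ 1 / 4) (hκ : |4 * d.nL.k * r₂| ≤ 1)
    (hρ1 : rtChRho P ≤ r₂ / 100) (hρ2 : rtChRho P ≤ r₂ ^ 2 / 25) (hch : RtChartOk P d.nL d.p0) {z : RtZ} (hz1 : i0 * 2 ^ n ≤ z.1) (hz2 : z.1 < (i0 + 1) * 2 ^ n)
    (hz : rtPwP d k0 (rtPwX0 k0 i0 (k0 + n) z) ∈ rtBx d.p0 1 (rtChRho P)) :
    (rtXoF (tmL k0 i0) (4 * rdLen k0) (r₂ * d.ψ.r) (rtXgCen (rdLen k0) d.ψ.r d.ψ.cen d.p0) (d.nL.g 0 d.p0.b d.p0.A) (d.nL.be * r₂) (4 * d.nL.k * r₂)).row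
        (rtRay (tmL (k0 + n) z.1) z.2) = (rtChSc 4 r₂).row ((rtChart d.p0 d.nL).row (rtPwP d k0 (rtPwX0 k0 i0 (k0 + n) z))) ∧
    (rtXoF (tmL k0 i0) (4 * rdLen k0) (r₂ * d.ψ.r) (rtXgCen (rdLen k0) d.ψ.r d.ψ.cen d.p0) (d.nL.g 0 d.p0.b d.p0.A) (d.nL.be * r₂) (4 * d.nL.k * r₂)).tm
        (rtRay (tmL (k0 + n) z.1) z.2) (tmL (k0 + n) z.1)
      = (rtChart d.p0 d.nL).tm (rtPwP d k0 (rtPwX0 k0 i0 (k0 + n) z)) ((tmL (k0 + n) z.1 - tmL k0 i0) / rdLen k0) / 4 := by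
  have he := rt_pz_unit hch
  have hl := rdLen_pos k0
  have hρ0 := (rt_chp_rho hP).1
  obtain ⟨w1, w2⟩ := rt_pz_win (k0 := k0) hz1 hz2
  have hray := rt_pz_ray k0 i0 (k0 + n) z
  have hq : (rtNrm (rdLen k0) d.ψ.r d.ψ.cen).row ((rtRay (tmL (k0 + n) z.1) z.2).flow (tmL k0 i0)) ∈ rtBx d.p0 1 (rtChRho P) := by
    rw [hray]
    exact hz
  have hbox := rt_pz_b3_of_bx (θ := tmL k0 i0) (lam := r₂) (α := 1 / 100) (β := 1 / 100) (υ := 1 / 100) hl hr0 h2 he hρ0.le (by linarith) (by linarith)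
    (by linarith) hq
  have ht : |(tmL (k0 + n) z.1 - tmL k0 i0) / (4 * rdLen k0)| ≤ 1 / 2 := by
    have e : (tmL (k0 + n) z.1 - tmL k0 i0) / (4 * rdLen k0) = (tmL (k0 + n) z.1 - tmL k0 i0) / rdLen k0 / 4 := by
      field_simp
    rw [e, abs_le]
    constructor <;> linarith
  obtain ⟨a1, a2⟩ := rt_xg_paper (tmL k0 i0) (rdLen k0) d.ψ.r r₂ d.ψ.cen d.p0 d.nL hl hr0 h2 he (rtRay (tmL (k0 + n) z.1) z.2) (tmL (k0 + n) z.1) hbox hβ hκ ht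
  obtain ⟨n1, n2⟩ := rt_pz_nt (tmL k0 i0) (rdLen k0) d.ψ.r d.ψ.cen hl.ne' hr0.ne' (rtRay (tmL (k0 + n) z.1) z.2) (tmL (k0 + n) z.1)
  have hrow : (((rtChSc (rdLen k0) d.ψ.r).comp (rtChCen d.ψ.cen)).comp (rtChTr (tmL k0 i0))).row (rtRay (tmL (k0 + n) z.1) z.2)
      = rtPwP d k0 (rtPwX0 k0 i0 (k0 + n) z) := by
    rw [← hray]
    rfl
  constructor
  · unfold rtXoF
    rw [a1, ← hrow]
    rfl
  · unfold rtXoF
    rw [a2]
    have hn0 : (((rtChSc (rdLen k0) d.ψ.r).comp (rtChCen d.ψ.cen)).comp (rtChTr (tmL k0 i0))).dn (rtRay (tmL (k0 + n) z.1) z.2) (tmL (k0 + n) z.1) ≠ 0 := by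
      rw [n1]
      positivity
    have hden := (hch.fwd _ hz ((tmL (k0 + n) z.1 - tmL k0 i0) / rdLen k0) (abs_le.2 ⟨by linarith, by linarith⟩)).1
    have hdn : (rtChart d.p0 d.nL).dn (rtPwP d k0 (rtPwX0 k0 i0 (k0 + n) z)) ((tmL (k0 + n) z.1 - tmL k0 i0) / rdLen k0) ≠ 0 := by
      rw [← hch.ex.den_ray _ (hch.dom _ hz) _ hden]
      exact hden
    have hc0 : ((rtChart d.p0 d.nL).comp (((rtChSc (rdLen k0) d.ψ.r).comp (rtChCen d.ψ.cen)).comp (rtChTr (tmL k0 i0)))).dn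
        (rtRay (tmL (k0 + n) z.1) z.2) (tmL (k0 + n) z.1) ≠ 0 := by
      rw [rt_ch_comp_dn _ _ _ _ hn0, hrow, n2]
      exact mul_ne_zero hdn hn0
    rw [rt_ch_comp_tm _ _ _ _ hc0, rt_pz_sc_tm 4 r₂ (by norm_num) h2.ne', rt_ch_comp_tm _ _ _ _ hn0, hrow, n2]

/-- `RtNear` is covariant under the scaling `(A, b, y) ↦ (a A, a b, a² y)` -/
theorem rt_pz_sc_near {M dd qq H a : ℝ} {p p' : RtRow} (h : RtNear M dd qq H p p') :
    RtNear M (a * dd) (a * qq) (a ^ 2 * H) ⟨a • p.A, a • p.b, a ^ 2 * p.y⟩ ⟨a • p'.A, a • p'.b, a ^ 2 * p'.y⟩ := by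
  obtain ⟨h1, h2, h3⟩ := h
  have ha2 : 0 ≤ a ^ 2 := sq_nonneg a
  refine ⟨?_, ?_, ?_⟩
  · have e : rtSq (a • p'.A - a • p.A) = a ^ 2 * rtSq (p'.A - p.A) := by
      simp only [rtSq, Prod.fst_sub, Prod.snd_sub, Prod.smul_fst, Prod.smul_snd, smul_eq_mul]
      ring
    have e' : (M * (a * dd)) ^ 2 = a ^ 2 * (M * dd) ^ 2 := by ring
    show rtSq (a • p'.A - a • p.A) ≤ _
    rw [e, e']
    exact mul_le_mul_of_nonneg_left h1 ha2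
  · have e : rtSq (a • p'.b - a • p.b) = a ^ 2 * rtSq (p'.b - p.b) := by
      simp only [rtSq, Prod.fst_sub, Prod.snd_sub, Prod.smul_fst, Prod.smul_snd, smul_eq_mul]
      ring
    have e' : (M * (a * qq)) ^ 2 = a ^ 2 * (M * qq) ^ 2 := by ring
    show rtSq (a • p'.b - a • p.b) ≤ _
    rw [e, e']
    exact mul_le_mul_of_nonneg_left h2 ha2
  · have e : a ^ 2 * p'.y - a ^ 2 * p.y - 2 * rtIp (a • p.A) (a • p'.b - a • p.b) = a ^ 2 * (p'.y - p.y - 2 * rtIp p.A (p'.b - p.b)) := by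
      simp only [rtIp, Prod.fst_sub, Prod.snd_sub, Prod.smul_fst, Prod.smul_snd, smul_eq_mul]
      ring
    show |a ^ 2 * p'.y - a ^ 2 * p.y - 2 * rtIp (a • p.A) (a • p'.b - a • p.b)| ≤ _
    rw [e, abs_mul, abs_of_nonneg ha2]
    calc a ^ 2 * |p'.y - p.y - 2 * rtIp p.A (p'.b - p.b)| ≤ a ^ 2 * (M * H) := mul_le_mul_of_nonneg_left h3 ha2
      _ = M * (a ^ 2 * H) := by ring

/-- the scales of the Planck parameter `a² H` -/
theorem rt_pz_scales {a : ℝ} (ha : 0 ≤ a) (H : ℝ) (k : ℕ) : rdD (a ^ 2 * H) k = a * rdD H k ∧ rdQ (a ^ 2 * H) k = a * rdQ H k := by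
  unfold rdD rdQ
  constructor
  · rw [mul_div_assoc, Real.sqrt_mul (sq_nonneg a), Real.sqrt_sq ha]
  · rw [mul_assoc, Real.sqrt_mul (sq_nonneg a), Real.sqrt_sq ha]

/-- **the relation of the output arrow**: `RtRl` of the transport chart, followed by the exact relabelling `(A, b, y) ↦ (r₂ A, r₂ b, r₂² y)`, gives `RtPwRout` on the rays of the patch -/
theorem rt_pz_rel {d : RtPd} {k0 i0 n : ℕ} {P r₂ H' H1 Λ α β υ t₁ t₂ : ℝ} (hP : 1 ≤ P) (hr0 : 0 < d.ψ.r) (h2 : 0 < r₂) (hβ : |d.nL.be * r₂| ≤ 1 / 4)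
    (hκ : |4 * d.nL.k * r₂| ≤ 1) (hρ1 : rtChRho P ≤ r₂ / 100) (hρ2 : rtChRho P ≤ r₂ ^ 2 / 25) (hch : RtChartOk P d.nL d.p0) (hH' : 0 < H') (hH1 : H1 = r₂ ^ 2 * H')
    (hΛ : 1 ≤ Λ) {z z' z'' : RtZ} (hz1 : i0 * 2 ^ n ≤ z.1) (hz2 : z.1 < (i0 + 1) * 2 ^ n) (hz : rtPwP d k0 (rtPwX0 k0 i0 (k0 + n) z) ∈ rtBx d.p0 1 (rtChRho P))
    (hR : RtRl (tmL (k0 + n)) (rtXoF (tmL k0 i0) (4 * rdLen k0) (r₂ * d.ψ.r) (rtXgCen (rdLen k0) d.ψ.r d.ψ.cen d.p0) (d.nL.g 0 d.p0.b d.p0.A) (d.nL.be * r₂)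
      (4 * d.nL.k * r₂)) H' (n + 2) Λ α β υ t₁ t₂ z z') (e1 : z''.1 = z'.1) (e2 : z''.2 = (r₂ • z'.2.1, r₂ • z'.2.2.1, r₂ ^ 2 * z'.2.2.2)) :
    RtPwRout d k0 i0 (k0 + n) (n + 2) P H1 (12 * Λ ^ 6) z z'' := by
  obtain ⟨hrow, htm⟩ := rt_pz_paper hP hr0 h2 hβ hκ hρ1 hρ2 hch hz1 hz2 hz
  obtain ⟨hT, hN⟩ := hR.1.as
  rw [hrow, htm] at hN
  rw [htm] at hT
  obtain ⟨q, hq⟩ : ∃ q, q = rtPwP d k0 (rtPwX0 k0 i0 (k0 + n) z) := ⟨_, rfl⟩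
  obtain ⟨Rc, hRc⟩ : ∃ Rc, Rc = (rtChart d.p0 d.nL).row q := ⟨_, rfl⟩
  obtain ⟨τ, hτ⟩ : ∃ τ, τ = (rtChart d.p0 d.nL).tm q ((tmL (k0 + n) z.1 - tmL k0 i0) / rdLen k0) := ⟨_, rfl⟩
  obtain ⟨T', hT'⟩ : ∃ T', T' = rtTm (n + 2) z'.1 := ⟨_, rfl⟩
  rw [← hq, ← hRc, ← hτ, ← hT'] at hN
  rw [← hq, ← hτ, ← hT'] at hT
  have hl := rdLen_pos (n + 2)
  have hΛ0 : 0 ≤ Λ := by linarith
  have hΛ6 : Λ ≤ 12 * Λ ^ 6 := by
    have : Λ ^ 1 ≤ Λ ^ 6 := pow_le_pow_right₀ hΛ (by norm_num)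
    have h6 : 0 ≤ Λ ^ 6 := by positivity
    linarith [pow_one Λ]
  refine ⟨hz, ?_, ?_⟩
  · rw [e1, ← hq, ← hτ]
    have e : τ - (4 * tmL (n + 2) z'.1 - 1) = 4 * (τ / 4 - T') := by
      rw [hT']
      unfold rtTm
      ring
    rw [e, abs_mul, abs_of_pos (by norm_num : (0 : ℝ) < 4)]
    calc 4 * |τ / 4 - T'| ≤ 4 * (Λ * rdLen (n + 2)) := by linarith
      _ = Λ * (4 * rdLen (n + 2)) := by ring
      _ ≤ 12 * Λ ^ 6 * (4 * rdLen (n + 2)) := mul_le_mul_of_nonneg_right hΛ6 (by positivity)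
  · obtain ⟨-, -, hd, hqq, hHH⟩ := rt_xg_sc hH' (n + 2)
    have hN' : RtNr Λ (rdLen (n + 2)) (rdD H' (n + 2)) (((RdWvPar.co 0 z'.2).flow (-T')).flow (τ / 4)) (((rtChSc 4 r₂).row Rc).flow (τ / 4)) := by
      unfold RtNr
      rw [← hqq, ← hHH, rt_xg_flow_flow]
      have : -T' + τ / 4 = τ / 4 - T' := by ring
      rw [this]
      exact hN
    have s1 := rt_xg_nr_shift (t' := T') hΛ hΛ0 hl.le hd.le hN' (by rw [abs_sub_comm]; exact hT)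
    have hM1 : 1 ≤ (1 + Λ) * Λ ^ 2 := by nlinarith [pow_le_pow_left₀ zero_le_one hΛ 2]
    have s2 := rt_xg_nr_symm hM1 hl.le hd.le s1
    have hM2 : 3 * ((1 + Λ) * Λ ^ 2) ^ 2 ≤ 12 * Λ ^ 6 := by
      have h3 : (1 + Λ) * Λ ^ 2 ≤ 2 * Λ * Λ ^ 2 := mul_le_mul_of_nonneg_right (by linarith) (by positivity)
      calc 3 * ((1 + Λ) * Λ ^ 2) ^ 2 ≤ 3 * (2 * Λ * Λ ^ 2) ^ 2 := by
            gcongr
        _ = 12 * Λ ^ 6 := by ring
    have s3 := rt_xg_nr_mono (by positivity) hM2 hl.le hd.le s2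
    rw [rt_xg_flow_flow, neg_add_cancel, rt_xg_flow_zero] at s3
    unfold RtNr at s3
    rw [← hqq, ← hHH] at s3
    have s4 := rt_pz_sc_near (a := r₂) s3
    obtain ⟨c1, c2⟩ := rt_pz_scales h2.le H' (n + 2)
    rw [hH1, c1, c2]
    have f1 : rtPwIm d k0 (rtPwX0 k0 i0 (k0 + n) z) (tmL (n + 2) z''.1)
        = ⟨r₂ • (((rtChSc 4 r₂).row Rc).flow T').A, r₂ • (((rtChSc 4 r₂).row Rc).flow T').b, r₂ ^ 2 * (((rtChSc 4 r₂).row Rc).flow T').y⟩ := by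
      unfold rtPwIm
      rw [← hq, ← hRc, e1]
      have : 4 * tmL (n + 2) z'.1 - 1 = 4 * T' := by
        rw [hT']
        unfold rtTm
        ring
      rw [this]
      simp only [rtPwSc, rtChSc, RtRow.flow, rtSq]
      ext
      · simp only [Prod.smul_fst, smul_eq_mul]
        field_simp
      · simp only [Prod.smul_snd, smul_eq_mul]
        field_simp
      · simp only [Prod.fst_add, Prod.smul_fst, smul_eq_mul]
        field_simp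
      · simp only [Prod.snd_add, Prod.smul_snd, smul_eq_mul]
        field_simp
      · simp only [Prod.smul_fst, Prod.smul_snd, smul_eq_mul]
        field_simp
    have f2 : RdWvPar.co 0 z''.2 = ⟨r₂ • (RdWvPar.co 0 z'.2).A, r₂ • (RdWvPar.co 0 z'.2).b, r₂ ^ 2 * (RdWvPar.co 0 z'.2).y⟩ := by
      rw [e2]
      rfl
    rw [f1, f2]
    exact s4

/-- the terminal rows of the old root interval whose ray lies in a patch -/
theorem rt_pz_meas (d : RtPd) (k0 i0 n : ℕ) (M : ℝ) :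
    MeasurableSet {z : RtZ | (i0 * 2 ^ n ≤ z.1 ∧ z.1 < (i0 + 1) * 2 ^ n) ∧ rtPwP d k0 (rtPwX0 k0 i0 (k0 + n) z) ∈ rtBx d.p0 1 M} := by
  have mT : Measurable fun z : RtZ => tmL (k0 + n) z.1 := (Measurable.of_discrete (f := fun j : ℕ => tmL (k0 + n) j)).comp measurable_fst
  have m0 : MeasurableSet {z : RtZ | i0 * 2 ^ n ≤ z.1 ∧ z.1 < (i0 + 1) * 2 ^ n} :=
    measurable_fst (MeasurableSet.of_discrete (s := {j : ℕ | i0 * 2 ^ n ≤ j ∧ j < (i0 + 1) * 2 ^ n}))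
  have h1 : Measurable fun z : RtZ => rtSq ((rtPwP d k0 (rtPwX0 k0 i0 (k0 + n) z)).b - d.p0.b) := by
    simp only [rtPwP, rtPwX0, RdWvPar.co, RtRow.flow, rtNrm, RtCh.comp, rtChSc, rtChCen, rtCfRowCen, rtSq, rtIp, Prod.smul_fst, Prod.smul_snd, Prod.fst_sub,
      Prod.snd_sub, Prod.fst_add, Prod.snd_add, smul_eq_mul]
    fun_prop
  have h2 : Measurable fun z : RtZ => (rtPwP d k0 (rtPwX0 k0 i0 (k0 + n) z)).y - d.p0.y
      - 2 * rtIp d.p0.A ((rtPwP d k0 (rtPwX0 k0 i0 (k0 + n) z)).b - d.p0.b) := by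
    simp only [rtPwP, rtPwX0, RdWvPar.co, RtRow.flow, rtNrm, RtCh.comp, rtChSc, rtChCen, rtCfRowCen, rtSq, rtIp, Prod.smul_fst, Prod.smul_snd, Prod.fst_sub,
      Prod.snd_sub, Prod.fst_add, Prod.snd_add, smul_eq_mul]
    fun_prop
  have h3 : Measurable fun z : RtZ => rtSq ((rtPwP d k0 (rtPwX0 k0 i0 (k0 + n) z)).A - d.p0.A) := by
    simp only [rtPwP, rtPwX0, RdWvPar.co, RtRow.flow, rtNrm, RtCh.comp, rtChSc, rtChCen, rtCfRowCen, rtSq, rtIp, Prod.smul_fst, Prod.smul_snd, Prod.fst_sub,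
      Prod.snd_sub, Prod.fst_add, Prod.snd_add, smul_eq_mul]
    fun_prop
  exact m0.inter ((measurableSet_le h1 measurable_const).inter ((measurableSet_le h2.abs measurable_const).inter (measurableSet_le h3 measurable_const)))

/-- the root rows whose ray lies in a patch -/
theorem rt_pz_meas0 (d : RtPd) (k0 : ℕ) (M : ℝ) : MeasurableSet {x : RdWvPar.Ph | rtPwP d k0 (RdWvPar.co 0 x) ∈ rtBx d.p0 1 M} := by
  have h1 : Measurable fun x : RdWvPar.Ph => rtSq ((rtPwP d k0 (RdWvPar.co 0 x)).b - d.p0.b) := by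
    simp only [rtPwP, RdWvPar.co, rtNrm, RtCh.comp, rtChSc, rtChCen, rtCfRowCen, rtSq, rtIp, Prod.smul_fst, Prod.smul_snd, Prod.fst_sub,
      Prod.snd_sub, smul_eq_mul]
    fun_prop
  have h2 : Measurable fun x : RdWvPar.Ph => (rtPwP d k0 (RdWvPar.co 0 x)).y - d.p0.y - 2 * rtIp d.p0.A ((rtPwP d k0 (RdWvPar.co 0 x)).b - d.p0.b) := by
    simp only [rtPwP, RdWvPar.co, rtNrm, RtCh.comp, rtChSc, rtChCen, rtCfRowCen, rtIp, Prod.smul_fst, Prod.smul_snd, Prod.fst_sub,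
      Prod.snd_sub, smul_eq_mul]
    fun_prop
  have h3 : Measurable fun x : RdWvPar.Ph => rtSq ((rtPwP d k0 (RdWvPar.co 0 x)).A - d.p0.A) := by
    simp only [rtPwP, RdWvPar.co, rtNrm, RtCh.comp, rtChSc, rtChCen, rtCfRowCen, rtSq, rtIp, Prod.smul_fst, Prod.smul_snd, Prod.fst_sub,
      Prod.snd_sub, smul_eq_mul]
    fun_prop
  exact (measurableSet_le h1 measurable_const).inter ((measurableSet_le h2.abs measurable_const).inter (measurableSet_le h3 measurable_const))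

end Claimed.Agent.R256
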