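-- KEEP
import Claimed.Agent.R256.Rt.PwxOutGeo

/-!
# Row 256 (LS paper), folder Rt, file PwxOut : THE OUTPUT ARROW OF THE ADAPTER `RtPwX`          (helper236; owner of `RtPwX`: helper225; prefix `rt_pz_`)          no `sorry`

**`rt_pz_out`** : the field `RtPwI1.out` from  (XO) the output arrow of `rt_xo_main` (tolerance `Λ1 = Λ^M`, constants `A1`, `e1`)  and  (SY) the exact relabelling `(p', clock rtTm) → (p1, clock tmL)`, rows `(A, b, y) ↦ (r₂ A, r₂ b, r₂² y)`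
(unit SYM, helper144; constant `A2 = 64` after the factor `1/8`).      RESULT: relation `RtPwRout .. (12 Λ1⁶)`, constant `A1 A2`, error `C 4^(n+2) (ε₀ + Λ0^-N ‖v‖²) + e1`.
STEPS.   (1) RESTRICTION to the terminal rows whose ray lies in the chart patch `rtBx p0 1 ρ` (clause 1 of `RtPwRout`: it does NOT follow from `RtRl`, whose image box is wider than the patch by a factor `P`):
             `rt_pz_bad` = `rt_xa_set` with `N = ∅` applied to `rt_xo_so` for ANOTHER width `r' = 10 ρ ψ.r`: buffered patch `ρ/2` = box `(1/20, 1/80, 1/(800ρ))`, the enlarged box `(+1, +3, +2)/1000` lies in the patch `ρ`.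
         (2) XO.      (3) SY.      (4) relation: `rt_pz_rel`.      (5) index sets `rt_pz_idx`, null set `rt_xo_null_src`.
HYPOTHESES FOR THE TOP: `ε₀ ≥` root mass outside the BUFFERED PATCH (`{x | rtPwP d k0 (co 0 x) ∉ rtBx p0 1 (ρ/2)}`, contained in the complement of `d.In`);   `Λ0² · rdD (H/(4 l₀ (10 ρ ψ.r)²)) (n+2) ≤ 1`   (`= Λ0² d_kf/(10 ρ ψ.r)`).
-/

set_option autoImplicit false

namespace Claimed.Agent.R256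

open MeasureTheory
open scoped ENNReal

/-- **the terminal energy of the rows whose ray leaves the enlarged box is negligible** -/
theorem rt_pz_bad (bm N : ℕ) : ∃ C : ℝ, 1000 ≤ C ∧ ∀ (p : RdWvPar) (k0 i0 n b0 bT : ℕ) (r : ℝ) (hr : 0 < r) (c : RtRow) (e : ℝ × ℝ) (Λ αS βS υS ε₀ : ℝ) (v : RtKc)
    (Zb : Set RtZ), b0 ≤ bm → bT ≤ bm → C ≤ Λ → rtSq e = 1 → Λ ^ 2 * rdD (rtXoP p k0 r hr).H (n + 2) ≤ 1 → 0 ≤ αS → αS ≤ 9 / 100 → 0 ≤ βS → p.Spec b0 v →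
    (p.sys 0).ms (tmL k0 i0) k0 b0 {x | rtZm (rtChS (tmL k0 i0) (4 * rdLen k0) r c e) (tmL k0 i0) x ∉ rtS3 0 αS βS υS} v ≤ ε₀ →
    MeasurableSet Zb → (∀ z ∈ Zb, (i0 * 2 ^ n ≤ z.1 ∧ z.1 < (i0 + 1) * 2 ^ n) ∧
      (rtChS (tmL k0 i0) (4 * rdLen k0) r c e).row (rtRay (tmL (k0 + n) z.1) z.2) ∉ rtB3 (αS + 1 / 1000) (βS + 3 / 1000) (υS + 2 / 1000)) →
    ∫⁻ z in Zb, rtVdP p (k0 + n) bT v z ∂(rtVmP p (k0 + n) {j | i0 * 2 ^ n ≤ j ∧ j < (i0 + 1) * 2 ^ n})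
      ≤ ENNReal.ofReal (C * (2 ^ (2 * (n + 2)) * (ε₀ + Λ ^ (-(N : ℝ)) * ‖v‖ ^ 2))) := by
  obtain ⟨C, hC, h⟩ := rt_xo_so bm N
  refine ⟨C, hC, ?_⟩
  intro p k0 i0 n b0 bT r hr c e Λ αS βS υS ε₀ v Zb hb0 hbT hΛ he hd hα0 hα hβ hv hms hZb hbad
  have h4l : 0 < 4 * rdLen k0 := mul_pos (by norm_num) (rdLen_pos k0)
  obtain ⟨U, hUn, hUs, -, hUx⟩ := rt_xs_main p (tmL k0 i0) (4 * rdLen k0) r c e h4l hr he
  have hx1 := (hUx (k0 + n) (n + 2) bT (i0 * 2 ^ n) (2 ^ n) {j | i0 * 2 ^ n ≤ j ∧ j < (i0 + 1) * 2 ^ n} v (rt_xo_so_len k0 n) (rt_xo_so_clk k0 i0 n) (by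
    rintro j ⟨h1, h2⟩
    have h3 : j + 2 ^ n - i0 * 2 ^ n + i0 * 2 ^ n = j + 2 ^ n := Nat.sub_add_cancel (le_trans h1 (Nat.le_add_right _ _))
    exact ⟨j + 2 ^ n - i0 * 2 ^ n, (rt_xo_so_win h1 h2 h3).1, h3⟩)).1
  have hx2 := (hUx k0 2 b0 i0 1 {i0} v (by
    unfold rdLen
    norm_num
    ring) (by
    unfold tmL rdLen
    rw [inv_pow]
    field_simp
    push_cast
    ring) (by
    rintro j hj
    rw [Set.mem_singleton_iff] at hj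
    exact ⟨1, by norm_num, by omega⟩)).2
  have hS := rt_xg_s3_meas 0 αS βS υS
  have hm : MeasurableSet {x | rtZm (rtChS (tmL k0 i0) (4 * rdLen k0) r c e) (tmL k0 i0) x ∉ rtS3 0 αS βS υS} :=
    (rt_xo_zm_meas (tmL k0 i0) (4 * rdLen k0) r c e (tmL k0 i0)) hS.compl
  have hroot := rt_xo_root p (rtXoP p k0 r hr) k0 i0 b0 r c e (rtS3 0 αS βS υS) hS (U v) v hm hx2
  have hso := h p (rtXoP p k0 r hr) k0 i0 n b0 bT r c e Λ αS βS υS ε₀ (2 ^ (2 * (n + 2)) * (ε₀ + Λ ^ (-(N : ℝ)) * ‖v‖ ^ 2)) (U v) v hb0 hbT hΛ hr he hd hα0 hα hβ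
    (hUs b0 v hv) (hroot.trans hms) (by rw [hUn]) hx1
  have hset := rt_xa_set hso hZb (fun z hz => (hbad z hz).1) (N := ∅) (fun z hz z' hR => ((hbad z hz).2 hR.1.box).elim)
  simpa using hset

/-- the image of a root row under the normalising chart -/
theorem rt_pz_zm0 (θ l r : ℝ) (c : RtRow) (e : ℝ × ℝ) (hl : l ≠ 0) (hr : r ≠ 0) (x : RdWvPar.Ph) :
    rtRay 0 (rtZm (rtChS θ l r c e) θ x) = (rtChS θ l r c e).row (rtRay θ x) := by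
  unfold rtZm
  rw [rt_xs_tm θ l r c e hl hr, sub_self, zero_div, rt_xg_flow_zero]
  unfold rtRay
  rw [neg_zero, rt_xg_flow_zero]
  rfl

/-- the density of a view in the physical clock is measurable -/
theorem rt_pz_vdp_meas (p : RdWvPar) (k b : ℕ) (v : RtKc) : Measurable (rtVdP p k b v) := by
  refine measurable_from_prod_countable_right fun j => ?_
  exact ((Lp.stronglyMeasurable (p.an (tmL k j) k b v)).measurable.enorm).pow_const 2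

/-- a view in the physical clock does not charge the other time indices -/
theorem rt_pz_vmp_null (p : RdWvPar) (k : ℕ) (I : Set ℕ) : rtVmP p k I (Set.univ \ {z : RtZ | z.1 ∈ I}) = 0 := by
  have := rt_k_rw_sf p k
  have e0 : Set.univ \ {z : RtZ | z.1 ∈ I} = Iᶜ ×ˢ (Set.univ : Set RdWvPar.Ph) := by
    ext ⟨j, x⟩
    simp
  rw [e0]
  unfold rtVmP
  rw [Measure.prod_prod, Measure.restrict_apply MeasurableSet.of_discrete, Set.compl_inter_self, measure_empty, zero_mul]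

/-- **THE OUTPUT ARROW** -/
theorem rt_pz_out (bm N : ℕ) : ∃ C : ℝ, 1000 ≤ C ∧ ∀ (p p' p1 : RdWvPar) (d : RtPd) (k0 i0 n b0 bT c : ℕ) (P r₂ Λ0 Λ1 ε₀ α β υ t₁ t₂ : ℝ) (A1 A2 e1 : ℝ≥0∞)
    (v v1 G : RtKc), 1 ≤ P → 0 < d.ψ.r → 0 < r₂ → |d.nL.be * r₂| ≤ 1 / 4 → |4 * d.nL.k * r₂| ≤ 1 → rtChRho P ≤ r₂ / 100 → rtChRho P ≤ r₂ ^ 2 / 25 →
    RtChartOk P d.nL d.p0 → b0 ≤ bm → bT ≤ bm → p.Spec b0 v → C ≤ Λ0 → 1 ≤ Λ1 →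
    Λ0 ^ 2 * rdD (p.H / (4 * rdLen k0 * (10 * rtChRho P * d.ψ.r) ^ 2)) (n + 2) ≤ 1 →
    (p.sys 0).ms (tmL k0 i0) k0 b0 {x | rtPwP d k0 (RdWvPar.co 0 x) ∉ rtBx d.p0 1 (rtChRho P / 2)} v ≤ ε₀ →
    p1.H = r₂ ^ 2 * p'.H →
    RtXf (rtVmP p (k0 + n) {j | i0 * 2 ^ n ≤ j ∧ j < (i0 + 1) * 2 ^ n}) (rtVdP p (k0 + n) bT v) (rtVm p' (n + 2)) (rtVd p' (n + 2) c v1)
      (RtRl (tmL (k0 + n)) (rtXoF (tmL k0 i0) (4 * rdLen k0) (r₂ * d.ψ.r) (rtXgCen (rdLen k0) d.ψ.r d.ψ.cen d.p0) (d.nL.g 0 d.p0.b d.p0.A) (d.nL.be * r₂)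
        (4 * d.nL.k * r₂)) p'.H (n + 2) Λ1 α β υ t₁ t₂) {z | i0 * 2 ^ n ≤ z.1 ∧ z.1 < (i0 + 1) * 2 ^ n} A1 e1 →
    RtXf (rtVm p' (n + 2)) (rtVd p' (n + 2) c v1) (rtVmP p1 (n + 2) (Set.Iio (2 ^ (n + 2)))) (rtVdP p1 (n + 2) c G)
      (fun z z' => z'.1 = z.1 ∧ z'.2 = (r₂ • z.2.1, r₂ • z.2.2.1, r₂ ^ 2 * z.2.2.2)) Set.univ A2 0 →
    RtXf (rtVmP p (k0 + n) {j | ancI (k0 + n) k0 j = i0}) (rtVdP p (k0 + n) bT v) (rtVmP p1 (n + 2) (Set.Iio (2 ^ (n + 2)))) (rtVdP p1 (n + 2) c G)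
      (RtPwRout d k0 i0 (k0 + n) (n + 2) P p1.H (12 * Λ1 ^ 6)) Set.univ (A1 * A2)
      (ENNReal.ofReal (C * (2 ^ (2 * (n + 2)) * (ε₀ + Λ0 ^ (-(N : ℝ)) * ‖v‖ ^ 2))) + e1) := by
  obtain ⟨C, hC, hbad⟩ := rt_pz_bad bm N
  refine ⟨C, hC, ?_⟩
  intro p p' p1 d k0 i0 n b0 bT c P r₂ Λ0 Λ1 ε₀ α β υ t₁ t₂ A1 A2 e1 v v1 G hP hr0 h2 hβ hκ hρ1 hρ2 hch hb0 hbT hv hΛ0 hΛ1 hd hms hH hXO hSY
  have he := rt_pz_unit hch
  obtain ⟨hρ0, -, -, hρ3, -⟩ := rt_chp_rho hP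
  have hl := rdLen_pos k0
  obtain ⟨ρ, hρ⟩ : ∃ ρ, ρ = rtChRho P := ⟨_, rfl⟩
  rw [← hρ] at hρ0 hρ3 hd hms
  have hlam : 0 < 10 * ρ := by positivity
  have hr' : 0 < 10 * ρ * d.ψ.r := by positivity
  have h4l : (4 * rdLen k0) ≠ 0 := by positivity
  have hZ1 := rt_pz_meas d k0 i0 n ρ
  have hZ0 : MeasurableSet {z : RtZ | i0 * 2 ^ n ≤ z.1 ∧ z.1 < (i0 + 1) * 2 ^ n} :=
    measurable_fst (MeasurableSet.of_discrete (s := {j : ℕ | i0 * 2 ^ n ≤ j ∧ j < (i0 + 1) * 2 ^ n}))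
  -- the root mass in the normalised picture of width `10 ρ ψ.r`
  have hms' : (p.sys 0).ms (tmL k0 i0) k0 b0 {x | rtZm (rtChS (tmL k0 i0) (4 * rdLen k0) (10 * ρ * d.ψ.r) (rtXgCen (rdLen k0) d.ψ.r d.ψ.cen d.p0)
      (d.nL.g 0 d.p0.b d.p0.A)) (tmL k0 i0) x ∉ rtS3 0 (1 / 20) (1 / 80) (1 / (800 * ρ))} v ≤ ε₀ := by
    refine le_trans (gn_ms_mono _ _ _ ((rt_xo_zm_meas _ _ _ _ _ _) (rt_xg_s3_meas 0 _ _ _).compl) (rt_pz_meas0 d k0 (ρ / 2)).compl ?_ _) hms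
    intro x hx hx'
    apply hx
    have e0 := rt_pz_zm0 (tmL k0 i0) (4 * rdLen k0) (10 * ρ * d.ψ.r) (rtXgCen (rdLen k0) d.ψ.r d.ψ.cen d.p0) (d.nL.g 0 d.p0.b d.p0.A) h4l hr'.ne' x
    have key : (rtChS (tmL k0 i0) (4 * rdLen k0) (10 * ρ * d.ψ.r) (rtXgCen (rdLen k0) d.ψ.r d.ψ.cen d.p0) (d.nL.g 0 d.p0.b d.p0.A)).row
        (rtRay (tmL k0 i0) x) ∈ rtB3 (1 / 20) (1 / 80) (1 / (800 * ρ)) := by
      refine rt_pz_b3_of_bx (M := ρ / 2) hl hr0 hlam he (by positivity) (le_of_eq (by ring)) (le_of_eq (by ring)) (le_of_eq ?_) ?_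
      · field_simp
        ring
      · have e1 := rt_pz_ray0 (tmL k0 i0) x
        exact e1.symm ▸ hx'
    rw [← e0] at key
    exact key
  -- the energy outside the patch
  have hB := hbad p k0 i0 n b0 bT (10 * ρ * d.ψ.r) hr' (rtXgCen (rdLen k0) d.ψ.r d.ψ.cen d.p0) (d.nL.g 0 d.p0.b d.p0.A) Λ0 (1 / 20) (1 / 80) (1 / (800 * ρ)) ε₀ v
    ({z : RtZ | i0 * 2 ^ n ≤ z.1 ∧ z.1 < (i0 + 1) * 2 ^ n} \
      {z : RtZ | (i0 * 2 ^ n ≤ z.1 ∧ z.1 < (i0 + 1) * 2 ^ n) ∧ rtPwP d k0 (rtPwX0 k0 i0 (k0 + n) z) ∈ rtBx d.p0 1 ρ})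
    hb0 hbT hΛ0 he hd (by norm_num) (by norm_num) (by norm_num) hv hms' (hZ0.diff hZ1) (by
      rintro z ⟨hz0, hz1⟩
      refine ⟨hz0, fun hb => hz1 ⟨hz0, ?_⟩⟩
      have e3 : 4 * (10 * ρ) ^ 2 * (1 / (800 * ρ) + 2 / 1000) = ρ / 2 + 4 / 5 * ρ ^ 2 := by
        field_simp
        ring
      have := rt_pz_bx_of_b3 (M := ρ) hl hr0 hlam he (by norm_num) (by norm_num) (by linarith) (by linarith) (by rw [e3]; nlinarith) hb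
      rw [rt_pz_ray] at this
      exact this)
  have s1 := rt_xa_restr (ζ := rtVmP p (k0 + n) {j | i0 * 2 ^ n ≤ j ∧ j < (i0 + 1) * 2 ^ n}) (D := rtVdP p (k0 + n) bT v)
    (Z0 := {z : RtZ | i0 * 2 ^ n ≤ z.1 ∧ z.1 < (i0 + 1) * 2 ^ n}) hZ1 (rt_pz_vdp_meas _ _ _ _).aemeasurable _ subset_rfl hB
  have s23 := rt_xa_comp hXO hSY (fun _ _ _ _ => Set.mem_univ _)
  have s123 := rt_xa_comp s1 s23 (fun z hz z' h => h.1 ▸ hz)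
  have s4 : RtXf (rtVmP p (k0 + n) {j | i0 * 2 ^ n ≤ j ∧ j < (i0 + 1) * 2 ^ n}) (rtVdP p (k0 + n) bT v) (rtVmP p1 (n + 2) (Set.Iio (2 ^ (n + 2))))
      (rtVdP p1 (n + 2) c G) (RtPwRout d k0 i0 (k0 + n) (n + 2) P p1.H (12 * Λ1 ^ 6)) {z : RtZ | i0 * 2 ^ n ≤ z.1 ∧ z.1 < (i0 + 1) * 2 ^ n} (A1 * A2)
      (ENNReal.ofReal (C * (2 ^ (2 * (n + 2)) * (ε₀ + Λ0 ^ (-(N : ℝ)) * ‖v‖ ^ 2))) + e1) := by
    refine rt_xa_mono s123 ?_ subset_rfl (by rw [one_mul]) (by rw [one_mul, mul_zero, add_zero])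
    rintro z - z3 ⟨z1, ⟨h1, hz⟩, z2, hR, h3, h4⟩
    subst h1
    rw [hρ] at hz
    exact rt_pz_rel hP hr0 h2 hβ hκ hρ1 hρ2 hch p'.H_pos hH hΛ1 hz.1.1 hz.1.2 hz.2 hR h3 h4
  rw [rt_pz_idx]
  exact rt_xo_null_src s4 hZ0 (rt_pz_vmp_null p (k0 + n) {j | i0 * 2 ^ n ≤ j ∧ j < (i0 + 1) * 2 ^ n})

end Claimed.Agent.R256
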