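import Claimed.Agent.R256.Rt.PwxDefs

/-!
# Row 256, folder Rt, file PwxSeams : THE SEAMS OF THE ADAPTER `rt_xo_main ⟹ RtPxN`      (CO-256-RtPwX, head helper225)      SORRY-FREE, `Prop`s ONLY

`Rt/PwxMain.lean` proves   `rt_px_n : RtPxXo → RtPxSym → RtPxRoot → RtPxInG → RtPxOutA → RtPxN η`.      Each owner proves EXACTLY his `Prop` (or tells helper225 in one line what must change).
* `RtPxXo`     (helper76)    `rt_xo_main` v2 + 4th conjunct SRC (`rt_xn_src`, helper68): the new root view of `v1` lives on the rows whose ray lies in the box `(37, 26, 13)/1000`, up to `C Λ^-N ‖v‖²`.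
* `RtPxSym`    (helper144)   picture `(p', rtTm)` → flat picture `(p'.sc 1 r₂⁻¹, tmL)`: `G = W v1 / 8`; transfers both ways at every `(k, b)`; same time index, rows dilated by `rtPxDil r₂`; constants `64` (forward), `1` (backward).
* `RtPxRoot`   (helper299)   `S₀` = image of `d.In P fs` under the row map of the normalising chart.
* `RtPxInG`    (helper22)    POINTWISE: backward association (inverse chart `rtXoB`, scales of the old root) + old row in `d.In` + new ray in the numeric box ⟹ the forward nearness of `RtPwRin`.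
* `RtPxOutA`   (helper236; helper136 geometry, helper111 restriction)   the OUT arrow from the (out) transfer of XO and the forward transfer of SYM.
ALL EXPONENTS ARE CHOSEN BEFORE `bm, N`.      `P ≤ Λ` (`RtPxHyp.P_le`).
-/

set_option autoImplicit false

namespace Claimed.Agent.R256

open MeasureTheory
open scoped ENNReal

/-- **XO** : `rt_xo_main` v2 + SRC -/
def RtPxXo : Prop :=
  ∃ M : ℕ, ∀ bm N : ℕ, ∃ C : ℝ, 1 ≤ C ∧ ∀ (p : RdWvPar) (k0 i0 n b0 : ℕ) (r : ℝ) (hr : 0 < r) (c : RtRow) (e : ℝ × ℝ) (β κ Λ ε₀ : ℝ)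
    (S₀ : Set RdWvPar.Ph) (v : RtKc),
    rtSq e = 1 → |β| ≤ 1 / 4 → |κ| ≤ 1 → C ≤ Λ → b0 + 8 ≤ bm → MeasurableSet S₀ → S₀ ⊆ rtS3 0 (3 / 1000) (1 / 1000) (2 / 1000) →
    Λ ^ M * rdD (rtXoP p k0 r hr).H (n + 2) ≤ 1 → Λ ^ M * rdLen (n + 2) ≤ 1 → p.Spec b0 v →
    (p.sys 0).ms (tmL k0 i0) k0 b0 {x | rtZm (rtChS (tmL k0 i0) (4 * rdLen k0) r c e) (tmL k0 i0) x ∉ S₀} v ≤ ε₀ →
    ∃ v1 : RtKc, ‖v1‖ ≤ 8 * ‖v‖ ∧ (rtXoP p k0 r hr).Spec (b0 + 8) v1 ∧ RtCone (1 / 10) v1 ∧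
      (∀ b' ≤ bm, RtXf (rtVm (rtXoP p k0 r hr) 0) (rtVd (rtXoP p k0 r hr) 0 b' v1) (rtVmP p k0 {i0}) (rtVdP p k0 b0 v)
        (fun z z' => z'.1 = i0 ∧ rtZm (rtChS (tmL k0 i0) (4 * rdLen k0) r c e) (tmL k0 i0) z'.2 ∈ S₀ ∧
          RtAsR (rtXoB (tmL k0 i0) (4 * rdLen k0) r c e β κ) p.H k0 (Λ ^ M) (rtTm 0 z.1) z.2 (tmL k0 z'.1) z'.2) Set.univ
        (ENNReal.ofReal C) (ENNReal.ofReal (C * (Λ ^ (-(N : ℝ)) * ‖v‖ ^ 2)))) ∧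
      (∀ bT ≤ bm, RtXf (rtVmP p (k0 + n) {j | i0 * 2 ^ n ≤ j ∧ j < (i0 + 1) * 2 ^ n}) (rtVdP p (k0 + n) bT v)
        (rtVm (rtXoP p k0 r hr) (n + 2)) (rtVd (rtXoP p k0 r hr) (n + 2) (b0 + 7) v1)
        (RtRl (tmL (k0 + n)) (rtXoF (tmL k0 i0) (4 * rdLen k0) r c e β κ) (rtXoP p k0 r hr).H (n + 2) (Λ ^ M)
          (36 / 1000) (24 / 1000) (10 / 1000) (-(128 / 1000)) (347 / 1000))
        {z | i0 * 2 ^ n ≤ z.1 ∧ z.1 < (i0 + 1) * 2 ^ n}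
        (ENNReal.ofReal C) (ENNReal.ofReal (C * (2 ^ (2 * (n + 2)) * (ε₀ + Λ ^ (-(N : ℝ)) * ‖v‖ ^ 2))))) ∧
      (∀ b' ≤ bm, RtXf (rtVm (rtXoP p k0 r hr) 0) (rtVd (rtXoP p k0 r hr) 0 b' v1) (rtVm (rtXoP p k0 r hr) 0) (rtVd (rtXoP p k0 r hr) 0 b' v1)
        (fun z z' => z' = z ∧ z.1 = 0 ∧ rtZr 0 z ∈ rtXnBx (37 / 1000) (26 / 1000) (13 / 1000)) Set.univ
        1 (ENNReal.ofReal (C * (Λ ^ (-(N : ℝ)) * ‖v‖ ^ 2))))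

/-- **SYM** : dilation by `r₂`, clock shift `1/4`, factor `1/8` -/
def RtPxSym : Prop :=
  ∀ (p' : RdWvPar) (r₂ : ℝ) (h2 : 0 < r₂) (v1 : RtKc), ∃ G : RtKc, ‖G‖ = ‖v1‖ / 8 ∧
    (∀ b : ℕ, p'.Spec b v1 → (p'.sc 1 r₂⁻¹ one_pos (inv_pos.2 h2)).Spec b G) ∧
    ∀ k b : ℕ,
      RtXf (rtVm p' k) (rtVd p' k b v1) (rtVmP (p'.sc 1 r₂⁻¹ one_pos (inv_pos.2 h2)) k (Set.Iio (2 ^ k))) (rtVdP (p'.sc 1 r₂⁻¹ one_pos (inv_pos.2 h2)) k b G)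
        (fun z z' => z'.1 = z.1 ∧ z'.2 = rtPxDil r₂ z.2) Set.univ 64 0 ∧
      RtXf (rtVmP (p'.sc 1 r₂⁻¹ one_pos (inv_pos.2 h2)) k (Set.Iio (2 ^ k))) (rtVdP (p'.sc 1 r₂⁻¹ one_pos (inv_pos.2 h2)) k b G) (rtVm p' k) (rtVd p' k b v1)
        (fun z' z => z'.1 = z.1 ∧ z'.2 = rtPxDil r₂ z.2) Set.univ 1 0

/-- **ROOT** : the root set of XO -/
def RtPxRoot : Prop :=
  ∀ (d : RtPd) (k0 i0 : ℕ) (P fs : ℝ), 1 ≤ P → 0 < d.ψ.r → rtSq d.xe = 1 → ∃ S₀ : Set RdWvPar.Ph, MeasurableSet S₀ ∧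
    S₀ ⊆ rtS3 0 (3 / 1000) (1 / 1000) (2 / 1000) ∧
    ∀ x : RdWvPar.Ph, rtZm (d.xS k0 i0 P) (tmL k0 i0) x ∈ S₀ ↔ rtPwP d k0 (RdWvPar.co 0 x) ∈ d.In P fs

/-- **IN-GEO** (pointwise) -/
def RtPxInG : Prop :=
  ∃ (C : ℝ) (a : ℕ), 1 ≤ C ∧ ∀ (d : RtPd) (k0 i0 : ℕ) (H P fs L : ℝ) (x2 x' : RdWvPar.Ph), 0 < H → 1 ≤ P → 0 < d.ψ.r → d.nL.disc = 1 → d.nL.Bd P →
    RtChartOk P d.nL d.p0 → 1 ≤ L → C * (P * L) ^ a * rdD (d.xH H k0) 0 ≤ 1 →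
    rtPwP d k0 (RdWvPar.co 0 x') ∈ d.In P fs → rtRay (-(1 / 4)) x2 ∈ rtXnBx (37 / 1000) (26 / 1000) (13 / 1000) →
    RtAsR (rtXoB (tmL k0 i0) (4 * rdLen k0) (d.xr P) (d.xc k0) d.xe (d.xb P) (d.xk P)) H k0 L (-(1 / 4)) x2 (tmL k0 i0) x' →
    RtNear (C * (P * L) ^ a) (rdD (d.xH H k0) 0) (rdQ (d.xH H k0) 0) (d.xH H k0) (rtPwIm d k0 (RdWvPar.co 0 x') 0)
      (RdWvPar.co 0 (rtPxDil (rtPxR2 P) x2))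

/-- **the OUT arrow** -/
def RtPxOutA : Prop :=
  ∀ M : ℕ, ∃ M' : ℕ, ∀ bm N : ℕ, ∃ K : ℝ, 1 ≤ K ∧ ∀ (η : ℝ) (p : RdWvPar) (E : Xp (p.sys η)) (d : RtPd) (P fs Λ ε₀ A1 ε1 : ℝ) (hr : 0 < d.xr P)
    (p1 : RdWvPar) (v1 G : RtKc) (cT : ℕ),
    RtPxHyp p E d P fs Λ ε₀ bm → K ≤ Λ → Λ ^ M' * rdD (d.xH p.H E.k0) (E.n + 2) ≤ 1 → Λ ^ M' * rdLen (E.n + 2) ≤ 1 → p1.H = d.xH p.H E.k0 →
    0 ≤ A1 → 0 ≤ ε1 →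
    RtXf (rtVmP p (E.k0 + E.n) {j | E.i0 * 2 ^ E.n ≤ j ∧ j < (E.i0 + 1) * 2 ^ E.n}) (rtVdP p (E.k0 + E.n) E.bT E.v)
      (rtVm (rtXoP p E.k0 (d.xr P) hr) (E.n + 2)) (rtVd (rtXoP p E.k0 (d.xr P) hr) (E.n + 2) cT v1)
      (RtRl (tmL (E.k0 + E.n)) (rtXoF (tmL E.k0 E.i0) (4 * rdLen E.k0) (d.xr P) (d.xc E.k0) d.xe (d.xb P) (d.xk P)) (rtXoP p E.k0 (d.xr P) hr).H (E.n + 2) (Λ ^ M)
        (36 / 1000) (24 / 1000) (10 / 1000) (-(128 / 1000)) (347 / 1000))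
      {z | E.i0 * 2 ^ E.n ≤ z.1 ∧ z.1 < (E.i0 + 1) * 2 ^ E.n} (ENNReal.ofReal A1) (ENNReal.ofReal ε1) →
    RtXf (rtVm (rtXoP p E.k0 (d.xr P) hr) (E.n + 2)) (rtVd (rtXoP p E.k0 (d.xr P) hr) (E.n + 2) cT v1)
      (rtVmP p1 (E.n + 2) (Set.Iio (2 ^ (E.n + 2)))) (rtVdP p1 (E.n + 2) cT G)
      (fun z z' => z'.1 = z.1 ∧ z'.2 = rtPxDil (rtPxR2 P) z.2) Set.univ 64 0 →
    RtXf (rtVmP p E.kf {j | ancI E.kf E.k0 j = E.i0}) (rtVdP p E.kf E.bT E.v) (rtVmP p1 (E.n + 2) (Set.Iio (2 ^ (E.n + 2)))) (rtVdP p1 (E.n + 2) cT G)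
      (RtPwRout d E.k0 E.i0 E.kf (E.n + 2) P p1.H (Λ ^ M')) Set.univ (ENNReal.ofReal (64 * A1))
      (ENNReal.ofReal (64 * ε1 + K * (2 ^ (2 * (E.n + 2)) * (ε₀ + Λ ^ (-(N : ℝ)) * ‖E.v‖ ^ 2))))

theorem rt_pxseams_eqns_cite : True := by
  have := @RtPxXo.eq_1
  have := @RtPxSym.eq_1
  have := @RtPxRoot.eq_1
  have := @RtPxInG.eq_1
  have := @RtPxOutA.eq_1
  trivial

end Claimed.Agent.R256
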