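-- KEEP
import Claimed.Agent.R256.Rt.PwxSeams
import Claimed.Agent.R256.Rt.PwxOut

/-!
# Row 256 (LS paper), folder Rt, file PwxOutTop : THE SEAM `RtPxOutA` OF THE ADAPTER `RtPwX`          (helper236; head helper225; prefix `rt_pz_`)          no `sorry`

**`rt_pz_exit : RtPxOutA`**   from `rt_pz_out` (`Rt/PwxOut.lean`).      `M' = 6 M + 5`, `K = C(bm, N)` of `rt_pz_out` (`≥ 1000`), `Λ0 = Λ`, `Λ1 = Λ^M`, `r₂ = 1/(4P)`:
`12 (Λ^M)⁶ ≤ Λ^M'`;   `Λ² rdD (H/(4 l₀ (10 ρ ψ.r)²)) = Λ² · 100 P² · rdD H1 ≤ Λ⁵ rdD H1`;   root tail: `{∉ buffered patch} ⊆ {∉ d.In}`, `ms` does not depend on `η` (`rt_k_ms`).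
-/

set_option autoImplicit false

namespace Claimed.Agent.R256

open MeasureTheory
open scoped ENNReal

/-- the tolerance of `RtPwRout` may be raised -/
theorem rt_pz_rout_mono {d : RtPd} {k0 i0 kf n1 : ℕ} {P H1 Λ Λ' : ℝ} (hH : 0 ≤ H1) (h0 : 0 ≤ Λ) (h : Λ ≤ Λ') {z z' : RtZ}
    (hR : RtPwRout d k0 i0 kf n1 P H1 Λ z z') : RtPwRout d k0 i0 kf n1 P H1 Λ' z z' :=
  ⟨hR.1, hR.2.1.trans (mul_le_mul_of_nonneg_right h (mul_nonneg (by norm_num) (rdLen_pos n1).le)),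
    rt_xg_ag_near_mono h0 h (Real.sqrt_nonneg _) (Real.sqrt_nonneg _) hH hR.2.2⟩

/-- the numbers of `r₂ = 1/(4P)` -/
theorem rt_pz_r2 {P : ℝ} (hP : 1 ≤ P) {n : RtPoly} (hn : n.Bd P) :
    0 < rtPxR2 P ∧ |n.be * rtPxR2 P| ≤ 1 / 4 ∧ |4 * n.k * rtPxR2 P| ≤ 1 ∧ rtChRho P ≤ rtPxR2 P / 100 ∧ rtChRho P ≤ rtPxR2 P ^ 2 / 25 := by
  have hP0 : 0 < P := by linarith
  obtain ⟨-, -, -, hb, hk⟩ := hn
  unfold rtPxR2 rtChRho
  refine ⟨by positivity, ?_, ?_, ?_, ?_⟩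
  · rw [abs_mul, abs_of_pos (by positivity : (0 : ℝ) < 1 / (4 * P)), mul_one_div, div_le_iff₀ (by positivity)]
    linarith
  · rw [abs_mul, abs_mul, abs_of_pos (by positivity : (0 : ℝ) < 1 / (4 * P)), abs_of_pos (by norm_num : (0 : ℝ) < 4), mul_one_div, div_le_iff₀ (by positivity)]
    linarith
  · rw [div_div, div_le_div_iff₀ (by positivity) (by positivity)]
    nlinarith
  · rw [div_pow, div_div, div_le_div_iff₀ (by positivity) (by positivity)]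
    nlinarith

/-- the root tail outside the buffered patch -/
theorem rt_pz_root {η : ℝ} {p : RdWvPar} {E : Xp (p.sys η)} {d : RtPd} {P fs ε₀ : ℝ}
    (h : (p.sys η).ms (tmL E.k0 E.i0) E.k0 E.b0 {x | (d.N E).row (RdWvPar.co (tmL E.k0 E.i0) x) ∉ d.In P fs} E.v ≤ ε₀) :
    (p.sys 0).ms (tmL E.k0 E.i0) E.k0 E.b0 {x | rtPwP d E.k0 (RdWvPar.co 0 x) ∉ rtBx d.p0 1 (rtChRho P / 2)} E.v ≤ ε₀ := by
  have m1 : MeasurableSet {x : RdWvPar.Ph | (d.N E).row (RdWvPar.co (tmL E.k0 E.i0) x) ∉ d.In P fs} :=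
    (rt_pw_mono_ms d (rdLen E.k0) d.ψ.r d.ψ.cen P fs).compl
  have m2 := (rt_pz_meas0 d E.k0 (rtChRho P / 2)).compl
  have e1 := (rt_k_ms p η (tmL E.k0 E.i0) E.k0 E.b0 _ m1 E.v).1
  have e2 := (rt_k_ms p 0 (tmL E.k0 E.i0) E.k0 E.b0 _ m1 E.v).1
  refine le_trans (gn_ms_mono (P := p.sys 0) _ _ _ m2 m1 ?_ _) ?_
  · intro x hx hx'
    exact hx hx'.1
  · rw [e2, ← e1]
    exact h

/-- **THE SEAM OF THE OUTPUT ARROW** -/
theorem rt_pz_exit : RtPxOutA := by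
  intro M
  refine ⟨6 * M + 5, fun bm N => ?_⟩
  obtain ⟨C, hC, H⟩ := rt_pz_out bm N
  refine ⟨C, by linarith, ?_⟩
  intro η p E d P fs Λ ε₀ A1 ε1 hr p1 v1 G cT hy hΛ hd _ hH hA1 hε1 hXO hSY
  have hP := hy.P_ge
  have hP0 : 0 < P := by linarith
  have hΛ3 : 1000 ≤ Λ := hC.trans hΛ
  have hΛ1 : 1 ≤ Λ := by linarith
  have hΛ0 : 0 < Λ := by linarith
  obtain ⟨r1, r2, r3, r4, r5⟩ := rt_pz_r2 hP hy.bd
  have hl := rdLen_pos E.k0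
  have hr0 := hy.r_pos
  have hD0 : 0 ≤ rdD (d.xH p.H E.k0) (E.n + 2) := Real.sqrt_nonneg _
  -- the uncertainty condition at the width `10 ρ ψ.r`
  have hd' : Λ ^ 2 * rdD (p.H / (4 * rdLen E.k0 * (10 * rtChRho P * d.ψ.r) ^ 2)) (E.n + 2) ≤ 1 := by
    have e : p.H / (4 * rdLen E.k0 * (10 * rtChRho P * d.ψ.r) ^ 2) = (100 * P ^ 2) ^ 2 * d.xH p.H E.k0 := by
      unfold RtPd.xH rtChRho
      field_simp
      ring
    rw [e, (rt_pz_scales (by positivity) _ _).1]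
    calc Λ ^ 2 * (100 * P ^ 2 * rdD (d.xH p.H E.k0) (E.n + 2)) = (Λ ^ 2 * (100 * P ^ 2)) * rdD (d.xH p.H E.k0) (E.n + 2) := by ring
      _ ≤ Λ ^ (6 * M + 5) * rdD (d.xH p.H E.k0) (E.n + 2) := by
          refine mul_le_mul_of_nonneg_right ?_ hD0
          calc Λ ^ 2 * (100 * P ^ 2) ≤ Λ ^ 2 * (Λ * Λ ^ 2) := by
                have : P ^ 2 ≤ Λ ^ 2 := pow_le_pow_left₀ hP0.le hy.P_le 2
                gcongr
                linarith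
            _ = Λ ^ 5 := by ring
            _ ≤ Λ ^ (6 * M + 5) := pow_le_pow_right₀ hΛ1 (by omega)
      _ ≤ 1 := hd
  have hH' : p1.H = rtPxR2 P ^ 2 * (rtXoP p E.k0 (d.xr P) hr).H := by
    rw [hH]
    show p.H / (4 * rdLen E.k0 * d.ψ.r ^ 2) = rtPxR2 P ^ 2 * (p.H / (4 * rdLen E.k0 * (rtPxR2 P * d.ψ.r) ^ 2))
    field_simp
  have h := H p (rtXoP p E.k0 (d.xr P) hr) p1 d E.k0 E.i0 E.n E.b0 E.bT cT P (rtPxR2 P) Λ (Λ ^ M) ε₀ _ _ _ _ _ (ENNReal.ofReal A1) 64 (ENNReal.ofReal ε1)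
    E.v v1 G hP hr0 r1 r2 r3 r4 r5 hy.chart (by have := hy.gen0; omega) hy.genT hy.spec hΛ (one_le_pow₀ hΛ1) hd' (rt_pz_root hy.root) hH' hXO hSY
  have hX : 0 ≤ C * (2 ^ (2 * (E.n + 2)) * (ε₀ + Λ ^ (-(N : ℝ)) * ‖E.v‖ ^ 2)) := by
    have := hy.eps_nn
    positivity
  refine rt_xa_mono h ?_ subset_rfl ?_ ?_
  · intro z _ z' hR
    refine rt_pz_rout_mono p1.H_pos.le (by positivity) ?_ hR
    calc 12 * (Λ ^ M) ^ 6 ≤ Λ * (Λ ^ M) ^ 6 := by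
          gcongr
          linarith
      _ = Λ ^ (6 * M + 1) := by
          rw [← pow_mul]
          ring
      _ ≤ Λ ^ (6 * M + 5) := pow_le_pow_right₀ hΛ1 (by omega)
  · have e64 : (64 : ℝ≥0∞) = ENNReal.ofReal 64 := by norm_num
    rw [e64, ← ENNReal.ofReal_mul hA1, mul_comm]
  · refine le_trans (le_of_eq (ENNReal.ofReal_add hX hε1).symm) (ENNReal.ofReal_le_ofReal ?_)
    have e : ∀ X : ℝ, X + ε1 ≤ 64 * ε1 + X := fun X => by linarith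
    exact e _

end Claimed.Agent.R256
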