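import Claimed.Agent.R256.Rt.PwxSeams
import Claimed.Agent.R256.Rt.PwxOut

/-!
# Row 256, folder Rt, file PwxRoot : THE SEAM `RtPxRoot` (the root set `S₀` of XO = image of `d.In P fs`)      (CO-256-RtPwX, head helper225; this post helper295; prefix `rt_pxr_`)      SORRY-FREE

`σ = rtZm (d.xS k0 i0 P) T0 = rtXsS T0 (4ℓ₀) r c e T0` (`rt_xs_zm`), an affine bijection with inverse `rtXsSi`.      `S₀ = {y | rtPwP d k0 (co 0 (σ⁻¹ y)) ∈ d.In P fs}`.
Box: `M = ρ/2 = 1/(2000 P²)`, `lam = r₂ = 1/(4P)`:   `M ≤ 3 lam/1000`, `M ≤ 4 lam/1000`, `M = 8 lam²/1000`   (`rt_pz_b3_of_bx`).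
-/

set_option autoImplicit false

namespace Claimed.Agent.R256

open MeasureTheory

/-- **ROOT** -/
theorem rt_pxr_main : RtPxRoot := by
  intro d k0 i0 P fs hP hr he
  have hP0 : 0 < P := by linarith
  have hl0 := rdLen_pos k0
  have hl : 0 < 4 * rdLen k0 := by positivity
  have h2 : 0 < rtPxR2 P := by
    unfold rtPxR2
    positivity
  have hxr : 0 < d.xr P := mul_pos h2 hr
  have hσ : ∀ x : RdWvPar.Ph, rtZm (d.xS k0 i0 P) (tmL k0 i0) x = rtXsS (tmL k0 i0) (4 * rdLen k0) (d.xr P) (d.xc k0) d.xe (tmL k0 i0) x := fun x =>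
    rt_xs_zm (tmL k0 i0) (4 * rdLen k0) (d.xr P) (d.xc k0) d.xe hl.ne' hxr.ne' he (tmL k0 i0) x
  refine ⟨{y | rtPwP d k0 (RdWvPar.co 0 (rtXsSi (tmL k0 i0) (4 * rdLen k0) (d.xr P) (d.xc k0) d.xe (tmL k0 i0) y)) ∈ d.In P fs}, ?_, ?_, ?_⟩
  · exact (rt_xs_meas (tmL k0 i0) (4 * rdLen k0) (d.xr P) (d.xc k0) d.xe (tmL k0 i0)).2.2.2 (rt_pw_mono_ms d (rdLen k0) d.ψ.r d.ψ.cen P fs)
  · intro y hy
    obtain ⟨x, hx⟩ : ∃ x, x = rtXsSi (tmL k0 i0) (4 * rdLen k0) (d.xr P) (d.xc k0) d.xe (tmL k0 i0) y := ⟨_, rfl⟩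
    have hy' : rtPwP d k0 (RdWvPar.co 0 x) ∈ d.In P fs := by
      rw [hx]
      exact hy
    have hyx : y = rtZm (d.xS k0 i0 P) (tmL k0 i0) x := by
      rw [hσ, hx, rt_xs_S_Si _ _ _ _ _ hl hxr he]
    show rtRay 0 y ∈ rtB3 (3 / 1000) (1 / 1000) (2 / 1000)
    rw [hyx]
    unfold RtPd.xS
    rw [rt_pz_zm0 (tmL k0 i0) (4 * rdLen k0) (d.xr P) (d.xc k0) d.xe hl.ne' hxr.ne' x]
    have hρ : rtChRho P / 2 = 1 / (2000 * P ^ 2) := by
      unfold rtChRho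
      field_simp
      norm_num
    refine rt_pz_b3_of_bx (M := rtChRho P / 2) hl0 hr h2 he ?_ ?_ ?_ ?_ ?_
    · rw [hρ]
      positivity
    · rw [hρ]
      unfold rtPxR2
      rw [div_le_iff₀ (by positivity)]
      have e : 1 / (4 * P) * (3 / 1000) * (2000 * P ^ 2) = 3 * P / 2 := by
        field_simp
        norm_num
      rw [e]
      linarith
    · rw [hρ]
      unfold rtPxR2
      rw [div_le_iff₀ (by positivity)]
      have e : 4 * (1 / (4 * P)) * (1 / 1000) * (2000 * P ^ 2) = 2 * P := by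
        field_simp
        norm_num
      rw [e]
      linarith
    · rw [hρ]
      unfold rtPxR2
      refine le_of_eq ?_
      field_simp
      norm_num
    · rw [rt_pz_ray0]
      exact hy'.1
  · intro x
    show rtPwP d k0 (RdWvPar.co 0 (rtXsSi (tmL k0 i0) (4 * rdLen k0) (d.xr P) (d.xc k0) d.xe (tmL k0 i0) (rtZm (d.xS k0 i0 P) (tmL k0 i0) x))) ∈ d.In P fs ↔ _
    rw [hσ, rt_xs_Si_S _ _ _ _ _ hl hxr he]

end Claimed.Agent.R256
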