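import Claimed.Agent.R256.Rt.PwxSym
import Claimed.Agent.R256.Rt.PwxSeams

/-!
# Row 256 (LS paper), folder Rt, file PwxSymX : THE SEAM `RtPxSym` OF THE ADAPTER `RtPwX`          (helper144; head of the adapter helper225; prefix `rt_pxs_`)          SORRY-FREE

`rt_pxs_sym : RtPxSym`   =   `rt_pxs_exit` (`Rt/PwxSym.lean`) with `c = 1/8`.
-/

set_option autoImplicit false

namespace Claimed.Agent.R256

open MeasureTheory
open scoped ENNReal

/-- **SYM** -/
theorem rt_pxs_sym : RtPxSym := by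
  intro p' r₂ h2 v1
  obtain ⟨W, n, s, a⟩ := rt_pxs_exit p' r₂ h2 (1 / 8) (by norm_num)
  refine ⟨W v1, by rw [n]; ring, fun b h => s b v1 h, fun k b => ?_⟩
  obtain ⟨f, g⟩ := a k b v1
  constructor
  · refine rt_xa_mono f (fun z _ z' h => h) subset_rfl (le_of_eq ?_) le_rfl
    have e : ((1 / 8 : ℝ)⁻¹) ^ 2 = 64 := by norm_num
    rw [e]
    norm_num
  · refine rt_xa_mono g (fun z _ z' h => h) subset_rfl ?_ le_rfl
    rw [← ENNReal.ofReal_one]
    exact ENNReal.ofReal_le_ofReal (by norm_num)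

end Claimed.Agent.R256
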