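import Claimed.Agent.R256.Rt.PwxSeams
import Claimed.Agent.R256.Rt.XoContract

/-!
# Row 256, folder Rt, file PwxXo : the seam `RtPxXo` of the adapter `RtPwX`      (helper76)      SORRY-FREE

`rt_px_xo : RtPxXo`  =  `rt_xo_main4` (`Rt/XoContract.lean`) without the conjunct `v1 = cut S₅ w5`.
-/

set_option autoImplicit false

namespace Claimed.Agent.R256

theorem rt_px_xo : RtPxXo := by
  obtain ⟨M, h⟩ := rt_xo_main4
  refine ⟨M, fun bm N => ?_⟩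
  obtain ⟨C, hC, h⟩ := h bm N
  refine ⟨C, hC, ?_⟩
  intro p k0 i0 n b0 r hr c e β κ Λ ε₀ S₀ v he hβ hκ hΛ hb hS₀ hsub hd hlen hv hroot
  obtain ⟨v1, a1, a2, a3, -, a5, a6, a7⟩ := h p k0 i0 n b0 r hr c e β κ Λ ε₀ S₀ v he hβ hκ hΛ hb hS₀ hsub hd hlen hv hroot
  exact ⟨v1, a1, a2, a3, a5, a6, a7⟩

end Claimed.Agent.R256
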