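import Claimed.Agent.R256.Rt.PwxSeams
import Claimed.Agent.R256.Rt.PwxNum
import Claimed.Agent.R256.Rt.PwxInArr
import Claimed.Agent.R256.Rt.PwxOutTop
import Claimed.Agent.R256.Rt.PwxXo
import Claimed.Agent.R256.Rt.PwxSymX
import Claimed.Agent.R256.Rt.PwxRoot
import Claimed.Agent.R256.Rt.PwxAsy

/-!
# Row 256, folder Rt, file PwxAsm : ASSEMBLY OF THE ADAPTER `rt_xo_main ⟹ RtPxN ⟹ RtPwX`      (helper22, second head of helper225; prefix `rt_pxm_`)      NO SORRY HERE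

`rt_pxm_n`  :   `RtPxXo → RtPxSym → RtPxRoot → RtPxInG → RtPxOutA → RtPxN η`.      `M = (M0 + 2) + M1 + (a (M0 + 1) + 1)`,   `K = 64 C + K1 + Ci + 4`.
`rt_pxm_x`  :   `RtPwX η h0 h1`   (all five seams are proved: `rt_px_xo` 76, `rt_pxs_sym` 144, `rt_pxr_main` 295, `rt_pxi_ing` 22, `rt_pz_exit` 236;  `rt_pxa_main` 295).
-/

set_option autoImplicit false

namespace Claimed.Agent.R256

open MeasureTheory
open scoped ENNReal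

/-- the root tail in the form of XO -/
theorem rt_pxm_root {η : ℝ} {p : RdWvPar} {E : Xp (p.sys η)} {d : RtPd} {P fs ε₀ : ℝ} {S₀ : Set RdWvPar.Ph}
    (hS : ∀ x : RdWvPar.Ph, rtZm (d.xS E.k0 E.i0 P) (tmL E.k0 E.i0) x ∈ S₀ ↔ rtPwP d E.k0 (RdWvPar.co 0 x) ∈ d.In P fs)
    (h : (p.sys η).ms (tmL E.k0 E.i0) E.k0 E.b0 {x | (d.N E).row (RdWvPar.co (tmL E.k0 E.i0) x) ∉ d.In P fs} E.v ≤ ε₀) :
    (p.sys 0).ms (tmL E.k0 E.i0) E.k0 E.b0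
      {x | rtZm (rtChS (tmL E.k0 E.i0) (4 * rdLen E.k0) (d.xr P) (d.xc E.k0) d.xe) (tmL E.k0 E.i0) x ∉ S₀} E.v ≤ ε₀ := by
  have m1 : MeasurableSet {x : RdWvPar.Ph | (d.N E).row (RdWvPar.co (tmL E.k0 E.i0) x) ∉ d.In P fs} :=
    (rt_pw_mono_ms d (rdLen E.k0) d.ψ.r d.ψ.cen P fs).compl
  have e0 : {x : RdWvPar.Ph | rtZm (rtChS (tmL E.k0 E.i0) (4 * rdLen E.k0) (d.xr P) (d.xc E.k0) d.xe) (tmL E.k0 E.i0) x ∉ S₀}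
      = {x : RdWvPar.Ph | (d.N E).row (RdWvPar.co (tmL E.k0 E.i0) x) ∉ d.In P fs} :=
    Set.ext fun x => not_congr (hS x)
  have e1 := (rt_k_ms p η (tmL E.k0 E.i0) E.k0 E.b0 _ m1 E.v).1
  have e2 := (rt_k_ms p 0 (tmL E.k0 E.i0) E.k0 E.b0 _ m1 E.v).1
  have e3 : (p.sys 0).ms (tmL E.k0 E.i0) E.k0 E.b0
      {x | rtZm (rtChS (tmL E.k0 E.i0) (4 * rdLen E.k0) (d.xr P) (d.xc E.k0) d.xe) (tmL E.k0 E.i0) x ∉ S₀} E.v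
      = (p.sys 0).ms (tmL E.k0 E.i0) E.k0 E.b0 {x | (d.N E).row (RdWvPar.co (tmL E.k0 E.i0) x) ∉ d.In P fs} E.v :=
    congrArg (fun S : Set RdWvPar.Ph => (p.sys 0).ms (tmL E.k0 E.i0) E.k0 E.b0 S E.v) e0
  exact (e3.trans (e2.trans e1.symm)).le.trans h

/-- the tolerance of `RtPwRin` may be raised -/
theorem rt_pxm_rin_mono {d : RtPd} {k0 : ℕ} {P fs H1 Λ Λ' : ℝ} (hH : 0 ≤ H1) (h0 : 0 ≤ Λ) (h : Λ ≤ Λ') {z z' : RtZ}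
    (hR : RtPwRin d k0 P fs H1 Λ z z') : RtPwRin d k0 P fs H1 Λ' z z' :=
  ⟨hR.1, rt_xg_ag_near_mono h0 h (Real.sqrt_nonneg _) (Real.sqrt_nonneg _) hH hR.2⟩

/-- `rdD` grows with the depth -/
theorem rt_pxm_rdD_mono {H : ℝ} (hH : 0 ≤ H) (k : ℕ) : rdD H 0 ≤ rdD H k := by
  unfold rdD
  refine Real.sqrt_le_sqrt ?_
  have h1 : 0 < rdLen k := rdLen_pos k
  have h2 : rdLen k ≤ rdLen 0 := by
    unfold rdLen
    simpa using pow_le_one₀ (n := k) (by norm_num : (0 : ℝ) ≤ 2⁻¹) (by norm_num)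
  exact div_le_div_of_nonneg_left hH h1 h2

/-- absorption of the constant and of `P` in the tolerance of the input arrow -/
theorem rt_pxm_tol {C P Λ : ℝ} (a M : ℕ) (hC : 1 ≤ C) (hP : 1 ≤ P) (hCΛ : C ≤ Λ) (hPΛ : P ≤ Λ) : C * (P * Λ ^ M) ^ a ≤ Λ ^ (a * (M + 1) + 1) := by
  have hΛ0 : 0 ≤ Λ := by linarith
  have h1 : P * Λ ^ M ≤ Λ ^ (M + 1) := by
    rw [pow_succ, mul_comm]
    exact mul_le_mul_of_nonneg_left hPΛ (pow_nonneg hΛ0 M)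
  have h2 : (P * Λ ^ M) ^ a ≤ (Λ ^ (M + 1)) ^ a := pow_le_pow_left₀ (by positivity) h1 a
  calc C * (P * Λ ^ M) ^ a ≤ Λ * (Λ ^ (M + 1)) ^ a := mul_le_mul hCΛ h2 (by positivity) hΛ0
    _ = Λ ^ (a * (M + 1) + 1) := by
        rw [← pow_mul]
        ring

/-- **ASSEMBLY** -/
theorem rt_pxm_n (η : ℝ) (hXo : RtPxXo) (hSym : RtPxSym) (hRoot : RtPxRoot) (hG : RtPxInG) (hOut : RtPxOutA) : RtPxN η := by
  obtain ⟨M0, hXo⟩ := hXo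
  obtain ⟨M1, hOut⟩ := hOut M0
  obtain ⟨Ci, a, hCi, hIn⟩ := rt_pxi_arrow hG
  refine ⟨(M0 + 2) + M1 + (a * (M0 + 1) + 1), fun bm N => ?_⟩
  obtain ⟨C, hC, hXo⟩ := hXo bm N
  obtain ⟨K1, hK1, hOut⟩ := hOut bm N
  refine ⟨64 * C + K1 + Ci + 4, by linarith, ?_⟩
  intro p E d P fs Λ ε₀ hy hΛ hd hl
  have hP := hy.P_ge
  have hψ := hy.r_pos
  have hr : 0 < d.xr P := rt_pxn_xr_pos d hP hψ
  have h2 : 0 < rtPxR2 P := rt_pxn_r2_pos hP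
  have hΛ4 : 4 ≤ Λ := by linarith
  have hΛ1 : 1 ≤ Λ := by linarith
  have hΛ0 : 0 < Λ := by linarith
  have hD0 : 0 ≤ rdD (d.xH p.H E.k0) (E.n + 2) := Real.sqrt_nonneg _
  have hL0 : 0 ≤ rdLen (E.n + 2) := (rdLen_pos _).le
  have hH1 : 0 < d.xH p.H E.k0 := rt_pxn_xH_pos p d E.k0 hψ
  obtain ⟨S₀, hS1, hS2, hS3⟩ := hRoot d E.k0 E.i0 P fs hP hψ (rt_pxn_xe d hy.chart)
  obtain ⟨v1, a1, a2, -, a4, a5, a6⟩ := hXo p E.k0 E.i0 E.n E.b0 (d.xr P) hr (d.xc E.k0) d.xe (d.xb P) (d.xk P) Λ ε₀ S₀ E.v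
    (rt_pxn_xe d hy.chart) (rt_pxn_xb d hP hy.bd) (rt_pxn_xk d hP hy.bd) (by linarith) hy.gen0 hS1 hS2
    (rt_pxn_abs_one p d E.k0 (E.n + 2) M0 hP hr hΛ4 hy.P_le (rt_pxn_pow_mono hΛ1 (by omega) hD0 hd))
    (rt_pxn_pow_mono hΛ1 (by omega) hL0 hl) hy.spec (rt_pxm_root hS3 hy.root)
  obtain ⟨G, g1, g2, g3⟩ := hSym (rtXoP p E.k0 (d.xr P) hr) (rtPxR2 P) h2 v1
  have hH : ((rtXoP p E.k0 (d.xr P) hr).sc 1 (rtPxR2 P)⁻¹ one_pos (inv_pos.2 h2)).H = d.xH p.H E.k0 := rt_pxn_sc_H p d E.k0 hP hr _ _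
  have hX0 : 0 ≤ Λ ^ (-(N : ℝ)) * ‖E.v‖ ^ 2 := by positivity
  have hX : 0 ≤ ε₀ + Λ ^ (-(N : ℝ)) * ‖E.v‖ ^ 2 := add_nonneg hy.eps_nn hX0
  have h4 : (1 : ℝ) ≤ 2 ^ (2 * (E.n + 2)) := one_le_pow₀ (by norm_num)
  refine ⟨(rtXoP p E.k0 (d.xr P) hr).sc 1 (rtPxR2 P)⁻¹ one_pos (inv_pos.2 h2), G, hH, g2 _ a2, ?_, ?_, ?_⟩
  · rw [g1]
    exact (div_le_iff₀ (by norm_num : (0 : ℝ) < 8)).2 (a1.trans (le_of_eq (mul_comm _ _)))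
  · -- the input arrow
    have hsm : Ci * (P * Λ ^ M0) ^ a * rdD (d.xH p.H E.k0) 0 ≤ 1 := by
      refine le_trans ?_ hd
      refine mul_le_mul ((rt_pxm_tol a M0 hCi hP (by linarith) hy.P_le).trans (pow_le_pow_right₀ hΛ1 (by omega))) (rt_pxm_rdD_mono hH1.le _)
        (Real.sqrt_nonneg _) (by positivity)
    have h := hIn p (rtXoP p E.k0 (d.xr P) hr) _ d E.k0 E.i0 E.b0 (E.b0 + 8) P fs (Λ ^ M0) C _ _ S₀ E.v v1 G hP hψ hy.disc hy.bd hy.chart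
      (one_le_pow₀ hΛ1) hsm hH (mul_nonneg (by linarith) hX0) (mul_nonneg (by linarith) hX0) hS3 (a4 _ hy.gen0) (a6 _ hy.gen0) (g3 0 _).2
    refine rt_xa_mono h ?_ subset_rfl (ENNReal.ofReal_le_ofReal (by linarith)) (ENNReal.ofReal_le_ofReal ?_)
    · intro z _ z' hR
      refine rt_pxm_rin_mono (RdWvPar.H_pos _).le (by positivity) ?_ hR
      exact (rt_pxm_tol a M0 hCi hP (by linarith) hy.P_le).trans (pow_le_pow_right₀ hΛ1 (by omega))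
    · have e1 : Λ ^ (-(N : ℝ)) * ‖E.v‖ ^ 2 ≤ 2 ^ (2 * (E.n + 2)) * (ε₀ + Λ ^ (-(N : ℝ)) * ‖E.v‖ ^ 2) := by
        have := hy.eps_nn
        nlinarith
      have e2 : 0 ≤ 2 ^ (2 * (E.n + 2)) * (ε₀ + Λ ^ (-(N : ℝ)) * ‖E.v‖ ^ 2) := by positivity
      nlinarith
  · -- the output arrow
    have h := hOut η p E d P fs Λ ε₀ C (C * (2 ^ (2 * (E.n + 2)) * (ε₀ + Λ ^ (-(N : ℝ)) * ‖E.v‖ ^ 2))) hr _ v1 G (E.b0 + 7) hy (by linarith)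
      (rt_pxn_pow_mono hΛ1 (by omega) hD0 hd) (rt_pxn_pow_mono hΛ1 (by omega) hL0 hl) hH (by linarith) (by positivity) (a5 _ hy.genT) (g3 _ _).1
    refine rt_xa_mono h ?_ subset_rfl (ENNReal.ofReal_le_ofReal (by linarith)) (ENNReal.ofReal_le_ofReal ?_)
    · intro z _ z' hR
      exact rt_pz_rout_mono (RdWvPar.H_pos _).le (by positivity) (pow_le_pow_right₀ hΛ1 (by omega)) hR
    · have e2 : 0 ≤ 2 ^ (2 * (E.n + 2)) * (ε₀ + Λ ^ (-(N : ℝ)) * ‖E.v‖ ^ 2) := by positivity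
      nlinarith

/-- **ASYMPTOTIC I1** -/
theorem rt_pxm_x (η : ℝ) (h0 : 0 < η) (h1 : η < 1) : RtPwX η h0 h1 :=
  rt_pxa_main η h0 h1 (rt_pxm_n η rt_px_xo rt_pxs_sym rt_pxr_main rt_pxi_ing rt_pz_exit)

end Claimed.Agent.R256
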