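-- KEEP
import Claimed.Agent.R256.Rt.PatchDefs
import Claimed.Agent.R256.Rt.Grp.Main
import Claimed.Agent.R256.Rt.PclXfer
import Claimed.Agent.R256.Rt.PwMain
import Claimed.Agent.R256.Rt.PwInTop
import Claimed.Agent.R256.Rt.PwOutTop
import Claimed.Agent.R256.Rt.PwxAsm
import Claimed.Agent.R256.Fz.Main

/-!
# Row 256 (LS paper), folder Rt, file Patch : THE HUB OF THE THIN FREE GAP (07 l.438-1235)          (chief helper216, with helper76; prefix `rt_`)          CONTRACT FILE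

DEFINITIONS (sections 1-3) ARE IN `Rt/PatchDefs.lean`: units import that file, never this one.
`T-gap = GROUP + PATCH` (assembly `rt_tgap` PROVED here).      Everything is stated ONCE for a round-type model `Y : RtMd η` (tests `RdTst`, rows with phase points `co`, Planck parameter `H ≥ 0`; `H = 0`: classical).
* `RtMd η`, `RtMd.Ok`      the bundle;  instances `rtMdWv`, `rtMdCl`.
* `rtNrm l r c`            the normalising chart (centre `c`, length `l`, width `r`) `= Sc(l, r) ∘ Cen(c)`;   `rtLabCh` the normalising chart of a label read at the time `T`, seen from the root time `T0`.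
* `RtPd`, `RtPd.Ok`        PATCH DATA of a free experiment `E`:  frame `ψ` (width = common width of the labels),  group polynomial `nL` (disc 1, `Bd P`, `P = s^-b0`) with its flattening chart at the exact ray `p0`,
                           common thickness `f`, group thickness `f_* = s^-D1 f`;   root rows (normalised by `ψ`) in the buffered patch and in `{|F_L|, |G_L| ≤ f_*}` up to `s^A e`;   `e ≤ s^-C κ r⁴ f_*^(1-η)`;
                           every label has width `≈ r`, thickness `≈ f`, and its PARENT polynomial (`m` = polynomial in physical units, `Φ_lab.pol m = Q.n`, parent `= N.pol m`) is within `f_*` of `± nL`.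
* `RtMd.PatchRate Γp`      **PATCH**: patch experiments have `val ≤ 2^((Γp+γ) n)`.      Order: `γ, D1 | b1 | b0 ≤ b1 | Z | C | A, n0`.
* `rt_patch_wv`, `rt_patch_cl`      PATCH for the two models from the cylinder rates (block TRANSPORT + LIFT + JITTER + CLBASE + FREEZE; architect helper76; route origin/helper76:notes/R256/RT_TRANSPORT.md).
* `rt_group`               **GROUP** (07 l.446-628): a thin free experiment is dominated by patch experiments, up to `2^(C2 b0 n)`, and by parts that lose a power `c1`.      Order: `D1, C2 | b0 | c1, Z0 | C | C' | A' | A, n0`.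
PLAN OF GROUP (units T0-T8; `δ = s`; all pieces are root masks `v_j = An^* 1_{S_j} An v` of ONE measurable partition of the root rows):
 T0 LIGHT    labels with `m < δ⁴ κ w`: `Σ m^{3/2} w^{-1/2} ≤ δ² √κ Σ m ≤ δ √κ e` (`gn_total`): `val ≤ δ^{1/2}`.
 T1 POLY     heavy labels: `RtMd.Ok.poly` (`D = 4`): widths, thicknesses polynomial; count `≤ δ^-5 e/(κ w_min)`.
 T2 PIGEON   dyadic classes of `(r_λ, f_λ)`: `O(n²)` classes, `rd` is additive (`gn_pick_split`).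
 T3 DECOMP   (generic) partition `S_j` of the root rows, connection `J(λ)` with `#J(λ) ≤ B`, no `Λ`-correspondence between `S_j` and the cell of `λ` for `j ∉ J(λ)`:
             `rd E ≤ (B+1)² (Σ_j rd E_j + #labels ε³ / √w_min)`, `ε = C_N Λ^-N 2^(n/2) √e` (`Loc.ker`), `E_j` = root `v_j`, budget `max(raw_j, s^C1 e)`, regularity `Cr κ` (`Rep`), connected labels; class by `TailAdm`.
 T4 CELLS    unit cells of the frame `(r, ℓ₀ r, ℓ₀ r²)`: a label is connected to `≤ C Λ⁵` cells.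
 T5 AMB      parent polynomials `n_λ` (`|n_λ| ≲ δ⁻¹`), predecessor sets `S_λ ⊆ {|F_λ(0)|, |G_λ| ≤ δ⁻¹ f}`; CI (helper190), partner count `δ^-C K^(1-η)`; rows in a pair with `K > δ^-D` have mass `≤ δ e_c`: `Rate Γ` on that piece.
 T6 GROUPS   `f_* = δ^-D1 f`, `D1 > D + 5`; lattice of side `f_*` on the attached coefficient vector up to sign; a label is connected to `≤ 64` groups; `Σ e_L ≤ e_c`, `e_L ≤ κ δ^-C f_*^(1-η)` (`rt_G1`).
 T7 BIGK     `|k_L| > δ^-b`: connected times lie in boundedly many intervals of length `δ^(b/2)`: composition with few active intervals (variant of `gn_comp_on`): gain `δ^(bΓ/2)`.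
 T8 CHARTS   `|k_L| ≤ δ^-b`: all coefficients `≲ δ^-b`; `rt_chart_main`: `≤ (10⁵ P⁴)⁵` buffered patches: the patch data.
-/

set_option autoImplicit false

namespace Claimed.Agent.R256

open MeasureTheory

/-! ## 4. PATCH, GROUP -/

/-- **ASYMPTOTIC I1** = Lemma rt:wave-transport in the clean form `RtPwI1` (`Rt/PwDefs.lean`, `Rt/PwTop.lean`): THE LAST OPEN INPUT OF `rt_patch_wv`.      OWNER helper225 (files `Rt/Pwx*.lean`, with 236, 22, 144, 136) from `rt_xo_main` (`Rt/XoContract.lean`, helper76).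
LINK: import the top file of `Rt/Pwx*` here and replace the `sorry`. -/
theorem rt_pw_x (η : ℝ) (h0 : 0 < η) (h1 : η < 1) : RtPwX η h0 h1 :=
  rt_pxm_x η h0 h1

/-- **PATCH**, waves (07 l.630-1183).      OWNER: block TRANSPORT (architect helper76) -/
theorem rt_patch_wv (η Γc : ℝ) (h0 : 0 < η) (h1 : η < 1) (_hcl : (cylCl η).Rate Γc) (hhy : (cylHyb η).Rate Γc) (hc0 : 0 ≤ Γc) :
    (rtMdWv η h0 h1).PatchRate Γc :=
  rt_pw_main η Γc h0 h1 hc0 (fz_flat_rate η Γc h0 h1 hhy hc0) (rt_pw_x η h0 h1) (rt_pi_in η h0 h1) (rt_po_exit η h0 h1)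

/-- **PATCH**, classical (07 l.982-990: chart + lift + jitter; rows are moved by `(rtChart p0 nL).row`, no operator) -/
theorem rt_patch_cl (η Γc : ℝ) (h0 : 0 < η) (h1 : η < 1) (hcl : (cylCl η).Rate Γc) (hc0 : 0 ≤ Γc) :
    (rtMdCl η h0 h1).PatchRate Γc :=
  rt_pca_patch_cl η Γc h0 h1 hcl hc0

/-- **GROUP** (07 l.446-628), plan T0-T8 in the header;   CUT by helper111: `Rt/Grp/{Defs,Geo,Key,Dec,Mod,Amb,Pat,Core,Main}.lean` -/
theorem rt_group (η : ℝ) (h0 : 0 < η) (h1 : η < 1) (Y : RtMd η) (hY : Y.Ok) (Γ : ℝ) (hΓ0 : 0 < Γ) (hΓ : Y.M.Rate Γ) :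
    ∃ D1 C2 : ℝ, 1 ≤ D1 ∧ 0 < C2 ∧ ∀ b0 : ℝ, 0 < b0 → ∃ c1 Z0 : ℝ, 0 < c1 ∧ ∀ C : ℕ, ∃ C' : ℕ, ∀ A' : ℕ, ∃ A n0 : ℕ,
      ∀ (p : Y.M.Par) (E : Xp (Y.M.sys p)) (F X : ℝ), n0 ≤ E.n → Y.M.Cls C A p E → E.st = [] → (∀ l, (Y.tq p (E.ts l)).f ≤ F) →
        F ≤ E.s ^ Z0 → 0 ≤ X →
        (∀ (E' : Xp (Y.M.sys p)) (d : RtPd), E'.n = E.n → Y.M.Cls C' A' p E' → E'.st = [] → d.Ok Y p E' C' A' D1 b0 → d.f ≤ 2 * F →
          E'.val ≤ X) →
        E.val ≤ 2 ^ (C2 * b0 * E.n) * X + 2 ^ ((Γ - c1) * E.n) :=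
  rt_gr_main η h0 h1 Y hY Γ hΓ0 hΓ

/-! ## 5. T-gap -/

theorem rt_s_rpow {P : PkSys} (E : Xp P) (a : ℝ) : E.s ^ a = 2 ^ (-(a * E.n)) := by
  unfold Xp.s
  rw [← Real.rpow_natCast, ← Real.rpow_mul (by norm_num), Real.inv_rpow (by norm_num), ← Real.rpow_neg (by norm_num)]
  congr 1
  ring

/-- **T-gap** = GROUP + PATCH      (`γ = (Γ-Γc)/4`, `b0 = min(b1, (Γ-Γc)/(4 C2))`, `σ = min(c1, (Γ-Γc)/2)/2`, `Z = max(Z0, Zp, 0) + 1`) -/
theorem rt_tgap (η : ℝ) (h0 : 0 < η) (h1 : η < 1) (Y : RtMd η) (hY : Y.Ok) (Γ Γc : ℝ) (hΓ : Y.M.Rate Γ) (hc0 : 0 ≤ Γc) (hlt : Γc < Γ)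
    (hP : Y.PatchRate Γc) :
    ∃ σ Z : ℝ, 0 < σ ∧ 0 < Z ∧ Y.M.RateOnT (fun p Q n => (Y.tq p Q).f ≤ 2 ^ (-(Z * n))) (Γ - σ) := by
  have hg : 0 < Γ - Γc := by linarith
  obtain ⟨D1, C2, hD1, hC2, HG⟩ := rt_group η h0 h1 Y hY Γ (by linarith) hΓ
  obtain ⟨b1, hb1, HP⟩ := hP ((Γ - Γc) / 4) D1 (by linarith) hD1
  obtain ⟨b0, hb0, hb01, hb02⟩ : ∃ b0 : ℝ, 0 < b0 ∧ b0 ≤ b1 ∧ C2 * b0 ≤ (Γ - Γc) / 4 := by
    refine ⟨min b1 ((Γ - Γc) / (4 * C2)), lt_min hb1 (by positivity), min_le_left _ _, ?_⟩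
    calc C2 * min b1 ((Γ - Γc) / (4 * C2)) ≤ C2 * ((Γ - Γc) / (4 * C2)) := mul_le_mul_of_nonneg_left (min_le_right _ _) hC2.le
      _ = (Γ - Γc) / 4 := by field_simp
  obtain ⟨c1, Z0, hc1, HG⟩ := HG b0 hb0
  obtain ⟨Zp, HP⟩ := HP b0 hb0 hb01
  obtain ⟨σ, hσ, hσ1, hσ2⟩ : ∃ σ : ℝ, 0 < σ ∧ 2 * σ ≤ c1 ∧ 2 * σ ≤ (Γ - Γc) / 2 := by
    refine ⟨min c1 ((Γ - Γc) / 2) / 2, by have := lt_min hc1 (half_pos hg); linarith, ?_, ?_⟩
    · have := min_le_left c1 ((Γ - Γc) / 2); linarith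
    · have := min_le_right c1 ((Γ - Γc) / 2); linarith
  obtain ⟨Z, hZ, hZ0, hZp⟩ : ∃ Z : ℝ, 0 < Z ∧ Z0 ≤ Z ∧ Zp + 1 ≤ Z := by
    refine ⟨max (max Z0 Zp) 0 + 1, by have := le_max_right (max Z0 Zp) 0; linarith, ?_, ?_⟩
    · have := (le_max_left Z0 Zp).trans (le_max_left (max Z0 Zp) 0); linarith
    · have := (le_max_right Z0 Zp).trans (le_max_left (max Z0 Zp) 0); linarith
  refine ⟨σ, Z, hσ, hZ, fun C => ?_⟩
  obtain ⟨C', HG⟩ := HG C
  obtain ⟨A', n0', HP⟩ := HP C'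
  obtain ⟨A, n0, HG⟩ := HG A'
  refine ⟨A, max (max n0 n0') (⌈1 / σ⌉₊ + 1), fun p E hn hE hst hl => ?_⟩
  have hn1 : n0 ≤ E.n := ((le_max_left _ _).trans (le_max_left _ _)).trans hn
  have hn2 : n0' ≤ E.n := ((le_max_right _ _).trans (le_max_left _ _)).trans hn
  have hn3 : ⌈1 / σ⌉₊ + 1 ≤ E.n := (le_max_right _ _).trans hn
  have hn4 : 1 ≤ σ * E.n := by
    have : 1 / σ ≤ (E.n : ℝ) := (Nat.le_ceil _).trans (by exact_mod_cast (Nat.le_succ _).trans hn3)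
    rw [div_le_iff₀ hσ] at this
    linarith
  have hn5 : (1 : ℝ) ≤ E.n := by exact_mod_cast (Nat.le_add_left 1 _).trans hn3
  have h2 : (1 : ℝ) ≤ 2 := by norm_num
  have key := HG p E (2 ^ (-(Z * E.n))) (2 ^ ((Γc + (Γ - Γc) / 4) * E.n)) hn1 hE hst hl ?_ (by positivity) ?_
  · refine key.trans ?_
    rw [← Real.rpow_add (by norm_num)]
    have a1 : (2 : ℝ) ^ (C2 * b0 * E.n + (Γc + (Γ - Γc) / 4) * E.n) ≤ 2 ^ ((Γ - σ) * E.n - 1) :=
      Real.rpow_le_rpow_of_exponent_le h2 (by nlinarith)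
    have a2 : (2 : ℝ) ^ ((Γ - c1) * E.n) ≤ 2 ^ ((Γ - σ) * E.n - 1) :=
      Real.rpow_le_rpow_of_exponent_le h2 (by nlinarith)
    have a3 : (2 : ℝ) ^ ((Γ - σ) * E.n) = 2 * 2 ^ ((Γ - σ) * E.n - 1) := by
      rw [Real.rpow_sub (by norm_num), Real.rpow_one]
      ring
    rw [a3]
    linarith
  · rw [rt_s_rpow]
    exact Real.rpow_le_rpow_of_exponent_le h2 (by nlinarith)
  · intro E' d hn' hE' hst' hd hf
    have := HP p E' d (by rw [hn']; exact hn2) hE' hst' hd ?_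
    · rwa [hn'] at this
    · refine hf.trans ?_
      rw [rt_s_rpow, hn']
      have : (2 : ℝ) * 2 ^ (-(Z * E.n)) = 2 ^ (1 + -(Z * E.n)) := by
        rw [Real.rpow_add (by norm_num), Real.rpow_one]
      rw [this]
      exact Real.rpow_le_rpow_of_exponent_le h2 (by nlinarith)

end Claimed.Agent.R256
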