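-- KEEP
import Claimed.Agent.R256.Rt.Patch

/-!
# Row 256 (LS paper), folder Rt = sec. 7 (round cones, reduction of thin shapes) : CONTRACT = UMBRELLA          (chief helper216; crew helper76; prefix `rt_`)

CONSUMERS IMPORT THIS FILE.   The statements live in `Rt/Mod.lean` (instances: X2, X3, X4, X6), `Rt/Patch.lean` (hub of the thin free gap: `RtMd`, PATCH, GROUP, `rt_tgap` proved), here (H1, X7: proved).

Paper: 07-round-transfer.tex (1235 l.).   Readings: reports 837 (l.630-1235), 854 (l.1-629), 877 + 889 (all).   Models: `Base/RndGeo, RndCl, RndWav` (mine), `Base/Cyl` (207).   Generic theory: `Gen/Hyp, Gen/Contract`.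

## ENTRY (what Rt consumes)
 E1  `Gen/Contract` (chief helper199): `gn_rep`, `gn_sgl` (Tight + Loc ⟹ Rep, Sgl), `gn_comp_on` (two-gap composition with a better rate on the free tails of a class).
 E2  the cylinder rates `(cylCl η).Rate Γc`, `(cylHyb η).Rate Γc` : HYPOTHESES of `rt_te_*` (supplied by the hub: P6, P7 with `Γc = η/2`).
## EXIT (what the others consume)
 X1  `rt_w1_an_spec`, `rt_w1_pl`, `rt_w1_norm_sq` (`Rt/Wv1.lean`)      the wave analysis is the formula; plateau class = spectrum in the plateau      (Phys/Bridge, Re)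
 X2  `rt_tight_wv`, `rt_tight_cl`                W1                                                                                   (Gen, Re)
 X3  `rtCnWv` (`rt_cn_wv_iff` = `reCn` of Re), `rtCnCl`, `rt_k_main` (`Rt/Ker.lean`), `rt_ker_cl`, `rt_cov_wv`, `rt_cov_cl`, `rtLocWv`, `rtLocCl`      W2 + G2 = `Mdl.Loc 1`      (Gen, Re)
 X4  `rt_gen_wv`, `rt_gen_cl`                    `Mdl.Gen 1` for the two round models: all of `Gen/Contract` (FIN: `Γ ≤ 1`, MIN, EXT, CE = SS2, SS3) is then available       (Re)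
 X5  `rt_G1` (`Rt/Geo.lean`, PROVED by helper18)      covering of enlarged tests                                                      (Re, 08 l.403)
 X6  `rt_sup_wv`                                 sup normalisation of (cone-kernel) = dispersion (report 889): a child cell receives at most the fraction `ρ'(S') ρ(S) sup|K|²`     (Re: tiny-cap, spatial read-out)
 X7  `rt_te_wv`, `rt_te_cl`                      **thin exclusion** (Prop rt:thin-exclusion in direct finite-scale form, constant `c` BEFORE the package)                     (Re, 08 l.59)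
     `ReEntry η` of `Re/Contract.lean` = ⟨`rt_gen_wv`, ⟨`rtLocWv`, `rt_cn_wv_iff`⟩, `rt_te_wv` with `Γ = Gam` (`gn_rate_gam`), `Γc = η/2`⟩.
## INTERNAL HUBS
 H1  `rt_tgap_wv`, `rt_tgap_cl`   thin free gaps: `∃ σ Z` before the package.      TE = H1 + `gn_comp_on`: PROVED below (`rt_te_of_tgap`).      H1 = GROUP + PATCH: PROVED (`rt_tgap`, `Rt/Patch.lean`).
 H2  `rt_patch_wv`, `rt_patch_cl` (`Rt/Patch.lean`): PATCH = patch experiments (`RtPd.Ok`) have `val ≤ 2^((Γc+γ) n)`.   Inside the block (helper76): one low-coefficient buffered chart ⟹ finite family of cylinder experiments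
       in `Cls C' A'` with `Σ e_j ≤ δ^-Cγ e`,  `κ_j ≤ δ^-Cγ κ f_*^(1-η)`,  terminal weights `≤ δ^-Cγ (f/f_*)^(1-η)`,  `m_λ ≤ δ^-Cγ m'_λ + ε_λ`,  `Σ ε_λ ≤ δ^N e`     (report 837 (3)).
 H3  `rt_group` (`Rt/Patch.lean`): GROUP = a thin free experiment is dominated by patch experiments (loss `2^(C2 b0 n)`) + parts losing a power; generic in `Y : RtMd η`; plan T0-T8 in the header of `Rt/Patch.lean`.
## UNITS (lines; owner; depends)
 G1 covering: DONE (helper18) | G2 single 3-4k (BP-256-RT-G2, helper18; G1) | W1 1.5-2k (BP-256-RT-W1, helper282: cut, 12 leaves L-256-RT-W1-*) | KER kernel + Schur `Rt/Ker.lean` (helper282: cut, 19 leaves L-256-RT-K-*); `rt_sup_wv` from `rt_k_bd` |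
 CL classical instance 0.6k: `rt_tight_cl`, `rt_ker_cl`, `rt_cov_cl`, `rt_root_*`, `rt_scale_*`, `rt_cov_wv`, `rt_floor_wv` (BP-256-RT-INST) |
 FLOORCL 1.2k `rt_floor_cl` (07 l.192-206, 08 l.66-118; slab volume `|{|G| ≤ f} ∩ disc ρ| ≤ 32 f ρ`) | TAILADM 1.5k `rt_tailadm_*` (KER) |
 CAP `Rt/Cap.lean` DONE (helper76) | CONF `Rt/Conf.lean` DONE (helper76) | CHART `Rt/Chart.lean`, `Rt/ChartContract.lean` (helper76: cut, 6 leaves L-256-RT-CH-*) | CI = G4 `Rt/Ci*.lean` (helper190; CHART, G1) |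
 GROUP `rt_group` 5-6k (BP-256-RT-GROUP; 07 l.446-628; CI, G1, Gen) | LIFT 2.5-3.5k (BP-256-RT-LIFT; CHART) | TRANSPORT 8-12k (helper76: origin/helper76:notes/R256/RT_TRANSPORT.md) |
 JITTER full regularity of the flattened input 2k (07 l.947-981; LIFT) | CLBASE classical + tiny `H_flat` 1.5k (l.982-1008) | FREEZE rt:classical-base 6-8k (helper76; l.1009-1183) | TGAP assembly: DONE (`rt_tgap`).
 Serial depth: Tests → G1 → G2/CHART → LIFT/GROUP → PATCH → TGAP → TE;   W1 → KER → TRANSPORT/FREEZE → PATCH.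
## REMARKS ON TRUTH (checked by hand, helper216 21:00Z)
 * `rt_floor_wv` is ELEMENTARY: `ok Q k` contains `d_k ≤ r_Q f_Q`, and `d_k ≥ d_{k0} ≥ s^(C/2) r`, `f ≤ 1`; hence `w(Q) ≥ s^(3C) r⁴ ≥ s^(4C) e/κ` for EVERY admissible test.
 * `rt_floor_cl` uses `RdSet.supp` (exact support) and `RdSet.dens`; two volume bounds: own coordinates `≲ R⁶ f`, frame box `≲ M⁴ f R`, `R = r_Q/r`;   `D'` depends on `η`.
 * `rt_scale_*`: `RdSet.tail` forces `e ≥ 0`, then `ek_hi` forces `κ ≥ 0`: no validity hypothesis is needed.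
 * `rt_tailadm_*`: keep `r' = r`, centre transported along the central ray; `C' ≈ 3C/h + 4`;   wave leak by `rt_k_main` with `Λ = s⁻¹`, `N ≈ A' + C + Cl + 2`; `d_k', q_k, H` are polynomial in frame units.
-/

set_option autoImplicit false

namespace Claimed.Agent.R256

open MeasureTheory
open scoped ENNReal

/-! ## H1, X7 : thin free gaps and thin exclusion -/

/-- thickness `≤ 2^-(Z n)` -/
def rtThWv (η Z : ℝ) (p : RdWvPar) (Q : (p.sys η).Tst) (n : ℕ) : Prop := RdTst.f Q ≤ 2 ^ (-(Z * n))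

/-- thickness `≤ 2^-(Z n)` -/
def rtThCl (η Z : ℝ) (p : RdClPar) (Q : (p.sys η).Tst) (n : ℕ) : Prop := RdTst.f Q ≤ 2 ^ (-(Z * n))

theorem rt_te_eqns_cite : True := by
  have := @rtThWv.eq_1
  have := @rtThCl.eq_1
  trivial

/-- **H1** (07 l.438-1235): thin endings on a free gap.   `σ`, `Z` are chosen BEFORE the package. -/
theorem rt_tgap_wv (η Γ Γc : ℝ) (h0 : 0 < η) (h1 : η < 1) (hΓ : (rndWav η).Rate Γ) (hcl : (cylCl η).Rate Γc) (hhy : (cylHyb η).Rate Γc)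
    (hc0 : 0 ≤ Γc) (hlt : Γc < Γ) : ∃ σ Z : ℝ, 0 < σ ∧ 0 < Z ∧ (rndWav η).RateOnT (rtThWv η Z) (Γ - σ) :=
  rt_tgap η h0 h1 (rtMdWv η h0 h1) (rt_md_wv_ok η h0 h1) Γ Γc hΓ hc0 hlt (rt_patch_wv η Γc h0 h1 hcl hhy hc0)

/-- **H1**, classical -/
theorem rt_tgap_cl (η Γ Γc : ℝ) (h0 : 0 < η) (h1 : η < 1) (hΓ : (rndCl η).Rate Γ) (hcl : (cylCl η).Rate Γc)
    (hc0 : 0 ≤ Γc) (hlt : Γc < Γ) : ∃ σ Z : ℝ, 0 < σ ∧ 0 < Z ∧ (rndCl η).RateOnT (rtThCl η Z) (Γ - σ) :=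
  rt_tgap η h0 h1 (rtMdCl η h0 h1) (rt_md_cl_ok η h0 h1) Γ Γc hΓ hc0 hlt (rt_patch_cl η Γc h0 h1 hcl hc0)

/-- TE = T-gap + `gn_comp_on` (generic, PROVED): cut at `kf - ⌊h' n⌋`, `h' = min(h, τ/Z, 1/2)`, `c = σ h'/4` -/
theorem rt_te_of_tgap (M : Mdl) (g : ℝ) (hG : M.Gen g) (fT : (p : M.Par) → (M.sys p).Tst → ℝ) (Γ σ Z : ℝ) (hσ : 0 < σ) (hZ : 0 < Z)
    (hΓ : M.Rate Γ) (hgap : M.RateOnT (fun p Q n => fT p Q ≤ 2 ^ (-(Z * n))) (Γ - σ))
    (τ h : ℝ) (hτ : 0 < τ) (hh : 0 < h) :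
    ∃ c : ℝ, 0 < c ∧ ∀ C : ℕ, ∃ A n0 : ℕ, ∀ (p : M.Par) (E : Xp (M.sys p)), n0 ≤ E.n → M.Cls C A p E →
      (∀ σ ∈ E.st, (σ.k : ℝ) + h * E.n ≤ E.kf) → (∀ l, fT p (E.ts l) ≤ E.s ^ τ) → E.val ≤ 2 ^ ((Γ - c) * E.n) := by
  obtain ⟨h', h'pos, h'h, h'τ, h'1⟩ : ∃ h' : ℝ, 0 < h' ∧ h' ≤ h ∧ h' * Z ≤ τ ∧ h' ≤ 1 / 2 := by
    refine ⟨min (min h (τ / Z)) (1 / 2), lt_min (lt_min hh (div_pos hτ hZ)) (by norm_num),
      (min_le_left _ _).trans (min_le_left _ _), ?_, min_le_right _ _⟩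
    have : min (min h (τ / Z)) (1 / 2) ≤ τ / Z := (min_le_left _ _).trans (min_le_right _ _)
    calc min (min h (τ / Z)) (1 / 2) * Z ≤ τ / Z * Z := mul_le_mul_of_nonneg_right this hZ.le
      _ = τ := div_mul_cancel₀ _ hZ.ne'
  refine ⟨σ * h' / 4, by positivity, fun C => ?_⟩
  have hTh : ∀ (C : ℕ) (ε : ℝ), 0 < ε → ∃ A n0 : ℕ, ∀ (p : M.Par) (E : Xp (M.sys p)), n0 ≤ E.n → M.Cls C A p E → E.st = [] →
      (∀ l, fT p (E.ts l) ≤ 2 ^ (-(Z * E.n))) → E.val ≤ 2 ^ ((Γ - σ + ε) * E.n) := by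
    intro C ε hε
    obtain ⟨A, n0, H⟩ := hgap C
    refine ⟨A, n0, fun p E hn hE hst hl => (H p E hn hE hst hl).trans (Real.rpow_le_rpow_of_exponent_le (by norm_num) ?_)⟩
    have : (0 : ℝ) ≤ E.n := Nat.cast_nonneg _
    nlinarith
  obtain ⟨A, n0, H⟩ := gn_comp_on M g hG Γ (Γ - σ) hΓ (fun p E => ∀ l, fT p (E.ts l) ≤ 2 ^ (-(Z * E.n))) hTh C (h' / 2) (σ * h' / 4)
    (by positivity) (by positivity)
  refine ⟨A, max n0 (⌈2 / h'⌉₊), fun p E hn hE hst hf => ?_⟩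
  have hn0 : n0 ≤ E.n := le_trans (le_max_left _ _) hn
  have hn1 : 2 / h' ≤ (E.n : ℝ) := (Nat.le_ceil _).trans (by exact_mod_cast le_trans (le_max_right _ _) hn)
  have hn2 : 2 ≤ h' * E.n := by
    rw [div_le_iff₀ h'pos] at hn1
    linarith
  have hnn : (0 : ℝ) ≤ E.n := Nat.cast_nonneg _
  obtain ⟨j, hjle, hjge⟩ : ∃ j : ℕ, (j : ℝ) ≤ h' * E.n ∧ h' * E.n - 1 < j :=
    ⟨⌊h' * E.n⌋₊, Nat.floor_le (by positivity), Nat.sub_one_lt_floor _⟩
  have hjn' : (j : ℝ) ≤ E.n / 2 := hjle.trans (by nlinarith)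
  have hjn : j ≤ E.n := by
    have : (j : ℝ) ≤ E.n := hjn'.trans (by linarith)
    exact_mod_cast this
  have hkf : E.kf = E.k0 + E.n := rfl
  have e1 : E.kf - (E.kf - j) = j := by omega
  have e2 : E.kf - j - E.k0 = E.n - j := by omega
  have hfl : ∀ l, fT p (E.ts l) ≤ 2 ^ (-(Z * (j : ℝ))) := by
    intro l
    refine (hf l).trans ?_
    have : E.s ^ τ = 2 ^ (-(τ * E.n)) := by
      unfold Xp.s
      rw [← Real.rpow_natCast, ← Real.rpow_mul (by norm_num), Real.inv_rpow (by norm_num), ← Real.rpow_neg (by norm_num)]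
      congr 1
      ring
    rw [this]
    refine Real.rpow_le_rpow_of_exponent_le (by norm_num) ?_
    have : Z * j ≤ τ * E.n := by
      calc Z * j ≤ Z * (h' * E.n) := mul_le_mul_of_nonneg_left hjle hZ.le
        _ = h' * Z * E.n := by ring
        _ ≤ τ * E.n := mul_le_mul_of_nonneg_right h'τ hnn
    linarith
  have key := H p E hn0 hE (E.kf - j) ⟨(List.append_nil _).symm, ?_, by simp, by omega, by omega⟩ ?_ ?_ ?_
  · rw [e1, e2, Nat.cast_sub hjn] at key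
    refine key.trans (Real.rpow_le_rpow_of_exponent_le (by norm_num) ?_)
    nlinarith
  · intro s hs
    have h1 := hst s hs
    have h2 : (s.k : ℝ) + j ≤ E.kf := by
      have : (j : ℝ) ≤ h * E.n := hjle.trans (mul_le_mul_of_nonneg_right h'h hnn)
      linarith
    have h3 : s.k + j ≤ E.kf := by exact_mod_cast h2
    omega
  · rw [e2, Nat.cast_sub hjn]
    nlinarith
  · rw [e1]
    linarith
  · intro i _ ψ e' κ' b' S _ l
    have : ((E.tl (E.kf - j) i ψ e' κ' b' [] S).n : ℝ) = (j : ℝ) := by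
      show ((E.kf - (E.kf - j) : ℕ) : ℝ) = j
      rw [e1]
    rw [this]
    exact hfl _

/-- **X7 thin exclusion**, wave.   `E` may be masked; its last `h n` generations of intervals are free; all terminal thicknesses are `≤ s^τ`.   `c` is package free. -/
theorem rt_te_wv (η Γ Γc : ℝ) (h0 : 0 < η) (h1 : η < 1) (hΓ : (rndWav η).Rate Γ) (hcl : (cylCl η).Rate Γc)
    (hhy : (cylHyb η).Rate Γc) (hc0 : 0 ≤ Γc) (hlt : Γc < Γ) (τ h : ℝ) (hτ : 0 < τ) (hh : 0 < h) :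
    ∃ c : ℝ, 0 < c ∧ ∀ C : ℕ, ∃ A n0 : ℕ, ∀ (p : RdWvPar) (E : Xp (p.sys η)), n0 ≤ E.n → (rndWav η).Cls C A p E →
      (∀ σ ∈ E.st, (σ.k : ℝ) + h * E.n ≤ E.kf) → (∀ l, RdTst.f (E.ts l) ≤ E.s ^ τ) → E.val ≤ 2 ^ ((Γ - c) * E.n) := by
  obtain ⟨σ, Z, hσ, hZ, hg⟩ := rt_tgap_wv η Γ Γc h0 h1 hΓ hcl hhy hc0 hlt
  exact rt_te_of_tgap (rndWav η) 1 (rt_gen_wv η h0 h1) (fun _ Q => RdTst.f Q) Γ σ Z hσ hZ hΓ hg τ h hτ hh

/-- **X7 thin exclusion**, classical -/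
theorem rt_te_cl (η Γ Γc : ℝ) (h0 : 0 < η) (h1 : η < 1) (hΓ : (rndCl η).Rate Γ) (hcl : (cylCl η).Rate Γc)
    (hc0 : 0 ≤ Γc) (hlt : Γc < Γ) (τ h : ℝ) (hτ : 0 < τ) (hh : 0 < h) :
    ∃ c : ℝ, 0 < c ∧ ∀ C : ℕ, ∃ A n0 : ℕ, ∀ (p : RdClPar) (E : Xp (p.sys η)), n0 ≤ E.n → (rndCl η).Cls C A p E →
      (∀ σ ∈ E.st, (σ.k : ℝ) + h * E.n ≤ E.kf) → (∀ l, RdTst.f (E.ts l) ≤ E.s ^ τ) → E.val ≤ 2 ^ ((Γ - c) * E.n) := by
  obtain ⟨σ, Z, hσ, hZ, hg⟩ := rt_tgap_cl η Γ Γc h0 h1 hΓ hcl hc0 hlt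
  exact rt_te_of_tgap (rndCl η) 1 (rt_gen_cl η h0 h1) (fun _ Q => RdTst.f Q) Γ σ Z hσ hZ hΓ hg τ h hτ hh

end Claimed.Agent.R256
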