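import Claimed.Agent.R256.Rt.Tests

/-!
# Row 256, folder Rt, file Conf: THE CONFORMAL ALGEBRA OF `q = t y - |b|²`      (helper76; prefix `rt_cf_`, `rtCf`)

Paper free (07 l.486-540, l.686-706), no analysis: exact rational identities only.   On top of `Rt/Tests.lean` (helper216).
* `RtEv` = event `(t, b, y)`; `e.q`, polar form `e.pol e'`; `p.ev t` = the event of the ray `p` at time `t`.
* `rtK p t p₀ t₀ = q (p.ev t - p₀.ev t₀)` : THE TWO-RAY INVARIANT.  `rt_cf_K_eq`: it is the bilinear polynomial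
  `- |b-b₀|² + t (y-y₀-2A·(b-b₀)) - t₀ (y-y₀-2A₀·(b-b₀)) - t t₀ |A-A₀|²`, whose coefficients are EXACTLY the quantities of a parabolic phase box.
  So "boxes go to boxes" (07 l.497, l.530-537) follows from the two-point identity `rt_cf_two`, without Taylor expansions.
* `rtCfDen v x = 1 + 2⟨v,x⟩ + q(v) q(x)`, `rtCfMap v x = (x + q(x) v)/D` : special conformal maps (conf).
  `rt_cf_q`, `rt_cf_two` (two-point identity), `rt_cf_den_neg`, `rt_cf_inv` (the inverse uses `-v`), `rt_cf_den_add`, `rt_cf_add` (abelian group: used for the factorisation into null maps).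
* `RtPoly.cf v n` : the action on hyperquadric coefficients, `rt_cf_poly : (n.cf v).F (x') = n.F x / D`, `rt_cf_disc` (discriminant preserved), `rt_cf_poly_neg` (inverse).
* `rtCfDb β` : the dual boost `(t + 2β b₂ + β² y, b₁, b₂ + β y, y)`, a linear `q`-isometry; `RtPoly.db`.
* ROW MAPS: `rtCfRow vb vy` (for `v = (0, vb, vy)`: the slice `t = 0` is preserved; `vb = (0,k), vy = 0`: the flattening map; `vb = 0, vy = c`: the LENS), `rtCfRowDb β`;
  `rt_cf_row`, `rt_cf_row_db`: rays go to rays, with the fractional linear change of time.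
* CENTRING `rtCfCen p₀` (translation + boost, affine isometry; coefficients go to `(F(p₀), G(p₀), g(p₀), β, k)`), ROTATION `rtCfRot e`.
* `rt_cf_normal` : centring on an exact ray of `{F = 0}` + rotation by `g` gives `b₂ + β y + k q`;  `rt_cf_flat` : `DB_β` then `C_(0,(0,k),0)` gives `b₂`.
* `rt_cf_conj_db`, `rt_cf_null_split`, `rt_cf_add` : `C_(0,(0,k),0) = [DB_γ LENS_c DB_-γ] ∘ [DB_-γ LENS_-c DB_γ]`, `γ = k/(2c)` (route of the wave transport: lens = pseudo-conformal map, slice preserving).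
SORRY-FREE.
-/

set_option autoImplicit false

namespace Claimed.Agent.R256

/-- an event `(t, b, y)` -/
@[ext] structure RtEv where
  t : ℝ
  b : ℝ × ℝ
  y : ℝ

namespace RtEv

/-- `q(t,b,y) = t y - |b|²` -/
def q (e : RtEv) : ℝ := rtQ e.t e.b e.y

/-- the polar form of `q` -/
noncomputable def pol (e e' : RtEv) : ℝ := (e.t * e'.y + e'.t * e.y) / 2 - rtIp e.b e'.b

/-- difference of events -/
def sub (e e' : RtEv) : RtEv := ⟨e.t - e'.t, e.b - e'.b, e.y - e'.y⟩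

/-- sum -/
def add (e e' : RtEv) : RtEv := ⟨e.t + e'.t, e.b + e'.b, e.y + e'.y⟩

/-- opposite -/
def neg (e : RtEv) : RtEv := ⟨-e.t, -e.b, -e.y⟩

end RtEv

/-- the event of the ray `p` at time `t` -/
def RtRow.ev (p : RtRow) (t : ℝ) : RtEv := ⟨t, p.b + t • p.A, p.y + t * rtSq p.A⟩

/-- the value of a hyperquadric polynomial at an event -/
def RtPoly.Fe (n : RtPoly) (e : RtEv) : ℝ := n.F e.t e.b e.y

/-- **the two-ray invariant** -/
def rtK (p : RtRow) (t : ℝ) (p₀ : RtRow) (t₀ : ℝ) : ℝ := ((p.ev t).sub (p₀.ev t₀)).q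

/-- the denominator of a special conformal map -/
noncomputable def rtCfDen (v x : RtEv) : ℝ := 1 + 2 * v.pol x + v.q * x.q

/-- the special conformal map `x ↦ (x + q(x) v) / D` -/
noncomputable def rtCfMap (v x : RtEv) : RtEv :=
  ⟨(x.t + x.q * v.t) / rtCfDen v x, ((x.b.1 + x.q * v.b.1) / rtCfDen v x, (x.b.2 + x.q * v.b.2) / rtCfDen v x),
    (x.y + x.q * v.y) / rtCfDen v x⟩

/-- the action of `rtCfMap v` on hyperquadric coefficients -/
def RtPoly.cf (v : RtEv) (n : RtPoly) : RtPoly :=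
  ⟨n.c, n.d - n.c * v.y, n.al + (2 * n.c) • v.b, n.be - n.c * v.t,
    n.k + n.c * v.q - (n.d * v.t + rtIp n.al v.b + n.be * v.y)⟩

/-- the dual boost -/
def rtCfDb (β : ℝ) (x : RtEv) : RtEv := ⟨x.t + 2 * β * x.b.2 + β ^ 2 * x.y, (x.b.1, x.b.2 + β * x.y), x.y⟩

/-- the action of the dual boost on hyperquadric coefficients -/
def RtPoly.db (β : ℝ) (n : RtPoly) : RtPoly :=
  ⟨n.c, n.d, (n.al.1, n.al.2 - 2 * β * n.d), n.be + n.d * β ^ 2 - n.al.2 * β, n.k⟩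

/-- `D` at time `0` on the ray `p`, for `v = (0, vb, vy)` -/
def rtCfD0 (vb : ℝ × ℝ) (p : RtRow) : ℝ := 1 - 2 * rtIp vb p.b + rtSq vb * rtSq p.b

/-- the slope of `D` along the ray `p`, for `v = (0, vb, vy)` -/
def rtCfD1 (vb : ℝ × ℝ) (vy : ℝ) (p : RtRow) : ℝ :=
  vy - 2 * rtIp vb p.A - rtSq vb * (p.y - 2 * rtIp p.A p.b)

/-- the row map of `rtCfMap (0, vb, vy)` -/
noncomputable def rtCfRow (vb : ℝ × ℝ) (vy : ℝ) (p : RtRow) : RtRow :=
  ⟨p.A + (p.y - 2 * rtIp p.A p.b) • vb - (rtCfD1 vb vy p / rtCfD0 vb p) • (p.b - rtSq p.b • vb),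
    (rtCfD0 vb p)⁻¹ • (p.b - rtSq p.b • vb), (p.y - rtSq p.b * vy) / rtCfD0 vb p⟩

/-- the rate of the new time along the ray `p` under the dual boost -/
def rtCfQ (β : ℝ) (p : RtRow) : ℝ := 1 + 2 * β * p.A.2 + β ^ 2 * rtSq p.A

/-- the new time of the event of `p` at time `0` under the dual boost -/
def rtCfT0 (β : ℝ) (p : RtRow) : ℝ := 2 * β * p.b.2 + β ^ 2 * p.y

/-- the row map of the dual boost -/
noncomputable def rtCfRowDb (β : ℝ) (p : RtRow) : RtRow :=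
  ⟨(p.A.1 / rtCfQ β p, (p.A.2 + β * rtSq p.A) / rtCfQ β p),
    (p.b.1 - rtCfT0 β p * (p.A.1 / rtCfQ β p), p.b.2 + β * p.y - rtCfT0 β p * ((p.A.2 + β * rtSq p.A) / rtCfQ β p)),
    p.y - rtCfT0 β p * (rtSq p.A / rtCfQ β p)⟩

/-- centring on the ray `p₀` (translation + boost with its vertical tilt): an affine `q`-isometry carrying `p₀` to the time axis -/
def rtCfCen (p₀ : RtRow) (x : RtEv) : RtEv :=
  ⟨x.t, x.b - p₀.b - x.t • p₀.A, x.y - p₀.y - 2 * rtIp p₀.A (x.b - p₀.b) + x.t * rtSq p₀.A⟩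

/-- the row map of the centring -/
def rtCfRowCen (p₀ p : RtRow) : RtRow := ⟨p.A - p₀.A, p.b - p₀.b, p.y - p₀.y - 2 * rtIp p₀.A (p.b - p₀.b)⟩

/-- the action of the centring on hyperquadric coefficients: `(F(p₀), G(p₀), g(p₀), β, k)` -/
def RtPoly.cen (p₀ : RtRow) (n : RtPoly) : RtPoly :=
  ⟨n.F 0 p₀.b p₀.y, n.G 0 p₀.b p₀.y p₀.A, n.g 0 p₀.b p₀.A, n.be, n.k⟩

/-- the rotation of the plane carrying the unit vector `e` to `(0, 1)` -/
def rtRot (e b : ℝ × ℝ) : ℝ × ℝ := (e.2 * b.1 - e.1 * b.2, e.1 * b.1 + e.2 * b.2)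

/-- rotation of events -/
def rtCfRot (e : ℝ × ℝ) (x : RtEv) : RtEv := ⟨x.t, rtRot e x.b, x.y⟩

/-- rotation of rows -/
def rtCfRowRot (e : ℝ × ℝ) (p : RtRow) : RtRow := ⟨rtRot e p.A, rtRot e p.b, p.y⟩

/-- rotation of hyperquadric coefficients -/
def RtPoly.rot (e : ℝ × ℝ) (n : RtPoly) : RtPoly := ⟨n.c, n.d, rtRot e n.al, n.be, n.k⟩

theorem rt_cf_eqns_cite : True := by
  have := @RtEv.q.eq_1
  have := @RtEv.pol.eq_1
  have := @RtEv.sub.eq_1
  have := @RtEv.add.eq_1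
  have := @RtEv.neg.eq_1
  have := @RtRow.ev.eq_1
  have := @RtPoly.Fe.eq_1
  have := @rtK.eq_1
  have := @rtCfDen.eq_1
  have := @rtCfMap.eq_1
  have := @RtPoly.cf.eq_1
  have := @rtCfDb.eq_1
  have := @RtPoly.db.eq_1
  have := @rtCfD0.eq_1
  have := @rtCfD1.eq_1
  have := @rtCfRow.eq_1
  have := @rtCfQ.eq_1
  have := @rtCfT0.eq_1
  have := @rtCfRowDb.eq_1
  have := @rtCfCen.eq_1
  have := @rtCfRowCen.eq_1
  have := @RtPoly.cen.eq_1
  have := @rtRot.eq_1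
  have := @rtCfRot.eq_1
  have := @rtCfRowRot.eq_1
  have := @RtPoly.rot.eq_1
  trivial

/-! ## 1. The two-ray invariant -/

/-- the invariant is a bilinear polynomial in the two times; its coefficients are the quantities of a parabolic phase box -/
theorem rt_cf_K_eq (p : RtRow) (t : ℝ) (p₀ : RtRow) (t₀ : ℝ) :
    rtK p t p₀ t₀ = - rtSq (p.b - p₀.b) + t * (p.y - p₀.y - 2 * rtIp p.A (p.b - p₀.b))
      - t₀ * (p.y - p₀.y - 2 * rtIp p₀.A (p.b - p₀.b)) - t * t₀ * rtSq (p.A - p₀.A) := by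
  simp only [rtK, RtEv.q, RtEv.sub, RtRow.ev, rtQ, rtSq, rtIp, Prod.fst_add, Prod.snd_add, Prod.fst_sub, Prod.snd_sub,
    Prod.smul_fst, Prod.smul_snd, smul_eq_mul]
  ring

/-- the event of a ray and the flow of `Tests.lean` -/
theorem rt_cf_ev_flow (p : RtRow) (t : ℝ) : p.ev t = ⟨t, (p.flow t).b, (p.flow t).y⟩ := rfl

/-- a polynomial is affine along a ray -/
theorem rt_cf_Fe_ray (n : RtPoly) (p : RtRow) (t : ℝ) : n.Fe (p.ev t) = n.F 0 p.b p.y + t * n.G 0 p.b p.y p.A :=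
  rt_F_ray n t p.b p.y p.A

/-! ## 2. Special conformal maps -/

theorem rt_cf_q (v x : RtEv) (h : rtCfDen v x ≠ 0) : (rtCfMap v x).q = x.q / rtCfDen v x := by
  have key : (x.t + x.q * v.t) * (x.y + x.q * v.y) - ((x.b.1 + x.q * v.b.1) ^ 2 + (x.b.2 + x.q * v.b.2) ^ 2)
      = x.q * rtCfDen v x := by
    simp only [rtCfDen, RtEv.q, RtEv.pol, rtQ, rtSq, rtIp]
    ring
  have h2 : (rtCfMap v x).q = ((x.t + x.q * v.t) * (x.y + x.q * v.y)
      - ((x.b.1 + x.q * v.b.1) ^ 2 + (x.b.2 + x.q * v.b.2) ^ 2)) / rtCfDen v x ^ 2 := by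
    simp only [rtCfMap, RtEv.q, rtQ, rtSq]
    field_simp
  rw [h2, key]
  field_simp

/-- **the two-point identity** `q(x' - z') = q(x - z) / (D(x) D(z))` -/
theorem rt_cf_two (v x z : RtEv) (hx : rtCfDen v x ≠ 0) (hz : rtCfDen v z ≠ 0) :
    ((rtCfMap v x).sub (rtCfMap v z)).q = (x.sub z).q / (rtCfDen v x * rtCfDen v z) := by
  obtain ⟨Dx, hDx⟩ : ∃ D, D = rtCfDen v x := ⟨_, rfl⟩
  obtain ⟨Dz, hDz⟩ : ∃ D, D = rtCfDen v z := ⟨_, rfl⟩
  have key : ((x.t + x.q * v.t) * Dz - (z.t + z.q * v.t) * Dx) * ((x.y + x.q * v.y) * Dz - (z.y + z.q * v.y) * Dx)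
      - (((x.b.1 + x.q * v.b.1) * Dz - (z.b.1 + z.q * v.b.1) * Dx) ^ 2
        + ((x.b.2 + x.q * v.b.2) * Dz - (z.b.2 + z.q * v.b.2) * Dx) ^ 2) = (x.sub z).q * (Dx * Dz) := by
    rw [hDx, hDz]
    simp only [rtCfDen, RtEv.q, RtEv.pol, RtEv.sub, rtQ, rtSq, rtIp, Prod.fst_sub, Prod.snd_sub]
    ring
  rw [← hDx] at hx
  rw [← hDz] at hz
  have h2 : ((rtCfMap v x).sub (rtCfMap v z)).q =
      (((x.t + x.q * v.t) * Dz - (z.t + z.q * v.t) * Dx) * ((x.y + x.q * v.y) * Dz - (z.y + z.q * v.y) * Dx)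
      - (((x.b.1 + x.q * v.b.1) * Dz - (z.b.1 + z.q * v.b.1) * Dx) ^ 2
        + ((x.b.2 + x.q * v.b.2) * Dz - (z.b.2 + z.q * v.b.2) * Dx) ^ 2)) / (Dx * Dz) ^ 2 := by
    simp only [rtCfMap, ← hDx, ← hDz, RtEv.sub, Prod.mk_sub_mk]
    generalize x.q = qx
    generalize z.q = qz
    simp only [RtEv.q, rtQ, rtSq]
    field_simp
  rw [h2, key, ← hDx, ← hDz]
  field_simp

theorem rt_cf_pol_map (w v x : RtEv) (h : rtCfDen v x ≠ 0) :
    w.pol (rtCfMap v x) = (w.pol x + x.q * w.pol v) / rtCfDen v x := by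
  generalize hD : rtCfDen v x = D at h ⊢
  simp only [rtCfMap, hD, RtEv.pol, rtIp]
  field_simp
  ring

theorem rt_cf_q_neg (v : RtEv) : v.neg.q = v.q := by
  simp only [RtEv.neg, RtEv.q, rtQ, rtSq, Prod.fst_neg, Prod.snd_neg]
  ring

theorem rt_cf_pol_neg (v x : RtEv) : v.neg.pol x = - v.pol x := by
  simp only [RtEv.neg, RtEv.pol, rtIp, Prod.fst_neg, Prod.snd_neg]
  ring

theorem rt_cf_pol_self (v : RtEv) : v.pol v = v.q := by
  simp only [RtEv.pol, RtEv.q, rtQ, rtIp, rtSq]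
  ring

theorem rt_cf_pol_comm (v x : RtEv) : v.pol x = x.pol v := by
  simp only [RtEv.pol, rtIp]
  ring

theorem rt_cf_q_add (v w : RtEv) : (v.add w).q = v.q + 2 * v.pol w + w.q := by
  simp only [RtEv.add, RtEv.pol, RtEv.q, rtQ, rtIp, rtSq, Prod.fst_add, Prod.snd_add]
  ring

theorem rt_cf_pol_add (v w x : RtEv) : (v.add w).pol x = v.pol x + w.pol x := by
  simp only [RtEv.add, RtEv.pol, rtIp, Prod.fst_add, Prod.snd_add]
  ring

/-- cocycle identity of the denominators -/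
theorem rt_cf_den_add (v w x : RtEv) (h : rtCfDen v x ≠ 0) :
    rtCfDen (v.add w) x = rtCfDen v x * rtCfDen w (rtCfMap v x) := by
  have h1 : rtCfDen w (rtCfMap v x) = 1 + 2 * ((w.pol x + x.q * w.pol v) / rtCfDen v x) + w.q * (x.q / rtCfDen v x) := by
    rw [rtCfDen, rt_cf_pol_map w v x h, rt_cf_q v x h]
  rw [h1]
  have h2 : rtCfDen (v.add w) x = rtCfDen v x + 2 * (w.pol x + x.q * w.pol v) + w.q * x.q := by
    simp only [rtCfDen, rt_cf_q_add, rt_cf_pol_add, rt_cf_pol_comm w v]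
    ring
  rw [h2]
  field_simp

/-- `D_{-v}(x') = 1 / D_v(x)` -/
theorem rt_cf_den_neg (v x : RtEv) (h : rtCfDen v x ≠ 0) : rtCfDen v.neg (rtCfMap v x) = 1 / rtCfDen v x := by
  have h1 : rtCfDen v.neg (rtCfMap v x) = 1 + 2 * (-((v.pol x + x.q * v.pol v) / rtCfDen v x)) + v.q * (x.q / rtCfDen v x) := by
    rw [rtCfDen, rt_cf_pol_neg, rt_cf_pol_map v v x h, rt_cf_q v x h, rt_cf_q_neg]
  rw [h1, rt_cf_pol_self]
  have h2 : rtCfDen v x = 1 + 2 * v.pol x + v.q * x.q := rfl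
  field_simp
  rw [h2]
  ring

/-- the maps form an abelian group -/
theorem rt_cf_add (v w x : RtEv) (h : rtCfDen v x ≠ 0) (h' : rtCfDen w (rtCfMap v x) ≠ 0) :
    rtCfMap w (rtCfMap v x) = rtCfMap (v.add w) x := by
  have hq := rt_cf_q v x h
  have hD := rt_cf_den_add v w x h
  have e : ∀ a c c' : ℝ, ((a + x.q * c) / rtCfDen v x + x.q / rtCfDen v x * c') / rtCfDen w (rtCfMap v x)
      = (a + x.q * (c + c')) / rtCfDen (v.add w) x := by
    intro a c c'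
    rw [hD]
    field_simp
    ring
  ext
  · show ((rtCfMap v x).t + (rtCfMap v x).q * w.t) / rtCfDen w (rtCfMap v x) = _
    rw [hq]; exact e _ _ _
  · show ((rtCfMap v x).b.1 + (rtCfMap v x).q * w.b.1) / rtCfDen w (rtCfMap v x) = _
    rw [hq]; exact e _ _ _
  · show ((rtCfMap v x).b.2 + (rtCfMap v x).q * w.b.2) / rtCfDen w (rtCfMap v x) = _
    rw [hq]; exact e _ _ _
  · show ((rtCfMap v x).y + (rtCfMap v x).q * w.y) / rtCfDen w (rtCfMap v x) = _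
    rw [hq]; exact e _ _ _

/-- the inverse uses `-v` -/
theorem rt_cf_inv (v x : RtEv) (h : rtCfDen v x ≠ 0) : rtCfMap v.neg (rtCfMap v x) = x := by
  have hq := rt_cf_q v x h
  have hD := rt_cf_den_neg v x h
  rw [rtCfMap, hD, hq]
  simp only [rtCfMap, RtEv.neg, Prod.fst_neg, Prod.snd_neg]
  ext <;> field_simp <;> ring

/-! ## 3. The action on hyperquadrics -/

theorem rt_cf_Fe (n : RtPoly) (x : RtEv) : n.Fe x = n.c + n.d * x.t + rtIp n.al x.b + n.be * x.y + n.k * x.q := rfl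

/-- division by `D` carries `n` to `n.cf v` -/
theorem rt_cf_poly (n : RtPoly) (v x : RtEv) (h : rtCfDen v x ≠ 0) :
    (n.cf v).Fe (rtCfMap v x) = n.Fe x / rtCfDen v x := by
  rw [rt_cf_Fe, rt_cf_q v x h, rt_cf_Fe]
  have h2 : rtCfDen v x = 1 + 2 * v.pol x + v.q * x.q := rfl
  generalize hD : rtCfDen v x = D at h h2 ⊢
  simp only [rtCfMap, hD, RtPoly.cf, rtIp, Prod.fst_add, Prod.snd_add, Prod.smul_fst, Prod.smul_snd, smul_eq_mul,
    RtEv.q, rtQ, rtSq]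
  simp only [RtEv.pol, rtIp, RtEv.q, rtQ, rtSq] at h2
  field_simp
  rw [h2]
  ring

theorem rt_cf_disc (n : RtPoly) (v : RtEv) : (n.cf v).disc = n.disc := by
  simp only [RtPoly.cf, RtPoly.disc, RtEv.q, rtQ, rtSq, rtIp, Prod.fst_add, Prod.snd_add, Prod.smul_fst, Prod.smul_snd,
    smul_eq_mul]
  ring

theorem rt_cf_poly_neg (n : RtPoly) (v : RtEv) : (n.cf v).cf v.neg = n := by
  ext <;> simp only [RtPoly.cf, RtEv.neg, RtEv.q, rtQ, rtSq, rtIp, Prod.fst_add, Prod.snd_add, Prod.smul_fst, Prod.smul_snd,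
      smul_eq_mul, Prod.fst_neg, Prod.snd_neg] <;> ring

/-! ## 4. The dual boost -/

theorem rt_cf_db_q (β : ℝ) (x : RtEv) : (rtCfDb β x).q = x.q := by
  simp only [rtCfDb, RtEv.q, rtQ, rtSq]
  ring

theorem rt_cf_db_sub (β : ℝ) (x z : RtEv) : (rtCfDb β x).sub (rtCfDb β z) = rtCfDb β (x.sub z) := by
  ext <;> simp only [rtCfDb, RtEv.sub, Prod.fst_sub, Prod.snd_sub, Prod.mk_sub_mk] <;> ring

theorem rt_cf_db_two (β : ℝ) (x z : RtEv) : ((rtCfDb β x).sub (rtCfDb β z)).q = (x.sub z).q := by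
  rw [rt_cf_db_sub, rt_cf_db_q]

theorem rt_cf_db_pol (β : ℝ) (x z : RtEv) : (rtCfDb β x).pol (rtCfDb β z) = x.pol z := by
  simp only [rtCfDb, RtEv.pol, rtIp]
  ring

theorem rt_cf_db_inv (β : ℝ) (x : RtEv) : rtCfDb (-β) (rtCfDb β x) = x := by
  ext <;> simp only [rtCfDb] <;> ring

theorem rt_cf_db_add (β γ : ℝ) (x : RtEv) : rtCfDb γ (rtCfDb β x) = rtCfDb (β + γ) x := by
  ext <;> simp only [rtCfDb] <;> ring

theorem rt_cf_poly_db (n : RtPoly) (β : ℝ) (x : RtEv) : (n.db β).Fe (rtCfDb β x) = n.Fe x := by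
  rw [rt_cf_Fe, rt_cf_db_q, rt_cf_Fe]
  simp only [rtCfDb, RtPoly.db, rtIp]
  ring

theorem rt_cf_disc_db (n : RtPoly) (β : ℝ) : (n.db β).disc = n.disc := by
  simp only [RtPoly.db, RtPoly.disc, rtSq]
  ring

theorem rt_cf_poly_db_neg (n : RtPoly) (β : ℝ) : (n.db β).db (-β) = n := by
  ext <;> simp only [RtPoly.db] <;> ring

/-- conjugation: `C_{Λ v} Λ = Λ C_v` -/
theorem rt_cf_den_db (β : ℝ) (v x : RtEv) : rtCfDen (rtCfDb β v) (rtCfDb β x) = rtCfDen v x := by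
  simp only [rtCfDen, rt_cf_db_pol, rt_cf_db_q]

theorem rt_cf_conj_db (β : ℝ) (v x : RtEv) : rtCfMap (rtCfDb β v) (rtCfDb β x) = rtCfDb β (rtCfMap v x) := by
  rw [rtCfMap, rt_cf_den_db, rt_cf_db_q]
  simp only [rtCfMap]
  generalize rtCfDen v x = D
  generalize x.q = qx
  ext <;> simp only [rtCfDb] <;> ring

/-! ## 5. Rays go to rays -/

/-- the denominator along a ray, `v = (0, vb, vy)` -/
theorem rt_cf_row_den (vb : ℝ × ℝ) (vy : ℝ) (p : RtRow) (t : ℝ) :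
    rtCfDen ⟨0, vb, vy⟩ (p.ev t) = rtCfD0 vb p + t * rtCfD1 vb vy p := by
  simp only [rtCfDen, RtEv.pol, RtEv.q, RtRow.ev, rtCfD0, rtCfD1, rtQ, rtSq, rtIp, Prod.fst_add, Prod.snd_add,
    Prod.smul_fst, Prod.smul_snd, smul_eq_mul]
  ring

/-- **rays go to rays** under `C_v`, `v = (0, vb, vy)`; the new time is `t / (D0 + t D1)` -/
theorem rt_cf_row (vb : ℝ × ℝ) (vy : ℝ) (p : RtRow) (t : ℝ) (h0 : rtCfD0 vb p ≠ 0)
    (h : rtCfD0 vb p + t * rtCfD1 vb vy p ≠ 0) :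
    rtCfMap ⟨0, vb, vy⟩ (p.ev t) = (rtCfRow vb vy p).ev (t / (rtCfD0 vb p + t * rtCfD1 vb vy p)) := by
  rw [rtCfMap, rt_cf_row_den]
  generalize hD0 : rtCfD0 vb p = D0 at h0 h ⊢
  generalize hD1 : rtCfD1 vb vy p = D1 at h ⊢
  ext
  · simp only [RtRow.ev, mul_zero, add_zero]
  · simp only [RtRow.ev, rtCfRow, hD0, hD1, RtEv.q, rtQ, rtSq, rtIp, Prod.fst_add, Prod.snd_add, Prod.fst_sub,
      Prod.snd_sub, Prod.smul_fst, Prod.smul_snd, smul_eq_mul]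
    field_simp
    ring
  · simp only [RtRow.ev, rtCfRow, hD0, hD1, RtEv.q, rtQ, rtSq, rtIp, Prod.fst_add, Prod.snd_add, Prod.fst_sub,
      Prod.snd_sub, Prod.smul_fst, Prod.smul_snd, smul_eq_mul]
    field_simp
    ring
  · simp only [RtRow.ev, rtCfRow, hD0, hD1, RtEv.q, rtQ, rtSq, rtIp, Prod.fst_add, Prod.snd_add, Prod.fst_sub,
      Prod.snd_sub, Prod.smul_fst, Prod.smul_snd, smul_eq_mul]
    field_simp
    simp only [← hD0, ← hD1, rtCfD0, rtCfD1, rtSq, rtIp]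
    ring

/-- `Q = (1 + β A₂)² + β² A₁² ≥ 0` -/
theorem rt_cf_Q_eq (β : ℝ) (p : RtRow) : rtCfQ β p = (1 + β * p.A.2) ^ 2 + β ^ 2 * p.A.1 ^ 2 := by
  simp only [rtCfQ, rtSq]
  ring

/-- **rays go to rays** under the dual boost; the new time is `T0 + t Q` -/
theorem rt_cf_row_db (β : ℝ) (p : RtRow) (t : ℝ) (h : rtCfQ β p ≠ 0) :
    rtCfDb β (p.ev t) = (rtCfRowDb β p).ev (rtCfT0 β p + t * rtCfQ β p) := by
  generalize hQ : rtCfQ β p = Q at h ⊢
  generalize hT : rtCfT0 β p = T0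
  ext
  · simp only [RtRow.ev, rtCfDb, ← hQ, ← hT, rtCfQ, rtCfT0, Prod.snd_add, Prod.smul_snd, smul_eq_mul]
    ring
  · simp only [RtRow.ev, rtCfDb, rtCfRowDb, hQ, hT, Prod.fst_add, Prod.smul_fst, smul_eq_mul]
    field_simp
    ring
  · simp only [RtRow.ev, rtCfDb, rtCfRowDb, hQ, hT, Prod.snd_add, Prod.smul_snd, smul_eq_mul]
    field_simp
    ring
  · simp only [RtRow.ev, rtCfDb, rtCfRowDb, hQ, hT, rtSq]
    field_simp
    simp only [← hQ, rtCfQ, rtSq]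
    ring

theorem rt_cf_cen_two (p₀ : RtRow) (x z : RtEv) : ((rtCfCen p₀ x).sub (rtCfCen p₀ z)).q = (x.sub z).q := by
  simp only [rtCfCen, RtEv.sub, RtEv.q, rtQ, rtSq, rtIp, Prod.fst_sub, Prod.snd_sub, Prod.smul_fst, Prod.smul_snd,
    smul_eq_mul]
  ring

theorem rt_cf_row_cen (p₀ p : RtRow) (t : ℝ) : rtCfCen p₀ (p.ev t) = (rtCfRowCen p₀ p).ev t := by
  ext <;> simp only [rtCfCen, rtCfRowCen, RtRow.ev, rtSq, rtIp, Prod.fst_add, Prod.snd_add, Prod.fst_sub, Prod.snd_sub,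
    Prod.smul_fst, Prod.smul_snd, smul_eq_mul] <;> ring

theorem rt_cf_poly_cen (n : RtPoly) (p₀ : RtRow) (x : RtEv) : (n.cen p₀).Fe (rtCfCen p₀ x) = n.Fe x := by
  simp only [RtPoly.Fe, RtPoly.cen, RtPoly.F, RtPoly.G, RtPoly.g, rtCfCen, rtSq, rtIp, Prod.fst_add, Prod.snd_add,
    Prod.fst_sub, Prod.snd_sub, Prod.smul_fst, Prod.smul_snd, smul_eq_mul]
  ring

theorem rt_cf_disc_cen (n : RtPoly) (p₀ : RtRow) : (n.cen p₀).disc = n.disc := by
  simp only [RtPoly.disc, RtPoly.cen, RtPoly.F, RtPoly.G, RtPoly.g, rtSq, rtIp, Prod.fst_add, Prod.snd_add,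
    Prod.fst_sub, Prod.snd_sub, Prod.smul_fst, Prod.smul_snd, smul_eq_mul]
  ring

theorem rt_rot_sq (e b : ℝ × ℝ) : rtSq (rtRot e b) = rtSq e * rtSq b := by
  simp only [rtRot, rtSq]
  ring

theorem rt_rot_ip (e b b' : ℝ × ℝ) : rtIp (rtRot e b) (rtRot e b') = rtSq e * rtIp b b' := by
  simp only [rtRot, rtSq, rtIp]
  ring

theorem rt_rot_self (e : ℝ × ℝ) : rtRot e e = (0, rtSq e) := by
  ext <;> simp only [rtRot, rtSq] <;> ring

theorem rt_cf_rot_two (e : ℝ × ℝ) (he : rtSq e = 1) (x z : RtEv) :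
    ((rtCfRot e x).sub (rtCfRot e z)).q = (x.sub z).q := by
  have h : rtRot e x.b - rtRot e z.b = rtRot e (x.b - z.b) := by
    ext <;> simp only [rtRot, Prod.fst_sub, Prod.snd_sub] <;> ring
  simp only [rtCfRot, RtEv.sub, RtEv.q, rtQ, h, rt_rot_sq, he, one_mul]

theorem rt_cf_row_rot (e : ℝ × ℝ) (he : rtSq e = 1) (p : RtRow) (t : ℝ) :
    rtCfRot e (p.ev t) = (rtCfRowRot e p).ev t := by
  have h : rtRot e (p.b + t • p.A) = rtRot e p.b + t • rtRot e p.A := by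
    ext <;> simp only [rtRot, Prod.fst_add, Prod.snd_add, Prod.smul_fst, Prod.smul_snd, smul_eq_mul] <;> ring
  simp only [rtCfRot, rtCfRowRot, RtRow.ev, h, rt_rot_sq, he, one_mul]

theorem rt_cf_poly_rot (n : RtPoly) (e : ℝ × ℝ) (he : rtSq e = 1) (x : RtEv) : (n.rot e).Fe (rtCfRot e x) = n.Fe x := by
  simp only [RtPoly.Fe, RtPoly.rot, RtPoly.F, rtCfRot, rt_rot_ip, rt_rot_sq, he, one_mul]

theorem rt_cf_disc_rot (n : RtPoly) (e : ℝ × ℝ) (he : rtSq e = 1) : (n.rot e).disc = n.disc := by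
  simp only [RtPoly.disc, RtPoly.rot, rt_rot_sq, he, one_mul]

/-! ## 6. The normal form and the flattening -/

/-- centring on an EXACT ray of `{F = 0}` and rotating by `g` gives `F = b₂ + β y + k q` -/
theorem rt_cf_normal (n : RtPoly) (p₀ : RtRow) (hd : n.disc = 1) (hF : n.F 0 p₀.b p₀.y = 0)
    (hG : n.G 0 p₀.b p₀.y p₀.A = 0) :
    rtSq (n.g 0 p₀.b p₀.A) = 1 ∧ (n.cen p₀).rot (n.g 0 p₀.b p₀.A) = ⟨0, 0, (0, 1), n.be, n.k⟩ := by
  have h1 : rtSq (n.g 0 p₀.b p₀.A) = 1 := by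
    rw [rt_disc_identity n 0 p₀.b p₀.y p₀.A, hd, hF, hG]
    ring
  refine ⟨h1, ?_⟩
  simp only [RtPoly.rot, RtPoly.cen, hF, hG, rt_rot_self, h1]

/-- the dual boost with parameter `β` removes the vertical coefficient, the map `C_(0,(0,k),0)` the quadratic one -/
theorem rt_cf_flat (β k : ℝ) : ((⟨0, 0, (0, 1), β, k⟩ : RtPoly).db β).cf ⟨0, (0, k), 0⟩ = ⟨0, 0, (0, 1), 0, 0⟩ := by
  ext <;> simp [RtPoly.db, RtPoly.cf, rtIp]

/-- the flat polynomial is `b₂` -/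
theorem rt_cf_flat_Fe (x : RtEv) : (⟨0, 0, (0, 1), 0, 0⟩ : RtPoly).Fe x = x.b.2 := by
  simp [RtPoly.Fe, RtPoly.F, rtIp]

/-- `(0,(0,k),0)` is the sum of two NULL vectors, each the dual boost of a LENS vector `(0, 0, ±c)` -/
theorem rt_cf_null_split (k c : ℝ) (hc : c ≠ 0) :
    (⟨0, (0, k), 0⟩ : RtEv) = (rtCfDb (k / (2 * c)) ⟨0, 0, c⟩).add (rtCfDb (-(k / (2 * c))) ⟨0, 0, -c⟩) := by
  ext <;> simp [rtCfDb, RtEv.add]
  field_simp
  ring

end Claimed.Agent.R256
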