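import Claimed.Agent.R256.Rt.LiftContract

/-!
# Row 256, folder Rt, file EndliftContract: CONTRACT of (endlift) = second half of Lemma rt:weight-comparison (07 l.889-893, l.926-945)      (architect helper144; chief Rt: helper216)

CONTRACT FILE: every `sorry` is a LEAF (subtask target `row256`, names `L-256-RT-LE-*`).   Prove IN PLACE, statement verbatim, auxiliary lemmas directly above, prefix `rt_le_<leaf>_`.
Elementary real algebra; no analysis, no measure, no paper needed: the complete proof is in each docstring.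
SETTING.  `Φ = rtChart p₀ n` flattening chart of the group polynomial `n = n_L`, `U = rtBx p₀ 1 (rtChRho P)`.   An OLD LABEL = test `τ` of length `δ`, width `≤ M`, thickness `f`, read at the old time `θ`;
`τ.par θ` = its polynomial in parent coordinates, CONNECTED to the group: `τ.par θ - n` has coefficients `≤ M fs`.   `T'` = rounded transformed time, `|T'|, |T' + δ| ≤ 3`, `|Φ.tm p θ - T'| ≤ M δ`.   Thinness `fs³ M^100 ≤ δ f`, `f ≤ fs`.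
EXIT  **`rt_endlift`** : ONE cylinder test `Q` (depending only on the label, the chart and `T'`), base width `M^40`, normal width `M^20 f / fs`, shear `≤ M^20`, which contains at length `δ` the flattened
      coordinates at the time `T'` of the transformed rows of ALL old rows `p ∈ U` with `p.flow θ ∈ τ.set M`.      `rt_endlift_wt` : its weight is `≤ M^180 (f/fs)^(1-η)`.
CHAIN.  DN, TIME (the fractional linear change of time is bi-Lipschitz) → ESUB (sublevels `δ f`, `f` survive the chart and the rounding) , EBOX (boxes of LENGTH `δ` go to boxes of length `δ`: two-ray invariant)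
        EPOL (`Φ.pol (τ.par θ)` is `M^C fs`-close to `b₂`) → ECY (normalise the `b₂` coefficient, divide by `fs`, drop the `O(fs³)` terms) , EBASE, ETEST (dictionary with `RtTest`).
-/

set_option autoImplicit false

namespace Claimed.Agent.R256

/-! ## Leaves -/

/-- LEAF `L-256-RT-LE-DN`.   Let `|t| ≤ 2`.  `h.fwd p hp t`: `den ≠ 0`, `|den| ≤ 2`, `|tm| ≤ 3`; `h.ex.den_ray`: `den = dn`.   LOWER BOUND: `h.hit p hp (tm t)` gives `t̃` with `2⁻¹ ≤ |den t̃|`, `tm t̃ = tm t`;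
`rt_ch_tm_sub`: `0 = wr (t̃ - t) / (dn t dn t̃)`, `wr ≥ 4/5` (`h.wr`), so `t̃ = t`.   `d0 = dn 0`, `4 d1 = dn 2 - dn (-2)`. -/
theorem rt_le_dn {P : ℝ} {n : RtPoly} {p₀ : RtRow} (h : RtChartOk P n p₀) {p : RtRow} (hp : p ∈ rtBx p₀ 1 (rtChRho P)) :
    (∀ t, |t| ≤ 2 → (rtChart p₀ n).den (p.ev t) = (rtChart p₀ n).dn p t ∧ 1 / 2 ≤ |(rtChart p₀ n).dn p t| ∧
      |(rtChart p₀ n).dn p t| ≤ 2) ∧ |(rtChart p₀ n).d0 p| ≤ 2 ∧ |(rtChart p₀ n).d1 p| ≤ 1 := by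
  have base : ∀ t, |t| ≤ 2 → (rtChart p₀ n).den (p.ev t) = (rtChart p₀ n).dn p t ∧ (rtChart p₀ n).dn p t ≠ 0 ∧
      |(rtChart p₀ n).dn p t| ≤ 2 ∧ |(rtChart p₀ n).tm p t| ≤ 3 := by
    intro t ht
    obtain ⟨a1, a2, a3⟩ := h.fwd p hp t ht
    have e := h.ex.den_ray p (h.dom p hp) t a1
    exact ⟨e, e ▸ a1, e ▸ a2, a3⟩
  have low : ∀ t, |t| ≤ 2 → 1 / 2 ≤ |(rtChart p₀ n).dn p t| := by
    intro t ht
    obtain ⟨e, ne, _, a3⟩ := base t ht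
    obtain ⟨t', _, hd, htm⟩ := h.hit p hp _ a3
    have ne' : (rtChart p₀ n).den (p.ev t') ≠ 0 := rt_ch_hit_ne (by norm_num) hd
    have e' := h.ex.den_ray p (h.dom p hp) t' ne'
    have ne'' : (rtChart p₀ n).dn p t' ≠ 0 := e' ▸ ne'
    have hs := rt_ch_tm_sub (rtChart p₀ n) p ne ne''
    rw [htm, sub_self] at hs
    have hwr := (h.wr p hp).1
    have h0 : (rtChart p₀ n).wr p * (t' - t) = 0 := by
      rcases div_eq_zero_iff.1 hs.symm with h | h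
      · exact h
      · exact absurd h (mul_ne_zero ne ne'')
    have htt : t' = t := by
      rcases mul_eq_zero.1 h0 with h | h
      · linarith
      · linarith
    rw [htt, e] at hd
    rw [one_div]
    exact hd
  have b0 := (base 0 (by norm_num)).2.2.1
  have b2 := (base 2 (by norm_num)).2.2.1
  have bm := (base (-2) (by norm_num)).2.2.1
  simp only [RtCh.dn] at b0 b2 bm
  rw [zero_mul, add_zero] at b0
  refine ⟨fun t ht => ⟨(base t ht).1, low t ht, (base t ht).2.2.1⟩, b0, ?_⟩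
  have c2 := abs_le.1 b2
  have cm := abs_le.1 bm
  rw [abs_le]
  constructor <;> linarith [c2.1, c2.2, cm.1, cm.2]

/-- LEAF `L-256-RT-LE-TIME`.   `h.hit p hp τ`: `t`, `|t| ≤ 5`, `2⁻¹ ≤ |den t|`, `tm t = τ`; `den t = dn t`, `|dn t| ≤ |d0| + 5 |d1| ≤ 7` (DN); `rt_ch_tm_sub`:
`τ - tm θ = wr (t - θ) / (dn θ dn t)`, so `|t - θ| ≤ |τ - tm θ| · 2 · 7 / (4/5)`. -/
theorem rt_le_time {P : ℝ} {n : RtPoly} {p₀ : RtRow} (h : RtChartOk P n p₀) {p : RtRow} (hp : p ∈ rtBx p₀ 1 (rtChRho P))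
    {θ τ : ℝ} (hθ : |θ| ≤ 2) (hτ : |τ| ≤ 3) :
    ∃ t, (2 : ℝ)⁻¹ ≤ |(rtChart p₀ n).den (p.ev t)| ∧ (rtChart p₀ n).tm p t = τ ∧
      |t - θ| ≤ 18 * |τ - (rtChart p₀ n).tm p θ| := by
  obtain ⟨d1, d2, d3⟩ := rt_le_dn h hp
  obtain ⟨t, ht, hd, htm⟩ := h.hit p hp τ hτ
  refine ⟨t, hd, htm, ?_⟩
  have ne' : (rtChart p₀ n).den (p.ev t) ≠ 0 := rt_ch_hit_ne (by norm_num) hd
  have e' := h.ex.den_ray p (h.dom p hp) t ne'
  have ne'' : (rtChart p₀ n).dn p t ≠ 0 := e' ▸ ne'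
  obtain ⟨-, l1, u1⟩ := d1 θ hθ
  have neθ : (rtChart p₀ n).dn p θ ≠ 0 := by
    intro h0
    rw [h0, abs_zero] at l1
    norm_num at l1
  have hs := rt_ch_tm_sub (rtChart p₀ n) p neθ ne''
  rw [htm] at hs
  have hwr := (h.wr p hp).1
  have u2 : |(rtChart p₀ n).dn p t| ≤ 7 := by
    show |(rtChart p₀ n).d0 p + t * (rtChart p₀ n).d1 p| ≤ 7
    calc _ ≤ |(rtChart p₀ n).d0 p| + |t * (rtChart p₀ n).d1 p| := abs_add_le _ _
      _ = |(rtChart p₀ n).d0 p| + |t| * |(rtChart p₀ n).d1 p| := by rw [abs_mul]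
      _ ≤ 2 + 5 * 1 := add_le_add d2 (mul_le_mul ht d3 (abs_nonneg _) (by norm_num))
      _ = 7 := by norm_num
  have e : t - θ = (τ - (rtChart p₀ n).tm p θ) * ((rtChart p₀ n).dn p θ * (rtChart p₀ n).dn p t) / (rtChart p₀ n).wr p := by
    rw [hs]
    have : (rtChart p₀ n).wr p ≠ 0 := by linarith
    field_simp
  rw [e, abs_div, abs_mul, abs_mul, abs_of_pos (by linarith : 0 < (rtChart p₀ n).wr p), div_le_iff₀ (by linarith)]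
  have k1 : |(rtChart p₀ n).dn p θ| * |(rtChart p₀ n).dn p t| ≤ 2 * 7 := mul_le_mul u1 u2 (abs_nonneg _) (by norm_num)
  have k0 := abs_nonneg (τ - (rtChart p₀ n).tm p θ)
  calc |τ - (rtChart p₀ n).tm p θ| * (|(rtChart p₀ n).dn p θ| * |(rtChart p₀ n).dn p t|)
      ≤ |τ - (rtChart p₀ n).tm p θ| * (2 * 7) := mul_le_mul_of_nonneg_left k1 k0
    _ ≤ 18 * |τ - (rtChart p₀ n).tm p θ| * (4 / 5) := by nlinarith
    _ ≤ _ := mul_le_mul_of_nonneg_left hwr (by positivity)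

/-- the value of the transformed polynomial at a new time within `(M+1) δ` of the image of the old time `θ` -/
theorem rt_le_esub_val {P : ℝ} {n : RtPoly} {p₀ : RtRow} (h : RtChartOk P n p₀) {p : RtRow} (hp : p ∈ rtBx p₀ 1 (rtChRho P))
    {θ τ δ M a : ℝ} (hθ : |θ| ≤ 2) (hτ : |τ| ≤ 3) (hδ0 : 0 < δ) (hM : 0 ≤ M)
    (htm : |τ - (rtChart p₀ n).tm p θ| ≤ (M + 1) * δ) (m : RtPoly) (hF : |m.Fe (p.ev θ)| ≤ δ * a)
    (hG : |m.G 0 p.b p.y p.A| ≤ a) :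
    |((rtChart p₀ n).pol m).Fe (((rtChart p₀ n).row p).ev τ)| ≤ δ * (2 * (18 * (M + 1) + 1) * a) := by
  obtain ⟨t, hd, ht, hts⟩ := rt_le_time h hp hθ hτ
  have ne : (rtChart p₀ n).den (p.ev t) ≠ 0 := rt_ch_hit_ne (by norm_num) hd
  have ha : 0 ≤ a := (abs_nonneg _).trans hG
  rw [← ht, ← h.ex.ray p (h.dom p hp) t ne, h.ex.pol m _ ne, abs_div]
  have hpos : 0 < |(rtChart p₀ n).den (p.ev t)| := lt_of_lt_of_le (by norm_num) hd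
  rw [div_le_iff₀ hpos]
  have e : m.Fe (p.ev t) = m.Fe (p.ev θ) + (t - θ) * m.G 0 p.b p.y p.A := by
    rw [rt_cf_Fe_ray, rt_cf_Fe_ray]
    ring
  have k1 : |t - θ| ≤ 18 * ((M + 1) * δ) := hts.trans (by linarith)
  have k2 : |m.Fe (p.ev t)| ≤ δ * a + 18 * ((M + 1) * δ) * a := by
    rw [e]
    refine (abs_add_le _ _).trans (add_le_add hF ?_)
    rw [abs_mul]
    exact mul_le_mul k1 hG (abs_nonneg _) (by positivity)
  calc |m.Fe (p.ev t)| ≤ δ * a + 18 * ((M + 1) * δ) * a := k2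
    _ = δ * (2 * (18 * (M + 1) + 1) * a) * 2⁻¹ := by ring
    _ ≤ _ := mul_le_mul_of_nonneg_left hd (by positivity)

/-- LEAF `L-256-RT-LE-ESUB`.   For `τ ∈ {T', T' + δ}` (`|τ| ≤ 3`, `|τ - tm θ| ≤ (M+1) δ`) take `t` from TIME: `|t - θ| ≤ 18 (M+1) δ`.   `m.Fe (p.ev t) = m.Fe (p.ev θ) + (t - θ) G` (`rt_cf_Fe_ray` twice), `≤ δ a (18(M+1) + 1)`.
`h.ex.ray`, `h.ex.pol`: `(Φ.pol m).Fe ((Φ.row p).ev τ) = m.Fe (p.ev t) / den`, `|den| ≥ 1/2`.   `rt_cf_Fe_ray` on the new ray: `δ G' = F'(T' + δ) - F'(T')`. -/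
theorem rt_le_esub {P : ℝ} {n : RtPoly} {p₀ : RtRow} (h : RtChartOk P n p₀) {p : RtRow} (hp : p ∈ rtBx p₀ 1 (rtChRho P))
    {θ T' δ M a : ℝ} (hθ : |θ| ≤ 2) (hT : |T'| ≤ 3) (hT2 : |T' + δ| ≤ 3) (hδ0 : 0 < δ) (hM : 0 ≤ M)
    (htm : |(rtChart p₀ n).tm p θ - T'| ≤ M * δ) (m : RtPoly) (hF : |m.Fe (p.ev θ)| ≤ δ * a) (hG : |m.G 0 p.b p.y p.A| ≤ a) :
    |((rtChart p₀ n).pol m).Fe (((rtChart p₀ n).row p).ev T')| ≤ δ * (2 * (18 * (M + 1) + 1) * a) ∧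
    |((rtChart p₀ n).pol m).G 0 ((rtChart p₀ n).row p).b ((rtChart p₀ n).row p).y ((rtChart p₀ n).row p).A|
      ≤ 4 * (18 * (M + 1) + 1) * a := by
  have c := abs_le.1 htm
  have v1 := rt_le_esub_val h hp (τ := T') hθ hT hδ0 hM (by
    rw [abs_le]; constructor <;> nlinarith [c.1, c.2]) m hF hG
  have v2 := rt_le_esub_val h hp (τ := T' + δ) hθ hT2 hδ0 hM (by
    rw [abs_le]; constructor <;> nlinarith [c.1, c.2]) m hF hG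
  refine ⟨v1, ?_⟩
  rw [rt_cf_Fe_ray] at v1 v2
  set F' := ((rtChart p₀ n).pol m).F 0 ((rtChart p₀ n).row p).b ((rtChart p₀ n).row p).y
  set G' := ((rtChart p₀ n).pol m).G 0 ((rtChart p₀ n).row p).b ((rtChart p₀ n).row p).y ((rtChart p₀ n).row p).A
  have e : δ * G' = (F' + (T' + δ) * G') - (F' + T' * G') := by ring
  have k : |δ * G'| ≤ δ * (4 * (18 * (M + 1) + 1) * a) := by
    rw [e]
    calc _ ≤ |F' + (T' + δ) * G'| + |F' + T' * G'| := abs_sub _ _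
      _ ≤ δ * (2 * (18 * (M + 1) + 1) * a) + δ * (2 * (18 * (M + 1) + 1) * a) := add_le_add v2 v1
      _ = _ := by ring
  rw [abs_mul, abs_of_pos hδ0] at k
  exact le_of_mul_le_mul_left k hδ0

/-- the old invariant in units `δ` about the time `θ` -/
theorem rt_le_ebox_old {δ : ℝ} (hδ : δ ≠ 0) (p w : RtRow) (θ t t₀ : ℝ) :
    rtK p t w t₀ = δ ^ 2 * rtK (rtLfSc δ (p.flow θ)) ((t - θ) / δ) (rtLfSc δ (w.flow θ)) ((t₀ - θ) / δ) := by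
  rw [rt_lf_K_sc hδ, rt_lf_K_flow]
  have e1 : θ + δ * ((t - θ) / δ) = t := by field_simp; ring
  have e2 : θ + δ * ((t₀ - θ) / δ) = t₀ := by field_simp; ring
  rw [e1, e2]
  field_simp

/-- the time of TIME in units `δ` -/
theorem rt_le_ebox_time {P : ℝ} {n : RtPoly} {p₀ : RtRow} (h : RtChartOk P n p₀) {p : RtRow} (hp : p ∈ rtBx p₀ 1 (rtChRho P))
    {θ T' δ M s : ℝ} (hθ : |θ| ≤ 2) (hT : |T'| ≤ 3) (hT2 : |T' + δ| ≤ 3) (hδ0 : 0 < δ)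
    (htp : |(rtChart p₀ n).tm p θ - T'| ≤ M * δ) (hs0 : 0 ≤ s) (hs1 : s ≤ 1) :
    ∃ t, (2 : ℝ)⁻¹ ≤ |(rtChart p₀ n).den (p.ev t)| ∧ (rtChart p₀ n).tm p t = T' + δ * s ∧ |(t - θ) / δ| ≤ 18 * (M + 1) := by
  have cT := abs_le.1 hT
  have cT2 := abs_le.1 hT2
  have c := abs_le.1 htp
  have hδs : δ * s ≤ δ := by nlinarith
  have hδs0 : 0 ≤ δ * s := by positivity
  obtain ⟨t, hd, ht, hts⟩ := rt_le_time h hp (τ := T' + δ * s) hθ (by rw [abs_le]; constructor <;> linarith [cT.1, cT.2, cT2.1, cT2.2])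
  refine ⟨t, hd, ht, ?_⟩
  rw [abs_div, abs_of_pos hδ0, div_le_iff₀ hδ0]
  have : |T' + δ * s - (rtChart p₀ n).tm p θ| ≤ (M + 1) * δ := by
    rw [abs_le]; constructor <;> nlinarith [c.1, c.2]
  linarith

/-- LEAF `L-256-RT-LE-EBOX` (boxes of length `δ` go to boxes of length `δ`).   By `rt_ch_box_of_K` (with `R = 1`) it suffices to bound, for `s, s₀ ∈ {0, 1}`,
`rtK (rtLfSc δ (p'.flow T')) s (rtLfSc δ (w'.flow T')) s₀ = rtK p' (T' + δ s) w' (T' + δ s₀) / δ²`   (`rt_lf_K_sc`, `rt_lf_K_flow`; `p' = Φ.row p`).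
TIME gives `t, t₀` with `tm p t = T' + δ s`, `tm w t₀ = T' + δ s₀`, `|t - θ|, |t₀ - θ| ≤ 18 (M+1) δ`, `|den| ≥ 1/2`;   `rt_ch_K`: `rtK p' … w' … = rtK p t w t₀ / (den den₀)`;
`rtK p t w t₀ = δ² rtK (rtLfSc δ (p.flow θ)) ((t-θ)/δ) (rtLfSc δ (w.flow θ)) ((t₀-θ)/δ)`, bounded by `rt_ch_K_le` with `T = 18 (M+1)`, `R = 1`. -/
theorem rt_le_ebox {P : ℝ} {n : RtPoly} {p₀ : RtRow} (h : RtChartOk P n p₀) {p w : RtRow} (hp : p ∈ rtBx p₀ 1 (rtChRho P))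
    (hw : w ∈ rtBx p₀ 1 (rtChRho P)) {θ T' δ M Mb : ℝ} (hθ : |θ| ≤ 2) (hT : |T'| ≤ 3) (hT2 : |T' + δ| ≤ 3) (hδ0 : 0 < δ) (hM : 0 ≤ M)
    (hMb : 1 ≤ Mb) (htp : |(rtChart p₀ n).tm p θ - T'| ≤ M * δ) (htw : |(rtChart p₀ n).tm w θ - T'| ≤ M * δ)
    (hb : rtLfSc δ (p.flow θ) ∈ rtBx (rtLfSc δ (w.flow θ)) 1 Mb) :
    rtLfSc δ (((rtChart p₀ n).row p).flow T') ∈ rtBx (rtLfSc δ (((rtChart p₀ n).row w).flow T')) 1
      (2 * (2 * ((18 * (M + 1) + 2) * Mb)) ^ 2) := by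
  have key : ∀ s s₀ : ℝ, 0 ≤ s → s ≤ 1 → 0 ≤ s₀ → s₀ ≤ 1 →
      |rtK (rtLfSc δ (((rtChart p₀ n).row p).flow T')) s (rtLfSc δ (((rtChart p₀ n).row w).flow T')) s₀|
        ≤ (2 * ((18 * (M + 1) + 2) * Mb) * 1) ^ 2 := by
    intro s s₀ a1 a2 a3 a4
    obtain ⟨t, hd, ht, hts⟩ := rt_le_ebox_time h hp hθ hT hT2 hδ0 htp a1 a2
    obtain ⟨t₀, hd₀, ht₀, hts₀⟩ := rt_le_ebox_time h hw hθ hT hT2 hδ0 htw a3 a4
    have ne : (rtChart p₀ n).den (p.ev t) ≠ 0 := rt_ch_hit_ne (by norm_num) hd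
    have ne₀ : (rtChart p₀ n).den (w.ev t₀) ≠ 0 := rt_ch_hit_ne (by norm_num) hd₀
    rw [rt_lf_K_sc hδ0.ne', rt_lf_K_flow, ← ht, ← ht₀, rt_ch_K h.ex (h.dom p hp) (h.dom w hw) ne ne₀,
      rt_le_ebox_old hδ0.ne' p w θ t t₀]
    have hK := rt_ch_K_le hMb zero_le_one hb hts hts₀
    set K := rtK (rtLfSc δ (p.flow θ)) ((t - θ) / δ) (rtLfSc δ (w.flow θ)) ((t₀ - θ) / δ)
    have e : δ ^ 2 * K / ((rtChart p₀ n).den (p.ev t) * (rtChart p₀ n).den (w.ev t₀)) / δ ^ 2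
        = K / ((rtChart p₀ n).den (p.ev t) * (rtChart p₀ n).den (w.ev t₀)) := by
      field_simp
    rw [e, abs_div, abs_mul]
    have hpos : 0 < |(rtChart p₀ n).den (p.ev t)| * |(rtChart p₀ n).den (w.ev t₀)| :=
      mul_pos (lt_of_lt_of_le (by norm_num) hd) (lt_of_lt_of_le (by norm_num) hd₀)
    rw [div_le_iff₀ hpos]
    have h2 : (2 : ℝ)⁻¹ * 2⁻¹ ≤ |(rtChart p₀ n).den (p.ev t)| * |(rtChart p₀ n).den (w.ev t₀)| :=
      mul_le_mul hd hd₀ (by norm_num) (abs_nonneg _)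
    calc |K| ≤ ((18 * (M + 1) + 2) * Mb * 1) ^ 2 := hK
      _ = (2 * ((18 * (M + 1) + 2) * Mb) * 1) ^ 2 * (2⁻¹ * 2⁻¹) := by ring
      _ ≤ _ := mul_le_mul_of_nonneg_left h2 (by positivity)
  have h1 : (1 : ℝ) ≤ 2 * ((18 * (M + 1) + 2) * Mb) := by nlinarith
  exact rt_ch_box_of_K h1 zero_le_one (key 0 0 le_rfl zero_le_one le_rfl zero_le_one)
    (key 1 1 zero_le_one le_rfl zero_le_one le_rfl) (key 0 1 le_rfl zero_le_one zero_le_one le_rfl)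

/-- LEAF `L-256-RT-LE-EPOL`.   `m = comb 1 n 1 (comb 1 m (-1) n)` (ext, ring); `h.lin`, `h.flat`, `h.pol_bd`: `Φ.pol m = comb 1 rtFlat 1 e`, `e.Bd (200 P⁶ ε)`;
`(rtChTr T').pol ⟨c,d,α,β,k⟩ = ⟨c + d T', d, α, β + k T', k⟩` fixes `rtFlat` and multiplies the bound by `4`. -/
theorem rt_le_epol {P : ℝ} {n : RtPoly} {p₀ : RtRow} (h : RtChartOk P n p₀) {m : RtPoly} {ε T' : ℝ} (hε : 0 ≤ ε)
    (hm : (RtPoly.comb 1 m (-1) n).Bd ε) (hT : |T'| ≤ 3) :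
    (RtPoly.comb 1 ((rtChTr T').pol ((rtChart p₀ n).pol m)) (-1) rtFlat).Bd (800 * P ^ 6 * ε) := by
  have e1 : m = RtPoly.comb 1 n 1 (RtPoly.comb 1 m (-1) n) := by
    ext <;> simp [RtPoly.comb]
  have e2 : (rtChart p₀ n).pol m = RtPoly.comb 1 rtFlat 1 ((rtChart p₀ n).pol (RtPoly.comb 1 m (-1) n)) := by
    conv_lhs => rw [e1]
    rw [h.lin, h.flat]
  have hb := h.pol_bd _ ε hε hm
  rw [e2]
  generalize (rtChart p₀ n).pol (RtPoly.comb 1 m (-1) n) = e at hb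
  obtain ⟨a1, a2, a3, a4, a5⟩ := hb
  have hB : 0 ≤ 200 * P ^ 6 * ε := by positivity
  have k : ∀ x y : ℝ, |x| ≤ 200 * P ^ 6 * ε → |y| ≤ 200 * P ^ 6 * ε → |x + y * T'| ≤ 800 * P ^ 6 * ε := by
    intro x y hx hy
    calc |x + y * T'| ≤ |x| + |y * T'| := abs_add_le _ _
      _ = |x| + |y| * |T'| := by rw [abs_mul]
      _ ≤ 200 * P ^ 6 * ε + 200 * P ^ 6 * ε * 3 := add_le_add hx (mul_le_mul hy hT (abs_nonneg _) hB)
      _ = 800 * P ^ 6 * ε := by ring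
  have hle : 200 * P ^ 6 * ε ≤ 800 * P ^ 6 * ε := by linarith
  refine ⟨?_, ?_, ?_, ?_, ?_⟩
  · simpa [RtPoly.comb, rtChTr, rtFlat] using k _ _ a1 a2
  · simpa [RtPoly.comb, rtChTr, rtFlat] using a2.trans hle
  · have : (RtPoly.comb 1 ((rtChTr T').pol (RtPoly.comb 1 rtFlat 1 e)) (-1) rtFlat).al = e.al := by
      ext <;> simp [RtPoly.comb, rtChTr, rtFlat]
    rw [this]
    exact a3.trans (pow_le_pow_left₀ hB hle 2)
  · simpa [RtPoly.comb, rtChTr, rtFlat] using k _ _ a4 a5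
  · simpa [RtPoly.comb, rtChTr, rtFlat] using a5.trans hle

/-- the coefficients of a polynomial `ε`-close to `b₂` -/
theorem rt_le_esh_co {ε : ℝ} {m : RtPoly} (hm : (RtPoly.comb 1 m (-1) rtFlat).Bd ε) :
    |m.c| ≤ ε ∧ |m.d| ≤ ε ∧ |m.al.1| ≤ ε ∧ |m.al.2 - 1| ≤ ε ∧ |m.be| ≤ ε ∧ |m.k| ≤ ε := by
  obtain ⟨a1, a2, a3, a4, a5⟩ := hm
  simp only [RtPoly.comb, rtFlat, one_mul, mul_zero, add_zero] at a1 a2 a4 a5
  have hε : 0 ≤ ε := (abs_nonneg _).trans a1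
  have e : rtSq (RtPoly.comb 1 m (-1) rtFlat).al = m.al.1 ^ 2 + (m.al.2 - 1) ^ 2 := by
    simp only [RtPoly.comb, rtFlat, rtSq, Prod.fst_add, Prod.snd_add, Prod.smul_fst, Prod.smul_snd, smul_eq_mul]
    ring
  rw [e] at a3
  refine ⟨a1, a2, ?_, ?_, a4, a5⟩
  · exact abs_le.2 (abs_le_of_sq_le_sq' (by nlinarith [sq_nonneg (m.al.2 - 1)]) hε)
  · exact abs_le.2 (abs_le_of_sq_le_sq' (by nlinarith [sq_nonneg m.al.1]) hε)

/-- LEAF `L-256-RT-LE-ECY` (1/2): shear of the cylinder test.   `|α₂ - 1| ≤ ε ≤ 1/2` so `α₂ ≥ 1/2`; each coefficient is `≤ ε / (α₂ fs) ≤ 2 ε / fs`. -/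
theorem rt_le_esh {fs ε : ℝ} {m : RtPoly} (hfs : 0 < fs) (hε : ε ≤ 1 / 2) (hm : (RtPoly.comb 1 m (-1) rtFlat).Bd ε)
    (x b y r f : ℝ) : cySh (rtLfCy fs m x b y r f) (2 * ε / fs) := by
  obtain ⟨a1, a2, a3, a4, a5, a6⟩ := rt_le_esh_co hm
  have h2 : 1 / 2 ≤ m.al.2 := by linarith [(abs_le.1 a4).1]
  have hpos : 0 < m.al.2 * fs := by positivity
  have k : ∀ u : ℝ, |u| ≤ ε → |-(u / (m.al.2 * fs))| ≤ 2 * ε / fs := by
    intro u hu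
    rw [abs_neg, abs_div, abs_of_pos hpos, div_le_div_iff₀ hpos hfs]
    have hε0 : 0 ≤ ε := (abs_nonneg _).trans hu
    calc |u| * fs ≤ ε * fs := mul_le_mul_of_nonneg_right hu hfs.le
      _ = 2 * ε * (1 / 2 * fs) := by ring
      _ ≤ 2 * ε * (m.al.2 * fs) := by
          refine mul_le_mul_of_nonneg_left (mul_le_mul_of_nonneg_right h2 hfs.le) (by positivity)
  exact ⟨k _ a2, k _ a1, k _ a3, k _ a5, k _ a6⟩

theorem rt_le_ecy_mul {x y a b : ℝ} (hx : |x| ≤ a) (hy : |y| ≤ b) : |x * y| ≤ a * b := by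
  rw [abs_mul]
  exact mul_le_mul hx hy (abs_nonneg _) ((abs_nonneg _).trans hx)

/-- division by a number `≥ 1/2` -/
theorem rt_le_ecy_div {u v B : ℝ} (hv : 1 / 2 ≤ v) (h : |u * v| ≤ B) : |u| ≤ 2 * B := by
  rw [abs_mul, abs_of_pos (by linarith : 0 < v)] at h
  nlinarith [abs_nonneg u]

/-- the second coordinates are small (pure real form) -/
theorem rt_le_ecy_second {c d a1 a2 be k b1 b2 y A1 A2 ε φ δ F G : ℝ} (hε0 : 0 ≤ ε) (hε : ε ≤ 1 / 6) (hc : |c| ≤ ε) (hd : |d| ≤ ε)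
    (ha1 : |a1| ≤ ε) (ha2 : |a2 - 1| ≤ ε) (hbe : |be| ≤ ε) (hk : |k| ≤ ε) (hb : b1 ^ 2 + b2 ^ 2 ≤ 1) (hA : A1 ^ 2 + A2 ^ 2 ≤ 1)
    (hy : |y| ≤ 1) (hδ0 : 0 < δ) (hδ1 : δ ≤ 1) (hφ : 0 ≤ φ)
    (eF : F = c + (a1 * b1 + a2 * b2) + be * y - k * (b1 ^ 2 + b2 ^ 2))
    (eG : G = d + k * y + (A1 * (a1 - 2 * k * b1) + A2 * (a2 - 2 * k * b2)) + (A1 ^ 2 + A2 ^ 2) * be)
    (hF : |F| ≤ δ * φ) (hG : |G| ≤ φ) : |b2| ≤ 2 * φ + 12 * ε ∧ |A2| ≤ 2 * φ + 12 * ε := by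
  have hb1 : |b1| ≤ 1 := abs_le.2 (abs_le_of_sq_le_sq' (by nlinarith [sq_nonneg b2]) zero_le_one)
  have hb2 : |b2| ≤ 1 := abs_le.2 (abs_le_of_sq_le_sq' (by nlinarith [sq_nonneg b1]) zero_le_one)
  have hA1 : |A1| ≤ 1 := abs_le.2 (abs_le_of_sq_le_sq' (by nlinarith [sq_nonneg A2]) zero_le_one)
  have hbb : |b1 ^ 2 + b2 ^ 2| ≤ 1 := by rw [abs_of_nonneg (by positivity)]; exact hb
  have hAA : |A1 ^ 2 + A2 ^ 2| ≤ 1 := by rw [abs_of_nonneg (by positivity)]; exact hA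
  have t1 := abs_le.1 (rt_le_ecy_mul ha1 hb1)
  have t2 := abs_le.1 (rt_le_ecy_mul hbe hy)
  have t3 := abs_le.1 (rt_le_ecy_mul hk hbb)
  have t4 := abs_le.1 (rt_le_ecy_mul hk hy)
  have t5 := abs_le.1 (rt_le_ecy_mul hk hb1)
  have t6 := abs_le.1 (rt_le_ecy_mul hk hb2)
  have t7 := abs_le.1 (rt_le_ecy_mul hAA hbe)
  have cF := abs_le.1 hF
  have cG := abs_le.1 hG
  have cc := abs_le.1 hc
  have cd := abs_le.1 hd
  have ca2 := abs_le.1 ha2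
  have ca1 := abs_le.1 ha1
  have hδφ : δ * φ ≤ φ := by nlinarith
  constructor
  · have : |b2 * a2| ≤ φ + 4 * ε := by
      have e : b2 * a2 = F - c - a1 * b1 - be * y + k * (b1 ^ 2 + b2 ^ 2) := by rw [eF]; ring
      rw [e, abs_le]
      constructor <;> linarith [t1.1, t1.2, t2.1, t2.2, t3.1, t3.2, cF.1, cF.2, cc.1, cc.2]
    have := rt_le_ecy_div (by linarith [ca2.1]) this
    linarith
  · have h8 : |a1 - 2 * k * b1| ≤ 3 * ε := by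
      rw [abs_le]
      constructor <;> linarith [t5.1, t5.2, ca1.1, ca1.2]
    have t8 := abs_le.1 (rt_le_ecy_mul hA1 h8)
    have : |A2 * (a2 - 2 * k * b2)| ≤ φ + 6 * ε := by
      have e : A2 * (a2 - 2 * k * b2) = G - d - k * y - A1 * (a1 - 2 * k * b1) - (A1 ^ 2 + A2 ^ 2) * be := by rw [eG]; ring
      rw [e, abs_le]
      constructor <;> linarith [t4.1, t4.2, t7.1, t7.2, t8.1, t8.2, cG.1, cG.2, cd.1, cd.2]
    have := rt_le_ecy_div (by linarith [ca2.1, t6.1, t6.2]) this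
    linarith

/-- the two quotients (pure real form) -/
theorem rt_le_ecy_quot {a2 be k b2 A2 ε φ δ e F G : ℝ} (hε0 : 0 ≤ ε) (hε : ε ≤ 1 / 6) (ha2 : |a2 - 1| ≤ ε) (hbe : |be| ≤ ε)
    (hk : |k| ≤ ε) (hδ0 : 0 < δ) (hδ1 : δ ≤ 1) (hφ : 0 ≤ φ) (hb2 : |b2| ≤ e) (hA2 : |A2| ≤ e) (hF : |F| ≤ δ * φ) (hG : |G| ≤ φ)
    (hthin : 6 * ε * e ^ 2 ≤ δ * φ) :
    |G / a2 + (2 * k * A2 * b2 - be * A2 ^ 2) / a2| ≤ 3 * φ ∧ |F / a2 + k / a2 * b2 ^ 2| ≤ δ * (3 * φ) := by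
  have ca2 := abs_le.1 ha2
  have h2 : 1 / 2 ≤ a2 := by linarith [ca2.1]
  have hpos : 0 < a2 := by linarith
  have he : 0 ≤ e := (abs_nonneg _).trans hb2
  have s1 : |A2 * b2| ≤ e * e := rt_le_ecy_mul hA2 hb2
  have s2 : |A2 * A2| ≤ e * e := rt_le_ecy_mul hA2 hA2
  have s3 : |b2 * b2| ≤ e * e := rt_le_ecy_mul hb2 hb2
  have u1 := abs_le.1 (rt_le_ecy_mul hk s1)
  have u2 := abs_le.1 (rt_le_ecy_mul hbe s2)
  have u3 := abs_le.1 (rt_le_ecy_mul hk s3)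
  have cF := abs_le.1 hF
  have cG := abs_le.1 hG
  have hδφ : δ * φ ≤ φ := by nlinarith
  have hee : ε * (e * e) ≤ δ * φ / 6 := by nlinarith
  constructor
  · have e1 : G / a2 + (2 * k * A2 * b2 - be * A2 ^ 2) / a2 = (G + 2 * (k * (A2 * b2)) - be * (A2 * A2)) / a2 := by
      field_simp
      ring
    rw [e1, abs_div, abs_of_pos hpos, div_le_iff₀ hpos]
    have : |G + 2 * (k * (A2 * b2)) - be * (A2 * A2)| ≤ 3 / 2 * φ := by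
      rw [abs_le]
      constructor <;> linarith [u1.1, u1.2, u2.1, u2.2, cG.1, cG.2]
    nlinarith
  · have e1 : F / a2 + k / a2 * b2 ^ 2 = (F + k * (b2 * b2)) / a2 := by
      field_simp
    rw [e1, abs_div, abs_of_pos hpos, div_le_iff₀ hpos]
    have : |F + k * (b2 * b2)| ≤ 3 / 2 * (δ * φ) := by
      have : 0 ≤ δ * φ := by positivity
      rw [abs_le]
      constructor <;> linarith [u3.1, u3.2, cF.1, cF.2]
    have h0 : 0 ≤ δ * φ := by positivity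
    nlinarith

/-- LEAF `L-256-RT-LE-ECY` (2/2) (chart free; 07 l.929-934).   Write `m = (c, d, (α₁, α₂), β, k)`: `|c|, |d|, |α₁|, |α₂ - 1|, |β|, |k| ≤ ε ≤ 1/6`; `|b|, |A|, |y| ≤ 1`.
`α₂ b₂ = F - c - α₁ b₁ - β y + k |b|²`: `|b₂| ≤ 2 (δ φ + 4 ε)`;   `A₂ (α₂ - 2 k b₂) = G - d - k y - A₁ (α₁ - 2 k b₁) - |A|² β`: `|A₂| ≤ 2 (φ + 6 ε)`.   So `|b₂|, |A₂| ≤ e = 2 φ + 12 ε`.
`rt_lf_cy_pos`: `fs cyPos = F/α₂ + (k/α₂) b₂²`, `≤ 2 δ φ + 2 ε e²`;   `rt_lf_cy_vel`: `fs cyVel = G/α₂ + (2 k A₂ b₂ - β A₂²)/α₂`, `≤ 2 φ + 6 ε e²`. -/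
theorem rt_le_ecy {fs ε φ δ : ℝ} {m : RtPoly} {p : RtRow} (hfs : 0 < fs) (hε0 : 0 ≤ ε) (hε : ε ≤ 1 / 6)
    (hm : (RtPoly.comb 1 m (-1) rtFlat).Bd ε) (hsm : rtLfSm p) (hδ0 : 0 < δ) (hδ1 : δ ≤ 1) (hφ : 0 ≤ φ)
    (hF : |m.F 0 p.b p.y| ≤ δ * φ) (hG : |m.G 0 p.b p.y p.A| ≤ φ) (hthin : 6 * ε * (2 * φ + 12 * ε) ^ 2 ≤ δ * φ)
    (x b y r f : ℝ) :
    |cyVel (rtLfCy fs m x b y r f) (rtFl fs p)| ≤ 3 * φ / fs ∧ |cyPos (rtLfCy fs m x b y r f) (rtFl fs p)| ≤ δ * (3 * φ / fs) := by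
  obtain ⟨a1, a2, a3, a4, a5, a6⟩ := rt_le_esh_co hm
  obtain ⟨sA, sb, sy⟩ := hsm
  have h2 : m.al.2 ≠ 0 := by
    have := (abs_le.1 a4).1
    intro h0
    rw [h0] at this
    linarith
  obtain ⟨c1, c2⟩ := rt_le_ecy_second (F := m.F 0 p.b p.y) (G := m.G 0 p.b p.y p.A) hε0 hε a1 a2 a3 a4 a5 a6 sb sA sy hδ0 hδ1 hφ
    (by simp only [RtPoly.F, rtIp, rtSq]; ring)
    (by simp only [RtPoly.G, rtIp, rtSq, Prod.fst_sub, Prod.snd_sub, Prod.smul_fst, Prod.smul_snd, smul_eq_mul]; ring) hF hG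
  obtain ⟨q1, q2⟩ := rt_le_ecy_quot hε0 hε a4 a5 a6 hδ0 hδ1 hφ c1 c2 hF hG hthin
  rw [← rt_lf_cy_vel hfs.ne' m h2 x b y r f p] at q1
  rw [← rt_lf_cy_pos hfs.ne' m h2 x b y r f p] at q2
  rw [abs_mul, abs_of_pos hfs] at q1 q2
  constructor
  · rw [le_div_iff₀ hfs]
    linarith
  · have : δ * (3 * φ / fs) = δ * (3 * φ) / fs := by ring
    rw [this, le_div_iff₀ hfs]
    linarith

/-- LEAF `L-256-RT-LE-EBASE`.   Unfold `rtBx`, `rtLfSc`: `|Δb| ≤ δ Mb`, `|Δy - 2 A_w·Δb| ≤ δ Mb`, `|ΔA| ≤ Mb`;   `Δy - 2 X_w ΔB = (Δy - 2 A_w·Δb) + 2 A_{w,2} Δb₂`. -/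
theorem rt_le_ebase {δ Mb : ℝ} {p w : RtRow} (hδ : 0 < δ) (hMb : 0 ≤ Mb) (hb : rtLfSc δ p ∈ rtBx (rtLfSc δ w) 1 Mb)
    (hw : |w.A.2| ≤ 1) :
    |p.A.1 - w.A.1| ≤ Mb ∧ |p.b.1 - w.b.1| ≤ δ * Mb ∧ |p.y - w.y - 2 * w.A.1 * (p.b.1 - w.b.1)| ≤ δ * (3 * Mb) := by
  obtain ⟨h1, h2, h3⟩ := hb
  simp only [rtLfSc, rtSq, rtIp, Prod.fst_sub, Prod.snd_sub, Prod.smul_fst, Prod.smul_snd, smul_eq_mul, mul_one, one_pow] at h1 h2 h3
  have e1 : (δ⁻¹ * p.b.1 - δ⁻¹ * w.b.1) = (p.b.1 - w.b.1) / δ := by field_simp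
  have e2 : (δ⁻¹ * p.b.2 - δ⁻¹ * w.b.2) = (p.b.2 - w.b.2) / δ := by field_simp
  rw [e1, e2] at h1 h2
  have b1 : |(p.b.1 - w.b.1) / δ| ≤ Mb := abs_le.2 (abs_le_of_sq_le_sq' (by nlinarith [sq_nonneg ((p.b.2 - w.b.2) / δ)]) hMb)
  have b2 : |(p.b.2 - w.b.2) / δ| ≤ Mb := abs_le.2 (abs_le_of_sq_le_sq' (by nlinarith [sq_nonneg ((p.b.1 - w.b.1) / δ)]) hMb)
  have b3 : |p.A.1 - w.A.1| ≤ Mb := abs_le.2 (abs_le_of_sq_le_sq' (by nlinarith [sq_nonneg (p.A.2 - w.A.2)]) hMb)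
  refine ⟨b3, ?_, ?_⟩
  · rw [abs_div, abs_of_pos hδ, div_le_iff₀ hδ] at b1
    linarith
  · have e : p.y - w.y - 2 * w.A.1 * (p.b.1 - w.b.1)
        = δ * ((p.y / δ - w.y / δ - 2 * (w.A.1 * ((p.b.1 - w.b.1) / δ) + w.A.2 * ((p.b.2 - w.b.2) / δ)))
          + 2 * (w.A.2 * ((p.b.2 - w.b.2) / δ))) := by
      field_simp
      ring
    rw [e, abs_mul, abs_of_pos hδ]
    refine mul_le_mul_of_nonneg_left ?_ hδ.le
    have k : |w.A.2 * ((p.b.2 - w.b.2) / δ)| ≤ 1 * Mb := by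
      rw [abs_mul]
      exact mul_le_mul hw b2 (abs_nonneg _) zero_le_one
    calc _ ≤ |p.y / δ - w.y / δ - 2 * (w.A.1 * ((p.b.1 - w.b.1) / δ) + w.A.2 * ((p.b.2 - w.b.2) / δ))|
          + |2 * (w.A.2 * ((p.b.2 - w.b.2) / δ))| := abs_add_le _ _
      _ ≤ Mb + 2 * (1 * Mb) := by
          refine add_le_add h2 ?_
          rw [abs_mul, abs_of_pos (by norm_num : (0 : ℝ) < 2)]
          linarith
      _ = 3 * Mb := by ring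

theorem rt_le_etest_sq_smul (a : ℝ) (u : ℝ × ℝ) : rtSq (a • u) = a ^ 2 * rtSq u := by
  simp only [rtSq, Prod.smul_fst, Prod.smul_snd, smul_eq_mul]
  ring

theorem rt_le_etest_sq_sub {u v : ℝ × ℝ} {M : ℝ} (hu : rtSq u ≤ M ^ 2) (hv : rtSq v ≤ M ^ 2) : rtSq (u - v) ≤ (2 * M) ^ 2 := by
  simp only [rtSq, Prod.fst_sub, Prod.snd_sub] at *
  nlinarith [sq_nonneg (u.1 + v.1), sq_nonneg (u.2 + v.2)]

/-- two rows of one box of length `δ` -/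
theorem rt_le_etest_box {τ : RtTest} {M δ : ℝ} (hl0 : 0 < τ.l) (hr0 : 0 < τ.r) (hl : τ.l = δ) (hM : 1 ≤ M) (hr : τ.r ≤ M)
    {q v : RtRow} (hq : q ∈ τ.box M) (hv : v ∈ τ.box M) : rtLfSc δ q ∈ rtBx (rtLfSc δ v) 1 (6 * M ^ 4) := by
  obtain ⟨q1, q2, q3⟩ := hq
  obtain ⟨v1, v2, v3⟩ := hv
  subst hl
  have hM0 : 0 ≤ M := by linarith
  have e1 : (rtLfSc τ.l q).b - (rtLfSc τ.l v).b = τ.r • (τ.x q - τ.x v) := by
    ext <;> simp only [rtLfSc, RtTest.x, Prod.fst_sub, Prod.snd_sub, Prod.smul_fst, Prod.smul_snd, smul_eq_mul] <;> field_simp <;> ring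
  have e2 : (rtLfSc τ.l q).A - (rtLfSc τ.l v).A = τ.r • (τ.V q - τ.V v) := by
    ext <;> simp only [rtLfSc, RtTest.V, Prod.fst_sub, Prod.snd_sub, Prod.smul_fst, Prod.smul_snd, smul_eq_mul] <;> field_simp <;> ring
  have e3 : (rtLfSc τ.l q).y - (rtLfSc τ.l v).y - 2 * rtIp (rtLfSc τ.l v).A ((rtLfSc τ.l q).b - (rtLfSc τ.l v).b)
      = τ.r ^ 2 * (τ.z q - τ.z v - 2 * rtIp (τ.V v) (τ.x q - τ.x v)) := by
    simp only [rtLfSc, RtTest.x, RtTest.z, RtTest.V, rtIp, Prod.fst_sub, Prod.snd_sub, Prod.smul_fst, Prod.smul_snd, smul_eq_mul]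
    field_simp
    ring
  have hr2 : τ.r ^ 2 ≤ M ^ 2 := pow_le_pow_left₀ hr0.le hr 2
  have sx := rt_le_etest_sq_sub q1 v1
  have sV := rt_le_etest_sq_sub q3 v3
  have hM4 : (1 : ℝ) ≤ M ^ 4 := one_le_pow₀ hM
  have hbig : M ^ 2 * (2 * M) ^ 2 ≤ (6 * M ^ 4 * 1) ^ 2 := by nlinarith [pow_nonneg hM0 4, pow_nonneg hM0 8]
  refine ⟨?_, ?_, ?_⟩
  · rw [e1, rt_le_etest_sq_smul]
    exact (mul_le_mul hr2 sx (rtSq_nonneg _) (by positivity)).trans hbig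
  · rw [e3, abs_mul, abs_of_nonneg (by positivity : (0 : ℝ) ≤ τ.r ^ 2)]
    have k1 : |rtIp (τ.V v) (τ.x q - τ.x v)| ≤ M * (2 * M) := rtIp_abs_le hM0 (by positivity) v3 sx
    have k2 : |τ.z q - τ.z v - 2 * rtIp (τ.V v) (τ.x q - τ.x v)| ≤ 6 * M ^ 2 := by
      have a := abs_le.1 q2
      have b := abs_le.1 v2
      have c := abs_le.1 k1
      rw [abs_le]
      constructor <;> nlinarith [a.1, a.2, b.1, b.2, c.1, c.2]
    calc τ.r ^ 2 * |τ.z q - τ.z v - 2 * rtIp (τ.V v) (τ.x q - τ.x v)| ≤ M ^ 2 * (6 * M ^ 2) :=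
          mul_le_mul hr2 k2 (abs_nonneg _) (by positivity)
      _ = 6 * M ^ 4 * 1 ^ 2 := by ring
  · rw [e2, rt_le_etest_sq_smul]
    exact (mul_le_mul hr2 sV (rtSq_nonneg _) (by positivity)).trans hbig

/-- LEAF `L-256-RT-LE-ETEST` (dictionary with `RtTest`).   `q = p.flow θ`, `q_w = w.flow θ` in `τ.set M`: `|q.b - τ.bs| ≤ M δ r`, `|q.A - τ.As| ≤ M r`, `|q.y - τ.ys - 2 τ.As·(q.b - τ.bs)| ≤ M δ r²`, `r ≤ M`.
So `|Δb| ≤ 2 M² δ`, `|ΔA| ≤ 2 M²`, `Δy - 2 q_w.A·Δb = δ r² (z - z_w) - 2 (q_w.A - τ.As)·Δb`, `≤ (2M + 4M²) M² δ ≤ 6 M⁴ δ`.   Sublevels: `rt_lf_par_F`, `rt_lf_par_G`. -/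
theorem rt_le_etest {τ : RtTest} {M δ θ : ℝ} (hτ : τ.Adm 1) (hl : τ.l = δ) (hM : 1 ≤ M) (hr : τ.r ≤ M) {p w : RtRow}
    (hp : p.flow θ ∈ τ.set M) (hw : w.flow θ ∈ τ.set M) :
    rtLfSc δ (p.flow θ) ∈ rtBx (rtLfSc δ (w.flow θ)) 1 (6 * M ^ 4) ∧ |(τ.par θ).Fe (p.ev θ)| ≤ δ * (M ^ 2 * τ.f) ∧
      |(τ.par θ).G 0 p.b p.y p.A| ≤ M ^ 2 * τ.f := by
  have hl0 := hτ.l_pos
  have hr0 := hτ.r_pos
  have hf0 := hτ.f_pos
  have hM0 : 0 ≤ M := by linarith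
  refine ⟨rt_le_etest_box hl0 hr0 hl hM hr hp.1 hw.1, ?_, ?_⟩
  · rw [rt_lf_par_F τ hl0.ne' hr0.ne', abs_mul, abs_of_pos (mul_pos hl0 hr0), hl, mul_assoc]
    refine mul_le_mul_of_nonneg_left ?_ (hl ▸ hl0.le)
    calc τ.r * |τ.Fv (p.flow θ)| ≤ M * (M * τ.f) := mul_le_mul hr hp.2.1 (abs_nonneg _) hM0
      _ = M ^ 2 * τ.f := by ring
  · rw [rt_lf_par_G τ hl0.ne' hr0.ne', abs_mul, abs_of_pos hr0]
    calc τ.r * |τ.Gv (p.flow θ)| ≤ M * (M * τ.f) := mul_le_mul hr hp.2.2 (abs_nonneg _) hM0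
      _ = M ^ 2 * τ.f := by ring

/-- LEAF `L-256-RT-LE-NUM` (numerics).   `18M + 20 ≤ 28 M`; `3·2·(2·28M·6M⁴)² = 677376 M^10 ≤ 2^20 M^10`;   `φ ≤ 112 M³ f`, `336 ≤ 2^9`;   `ε ≤ 800 M⁷ fs`, `1600 ≤ 2^11`;
`2φ + 12ε ≤ 9824 M⁷ fs`, `4800 · 9824² ≤ 2^39`: `6 ε (2φ+12ε)² ≤ M^60 fs³ ≤ δ f ≤ δ φ`;   `ε³ ≤ 2^28 M^21 fs³ ≤ M^-51 ≤ (1/6)³`. -/
theorem rt_le_num {M P fs δ f : ℝ} (hM : 2 ≤ M) (hP : 1 ≤ P) (hPM : P ≤ M) (hδ0 : 0 < δ) (hδ1 : δ ≤ 1) (hfs : 0 < fs) (hf0 : 0 < f)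
    (hf1 : f ≤ 1) (hf : f ≤ fs) (hthin : fs ^ 3 * M ^ 100 ≤ δ * f) :
    3 * (2 * (2 * ((18 * (M + 1) + 2) * (6 * M ^ 4))) ^ 2) ≤ M ^ 40 ∧
    3 * (4 * (18 * (M + 1) + 1) * (M ^ 2 * f)) ≤ M ^ 20 * f ∧
    800 * P ^ 6 * (M * fs) ≤ 1 / 6 ∧ 2 * (800 * P ^ 6 * (M * fs)) ≤ M ^ 20 * fs ∧
    6 * (800 * P ^ 6 * (M * fs)) * (2 * (4 * (18 * (M + 1) + 1) * (M ^ 2 * f)) + 12 * (800 * P ^ 6 * (M * fs))) ^ 2
      ≤ δ * (4 * (18 * (M + 1) + 1) * (M ^ 2 * f)) := by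
  have hM0 : 0 < M := by linarith
  have hM1 : 1 ≤ M := by linarith
  have hP0 : 0 ≤ P := by linarith
  have hpow : ∀ a b : ℕ, a ≤ b → M ^ a ≤ M ^ b := fun a b h => pow_le_pow_right₀ hM1 h
  have h2 : ∀ k : ℕ, (2 : ℝ) ^ k ≤ M ^ k := fun k => pow_le_pow_left₀ (by norm_num) hM k
  have hP6 : P ^ 6 ≤ M ^ 6 := pow_le_pow_left₀ hP0 hPM 6
  -- `ε ≤ 800 M^7 fs`
  have hε : 800 * P ^ 6 * (M * fs) ≤ 800 * M ^ 7 * fs := by
    calc 800 * P ^ 6 * (M * fs) ≤ 800 * M ^ 6 * (M * fs) := by gcongr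
      _ = 800 * M ^ 7 * fs := by ring
  have hε0 : 0 ≤ 800 * P ^ 6 * (M * fs) := by positivity
  -- `M^33 fs ≤ 1`
  have hfs33 : M ^ 33 * fs ≤ 1 := by
    have h3 : (M ^ 33 * fs) ^ 3 ≤ 1 := by
      calc (M ^ 33 * fs) ^ 3 = fs ^ 3 * M ^ 99 := by ring
        _ ≤ fs ^ 3 * M ^ 100 := by
            gcongr
            norm_num
        _ ≤ δ * f := hthin
        _ ≤ 1 * 1 := by gcongr
        _ = 1 := by norm_num
    exact (pow_le_one_iff_of_nonneg (by positivity) (by norm_num)).1 h3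
  -- `φ`
  have hφ_hi : 4 * (18 * (M + 1) + 1) * (M ^ 2 * f) ≤ 112 * M ^ 3 * f := by
    calc 4 * (18 * (M + 1) + 1) * (M ^ 2 * f) ≤ 4 * (28 * M) * (M ^ 2 * f) := by
          gcongr
          linarith
      _ = 112 * M ^ 3 * f := by ring
  have hφ_lo : f ≤ 4 * (18 * (M + 1) + 1) * (M ^ 2 * f) := by
    have h1 : 1 ≤ M ^ 2 := one_le_pow₀ hM1
    have h3 : 1 ≤ 4 * (18 * (M + 1) + 1) * M ^ 2 := by nlinarith
    calc f = 1 * f := (one_mul f).symm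
      _ ≤ 4 * (18 * (M + 1) + 1) * M ^ 2 * f := by gcongr
      _ = 4 * (18 * (M + 1) + 1) * (M ^ 2 * f) := by ring
  have hφ0 : 0 ≤ 4 * (18 * (M + 1) + 1) * (M ^ 2 * f) := by positivity
  refine ⟨?_, ?_, ?_, ?_, ?_⟩
  · calc 3 * (2 * (2 * ((18 * (M + 1) + 2) * (6 * M ^ 4))) ^ 2) ≤ 3 * (2 * (2 * ((28 * M) * (6 * M ^ 4))) ^ 2) := by
          gcongr
          linarith
      _ = 677376 * M ^ 10 := by ring
      _ ≤ 2 ^ 20 * M ^ 10 := by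
          gcongr
          norm_num
      _ ≤ M ^ 20 * M ^ 10 := by
          gcongr
      _ = M ^ 30 := by ring
      _ ≤ M ^ 40 := hpow 30 40 (by norm_num)
  · calc 3 * (4 * (18 * (M + 1) + 1) * (M ^ 2 * f)) ≤ 3 * (112 * M ^ 3 * f) := by gcongr
      _ = 336 * (M ^ 3 * f) := by ring
      _ ≤ 2 ^ 9 * (M ^ 3 * f) := by
          gcongr
          norm_num
      _ ≤ M ^ 9 * (M ^ 3 * f) := by
          gcongr
      _ = M ^ 12 * f := by ring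
      _ ≤ M ^ 20 * f := by
          gcongr
          norm_num
  · have h6 : 6 * (800 * M ^ 7 * fs) ≤ 1 := by
      calc 6 * (800 * M ^ 7 * fs) = 4800 * (M ^ 7 * fs) := by ring
        _ ≤ 2 ^ 13 * (M ^ 7 * fs) := by
            gcongr
            norm_num
        _ ≤ M ^ 13 * (M ^ 7 * fs) := by
            gcongr
        _ = M ^ 20 * fs := by ring
        _ ≤ M ^ 33 * fs := by
            gcongr
            norm_num
        _ ≤ 1 := hfs33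
    linarith
  · calc 2 * (800 * P ^ 6 * (M * fs)) ≤ 2 * (800 * M ^ 7 * fs) := by gcongr
      _ = 1600 * (M ^ 7 * fs) := by ring
      _ ≤ 2 ^ 11 * (M ^ 7 * fs) := by
          gcongr
          norm_num
      _ ≤ M ^ 11 * (M ^ 7 * fs) := by
          gcongr
      _ = M ^ 18 * fs := by ring
      _ ≤ M ^ 20 * fs := by
          gcongr
          norm_num
  · have hsum : 2 * (4 * (18 * (M + 1) + 1) * (M ^ 2 * f)) + 12 * (800 * P ^ 6 * (M * fs)) ≤ 9824 * M ^ 7 * fs := by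
      have h37 : M ^ 3 ≤ M ^ 7 := hpow 3 7 (by norm_num)
      calc 2 * (4 * (18 * (M + 1) + 1) * (M ^ 2 * f)) + 12 * (800 * P ^ 6 * (M * fs))
          ≤ 2 * (112 * M ^ 3 * f) + 12 * (800 * M ^ 7 * fs) := by gcongr
        _ ≤ 2 * (112 * M ^ 7 * fs) + 12 * (800 * M ^ 7 * fs) := by gcongr
        _ = 9824 * M ^ 7 * fs := by ring
    calc 6 * (800 * P ^ 6 * (M * fs)) * (2 * (4 * (18 * (M + 1) + 1) * (M ^ 2 * f)) + 12 * (800 * P ^ 6 * (M * fs))) ^ 2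
        ≤ 6 * (800 * M ^ 7 * fs) * (9824 * M ^ 7 * fs) ^ 2 := by gcongr
      _ = 463252684800 * (fs ^ 3 * M ^ 21) := by ring
      _ ≤ 2 ^ 39 * (fs ^ 3 * M ^ 21) := by
          gcongr
          norm_num
      _ ≤ M ^ 39 * (fs ^ 3 * M ^ 21) := by
          gcongr
      _ = fs ^ 3 * M ^ 60 := by ring
      _ ≤ fs ^ 3 * M ^ 100 := by
          gcongr
          norm_num
      _ ≤ δ * f := hthin
      _ ≤ δ * (4 * (18 * (M + 1) + 1) * (M ^ 2 * f)) := by gcongr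

/-! ## Assembly (proved) -/

theorem rt_le_tr_F (n : RtPoly) (q : RtRow) (T : ℝ) : ((rtChTr T).pol n).F 0 (q.flow T).b (q.flow T).y = n.Fe (q.ev T) := by
  simp only [rtChTr, RtPoly.F, RtPoly.Fe, RtRow.ev, RtRow.flow]
  ring

theorem rt_le_tr_G (n : RtPoly) (q : RtRow) (T : ℝ) :
    ((rtChTr T).pol n).G 0 (q.flow T).b (q.flow T).y (q.flow T).A = n.G 0 q.b q.y q.A := by
  simp only [rtChTr, RtPoly.G, RtRow.flow, rtIp, rtSq, Prod.fst_add, Prod.snd_add, Prod.fst_sub, Prod.snd_sub, Prod.smul_fst,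
    Prod.smul_snd, smul_eq_mul]
  ring

theorem rt_le_abs_snd {u : ℝ × ℝ} (h : rtSq u ≤ 1) : |u.2| ≤ 1 := by
  unfold rtSq at h
  exact abs_le.2 (abs_le_of_sq_le_sq' (by nlinarith [sq_nonneg u.1]) zero_le_one)

/-- the cylinder test of a label, centred at the transformed row `c` -/
noncomputable def rtLeQ (M fs θ T' : ℝ) (n : RtPoly) (p₀ : RtRow) (τ : RtTest) (c : RtRow) : CyT :=
  rtLfCy fs ((rtChTr T').pol ((rtChart p₀ n).pol (τ.par θ))) c.A.1 c.b.1 c.y (M ^ 40) (M ^ 20 * τ.f / fs)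

theorem rt_le_eqns_cite : True := by
  have := @rtLeQ.eq_1
  trivial

/-- one row, relative to a witness -/
theorem rt_le_row {M P fs δ θ T' : ℝ} {n : RtPoly} {p₀ : RtRow} {τ : RtTest} (hM : 2 ≤ M) (hP : 1 ≤ P) (hPM : P ≤ M)
    (h : RtChartOk P n p₀) (hδ0 : 0 < δ) (hδ1 : δ ≤ 1) (hθ : |θ| ≤ 2) (hT : |T'| ≤ 3) (hT2 : |T' + δ| ≤ 3) (hτ : τ.Adm 1) (hl : τ.l = δ) (hr : τ.r ≤ M)
    (hfs : 0 < fs) (hf : τ.f ≤ fs) (hcon : (RtPoly.comb 1 (τ.par θ) (-1) n).Bd (M * fs)) (hthin : fs ^ 3 * M ^ 100 ≤ δ * τ.f)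
    {p w : RtRow} (hp : p ∈ rtBx p₀ 1 (rtChRho P)) (hpτ : p.flow θ ∈ τ.set M) (htp : |(rtChart p₀ n).tm p θ - T'| ≤ M * δ)
    (hw : w ∈ rtBx p₀ 1 (rtChRho P)) (hwτ : w.flow θ ∈ τ.set M) (htw : |(rtChart p₀ n).tm w θ - T'| ≤ M * δ) :
    cyIn (rtLeQ M fs θ T' n p₀ τ (((rtChart p₀ n).row w).flow T')) δ (rtFl fs (((rtChart p₀ n).row p).flow T')) := by
  have hM0 : 0 ≤ M := by linarith
  have hM1 : 1 ≤ M := by linarith
  obtain ⟨n1, n2, n3, n4, n5⟩ := rt_le_num hM hP hPM hδ0 hδ1 hfs hτ.f_pos hτ.f_le hf hthin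
  obtain ⟨t1, t2, t3⟩ := rt_le_etest hτ hl hM1 hr hpτ hwτ
  have hT3 : |T'| ≤ 8 := by linarith
  have sp := rt_lf_img hP h hp hT3
  have sw := rt_lf_img hP h hw hT3
  have hMb : (1 : ℝ) ≤ 6 * M ^ 4 := by nlinarith [one_le_pow₀ hM1 (n := 4)]
  have bx := rt_le_ebox h hp hw hθ hT hT2 hδ0 hM0 hMb htp htw t1
  have bs := rt_le_ebase hδ0 (by positivity) bx (rt_le_abs_snd sw.1)
  have su := rt_le_esub h hp hθ hT hT2 hδ0 hM0 htp (τ.par θ) t2 t3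
  have ep := rt_le_epol h (by positivity : (0 : ℝ) ≤ M * fs) hcon hT
  have hf0 := hτ.f_pos
  have hφ : 0 ≤ 4 * (18 * (M + 1) + 1) * (M ^ 2 * τ.f) := by positivity
  have hF : |((rtChTr T').pol ((rtChart p₀ n).pol (τ.par θ))).F 0 (((rtChart p₀ n).row p).flow T').b
      (((rtChart p₀ n).row p).flow T').y| ≤ δ * (4 * (18 * (M + 1) + 1) * (M ^ 2 * τ.f)) := by
    rw [rt_le_tr_F]
    refine su.1.trans (mul_le_mul_of_nonneg_left ?_ hδ0.le)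
    have : 0 ≤ (18 * (M + 1) + 1) * (M ^ 2 * τ.f) := by positivity
    nlinarith
  have hG : |((rtChTr T').pol ((rtChart p₀ n).pol (τ.par θ))).G 0 (((rtChart p₀ n).row p).flow T').b
      (((rtChart p₀ n).row p).flow T').y (((rtChart p₀ n).row p).flow T').A| ≤ 4 * (18 * (M + 1) + 1) * (M ^ 2 * τ.f) := by
    rw [rt_le_tr_G]
    exact su.2
  have cy := rt_le_ecy hfs (by positivity) n3 ep sp hδ0 hδ1 hφ hF hG n5 (((rtChart p₀ n).row w).flow T').A.1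
    (((rtChart p₀ n).row w).flow T').b.1 (((rtChart p₀ n).row w).flow T').y (M ^ 40) (M ^ 20 * τ.f / fs)
  have hMb' : 0 ≤ 2 * (2 * ((18 * (M + 1) + 2) * (6 * M ^ 4))) ^ 2 := by positivity
  have h40 : (1 : ℝ) ≤ M ^ 40 := one_le_pow₀ hM1
  have hfq : 3 * (4 * (18 * (M + 1) + 1) * (M ^ 2 * τ.f)) / fs ≤ M ^ 20 * τ.f / fs := div_le_div_of_nonneg_right n2 hfs.le
  have hb1 : 2 * (2 * ((18 * (M + 1) + 2) * (6 * M ^ 4))) ^ 2 ≤ M ^ 40 := by linarith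
  have hb2 : 3 * (2 * (2 * ((18 * (M + 1) + 2) * (6 * M ^ 4))) ^ 2) ≤ (M ^ 40) ^ 2 := by nlinarith
  refine ⟨?_, ?_, ?_, ?_, ?_⟩
  · exact bs.1.trans hb1
  · exact bs.2.1.trans (mul_le_mul_of_nonneg_left hb1 hδ0.le)
  · exact bs.2.2.trans (mul_le_mul_of_nonneg_left hb2 hδ0.le)
  · exact cy.1.trans hfq
  · exact cy.2.trans (mul_le_mul_of_nonneg_left hfq hδ0.le)

/-- **(endlift)**, exact rows -/
theorem rt_endlift {M P fs δ θ T' : ℝ} {n : RtPoly} {p₀ : RtRow} (τ : RtTest) (hM : 2 ≤ M) (hP : 1 ≤ P) (hPM : P ≤ M)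
    (h : RtChartOk P n p₀) (hδ0 : 0 < δ) (hδ1 : δ ≤ 1) (hθ : |θ| ≤ 2) (hT : |T'| ≤ 3) (hT2 : |T' + δ| ≤ 3) (hτ : τ.Adm 1) (hl : τ.l = δ) (hr : τ.r ≤ M)
    (hfs : 0 < fs) (hf : τ.f ≤ fs) (hcon : (RtPoly.comb 1 (τ.par θ) (-1) n).Bd (M * fs)) (hthin : fs ^ 3 * M ^ 100 ≤ δ * τ.f) :
    ∃ Q : CyT, Q.r = M ^ 40 ∧ Q.f = M ^ 20 * τ.f / fs ∧ cySh Q (M ^ 20) ∧
      ∀ p ∈ rtBx p₀ 1 (rtChRho P), p.flow θ ∈ τ.set M → |(rtChart p₀ n).tm p θ - T'| ≤ M * δ →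
        cyIn Q δ (rtFl fs (((rtChart p₀ n).row p).flow T')) := by
  obtain ⟨n1, n2, n3, n4, n5⟩ := rt_le_num hM hP hPM hδ0 hδ1 hfs hτ.f_pos hτ.f_le hf hthin
  have ep := rt_le_epol h (by positivity : (0 : ℝ) ≤ M * fs) hcon hT
  have sh : ∀ c : RtRow, cySh (rtLeQ M fs θ T' n p₀ τ c) (M ^ 20) := by
    intro c
    have := rt_le_esh hfs (by linarith) ep c.A.1 c.b.1 c.y (M ^ 40) (M ^ 20 * τ.f / fs)
    have e : 2 * (800 * P ^ 6 * (M * fs)) / fs ≤ M ^ 20 := by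
      rw [div_le_iff₀ hfs]
      exact n4
    exact ⟨this.1.trans e, this.2.1.trans e, this.2.2.1.trans e, this.2.2.2.1.trans e, this.2.2.2.2.trans e⟩
  by_cases hne : ∃ w ∈ rtBx p₀ 1 (rtChRho P), w.flow θ ∈ τ.set M ∧ |(rtChart p₀ n).tm w θ - T'| ≤ M * δ
  · obtain ⟨w, hw, hwτ, htw⟩ := hne
    exact ⟨rtLeQ M fs θ T' n p₀ τ (((rtChart p₀ n).row w).flow T'), rfl, rfl, sh _, fun p hp hpτ htp =>
      rt_le_row hM hP hPM h hδ0 hδ1 hθ hT hT2 hτ hl hr hfs hf hcon hthin hp hpτ htp hw hwτ htw⟩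
  · exact ⟨rtLeQ M fs θ T' n p₀ τ rtRow0, rfl, rfl, sh _, fun p hp hpτ htp => absurd ⟨p, hp, hpτ, htp⟩ hne⟩

/-- the weight of the cylinder test of (endlift) -/
theorem rt_endlift_wt {η M f fs : ℝ} (h0 : 0 < η) (h1 : η < 1) (hM : 1 ≤ M) (hf : 0 < f) (hfs : 0 < fs) {Q : CyT}
    (hr : Q.r = M ^ 40) (hQf : Q.f = M ^ 20 * f / fs) : cyWt η Q ≤ M ^ 180 * (f / fs) ^ (1 - η) := by
  have hM0 : 0 < M := by linarith
  unfold cyWt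
  rw [hr, hQf, mul_div_assoc, Real.mul_rpow (by positivity) (by positivity), ← mul_assoc]
  refine mul_le_mul_of_nonneg_right ?_ (by positivity)
  rw [← Real.rpow_natCast M 40, ← Real.rpow_natCast M 20, ← Real.rpow_natCast M 180, ← Real.rpow_mul hM0.le,
    ← Real.rpow_mul hM0.le, ← Real.rpow_add hM0]
  refine Real.rpow_le_rpow_of_exponent_le hM ?_
  push_cast
  nlinarith

end Claimed.Agent.R256
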