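import Claimed.Agent.R256.Rt.G1Frame

/-!
# Row 256, folder Rt, file G1Cells: coverings by cells with witnesses, floor grids      (architect helper18; prefix `rt_g1_`)
-/

set_option autoImplicit false

namespace Claimed.Agent.R256

open scoped BigOperators

/-- a covering by one test -/
theorem rt_g1_single {S : Set RtRow} (σ : RtTest) (h : σ.Adm 1) {u η : ℝ} (hu : u ≤ σ.unc) (hS : S ⊆ σ.set 1) :
    RtCover S σ.l u η (σ.w η) :=
  ⟨1, fun _ => σ, fun _ => ⟨h, rfl, hu⟩, fun p hp => Set.mem_iUnion.2 ⟨0, hS hp⟩, by simp⟩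

/-- **covering by cells with witnesses** -/
theorem rt_g1_cells {κ : Type*} [DecidableEq κ] (S : Set RtRow) (key : RtRow → κ) (I : Finset κ) (hI : ∀ p ∈ S, key p ∈ I)
    (l u η W0 : ℝ) (hW0 : 0 ≤ W0) (h : ∀ w ∈ S, RtCover {p | p ∈ S ∧ key p = key w} l u η W0) :
    RtCover S l u η (I.card * W0) := by
  have key' : ∀ J : Finset κ, RtCover {p | p ∈ S ∧ key p ∈ J} l u η (J.card * W0) := by
    intro J
    induction J using Finset.induction_on with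
    | empty =>
      have : {p | p ∈ S ∧ key p ∈ (∅ : Finset κ)} = ∅ := by
        ext p; simp
      rw [this]
      simpa using RtCover.empty l u η
    | insert k J hk ih =>
      have hcov : RtCover {p | p ∈ S ∧ key p = k} l u η W0 := by
        by_cases hex : ∃ w ∈ S, key w = k
        · obtain ⟨w, hw, rfl⟩ := hex
          exact h w hw
        · have : {p | p ∈ S ∧ key p = k} = ∅ := by
            ext p
            simp only [Set.mem_ofPred_eq, Set.mem_empty_iff_false, iff_false, not_and]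
            intro hp hk'
            exact hex ⟨p, hp, hk'⟩
          rw [this]
          exact (RtCover.empty l u η).mono (le_refl _) le_rfl hW0
      have := hcov.union ih
      refine this.mono ?_ le_rfl ?_
      · rintro p ⟨hp, hpk⟩
        rcases Finset.mem_insert.1 hpk with h1 | h1
        · exact Or.inl ⟨hp, h1⟩
        · exact Or.inr ⟨hp, h1⟩
      · rw [Finset.card_insert_of_notMem hk]
        push_cast
        linarith
  refine (key' I).mono ?_ le_rfl le_rfl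
  intro p hp
  exact ⟨hp, hI p hp⟩

/-- floor index of a bounded number -/
theorem rt_g1_floor_mem {s B h : ℝ} (hh : 0 < h) (hs : |s| ≤ B) : ⌊s / h⌋ ∈ Finset.Icc (-⌈B / h⌉) ⌈B / h⌉ := by
  rw [Finset.mem_Icc]
  have h1 := abs_le.1 hs
  constructor
  · rw [Int.le_floor]
    have : ((-⌈B / h⌉ : ℤ) : ℝ) = -(⌈B / h⌉ : ℝ) := by push_cast; ring
    rw [this]
    have h2 : B / h ≤ ⌈B / h⌉ := Int.le_ceil _
    have h3 : -(B / h) ≤ s / h := by
      rw [← neg_div]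
      exact div_le_div_of_nonneg_right h1.1 hh.le
    linarith
  · have h2 : s / h ≤ B / h := div_le_div_of_nonneg_right h1.2 hh.le
    have h3 : (⌊s / h⌋ : ℝ) ≤ s / h := Int.floor_le _
    have h4 : B / h ≤ ⌈B / h⌉ := Int.le_ceil _
    exact_mod_cast (h3.trans (h2.trans h4))

/-- equal floor indices: distance at most the mesh -/
theorem rt_g1_floor_close {s s' h : ℝ} (hh : 0 < h) (he : ⌊s / h⌋ = ⌊s' / h⌋) : |s - s'| ≤ h := by
  have a1 := Int.floor_le (s / h)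
  have a2 := Int.lt_floor_add_one (s / h)
  have b1 := Int.floor_le (s' / h)
  have b2 := Int.lt_floor_add_one (s' / h)
  rw [he] at a1 a2
  have h1 : |s / h - s' / h| ≤ 1 := by
    rw [abs_le]
    constructor <;> linarith
  have h2 : s - s' = (s / h - s' / h) * h := by field_simp
  rw [h2, abs_mul, abs_of_pos hh]
  nlinarith [abs_nonneg (s / h - s' / h)]

theorem rt_g1_card_Icc (G : ℤ) (hG : 0 ≤ G) : ((Finset.Icc (-G) G).card : ℝ) = 2 * (G : ℝ) + 1 := by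
  rw [Int.card_Icc]
  have : (G + 1 - -G).toNat = (2 * G + 1).toNat := by congr 1; ring
  rw [this]
  have h2 : ((2 * G + 1).toNat : ℤ) = 2 * G + 1 := Int.toNat_of_nonneg (by omega)
  have h3 : (((2 * G + 1).toNat : ℤ) : ℝ) = ((2 * G + 1 : ℤ) : ℝ) := by rw [h2]
  rw [Int.cast_natCast] at h3
  rw [h3]
  push_cast
  ring

theorem rt_g1_abs_fst {u : ℝ × ℝ} {B : ℝ} (hB : 0 ≤ B) (h : rtSq u ≤ B ^ 2) : |u.1| ≤ B := by
  unfold rtSq at h
  exact abs_le_of_sq_le_sq' (by nlinarith [sq_nonneg u.2]) hB |> fun h => abs_le.2 h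

theorem rt_g1_abs_snd {u : ℝ × ℝ} {B : ℝ} (hB : 0 ≤ B) (h : rtSq u ≤ B ^ 2) : |u.2| ≤ B := by
  unfold rtSq at h
  exact abs_le_of_sq_le_sq' (by nlinarith [sq_nonneg u.1]) hB |> fun h => abs_le.2 h

/-- the five floor indices of a row in the frame `τ` at the mesh `h` -/
noncomputable def rtG1Key (τ : RtTest) (h : ℝ) (p : RtRow) : ℤ × ℤ × ℤ × ℤ × ℤ :=
  (⌊(τ.x p).1 / h⌋, ⌊(τ.x p).2 / h⌋, ⌊(τ.V p).1 / h⌋, ⌊(τ.V p).2 / h⌋, ⌊τ.z p / h⌋)

/-- the index set -/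
noncomputable def rtG1Idx (G : ℤ) : Finset (ℤ × ℤ × ℤ × ℤ × ℤ) :=
  Finset.Icc (-G) G ×ˢ Finset.Icc (-G) G ×ˢ Finset.Icc (-G) G ×ˢ Finset.Icc (-G) G ×ˢ Finset.Icc (-G) G

theorem rt_g1_key_mem (τ : RtTest) {M h : ℝ} (hM : 0 ≤ M) (hh : 0 < h) {p : RtRow} (hp : p ∈ τ.box M) :
    rtG1Key τ h p ∈ rtG1Idx ⌈M / h⌉ := by
  obtain ⟨h1, h2, h3⟩ := hp
  simp only [rtG1Key, rtG1Idx, Finset.mem_product]
  exact ⟨rt_g1_floor_mem hh (rt_g1_abs_fst hM h1), rt_g1_floor_mem hh (rt_g1_abs_snd hM h1),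
    rt_g1_floor_mem hh (rt_g1_abs_fst hM h3), rt_g1_floor_mem hh (rt_g1_abs_snd hM h3), rt_g1_floor_mem hh h2⟩

theorem rt_g1_idx_card (G : ℤ) (hG : 0 ≤ G) : ((rtG1Idx G).card : ℝ) = (2 * (G : ℝ) + 1) ^ 5 := by
  simp only [rtG1Idx, Finset.card_product]
  push_cast
  rw [rt_g1_card_Icc G hG]
  ring

/-- two rows of the `M`-box with the same key lie in one parabolic box of width `a` if `h (1 + 4M) ≤ a²`, `2 h² ≤ a²` -/
theorem rt_g1_cell_box (τ : RtTest) (hl : τ.l ≠ 0) (hr : τ.r ≠ 0) {M h a : ℝ} (hM : 0 ≤ M) (hh : 0 < h) (ha : 0 < a)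
    (h1 : h * (1 + 4 * M) ≤ a ^ 2) (h2 : 2 * h ^ 2 ≤ a ^ 2) {w p : RtRow} (hw : w ∈ τ.box M)
    (hk : rtG1Key τ h p = rtG1Key τ h w) (f' : ℝ) (n' : RtPoly) : p ∈ (τ.g1sub w a f' n').box 1 := by
  simp only [rtG1Key, Prod.mk.injEq] at hk
  obtain ⟨k1, k2, k3, k4, k5⟩ := hk
  have c1 := rt_g1_floor_close hh k1
  have c2 := rt_g1_floor_close hh k2
  have c3 := rt_g1_floor_close hh k3
  have c4 := rt_g1_floor_close hh k4
  have c5 := rt_g1_floor_close hh k5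
  have ha2 : 0 < a ^ 2 := by positivity
  have sq : ∀ s : ℝ, |s| ≤ h → s ^ 2 ≤ h ^ 2 := fun s hs => by
    rw [← sq_abs]; exact pow_le_pow_left₀ (abs_nonneg _) hs 2
  refine ⟨?_, ?_, ?_⟩
  · rw [rt_g1_sub_x]
    simp only [rtSq, Prod.smul_fst, Prod.smul_snd, Prod.fst_sub, Prod.snd_sub, smul_eq_mul]
    have e : (a⁻¹ * ((τ.x p).1 - (τ.x w).1)) ^ 2 + (a⁻¹ * ((τ.x p).2 - (τ.x w).2)) ^ 2
        = (((τ.x p).1 - (τ.x w).1) ^ 2 + ((τ.x p).2 - (τ.x w).2) ^ 2) / a ^ 2 := by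
      field_simp
    rw [e, div_le_iff₀ ha2]
    nlinarith [sq _ c1, sq _ c2]
  · rw [rt_g1_sub_z τ hl hr, abs_div, abs_of_pos ha2, div_le_iff₀ ha2, one_mul]
    have v1 := rt_g1_abs_fst hM hw.2.2
    have v2 := rt_g1_abs_snd hM hw.2.2
    have e1 : |rtIp (τ.V w) (τ.x p - τ.x w)| ≤ 2 * M * h := by
      simp only [rtIp, Prod.fst_sub, Prod.snd_sub]
      calc |(τ.V w).1 * ((τ.x p).1 - (τ.x w).1) + (τ.V w).2 * ((τ.x p).2 - (τ.x w).2)|
          ≤ |(τ.V w).1 * ((τ.x p).1 - (τ.x w).1)| + |(τ.V w).2 * ((τ.x p).2 - (τ.x w).2)| := abs_add_le _ _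
        _ = |(τ.V w).1| * |(τ.x p).1 - (τ.x w).1| + |(τ.V w).2| * |(τ.x p).2 - (τ.x w).2| := by rw [abs_mul, abs_mul]
        _ ≤ M * h + M * h := add_le_add (mul_le_mul v1 c1 (abs_nonneg _) hM) (mul_le_mul v2 c2 (abs_nonneg _) hM)
        _ = 2 * M * h := by ring
    calc |τ.z p - τ.z w - 2 * rtIp (τ.V w) (τ.x p - τ.x w)|
        ≤ |τ.z p - τ.z w| + |2 * rtIp (τ.V w) (τ.x p - τ.x w)| := abs_sub _ _
      _ ≤ h + 2 * (2 * M * h) := by
          rw [abs_mul, abs_of_pos (by norm_num : (0 : ℝ) < 2)]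
          exact add_le_add c5 (mul_le_mul_of_nonneg_left e1 (by norm_num))
      _ = h * (1 + 4 * M) := by ring
      _ ≤ a ^ 2 := h1
  · rw [rt_g1_sub_V]
    simp only [rtSq, Prod.smul_fst, Prod.smul_snd, Prod.fst_sub, Prod.snd_sub, smul_eq_mul]
    have e : (a⁻¹ * ((τ.V p).1 - (τ.V w).1)) ^ 2 + (a⁻¹ * ((τ.V p).2 - (τ.V w).2)) ^ 2
        = (((τ.V p).1 - (τ.V w).1) ^ 2 + ((τ.V p).2 - (τ.V w).2) ^ 2) / a ^ 2 := by
      field_simp
    rw [e, div_le_iff₀ ha2]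
    nlinarith [sq _ c3, sq _ c4]

end Claimed.Agent.R256
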