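import Claimed.Agent.R256.Rt.Tests

/-!
# Row 256, folder Rt, file G1Frame: FRAME CALCULUS for sub-tests (units RT-G1, RT-G2)      (architect helper18; prefix `rt_g1_`)
Mathlib only, model free.   A test `τ` is used as a FRAME (normalised coordinates `τ.x, τ.z, τ.V`).
* `τ.g1sub w a f' n'` : the test of the same length, width `a r`, centred AT THE ROW `w`.   Its coordinates are the parabolic rescaling of the coordinates of `τ` recentred at `w` (`rt_g1_sub_x/_V/_z`).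
* `n.g1rec a x0 z0 V0` : the polynomial recentred at `(x0, z0, V0)`, rescaled by `a`, divided by `a`: `(F₀/a, G₀/a, g₀, a β, a k)`; same discriminant; `F' = F/a`, `G' = G/a` at corresponding rows.
* `rt_g1_cells` : covering by cells with witnesses.
-/

set_option autoImplicit false

namespace Claimed.Agent.R256

open scoped BigOperators

/-- the sub-test of the frame `τ`: width `a r`, thickness `f'`, polynomial `n'`, centred at the row `w` -/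
def RtTest.g1sub (τ : RtTest) (w : RtRow) (a f' : ℝ) (n' : RtPoly) : RtTest := ⟨τ.l, a * τ.r, f', w.A, w.b, w.y, n'⟩

/-- the recentred, rescaled polynomial divided by `a` -/
noncomputable def RtPoly.g1rec (n : RtPoly) (a : ℝ) (x0 : ℝ × ℝ) (z0 : ℝ) (V0 : ℝ × ℝ) : RtPoly :=
  ⟨n.F 0 x0 z0 / a, n.G 0 x0 z0 V0 / a, n.g 0 x0 V0, a * n.be, a * n.k⟩

theorem rt_g1_eqns_cite : True := by
  have := @RtTest.g1sub.eq_1
  have := @RtPoly.g1rec.eq_1
  trivial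

theorem rt_g1_sub_x (τ : RtTest) (w p : RtRow) (a f' : ℝ) (n' : RtPoly) :
    (τ.g1sub w a f' n').x p = a⁻¹ • (τ.x p - τ.x w) := by
  ext <;>
  · simp only [RtTest.x, RtTest.g1sub, Prod.smul_fst, Prod.smul_snd, Prod.fst_sub, Prod.snd_sub, smul_eq_mul, mul_inv]
    ring

theorem rt_g1_sub_V (τ : RtTest) (w p : RtRow) (a f' : ℝ) (n' : RtPoly) :
    (τ.g1sub w a f' n').V p = a⁻¹ • (τ.V p - τ.V w) := by
  ext <;>
  · simp only [RtTest.V, RtTest.g1sub, Prod.smul_fst, Prod.smul_snd, Prod.fst_sub, Prod.snd_sub, smul_eq_mul, mul_inv]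
    ring

theorem rt_g1_sub_z (τ : RtTest) (hl : τ.l ≠ 0) (hr : τ.r ≠ 0) (w p : RtRow) (a f' : ℝ) (n' : RtPoly) :
    (τ.g1sub w a f' n').z p = (τ.z p - τ.z w - 2 * rtIp (τ.V w) (τ.x p - τ.x w)) / a ^ 2 := by
  by_cases ha : a = 0
  · subst ha
    simp [RtTest.z, RtTest.g1sub]
  simp only [RtTest.z, RtTest.x, RtTest.V, RtTest.g1sub, rtIp, Prod.smul_fst, Prod.smul_snd, Prod.fst_sub, Prod.snd_sub, smul_eq_mul]
  field_simp
  ring

theorem rt_g1_rec_disc (n : RtPoly) {a : ℝ} (ha : a ≠ 0) (x0 : ℝ × ℝ) (z0 : ℝ) (V0 : ℝ × ℝ) :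
    (n.g1rec a x0 z0 V0).disc = n.disc := by
  have h := rt_disc_identity n 0 x0 z0 V0
  simp only [RtPoly.disc, RtPoly.g1rec]
  rw [h]
  simp only [RtPoly.disc]
  field_simp
  ring

theorem rt_g1_rec_F (n : RtPoly) {a : ℝ} (ha : a ≠ 0) (x0 : ℝ × ℝ) (z0 : ℝ) (V0 x' : ℝ × ℝ) (z' : ℝ) :
    (n.g1rec a x0 z0 V0).F 0 x' z' = n.F 0 (x0 + a • x') (z0 + 2 * a * rtIp V0 x' + a ^ 2 * z') / a := by
  simp only [RtPoly.F, RtPoly.G, RtPoly.g, RtPoly.g1rec, rtIp, rtSq, Prod.smul_fst, Prod.smul_snd, Prod.fst_add, Prod.snd_add,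
    Prod.fst_sub, Prod.snd_sub, smul_eq_mul]
  field_simp
  ring

theorem rt_g1_rec_G (n : RtPoly) {a : ℝ} (ha : a ≠ 0) (x0 : ℝ × ℝ) (z0 : ℝ) (V0 x' : ℝ × ℝ) (z' : ℝ) (V' : ℝ × ℝ) :
    (n.g1rec a x0 z0 V0).G 0 x' z' V' =
      n.G 0 (x0 + a • x') (z0 + 2 * a * rtIp V0 x' + a ^ 2 * z') (V0 + a • V') / a := by
  simp only [RtPoly.F, RtPoly.G, RtPoly.g, RtPoly.g1rec, rtIp, rtSq, Prod.smul_fst, Prod.smul_snd, Prod.fst_add, Prod.snd_add,
    Prod.fst_sub, Prod.snd_sub, smul_eq_mul]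
  field_simp
  ring

/-- the recentred sub-test of the frame `τ` -/
noncomputable def RtTest.g1re (τ : RtTest) (w : RtRow) (a f' : ℝ) : RtTest :=
  τ.g1sub w a f' (τ.n.g1rec a (τ.x w) (τ.z w) (τ.V w))

theorem rt_g1_re_Fv (τ : RtTest) (hl : τ.l ≠ 0) (hr : τ.r ≠ 0) (w p : RtRow) {a : ℝ} (ha : a ≠ 0) (f' : ℝ) :
    (τ.g1re w a f').Fv p = τ.Fv p / a := by
  unfold RtTest.g1re
  have h1 : (τ.g1sub w a f' (τ.n.g1rec a (τ.x w) (τ.z w) (τ.V w))).n = τ.n.g1rec a (τ.x w) (τ.z w) (τ.V w) := rfl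
  rw [RtTest.Fv, h1, rt_g1_rec_F _ ha, rt_g1_sub_x, rt_g1_sub_z τ hl hr, RtTest.Fv]
  congr 2
  · ext <;> simp only [Prod.fst_add, Prod.snd_add, Prod.smul_fst, Prod.smul_snd, Prod.fst_sub, Prod.snd_sub, smul_eq_mul] <;>
      field_simp <;> ring
  · simp only [rtIp, Prod.smul_fst, Prod.smul_snd, Prod.fst_sub, Prod.snd_sub, smul_eq_mul]
    field_simp
    ring

theorem rt_g1_re_Gv (τ : RtTest) (hl : τ.l ≠ 0) (hr : τ.r ≠ 0) (w p : RtRow) {a : ℝ} (ha : a ≠ 0) (f' : ℝ) :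
    (τ.g1re w a f').Gv p = τ.Gv p / a := by
  unfold RtTest.g1re
  have h1 : (τ.g1sub w a f' (τ.n.g1rec a (τ.x w) (τ.z w) (τ.V w))).n = τ.n.g1rec a (τ.x w) (τ.z w) (τ.V w) := rfl
  rw [RtTest.Gv, h1, rt_g1_rec_G _ ha, rt_g1_sub_x, rt_g1_sub_z τ hl hr, rt_g1_sub_V, RtTest.Gv]
  congr 2
  · ext <;> simp only [Prod.fst_add, Prod.snd_add, Prod.smul_fst, Prod.smul_snd, Prod.fst_sub, Prod.snd_sub, smul_eq_mul] <;>
      field_simp <;> ring
  · simp only [rtIp, Prod.smul_fst, Prod.smul_snd, Prod.fst_sub, Prod.snd_sub, smul_eq_mul]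
    field_simp
    ring
  · ext <;> simp only [Prod.fst_add, Prod.snd_add, Prod.smul_fst, Prod.smul_snd, Prod.fst_sub, Prod.snd_sub, smul_eq_mul] <;>
      field_simp <;> ring

end Claimed.Agent.R256
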