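import Claimed.Agent.R256.Rt.G1Cells

/-!
# Row 256, folder Rt, file G1Main: THE COVERING THEOREM G1 (Lemma rt:covering, 07 l.157-182)      (helper18; prefix `rt_g1_`)
An isotropic floor grid of mesh `h = a²/(5M)` in the five normalised coordinates, one witness per nonempty cell.
`f ≤ 1/M²`: `a = 1/M`, the recentred test `τ.g1re w (1/M) (M² f)`;   `f > 1/M²`: `a = 1`, round tests.   `C = 40` for every `η`.
-/

set_option autoImplicit false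

namespace Claimed.Agent.R256

open scoped BigOperators

/-- admissibility of a recentred sub-test -/
theorem rt_g1_re_adm (τ : RtTest) (hl : 0 < τ.l) (hr : 0 < τ.r) (hd : τ.n.disc = 1) (w : RtRow) {a f' M' : ℝ} (ha : 0 < a)
    (hf0 : 0 < f') (hf1 : f' ≤ 1) (hF : |τ.Fv w| ≤ 100 * M' * a) (hG : |τ.Gv w| ≤ 100 * M' * a)
    (hg : rtSq (τ.n.g 0 (τ.x w) (τ.V w)) ≤ (100 * M') ^ 2) (hb : |a * τ.n.be| ≤ 100 * M') (hk : |a * τ.n.k| ≤ 100 * M') :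
    (τ.g1re w a f').Adm M' := by
  refine ⟨hl, mul_pos ha hr, hf0, hf1, ?_, ?_, ?_, hg, hb, hk⟩
  · exact (rt_g1_rec_disc τ.n ha.ne' _ _ _).trans hd
  · show |τ.n.F 0 (τ.x w) (τ.z w) / a| ≤ 100 * M'
    rw [abs_div, abs_of_pos ha, div_le_iff₀ ha]
    exact hF
  · show |τ.n.G 0 (τ.x w) (τ.z w) (τ.V w) / a| ≤ 100 * M'
    rw [abs_div, abs_of_pos ha, div_le_iff₀ ha]
    exact hG

theorem rt_g1_box_mono (τ : RtTest) {M M' : ℝ} (h0 : 0 ≤ M) (h : M ≤ M') : τ.box M ⊆ τ.box M' := by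
  rintro p ⟨h1, h2, h3⟩
  have : M ^ 2 ≤ M' ^ 2 := pow_le_pow_left₀ h0 h 2
  exact ⟨h1.trans this, h2.trans h, h3.trans this⟩

/-- membership in a recentred sub-test -/
theorem rt_g1_re_set (τ : RtTest) (hl : τ.l ≠ 0) (hr : τ.r ≠ 0) (w p : RtRow) {a f' M' : ℝ} (ha : 0 < a) (hM' : 1 ≤ M')
    (hbox : p ∈ (τ.g1re w a f').box 1) (hF : |τ.Fv p| ≤ a * (M' * f')) (hG : |τ.Gv p| ≤ a * (M' * f')) :
    p ∈ (τ.g1re w a f').set M' := by
  refine ⟨rt_g1_box_mono _ zero_le_one hM' hbox, ?_, ?_⟩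
  · rw [rt_g1_re_Fv τ hl hr w p ha.ne', abs_div, abs_of_pos ha, div_le_iff₀ ha]
    have : (τ.g1re w a f').f = f' := rfl
    rw [this]
    linarith
  · rw [rt_g1_re_Gv τ hl hr w p ha.ne', abs_div, abs_of_pos ha, div_le_iff₀ ha]
    have : (τ.g1re w a f').f = f' := rfl
    rw [this]
    linarith

/-- the grid count -/
theorem rt_g1_count {M a : ℝ} (hM : 2 ≤ M) (k : ℕ) (ha : 5 * M ^ 2 / a ^ 2 ≤ 5 * M ^ k) :
    (2 * ((⌈M / (a ^ 2 / (5 * M))⌉ : ℤ) : ℝ) + 1) ^ 5 ≤ M ^ (5 * (k + 4)) := by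
  have hM0 : 0 < M := by linarith
  have e : M / (a ^ 2 / (5 * M)) = 5 * M ^ 2 / a ^ 2 := by
    by_cases h0 : a = 0
    · subst h0; simp
    · field_simp
  rw [e]
  have h1 : ((⌈5 * M ^ 2 / a ^ 2⌉ : ℤ) : ℝ) < 5 * M ^ 2 / a ^ 2 + 1 := Int.ceil_lt_add_one _
  have hk1 : 1 ≤ M ^ k := one_le_pow₀ (by linarith)
  have h16 : (16 : ℝ) ≤ M ^ 4 := by
    calc (16 : ℝ) = 2 ^ 4 := by norm_num
      _ ≤ M ^ 4 := pow_le_pow_left₀ (by norm_num) hM 4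
  have h0 : 0 ≤ 5 * M ^ 2 / a ^ 2 := by positivity
  have h0' : (0 : ℝ) ≤ ((⌈5 * M ^ 2 / a ^ 2⌉ : ℤ) : ℝ) := by
    exact_mod_cast Int.ceil_nonneg h0
  have h2 : 2 * ((⌈5 * M ^ 2 / a ^ 2⌉ : ℤ) : ℝ) + 1 ≤ M ^ (k + 4) := by
    calc 2 * ((⌈5 * M ^ 2 / a ^ 2⌉ : ℤ) : ℝ) + 1 ≤ 2 * (5 * M ^ k + 1) + 1 := by linarith
      _ ≤ 16 * M ^ k := by linarith
      _ ≤ M ^ 4 * M ^ k := mul_le_mul_of_nonneg_right h16 (by positivity)
      _ = M ^ (k + 4) := by ring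
  calc (2 * ((⌈5 * M ^ 2 / a ^ 2⌉ : ℤ) : ℝ) + 1) ^ 5 ≤ (M ^ (k + 4)) ^ 5 := pow_le_pow_left₀ (by positivity) h2 5
    _ = M ^ (5 * (k + 4)) := by rw [← pow_mul]; ring_nf

/-- **G1** with `C = 40` -/
theorem rt_g1_main (η : ℝ) (h0 : 0 < η) (h1 : η < 1) :
    ∃ C : ℝ, 0 < C ∧ ∀ (M : ℝ) (τ : RtTest), 2 ≤ M → τ.Adm M → RtCover (τ.set M) τ.l τ.unc η (M ^ C * τ.w η) := by
  refine ⟨40, by norm_num, ?_⟩
  intro M τ hM hτ
  have hM0 : 0 < M := by linarith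
  have hM1 : 1 ≤ M := by linarith
  have hl := hτ.l_pos
  have hr := hτ.r_pos
  have hf := hτ.f_pos
  have hw0 : 0 < τ.w η := τ.w_pos hτ η
  have hC : M ^ (40 : ℝ) = M ^ (40 : ℕ) := by
    rw [← Real.rpow_natCast]; norm_num
  rw [hC]
  have hη : 0 < 1 - η := by linarith
  -- general scheme
  have scheme : ∀ (a W0 : ℝ) (k : ℕ), 0 < a → a ≤ 1 → 5 * M ^ 2 / a ^ 2 ≤ 5 * M ^ k → 0 ≤ W0 →
      (∀ w ∈ τ.set M, RtCover {p | p ∈ τ.set M ∧ rtG1Key τ (a ^ 2 / (5 * M)) p = rtG1Key τ (a ^ 2 / (5 * M)) w}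
        τ.l τ.unc η W0) → RtCover (τ.set M) τ.l τ.unc η (M ^ (5 * (k + 4)) * W0) := by
    intro a W0 k ha ha1 hk hW0 hcell
    have hh : 0 < a ^ 2 / (5 * M) := by positivity
    have hG : (0 : ℤ) ≤ ⌈M / (a ^ 2 / (5 * M))⌉ := Int.ceil_nonneg (by positivity)
    have := rt_g1_cells (τ.set M) (rtG1Key τ (a ^ 2 / (5 * M))) (rtG1Idx ⌈M / (a ^ 2 / (5 * M))⌉)
      (fun p hp => rt_g1_key_mem τ hM0.le hh hp.1) τ.l τ.unc η W0 hW0 hcell
    refine this.mono (le_refl _) le_rfl ?_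
    rw [rt_g1_idx_card _ hG]
    exact mul_le_mul_of_nonneg_right (rt_g1_count hM k hk) hW0
  have mesh1 : ∀ a : ℝ, 0 < a → a ^ 2 / (5 * M) * (1 + 4 * M) ≤ a ^ 2 := by
    intro a ha
    rw [div_mul_eq_mul_div, div_le_iff₀ (by positivity)]
    have : 0 < a ^ 2 := by positivity
    nlinarith
  have mesh2 : ∀ a : ℝ, 0 < a → a ≤ 1 → 2 * (a ^ 2 / (5 * M)) ^ 2 ≤ a ^ 2 := by
    intro a ha ha1
    have h2 : a ^ 2 / (5 * M) ≤ a ^ 2 / 10 := by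
      apply div_le_div_of_nonneg_left (by positivity) (by norm_num) (by linarith)
    have h3 : 0 ≤ a ^ 2 / (5 * M) := by positivity
    have h4 : a ^ 2 ≤ 1 := by nlinarith
    have h5 : 0 < a ^ 2 := by positivity
    nlinarith
  by_cases hcase : τ.f ≤ 1 / M ^ 2
  · -- thin case
    have hM2f : M ^ 2 * τ.f ≤ 1 := by
      rw [le_div_iff₀ (by positivity)] at hcase
      linarith
    have ha : 0 < M⁻¹ := by positivity
    have ha1 : M⁻¹ ≤ 1 := inv_le_one_of_one_le₀ hM1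
    have hf' : 0 < M ^ 2 * τ.f := by positivity
    have hcov := scheme M⁻¹ (τ.w η) 4 ha ha1 (le_of_eq (by field_simp)) hw0.le ?_
    · exact hcov
    intro w hw
    obtain ⟨hwb, hwF, hwG⟩ := hw
    obtain ⟨bc, bd, bal, bbe, bk⟩ := hτ.bd
    have hMf : M * τ.f ≤ M⁻¹ := by
      rw [← one_div, le_div_iff₀ hM0]
      nlinarith
    have hadm : (τ.g1re w M⁻¹ (M ^ 2 * τ.f)).Adm 1 := by
      refine rt_g1_re_adm τ hl hr hτ.disc w ha hf' hM2f ?_ ?_ ?_ ?_ ?_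
      · calc |τ.Fv w| ≤ M * τ.f := hwF
          _ ≤ M⁻¹ := hMf
          _ ≤ 100 * 1 * M⁻¹ := by linarith
      · calc |τ.Gv w| ≤ M * τ.f := hwG
          _ ≤ M⁻¹ := hMf
          _ ≤ 100 * 1 * M⁻¹ := by linarith
      · have hid := rt_disc_identity τ.n 0 (τ.x w) (τ.z w) (τ.V w)
        rw [hid, hτ.disc]
        have e1 : |4 * (τ.n.be + τ.n.k * 0) * τ.n.G 0 (τ.x w) (τ.z w) (τ.V w)| ≤ 4 * (100 * M) * (M * τ.f) := by
          rw [mul_zero, add_zero, abs_mul, abs_mul, abs_of_pos (by norm_num : (0 : ℝ) < 4)]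
          exact mul_le_mul (mul_le_mul_of_nonneg_left bbe (by norm_num)) hwG (abs_nonneg _) (by positivity)
        have e2 : |4 * τ.n.k * τ.n.F 0 (τ.x w) (τ.z w)| ≤ 4 * (100 * M) * (M * τ.f) := by
          rw [abs_mul, abs_mul, abs_of_pos (by norm_num : (0 : ℝ) < 4)]
          exact mul_le_mul (mul_le_mul_of_nonneg_left bk (by norm_num)) hwF (abs_nonneg _) (by positivity)
        have e3 := (abs_le.1 e1).2
        have e4 := (abs_le.1 e2).1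
        nlinarith
      · rw [abs_mul, abs_of_pos ha, inv_mul_le_iff₀ hM0]
        linarith
      · rw [abs_mul, abs_of_pos ha, inv_mul_le_iff₀ hM0]
        linarith
    have hsingle := rt_g1_single (S := {p | p ∈ τ.set M ∧ rtG1Key τ (M⁻¹ ^ 2 / (5 * M)) p = rtG1Key τ (M⁻¹ ^ 2 / (5 * M)) w})
      (τ.g1re w M⁻¹ (M ^ 2 * τ.f)) hadm (u := τ.unc) (η := η) ?_ ?_
    · refine hsingle.mono (le_refl _) le_rfl ?_
      -- weight
      show (M⁻¹ * τ.r) ^ 4 * (M ^ 2 * τ.f) ^ (1 - η) ≤ τ.r ^ 4 * τ.f ^ (1 - η)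
      rw [Real.mul_rpow (by positivity) hf.le]
      have e5 : (M ^ 2) ^ (1 - η) ≤ M ^ 2 := by
        calc (M ^ 2) ^ (1 - η) ≤ (M ^ 2) ^ (1 : ℝ) :=
              Real.rpow_le_rpow_of_exponent_le (one_le_pow₀ hM1) (by linarith)
          _ = M ^ 2 := Real.rpow_one _
      have e6 : 0 < τ.f ^ (1 - η) := Real.rpow_pos_of_pos hf _
      have e7 : (M⁻¹ * τ.r) ^ 4 * M ^ 2 ≤ τ.r ^ 4 := by
        have : (M⁻¹ * τ.r) ^ 4 * M ^ 2 = τ.r ^ 4 / M ^ 2 := by field_simp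
        rw [this]
        exact div_le_self (by positivity) (one_le_pow₀ hM1)
      calc (M⁻¹ * τ.r) ^ 4 * ((M ^ 2) ^ (1 - η) * τ.f ^ (1 - η))
          ≤ (M⁻¹ * τ.r) ^ 4 * (M ^ 2 * τ.f ^ (1 - η)) := by gcongr
        _ = ((M⁻¹ * τ.r) ^ 4 * M ^ 2) * τ.f ^ (1 - η) := by ring
        _ ≤ τ.r ^ 4 * τ.f ^ (1 - η) := mul_le_mul_of_nonneg_right e7 e6.le
    · show τ.r * τ.f ≤ M⁻¹ * τ.r * (M ^ 2 * τ.f)
      have : M⁻¹ * τ.r * (M ^ 2 * τ.f) = M * (τ.r * τ.f) := by field_simp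
      rw [this]
      have : 0 < τ.r * τ.f := by positivity
      nlinarith
    · rintro p ⟨⟨hpb, hpF, hpG⟩, hkey⟩
      have hbox := rt_g1_cell_box τ hl.ne' hr.ne' hM0.le (by positivity : 0 < M⁻¹ ^ 2 / (5 * M)) ha (mesh1 _ ha) (mesh2 _ ha ha1)
        hwb hkey (M ^ 2 * τ.f) (τ.n.g1rec M⁻¹ (τ.x w) (τ.z w) (τ.V w))
      have e8 : M⁻¹ * (1 * (M ^ 2 * τ.f)) = M * τ.f := by field_simp
      exact rt_g1_re_set τ hl.ne' hr.ne' w p ha le_rfl hbox (by rw [e8]; exact hpF) (by rw [e8]; exact hpG)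
  · -- thick case
    push Not at hcase
    have hcov := scheme 1 (M ^ 2 * τ.w η) 2 one_pos le_rfl (le_of_eq (by simp)) (by positivity) ?_
    · refine hcov.mono (le_refl _) le_rfl ?_
      have : M ^ (5 * (2 + 4)) * (M ^ 2 * τ.w η) = M ^ 32 * τ.w η := by ring
      rw [this]
      exact mul_le_mul_of_nonneg_right (pow_le_pow_right₀ hM1 (by norm_num)) hw0.le
    intro w hw
    have hadm : (rtRound τ.l (1 * τ.r) w.A w.b w.y).Adm 1 := rt_round_adm hl (by linarith) _ _ _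
    have hsingle := rt_g1_single (S := {p | p ∈ τ.set M ∧ rtG1Key τ (1 ^ 2 / (5 * M)) p = rtG1Key τ (1 ^ 2 / (5 * M)) w})
      (rtRound τ.l (1 * τ.r) w.A w.b w.y) hadm (u := τ.unc) (η := η) ?_ ?_
    · refine hsingle.mono (le_refl _) le_rfl ?_
      show (1 * τ.r) ^ 4 * (1 : ℝ) ^ (1 - η) ≤ M ^ 2 * (τ.r ^ 4 * τ.f ^ (1 - η))
      rw [Real.one_rpow, one_mul, mul_one]
      have e1 : (1 / M ^ 2) ^ (1 - η) ≤ τ.f ^ (1 - η) := Real.rpow_le_rpow (by positivity) hcase.le hη.le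
      have e2 : 1 / M ^ 2 ≤ (1 / M ^ 2) ^ (1 - η) := by
        calc 1 / M ^ 2 = (1 / M ^ 2) ^ (1 : ℝ) := (Real.rpow_one _).symm
          _ ≤ (1 / M ^ 2) ^ (1 - η) := Real.rpow_le_rpow_of_exponent_ge (by positivity)
              (by rw [div_le_one (by positivity)]; exact one_le_pow₀ hM1) (by linarith)
      have e3 : 1 ≤ M ^ 2 * τ.f ^ (1 - η) := by
        have := e2.trans e1
        rw [div_le_iff₀ (by positivity)] at this
        linarith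
      have e4 : 0 < τ.r ^ 4 := by positivity
      nlinarith
    · show τ.r * τ.f ≤ 1 * τ.r * 1
      have := hτ.f_le
      nlinarith
    · rintro p ⟨⟨hpb, hpF, hpG⟩, hkey⟩
      rw [rt_round_set _ _ _ _ _ zero_le_one]
      exact rt_g1_cell_box τ hl.ne' hr.ne' hM0.le (by positivity : 0 < (1 : ℝ) ^ 2 / (5 * M)) one_pos (mesh1 _ one_pos)
        (mesh2 _ one_pos le_rfl) hw.1 hkey 1 rtLin

end Claimed.Agent.R256
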