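import Claimed.Agent.R256.Rt.G2Norm

/-!
# Row 256, folder Rt, file G2Caps: THE PLANAR COUNTING LEMMA (unit RT-G2)      (architect helper18; prefix `rt_g2_`)      CONTRACT
Mathlib only.   `h(V) = d + α·V + β|V|²` (`RtPoly.g2h`), `|∇h|² = |α + 2βV|² = (|α|² - 4βd) + 4β h(V)`.   If `|α|² - 4βd ≥ 1 - 400κ` then the sublevel set `{|V| ≤ R, |h| ≤ ε}` meets at most `10⁵ R³ (ε + κ + a)/a²` cells of side `a`.
* `rtG2Cell a V = (⌊V.1/a⌋, ⌊V.2/a⌋)`,   `rtG2Pt a i = (a i.1, a i.2)` the corner of the cell.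
Every `sorry` is a leaf `L-256-RT-G2-*`.  Statements are frozen (a FALSE statement: one line to helper18); auxiliary lemmas (prefix `rt_g2_`) directly above your theorem; edit only your block.
-/

set_option autoImplicit false

namespace Claimed.Agent.R256

open scoped BigOperators

/-- the cell of side `a` of a plane vector -/
noncomputable def rtG2Cell (a : ℝ) (V : ℝ × ℝ) : ℤ × ℤ := (⌊V.1 / a⌋, ⌊V.2 / a⌋)

/-- the corner of a cell -/
def rtG2Pt (a : ℝ) (i : ℤ × ℤ) : ℝ × ℝ := (a * (i.1 : ℝ), a * (i.2 : ℝ))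

theorem rt_g2_caps_eqns_cite : True := by
  have := @rtG2Cell.eq_1
  have := @rtG2Pt.eq_1
  trivial

/-! ## LEAF L-256-RT-G2-Q0 : cells      (~80 l.) -/

theorem rt_g2_floor_rem {a : ℝ} (ha : 0 < a) (s : ℝ) : 0 ≤ s - a * (⌊s / a⌋ : ℝ) ∧ s - a * (⌊s / a⌋ : ℝ) ≤ a := by
  have h1 := Int.floor_le (s / a)
  have h2 := (Int.lt_floor_add_one (s / a)).le
  rw [le_div_iff₀ ha] at h1
  rw [div_le_iff₀ ha] at h2
  constructor <;> nlinarith

/-- `0 ≤ V.j - a ⌊V.j/a⌋ < a` (`Int.floor_le`, `Int.lt_floor_add_one`), `rt_g2_sq_coord`. -/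
theorem rt_g2_cell_near {a : ℝ} (ha : 0 < a) (V : ℝ × ℝ) : rtSq (V - rtG2Pt a (rtG2Cell a V)) ≤ 2 * a ^ 2 := by
  obtain ⟨a1, a2⟩ := rt_g2_floor_rem ha V.1
  obtain ⟨b1, b2⟩ := rt_g2_floor_rem ha V.2
  show (V.1 - a * (⌊V.1 / a⌋ : ℝ)) ^ 2 + (V.2 - a * (⌊V.2 / a⌋ : ℝ)) ^ 2 ≤ 2 * a ^ 2
  have := pow_le_pow_left₀ a1 a2 2
  have := pow_le_pow_left₀ b1 b2 2
  linarith

/-- `rt_g1_floor_close`, `rt_g2_sq_coord`. -/
theorem rt_g2_cell_close {a : ℝ} (ha : 0 < a) {V V' : ℝ × ℝ} (h : rtG2Cell a V = rtG2Cell a V') : rtSq (V - V') ≤ 2 * a ^ 2 := by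
  have h1 : ⌊V.1 / a⌋ = ⌊V'.1 / a⌋ := congrArg Prod.fst h
  have h2 : ⌊V.2 / a⌋ = ⌊V'.2 / a⌋ := congrArg Prod.snd h
  have c1 := rt_g1_floor_close ha h1
  have c2 := rt_g1_floor_close ha h2
  show (V.1 - V'.1) ^ 2 + (V.2 - V'.2) ^ 2 ≤ 2 * a ^ 2
  have := sq_le_sq' (abs_le.1 c1).1 (abs_le.1 c1).2
  have := sq_le_sq' (abs_le.1 c2).1 (abs_le.1 c2).2
  linarith

/-- the cells which meet the disc of radius `B`: `rt_g1_floor_mem`, `rt_g1_abs_fst/_snd`. -/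
theorem rt_g2_cell_mem {a B : ℝ} (ha : 0 < a) (hB : 0 ≤ B) {V : ℝ × ℝ} (h : rtSq V ≤ B ^ 2) :
    rtG2Cell a V ∈ Finset.Icc (-⌈B / a⌉) ⌈B / a⌉ ×ˢ Finset.Icc (-⌈B / a⌉) ⌈B / a⌉ := by
  exact Finset.mem_product.2 ⟨rt_g1_floor_mem ha (rt_g1_abs_fst hB h), rt_g1_floor_mem ha (rt_g1_abs_snd hB h)⟩

/-! ## LEAF L-256-RT-G2-Q1 : one direction      (~250 l.) -/

/-- a quadratic polynomial `q(s) = A s² + B s + C`:  `q(s') - q(s) = (s' - s)(q'(s) + q'(s'))/2`; if `q' ≥ 1/2` at both points (or `≤ -1/2` at both) and `|q| ≤ e` at both then `|s' - s| ≤ 4 e`. -/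
theorem rt_g2_quad_diam {A B C e s s' : ℝ} (h1 : |A * s ^ 2 + B * s + C| ≤ e) (h2 : |A * s' ^ 2 + B * s' + C| ≤ e)
    (hd : (1 / 2 ≤ 2 * A * s + B ∧ 1 / 2 ≤ 2 * A * s' + B) ∨ (2 * A * s + B ≤ -(1 / 2) ∧ 2 * A * s' + B ≤ -(1 / 2))) : |s' - s| ≤ 4 * e := by
  obtain ⟨D, hD⟩ : ∃ D : ℝ, D = ((2 * A * s + B) + (2 * A * s' + B)) / 2 := ⟨_, rfl⟩
  have hq : (A * s' ^ 2 + B * s' + C) - (A * s ^ 2 + B * s + C) = (s' - s) * D := by
    rw [hD]
    ring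
  have h3 : |(s' - s) * D| ≤ 2 * e := by
    rw [← hq]
    have := abs_sub (A * s' ^ 2 + B * s' + C) (A * s ^ 2 + B * s + C)
    linarith
  rw [abs_mul] at h3
  have h4 : 1 / 2 ≤ |D| := by
    rcases hd with ⟨d1, d2⟩ | ⟨d1, d2⟩
    · exact le_trans (by rw [hD]; linarith) (le_abs_self D)
    · exact le_trans (by rw [hD]; linarith) (neg_le_abs D)
  nlinarith [abs_nonneg (s' - s)]

/-- the number of integers between two floors -/
theorem rt_g2_card_floor (x y : ℝ) (hxy : x ≤ y) : ((Finset.Icc ⌊x⌋ ⌊y⌋).card : ℝ) ≤ y - x + 2 := by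
  rw [Int.card_Icc]
  have h0 : 0 ≤ ⌊y⌋ + 1 - ⌊x⌋ := by
    have := Int.floor_le_floor hxy
    omega
  have h2 : (((⌊y⌋ + 1 - ⌊x⌋).toNat : ℤ) : ℝ) = ((⌊y⌋ + 1 - ⌊x⌋ : ℤ) : ℝ) := by rw [Int.toNat_of_nonneg h0]
  rw [Int.cast_natCast] at h2
  rw [h2]
  push_cast
  have := Int.floor_le y
  have := Int.lt_floor_add_one x
  linarith

/-- the restriction of `h` to the lower side of the row of `V` -/
theorem rt_g2_row_q (n : RtPoly) {R ε a : ℝ} (hb : |n.be| ≤ 100) (hal : rtSq n.al ≤ 100 ^ 2) (hR : 1 ≤ R) (ha : 0 < a) (ha1 : a ≤ 1)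
    {V : ℝ × ℝ} (hV : rtSq V ≤ R ^ 2) (hh : |n.g2h V| ≤ ε) :
    |n.be * V.1 ^ 2 + n.al.1 * V.1 + (n.d + n.al.2 * (a * (⌊V.2 / a⌋ : ℝ)) + n.be * (a * (⌊V.2 / a⌋ : ℝ)) ^ 2)| ≤ ε + 500 * R * a := by
  obtain ⟨y, hy⟩ : ∃ y : ℝ, y = a * (⌊V.2 / a⌋ : ℝ) := ⟨_, rfl⟩
  obtain ⟨t1, t2⟩ := rt_g2_floor_rem ha V.2
  rw [← hy] at t1 t2 ⊢
  have hV2 := rt_g1_abs_snd (by linarith) hV
  have ha2 := rt_g1_abs_snd (by norm_num) hal
  have e : n.be * V.1 ^ 2 + n.al.1 * V.1 + (n.d + n.al.2 * y + n.be * y ^ 2) = n.g2h V - (V.2 - y) * (n.al.2 + n.be * (V.2 + y)) := by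
    unfold RtPoly.g2h rtIp rtSq
    ring
  rw [e]
  have h1 : |V.2 + y| ≤ 2 * R + 1 := by
    rw [abs_le] at hV2 ⊢
    constructor <;> linarith [hV2.1, hV2.2]
  have h2 : |n.al.2 + n.be * (V.2 + y)| ≤ 100 + 100 * (2 * R + 1) := by
    refine (abs_add_le _ _).trans ?_
    rw [abs_mul]
    have := mul_le_mul hb h1 (abs_nonneg _) (by norm_num)
    linarith
  have h3 : |(V.2 - y) * (n.al.2 + n.be * (V.2 + y))| ≤ a * (100 + 100 * (2 * R + 1)) := by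
    rw [abs_mul, abs_of_nonneg t1]
    exact mul_le_mul t2 h2 (abs_nonneg _) ha.le
  have h4 := abs_sub (n.g2h V) ((V.2 - y) * (n.al.2 + n.be * (V.2 + y)))
  nlinarith

/-- two points of the sublevel set in the same row and with the same sign of `∂₁h` -/
theorem rt_g2_row_pair (n : RtPoly) {R ε a : ℝ} (hb : |n.be| ≤ 100) (hal : rtSq n.al ≤ 100 ^ 2) (hR : 1 ≤ R) (ha : 0 < a) (ha1 : a ≤ 1)
    {V V' : ℝ × ℝ} (hV : rtSq V ≤ R ^ 2) (hh : |n.g2h V| ≤ ε) (hV' : rtSq V' ≤ R ^ 2) (hh' : |n.g2h V'| ≤ ε) (hj : ⌊V.2 / a⌋ = ⌊V'.2 / a⌋)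
    (hd : (1 / 2 ≤ n.al.1 + 2 * n.be * V.1 ∧ 1 / 2 ≤ n.al.1 + 2 * n.be * V'.1) ∨ (n.al.1 + 2 * n.be * V.1 ≤ -(1 / 2) ∧ n.al.1 + 2 * n.be * V'.1 ≤ -(1 / 2))) :
    |V'.1 - V.1| ≤ 4 * (ε + 500 * R * a) := by
  have q1 := rt_g2_row_q n hb hal hR ha ha1 hV hh
  have q2 := rt_g2_row_q n hb hal hR ha ha1 hV' hh'
  rw [← hj] at q2
  refine rt_g2_quad_diam q1 q2 ?_
  rcases hd with ⟨d1, d2⟩ | ⟨d1, d2⟩
  · left
    constructor <;> linarith
  · right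
    constructor <;> linarith

/-- **the cells of the points with `|∂₁h| ≥ 1/2`.**   **PLAN.**  `G = ⌈R/a⌉`, rows `j ∈ Icc (-G) G` (`rt_g1_floor_mem`), `e' = ε + 500 R a`.   For a row `j` and a sign `σ ∈ {+,-}` let `P(j,σ)` = the set of the `V` with `rtSq V ≤ R²`, `|h V| ≤ ε`, `⌊V.2/a⌋ = j`, `σ ∂₁h(V) ≥ 1/2`
(`∂₁h(V) = α.1 + 2β V.1`).   With `y₀ = a j` and `q(s) = h(s, y₀) = β s² + α.1 s + (d + α.2 y₀ + β y₀²)`:  `h(V) - q(V.1) = (V.2 - y₀)(α.2 + β (V.2 + y₀))`, `0 ≤ V.2 - y₀ ≤ a`, `|V.2|, |y₀| ≤ R + 1`:  `|q(V.1)| ≤ ε + a (100 + 100 (2R + 2)) ≤ e'` (`R ≥ 1`).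
`rt_g2_quad_diam`: any two points of `P(j,σ)` have `|V.1 - V'.1| ≤ 4 e'`.   If `P(j,σ) ≠ ∅` choose `V⁰` in it: all first indices lie in `Icc ⌊(V⁰.1 - 4e')/a⌋ ⌊(V⁰.1 + 4e')/a⌋`, of cardinality `≤ 8 e'/a + 2` (`Int.card_Icc`, `Int.floor_le`, `Int.lt_floor_add_one`).
`caps = ` union over `j`, `σ` of `(that interval) ×ˢ {j}` (`Finset.biUnion`, `Finset.card_biUnion_le`);  number of rows `2G + 1 ≤ 2R/a + 3 ≤ 5R/a`. -/
theorem rt_g2_caps_dir (n : RtPoly) {R ε a : ℝ} (hd : |n.d| ≤ 100) (hb : |n.be| ≤ 100) (hal : rtSq n.al ≤ 100 ^ 2) (hR : 1 ≤ R) (hε : 0 ≤ ε) (ha : 0 < a) (ha1 : a ≤ 1) :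
    ∃ caps : Finset (ℤ × ℤ), (caps.card : ℝ) ≤ 5 * R / a * (2 * (8 * (ε + 500 * R * a) / a + 2)) ∧
      ∀ V : ℝ × ℝ, rtSq V ≤ R ^ 2 → |n.g2h V| ≤ ε → 1 / 2 ≤ |n.al.1 + 2 * n.be * V.1| → rtG2Cell a V ∈ caps := by
  classical
  obtain ⟨e', he'⟩ : ∃ e' : ℝ, e' = ε + 500 * R * a := ⟨_, rfl⟩
  have he0 : 0 ≤ e' := by rw [he']; positivity
  rw [← he']
  obtain ⟨G, hG⟩ : ∃ G : ℤ, G = ⌈R / a⌉ := ⟨_, rfl⟩
  obtain ⟨P, hP⟩ : ∃ P : ℤ × Bool → Set (ℝ × ℝ), P = fun x => {V | rtSq V ≤ R ^ 2 ∧ |n.g2h V| ≤ ε ∧ ⌊V.2 / a⌋ = x.1 ∧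
      (if x.2 then 1 / 2 ≤ n.al.1 + 2 * n.be * V.1 else n.al.1 + 2 * n.be * V.1 ≤ -(1 / 2))} := ⟨_, rfl⟩
  obtain ⟨I, hI⟩ : ∃ I : ℤ × Bool → Finset ℤ, I = fun x => if hne : (P x).Nonempty then
      Finset.Icc ⌊(hne.some.1 - 4 * e') / a⌋ ⌊(hne.some.1 + 4 * e') / a⌋ else ∅ := ⟨_, rfl⟩
  have hIc : ∀ x, ((I x ×ˢ ({x.1} : Finset ℤ)).card : ℝ) ≤ 8 * e' / a + 2 := by
    intro x
    rw [Finset.card_product, Finset.card_singleton, mul_one, hI]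
    by_cases hne : (P x).Nonempty
    · simp only [dif_pos hne]
      refine (rt_g2_card_floor _ _ (by gcongr; linarith)).trans (le_of_eq ?_)
      field_simp
      ring
    · simp only [dif_neg hne, Finset.card_empty, Nat.cast_zero]
      positivity
  refine ⟨(Finset.Icc (-G) G ×ˢ (Finset.univ : Finset Bool)).biUnion (fun x => I x ×ˢ ({x.1} : Finset ℤ)), ?_, ?_⟩
  · have h1 : (((Finset.Icc (-G) G ×ˢ (Finset.univ : Finset Bool)).biUnion (fun x => I x ×ˢ ({x.1} : Finset ℤ))).card : ℝ)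
        ≤ ∑ x ∈ Finset.Icc (-G) G ×ˢ (Finset.univ : Finset Bool), ((I x ×ˢ ({x.1} : Finset ℤ)).card : ℝ) := by
      exact_mod_cast Finset.card_biUnion_le
    refine h1.trans ((Finset.sum_le_card_nsmul _ _ _ (fun x _ => hIc x)).trans ?_)
    rw [nsmul_eq_mul, Finset.card_product, Finset.card_univ, Fintype.card_bool]
    push_cast
    have hG0 : 0 ≤ G := by
      rw [hG]
      exact Int.ceil_nonneg (by positivity)
    rw [rt_g1_card_Icc G hG0]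
    have hRa : 1 ≤ R / a := by
      rw [le_div_iff₀ ha]
      linarith
    have hG1 : (G : ℝ) ≤ R / a + 1 := by
      rw [hG]
      exact (Int.ceil_lt_add_one _).le
    have h2 : 2 * (G : ℝ) + 1 ≤ 5 * R / a := by
      have : 5 * R / a = 5 * (R / a) := by ring
      rw [this]
      linarith
    have h3 : 0 ≤ 8 * e' / a + 2 := by positivity
    calc (2 * (G : ℝ) + 1) * 2 * (8 * e' / a + 2) = (2 * (G : ℝ) + 1) * (2 * (8 * e' / a + 2)) := by ring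
      _ ≤ 5 * R / a * (2 * (8 * e' / a + 2)) := by gcongr
  · intro V hV hh hder
    obtain ⟨σ, hσ⟩ : ∃ σ : Bool, (if σ then 1 / 2 ≤ n.al.1 + 2 * n.be * V.1 else n.al.1 + 2 * n.be * V.1 ≤ -(1 / 2)) := by
      rcases le_abs.1 hder with h1 | h1
      · exact ⟨true, by simpa using h1⟩
      · exact ⟨false, by simp only [Bool.false_eq_true, if_false]; linarith⟩
    have hVP : V ∈ P (⌊V.2 / a⌋, σ) := by
      rw [hP]
      exact ⟨hV, hh, rfl, hσ⟩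
    have hne : (P (⌊V.2 / a⌋, σ)).Nonempty := ⟨V, hVP⟩
    rw [Finset.mem_biUnion]
    refine ⟨(⌊V.2 / a⌋, σ), Finset.mem_product.2 ⟨?_, Finset.mem_univ _⟩, ?_⟩
    · rw [hG]
      exact rt_g1_floor_mem ha (rt_g1_abs_snd (by linarith) hV)
    · refine Finset.mem_product.2 ⟨?_, Finset.mem_singleton.2 rfl⟩
      have hs := hne.some_mem
      obtain ⟨W, hW⟩ : ∃ W, W = hne.some := ⟨_, rfl⟩
      have hIx : I (⌊V.2 / a⌋, σ) = Finset.Icc ⌊(W.1 - 4 * e') / a⌋ ⌊(W.1 + 4 * e') / a⌋ := by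
        rw [hI, hW]
        simp only [dif_pos hne]
      rw [← hW, hP] at hs
      obtain ⟨w1, w2, w3, w4⟩ := hs
      have w3' : ⌊W.2 / a⌋ = ⌊V.2 / a⌋ := w3
      have hpair : |V.1 - W.1| ≤ 4 * e' := by
        rw [he']
        refine rt_g2_row_pair n hb hal hR ha ha1 w1 w2 hV hh w3' ?_
        cases σ
        · right
          exact ⟨by simpa using w4, by simpa using hσ⟩
        · left
          exact ⟨by simpa using w4, by simpa using hσ⟩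
      rw [hIx, Finset.mem_Icc]
      rw [abs_le] at hpair
      constructor
      · exact Int.floor_le_floor (by gcongr; linarith [hpair.1])
      · exact Int.floor_le_floor (by gcongr; linarith [hpair.2])

/-! ## LEAF L-256-RT-G2-Q2 : the planar counting lemma      (~200 l.) -/

/-- **PLAN.**  CASE 1: `1/(800 R) ≤ ε + κ + a`.   `caps` = all cells of the disc (`rt_g2_cell_mem`, `B = R`), cardinality `(2⌈R/a⌉ + 1)² ≤ (5R/a)² = 25 R²/a² ≤ 25 R² · 800 R (ε + κ + a)/a²` (`rt_g1_card_Icc`, `Finset.card_product`).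
CASE 2: `ε + κ + a < 1/(800 R) ≤ 1/800`.   IDENTITY `(α.1 + 2βV.1)² + (α.2 + 2βV.2)² = (rtSq α - 4βd) + 4β h(V)` (ring), so for `|h V| ≤ ε`: `≥ 1 - 400κ - 400ε ≥ 1/2`, and one of the two partial derivatives has modulus `≥ 1/2`.
`caps = caps₁ ∪ swap(caps₂)`: `caps₁` from `rt_g2_caps_dir n`;  `caps₂` from `rt_g2_caps_dir` for the polynomial with `α` swapped (`⟨n.c, n.d, n.al.swap, n.be, n.k⟩`), applied to `V.swap` (`g2h`, `rtSq` are symmetric), `Finset.image Prod.swap` (`Finset.card_image_le`).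
Cardinality `≤ 2 · (5R/a)(2(8(ε + 500Ra)/a + 2)) = (160 R ε + 80000 R² a + 40 R a)/a² ≤ 10⁵ R³ (ε + κ + a)/a²`. -/
theorem rt_g2_caps (n : RtPoly) {κ R ε a : ℝ} (hd : |n.d| ≤ 100) (hb : |n.be| ≤ 100) (hal : rtSq n.al ≤ 100 ^ 2) (hκ : 0 ≤ κ)
    (hdisc : 1 - 400 * κ ≤ rtSq n.al - 4 * n.be * n.d) (hR : 1 ≤ R) (hε : 0 ≤ ε) (ha : 0 < a) (ha1 : a ≤ 1) :
    ∃ caps : Finset (ℤ × ℤ), (caps.card : ℝ) ≤ 100000 * R ^ 3 * (ε + κ + a) / a ^ 2 ∧
      ∀ V : ℝ × ℝ, rtSq V ≤ R ^ 2 → |n.g2h V| ≤ ε → rtG2Cell a V ∈ caps := by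
  classical
  have hR0 : 0 < R := by linarith
  have hRa : 1 ≤ R / a := by
    rw [le_div_iff₀ ha]
    linarith
  by_cases hc : 1 / (800 * R) ≤ ε + κ + a
  · obtain ⟨G, hG⟩ : ∃ G : ℤ, G = ⌈R / a⌉ := ⟨_, rfl⟩
    refine ⟨Finset.Icc (-G) G ×ˢ Finset.Icc (-G) G, ?_, ?_⟩
    · have hG0 : 0 ≤ G := by
        rw [hG]
        exact Int.ceil_nonneg (by positivity)
      rw [Finset.card_product]
      push_cast
      rw [rt_g1_card_Icc G hG0]
      have hG1 : (G : ℝ) ≤ R / a + 1 := by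
        rw [hG]
        exact (Int.ceil_lt_add_one _).le
      have hG0' : (0 : ℝ) ≤ (G : ℝ) := by exact_mod_cast hG0
      have h2 : 2 * (G : ℝ) + 1 ≤ 5 * (R / a) := by linarith
      have h3 : (2 * (G : ℝ) + 1) * (2 * (G : ℝ) + 1) ≤ (5 * (R / a)) * (5 * (R / a)) := mul_le_mul h2 h2 (by positivity) (by positivity)
      refine h3.trans ?_
      rw [div_le_iff₀ (by positivity)] at hc
      rw [le_div_iff₀ (by positivity)]
      have e : 5 * (R / a) * (5 * (R / a)) * a ^ 2 = 25 * R ^ 2 := by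
        field_simp
        ring
      rw [e]
      have : 25 * R ^ 2 * 1 ≤ 25 * R ^ 2 * ((ε + κ + a) * (800 * R)) := mul_le_mul_of_nonneg_left hc (by positivity)
      have h5 : 0 ≤ R ^ 3 * (ε + κ + a) := by positivity
      nlinarith
    · intro V hV _
      rw [hG]
      exact rt_g2_cell_mem ha hR0.le hV
  · push Not at hc
    have hc' : ε + κ + a < 1 / 800 := by
      refine lt_of_lt_of_le hc ?_
      rw [div_le_div_iff₀ (by positivity) (by norm_num)]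
      linarith
    obtain ⟨n', hn'⟩ : ∃ n' : RtPoly, n' = ⟨n.c, n.d, n.al.swap, n.be, n.k⟩ := ⟨_, rfl⟩
    have hal' : rtSq n'.al ≤ 100 ^ 2 := by
      rw [hn']
      show n.al.2 ^ 2 + n.al.1 ^ 2 ≤ 100 ^ 2
      have : rtSq n.al = n.al.1 ^ 2 + n.al.2 ^ 2 := rfl
      linarith
    obtain ⟨c1, k1, m1⟩ := rt_g2_caps_dir n hd hb hal hR hε ha ha1
    obtain ⟨c2, k2, m2⟩ := rt_g2_caps_dir n' (by rw [hn']; exact hd) (by rw [hn']; exact hb) hal' hR hε ha ha1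
    refine ⟨c1 ∪ c2.image Prod.swap, ?_, ?_⟩
    · have h1 : ((c1 ∪ c2.image Prod.swap).card : ℝ) ≤ (c1.card : ℝ) + (c2.card : ℝ) := by
        have a1 := Finset.card_union_le c1 (c2.image Prod.swap)
        have a2 : (c2.image Prod.swap).card ≤ c2.card := Finset.card_image_le
        exact_mod_cast a1.trans (by omega)
      refine (h1.trans (add_le_add k1 k2)).trans ?_
      rw [le_div_iff₀ (by positivity)]
      have e : (5 * R / a * (2 * (8 * (ε + 500 * R * a) / a + 2)) + 5 * R / a * (2 * (8 * (ε + 500 * R * a) / a + 2))) * a ^ 2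
          = 160 * R * ε + 80000 * R ^ 2 * a + 40 * R * a := by
        field_simp
        ring
      rw [e]
      have p1 : R ≤ R ^ 3 := by
        calc R = R ^ 1 := (pow_one R).symm
          _ ≤ R ^ 3 := pow_le_pow_right₀ hR (by norm_num)
      have p2 : R ^ 2 ≤ R ^ 3 := pow_le_pow_right₀ hR (by norm_num)
      have q1 : R * ε ≤ R ^ 3 * ε := mul_le_mul_of_nonneg_right p1 hε
      have q2 : R ^ 2 * a ≤ R ^ 3 * a := mul_le_mul_of_nonneg_right p2 ha.le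
      have q3 : R * a ≤ R ^ 3 * a := mul_le_mul_of_nonneg_right p1 ha.le
      have q4 : 0 ≤ R ^ 3 * κ := by positivity
      have q5 : 0 ≤ R ^ 3 * ε := by positivity
      have q6 : 0 ≤ R ^ 3 * a := by positivity
      nlinarith
    · intro V hV hh
      have hid : (n.al.1 + 2 * n.be * V.1) ^ 2 + (n.al.2 + 2 * n.be * V.2) ^ 2 = (rtSq n.al - 4 * n.be * n.d) + 4 * n.be * n.g2h V := by
        unfold RtPoly.g2h rtIp rtSq
        ring
      have hbh : |n.be * n.g2h V| ≤ 100 * ε := by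
        rw [abs_mul]
        exact mul_le_mul hb hh (abs_nonneg _) (by norm_num)
      have hsum : 1 / 2 ≤ (n.al.1 + 2 * n.be * V.1) ^ 2 + (n.al.2 + 2 * n.be * V.2) ^ 2 := by
        rw [hid]
        have := (abs_le.1 hbh).1
        linarith
      rw [Finset.mem_union]
      by_cases h1 : 1 / 2 ≤ |n.al.1 + 2 * n.be * V.1|
      · left
        exact m1 V hV hh h1
      · right
        push Not at h1
        have h2 : 1 / 2 ≤ |n.al.2 + 2 * n.be * V.2| := by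
          by_contra hcon
          push Not at hcon
          have s1 : (n.al.1 + 2 * n.be * V.1) ^ 2 < (1 / 2) ^ 2 := by
            rw [← sq_abs]
            exact pow_lt_pow_left₀ h1 (abs_nonneg _) (by norm_num)
          have s2 : (n.al.2 + 2 * n.be * V.2) ^ 2 < (1 / 2) ^ 2 := by
            rw [← sq_abs]
            exact pow_lt_pow_left₀ hcon (abs_nonneg _) (by norm_num)
          nlinarith
        have hVs : rtSq V.swap ≤ R ^ 2 := by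
          show V.2 ^ 2 + V.1 ^ 2 ≤ R ^ 2
          have : rtSq V = V.1 ^ 2 + V.2 ^ 2 := rfl
          linarith
        have hhs : |n'.g2h V.swap| ≤ ε := by
          have : n'.g2h V.swap = n.g2h V := by
            rw [hn']
            unfold RtPoly.g2h rtIp rtSq
            simp only [Prod.fst_swap, Prod.snd_swap]
            ring
          rw [this]
          exact hh
        have h3 := m2 V.swap hVs hhs (by rw [hn']; exact h2)
        rw [Finset.mem_image]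
        exact ⟨_, h3, rfl⟩

end Claimed.Agent.R256
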