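import Claimed.Agent.R256.Rt.G2Cell

/-!
# Row 256, folder Rt, file G2Case: THE CELLS AND THE FIVE CASES (unit RT-G2)      (architect helper18; prefix `rt_g2_`)      CONTRACT
Mathlib only.   Notation: `f = τ.f`, `r = τ.r`, `κ = |τ.n.k| ≤ 100`, `d1 = D/r ≤ f √δ`, `T = τ.w η = r⁴ f^(1-η)`, `M₂ = 1300 M²`, `C₁` = the exponent of G1 (hypothesis `RtG1P η C₁`).
* `rt_g2_thin`  : `f ≤ a`, `a κ ≤ δ`: a cell lies in the `M₂`-enlarged recentred test `Φ.g1re w a (f/a)`, which is `M₂`-admissible; G1 covers it: weight `M₂^C₁ (a r)⁴ (f/a)^(1-η)`, uncertainty `r f ≥ D`.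
* `rt_g2_thick` : `d1 ≤ a`: a cell lies in ONE round test of width `a r` (uncertainty `a r ≥ D`), weight `(a r)⁴`.
* CASES.  A1: `κ ≤ √δ`, `f ≤ √δ`, `a = √δ`, thin, anchor 0.     A2: `√δ < κ`, `f ≤ δ/κ`, `a = δ/κ`, thin, anchor 2.     B1: `κ ≤ √δ < f`, `a = √δ`, thick, anchor 0.
          B2a: `√δ < κ ≤ f`, `δ/κ < f`, `a = max (δ/κ) d1`, thick, anchor 0.     B2b: `√δ < κ`, `δ/κ < f < κ`, `a = max (δ/κ) d1`, thick, anchor 2.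
Every `sorry` is a leaf `L-256-RT-G2-*`.  Statements are frozen (a FALSE statement: one line to helper18); auxiliary lemmas (prefix `rt_g2_`) directly above your theorem; edit only your block.
-/

set_option autoImplicit false

namespace Claimed.Agent.R256

open scoped BigOperators

/-- the conclusion of G1 with the exponent `C₁` -/
def RtG1P (η C₁ : ℝ) : Prop :=
  ∀ (M : ℝ) (τ : RtTest), 2 ≤ M → τ.Adm M → RtCover (τ.set M) τ.l τ.unc η (M ^ C₁ * τ.w η)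

/-! ## LEAF L-256-RT-G2-C1 : thin cells      (~250 l.) -/

theorem rt_g2_theta {M l δ t D : ℝ} {τ : RtTest} (H : RtG2H M l δ t D τ) : 0 ≤ t / l ∧ t / l ≤ 1 :=
  ⟨div_nonneg H.t0 H.l0.le, (div_le_one H.l0).2 H.tl⟩

/-- scalar part of the admissibility of the recentred test -/
theorem rt_g2_thin_sc {M₂ f a κ δ θ be k Fv Gv : ℝ} (hM₂ : 5200 ≤ M₂) (hf0 : 0 < f) (hf1 : f ≤ 1) (ha : 0 < a) (ha1 : a ≤ 1) (hfa : f ≤ a) (hδ : 0 < δ)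
    (hθ0 : 0 ≤ θ) (hθ1 : θ ≤ 1) (hbe : |be| ≤ 100) (hκ : |k| = κ) (haκ : a * κ ≤ δ) (hF : |Fv| ≤ M₂ * f) (hG : |Gv| ≤ M₂ * f) :
    1 + 4 * (be - k * θ / δ + k / δ * 0) * Gv - 4 * (k / δ) * Fv ≤ (100 * M₂) ^ 2 ∧ |a * (be - k * θ / δ)| ≤ 100 * M₂ ∧ |a * (k / δ)| ≤ 100 * M₂ := by
  have hκ0 : 0 ≤ κ := hκ ▸ abs_nonneg k
  have hM0 : 0 < M₂ := by linarith
  have hq : |k / δ| = κ / δ := by rw [abs_div, hκ, abs_of_pos hδ]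
  have hq0 : 0 ≤ κ / δ := by positivity
  have haq : a * (κ / δ) ≤ 1 := by
    rw [← mul_div_assoc, div_le_one hδ]
    exact haκ
  have hfq : f * (κ / δ) ≤ 1 := (mul_le_mul_of_nonneg_right hfa hq0).trans haq
  have hkθ : |k * θ / δ| ≤ κ / δ := by
    have : k * θ / δ = k / δ * θ := by ring
    rw [this, abs_mul, hq, abs_of_nonneg hθ0]
    nlinarith
  have hbt : |be - k * θ / δ| ≤ 100 + κ / δ := (abs_sub _ _).trans (add_le_add hbe hkθ)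
  have t1 : |(be - k * θ / δ) * Gv| ≤ 101 * M₂ := by
    rw [abs_mul]
    calc |be - k * θ / δ| * |Gv| ≤ (100 + κ / δ) * (M₂ * f) := mul_le_mul hbt hG (abs_nonneg _) (by positivity)
      _ = 100 * M₂ * f + M₂ * (f * (κ / δ)) := by ring
      _ ≤ 100 * M₂ * 1 + M₂ * 1 := by
          refine add_le_add (mul_le_mul_of_nonneg_left hf1 (by positivity)) (mul_le_mul_of_nonneg_left hfq hM0.le)
      _ = 101 * M₂ := by ring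
  have t2 : |k / δ * Fv| ≤ M₂ := by
    rw [abs_mul, hq]
    calc κ / δ * |Fv| ≤ κ / δ * (M₂ * f) := mul_le_mul_of_nonneg_left hF hq0
      _ = M₂ * (f * (κ / δ)) := by ring
      _ ≤ M₂ * 1 := mul_le_mul_of_nonneg_left hfq hM0.le
      _ = M₂ := mul_one _
  refine ⟨?_, ?_, ?_⟩
  · have e : 1 + 4 * (be - k * θ / δ + k / δ * 0) * Gv - 4 * (k / δ) * Fv = 1 + 4 * ((be - k * θ / δ) * Gv) - 4 * (k / δ * Fv) := by ring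
    rw [e]
    have := (abs_le.1 t1).2
    have := (abs_le.1 t2).1
    nlinarith
  · rw [abs_mul, abs_of_pos ha]
    calc a * |be - k * θ / δ| ≤ a * (100 + κ / δ) := mul_le_mul_of_nonneg_left hbt ha.le
      _ = 100 * a + a * (κ / δ) := by ring
      _ ≤ 100 * M₂ := by nlinarith
  · rw [abs_mul, abs_of_pos ha, hq]
    nlinarith

/-- **PLAN.**  `Φ = τ.g2par l δ t` (`Φ.l = l`, `Φ.r = τ.r`, `Φ.n = τ.n.g2par δ θ`, by `rfl`), `θ = t/l ∈ [0,1]`, `M₂ = 1300 M²`, `σ = Φ.g1re w a (f/a)`.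
ADMISSIBILITY `σ.Adm M₂` by `rt_g1_re_adm Φ H.l0 r_pos (rt_g2_par_disc .. ▸ disc = 1) w ha`:   `0 < f/a ≤ 1`;   `|Φ.Fv w|, |Φ.Gv w| ≤ M₂ f ≤ M₂ a ≤ 100 M₂ a` (`rt_g2_FG`);
  `rtSq (g) = 1 + 4 β̃ G̃ - 4 k̃ F̃` (`rt_disc_identity Φ.n 0 ..`, `u = 0`), `β̃ = β - kθ/δ`, `k̃ = k/δ`, `|β̃| ≤ 100 + κ/δ`, and `(κ/δ) f ≤ (κ/δ) a ≤ 1`:  `rtSq g ≤ 1 + 4 (100 f + 1) M₂ + 4 M₂ ≤ 409 M₂ ≤ (100 M₂)²`;
  `|a β̃| ≤ 100 a + a κ/δ ≤ 101`,  `|a k̃| = a κ/δ ≤ 1`.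
INCLUSION: for `p` in the cell `rt_g2_cell_box` gives `p ∈ σ.box 1` (`g1re` unfolds to `g1sub`), `rt_g1_re_set Φ .. (M' := M₂)` with `a (M₂ (f/a)) = M₂ f` and `rt_g2_FG`.
`hG1 M₂ σ` (`2 ≤ M₂`):  `RtCover (σ.set M₂) l (a r (f/a)) η (M₂^C₁ σ.w η)`;   `σ.unc = a r (f/a) = r f ≥ D` (`H.unc`, `√δ ≤ 1`);   `RtCover.mono`. -/
theorem rt_g2_thin {M l δ t D : ℝ} {τ : RtTest} (H : RtG2H M l δ t D τ) {η C₁ a : ℝ} (hG1 : RtG1P η C₁) (ha : 0 < a) (ha1 : a ≤ 1) (hfa : τ.f ≤ a)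
    (haκ : a * |τ.n.k| ≤ δ) (anc : ℤ × ℤ → ℝ) (w : RtRow) (hw : w ∈ rtG2S M l δ t D τ) :
    RtCover {p | p ∈ rtG2S M l δ t D τ ∧ rtG2Key (τ.g2par l δ t) (t / l) a anc p = rtG2Key (τ.g2par l δ t) (t / l) a anc w} l D η
      ((1300 * M ^ 2) ^ C₁ * ((a * τ.r) ^ 4 * (τ.f / a) ^ (1 - η))) := by
  have hr := H.adm.r_pos
  have hf0 := H.adm.f_pos
  have hf1 := H.adm.f_le
  have hM := H.M2
  obtain ⟨hθ0, hθ1⟩ := rt_g2_theta H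
  have hb : τ.n.Bd 100 := by simpa using H.adm.bd
  have hM₂ : 5200 ≤ 1300 * M ^ 2 := by nlinarith
  obtain ⟨hFw, hGw⟩ := rt_g2_FG H hw
  have hdisc : (τ.g2par l δ t).n.disc = 1 := (rt_g2_par_disc τ.n H.δ0.ne' (t / l)).trans H.adm.disc
  obtain ⟨s1, s2, s3⟩ := rt_g2_thin_sc (θ := t / l) (be := τ.n.be) (k := τ.n.k) hM₂ hf0 hf1 ha ha1 hfa H.δ0 hθ0 hθ1 hb.2.2.2.1 rfl haκ hFw hGw
  have hfa' : 1300 * M ^ 2 * τ.f ≤ 100 * (1300 * M ^ 2) * a := by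
    have : 1300 * M ^ 2 * τ.f ≤ 1300 * M ^ 2 * a := mul_le_mul_of_nonneg_left hfa (by positivity)
    have h0 : 0 ≤ 1300 * M ^ 2 * a := by positivity
    linarith
  have hadm : ((τ.g2par l δ t).g1re w a (τ.f / a)).Adm (1300 * M ^ 2) := by
    refine rt_g1_re_adm (τ.g2par l δ t) H.l0 hr hdisc w ha (div_pos hf0 ha) ((div_le_one ha).2 hfa) (hFw.trans hfa') (hGw.trans hfa') ?_ s2 s3
    rw [rt_disc_identity (τ.g2par l δ t).n 0 _ ((τ.g2par l δ t).z w), hdisc]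
    exact s1
  have hcov := hG1 (1300 * M ^ 2) _ (by linarith) hadm
  refine RtCover.mono hcov ?_ ?_ le_rfl
  · rintro p ⟨hp, hk⟩
    obtain ⟨hFp, hGp⟩ := rt_g2_FG H hp
    have e : a * (1300 * M ^ 2 * (τ.f / a)) = 1300 * M ^ 2 * τ.f := by
      field_simp
    refine rt_g1_re_set (τ.g2par l δ t) H.l0.ne' hr.ne' w p ha (by linarith) ?_ (by rw [e]; exact hFp) (by rw [e]; exact hGp)
    exact rt_g2_cell_box (τ.g2par l δ t) H.l0.ne' hr.ne' hθ0 hθ1 ha anc hk _ _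
  · show D ≤ a * τ.r * (τ.f / a)
    have e : a * τ.r * (τ.f / a) = τ.r * τ.f := by
      field_simp
    rw [e]
    have h1 : Real.sqrt δ ≤ 1 := Real.sqrt_le_one.2 H.δ1
    have h2 : τ.unc * Real.sqrt δ ≤ τ.unc * 1 := mul_le_mul_of_nonneg_left h1 (mul_nonneg hr.le hf0.le)
    have h3 := H.unc
    have h4 : τ.unc = τ.r * τ.f := rfl
    linarith

/-! ## LEAF L-256-RT-G2-C2 : thick cells      (~100 l.) -/

/-- **PLAN.**  `σ = rtRound l (a r) w.A w.b w.y = Φ.g1sub w a 1 rtLin` (by `rfl`);  `rt_round_adm`;  `σ.unc = a r · 1 ≥ D` (`hda`, `r > 0`);  `rt_round_set`, `rt_g2_cell_box`;  `rt_g1_single`;  `σ.w η = (a r)⁴ · 1^(1-η)`. -/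
theorem rt_g2_thick {M l δ t D : ℝ} {τ : RtTest} (H : RtG2H M l δ t D τ) {η a : ℝ} (ha : 0 < a) (hda : D / τ.r ≤ a) (anc : ℤ × ℤ → ℝ) (w : RtRow) :
    RtCover {p | p ∈ rtG2S M l δ t D τ ∧ rtG2Key (τ.g2par l δ t) (t / l) a anc p = rtG2Key (τ.g2par l δ t) (t / l) a anc w} l D η
      ((a * τ.r) ^ 4) := by
  have hr := H.adm.r_pos
  obtain ⟨hθ0, hθ1⟩ := rt_g2_theta H
  have hadm : (rtRound l (a * τ.r) w.A w.b w.y).Adm 1 := rt_round_adm H.l0 (mul_pos ha hr) _ _ _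
  have hunc : D ≤ (rtRound l (a * τ.r) w.A w.b w.y).unc := by
    show D ≤ a * τ.r * 1
    rw [mul_one]
    exact (div_le_iff₀ hr).1 hda
  have hsub : {p | p ∈ rtG2S M l δ t D τ ∧ rtG2Key (τ.g2par l δ t) (t / l) a anc p = rtG2Key (τ.g2par l δ t) (t / l) a anc w}
      ⊆ (rtRound l (a * τ.r) w.A w.b w.y).set 1 := by
    rintro p ⟨-, hk⟩
    rw [rt_round_set _ _ _ _ _ zero_le_one]
    exact rt_g2_cell_box (τ.g2par l δ t) H.l0.ne' hr.ne' hθ0 hθ1 ha anc hk 1 rtLin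
  have h := rt_g1_single (rtRound l (a * τ.r) w.A w.b w.y) hadm (η := η) hunc hsub
  have e : (rtRound l (a * τ.r) w.A w.b w.y).w η = (a * τ.r) ^ 4 := by
    show (a * τ.r) ^ 4 * (1 : ℝ) ^ (1 - η) = _
    rw [Real.one_rpow, mul_one]
  rw [e] at h
  exact h

/-! ## LEAF L-256-RT-G2-X0 : the two coverings with explicit ranges      (~150 l.) -/

/-- powers of `M ≥ 2` dominate the constants -/
theorem rt_g2_Mpow {M : ℝ} (hM : 2 ≤ M) (n : ℕ) : (2 : ℝ) ^ n ≤ M ^ n := pow_le_pow_left₀ (by norm_num) hM n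

/-- anchor `0`:  `rt_g2_cover` with `anc = 0`, `Rg = (3+2M)δ + M d1² + a(δ + M d1) ≤ (3+2M)δ + (100+2M)a²` (`rt_g2_rg0`, `rt_g2_fact`; unfold `rtG2Ht`);   `4Rg/a² + 3 ≤ (12+8M) δ/a² + 403 + 8M ≤ M^11 (δ/a² + 1)`. -/
theorem rt_g2_cover0 {M l δ t D : ℝ} {τ : RtTest} (H : RtG2H M l δ t D τ) {η a W0 : ℝ} (ha : 0 < a) (ha1 : a ≤ 1) (hδa : δ ≤ 100 * a) (hda : D / τ.r ≤ a) (hW0 : 0 ≤ W0)
    (hcell : ∀ w ∈ rtG2S M l δ t D τ, RtCover {p | p ∈ rtG2S M l δ t D τ ∧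
      rtG2Key (τ.g2par l δ t) (t / l) a (fun _ => 0) p = rtG2Key (τ.g2par l δ t) (t / l) a (fun _ => 0) w} l D η W0) :
    RtCover (rtG2S M l δ t D τ) l D η (M ^ 70 * ((τ.f + |τ.n.k| + a) / a ^ 2) * (δ / a ^ 2 + 1) * W0) := by
  obtain ⟨d0, -, -⟩ := rt_g2_d1 H
  have hM := H.M2
  have hδ := H.δ0
  have hM0 : 0 < M := by linarith
  set d1 := D / τ.r with hd1
  have hRg0 : 0 ≤ (3 + 2 * M) * δ + M * d1 ^ 2 + a * (δ + M * d1) := by positivity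
  have hRg : ∀ p ∈ rtG2S M l δ t D τ, |rtG2Ht (τ.g2par l δ t) (t / l) a (fun _ => 0) p| ≤ (3 + 2 * M) * δ + M * d1 ^ 2 + a * (δ + M * d1) :=
    fun p hp => rt_g2_rg0 hM hδ d0 ha (rt_g2_fact H hp)
  refine (rt_g2_cover H ha ha1 hδa hda (fun _ => 0) hRg0 hRg hW0 hcell).mono subset_rfl le_rfl ?_
  have hX : 0 ≤ (τ.f + |τ.n.k| + a) / a ^ 2 := by
    have := H.adm.f_pos
    positivity
  have ha2 : 0 < a ^ 2 := by positivity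
  have hRgle : (3 + 2 * M) * δ + M * d1 ^ 2 + a * (δ + M * d1) ≤ (3 + 2 * M) * δ + (100 + 2 * M) * a ^ 2 := by
    have h1 : d1 ^ 2 ≤ a ^ 2 := pow_le_pow_left₀ d0 hda 2
    have h2 : M * d1 ^ 2 ≤ M * a ^ 2 := mul_le_mul_of_nonneg_left h1 hM0.le
    have h3 : δ + M * d1 ≤ 100 * a + M * a := add_le_add hδa (mul_le_mul_of_nonneg_left hda hM0.le)
    have h4 : a * (δ + M * d1) ≤ a * (100 * a + M * a) := mul_le_mul_of_nonneg_left h3 ha.le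
    nlinarith
  have hM11 : 403 + 8 * M ≤ M ^ 11 := by
    have h1 : (2:ℝ) ^ 10 ≤ M ^ 10 := rt_g2_Mpow hM 10
    have h2 : M ^ 11 = M ^ 10 * M := by ring
    nlinarith
  have hq : 0 ≤ δ / a ^ 2 := by positivity
  have hkey : 4 * ((3 + 2 * M) * δ + M * d1 ^ 2 + a * (δ + M * d1)) / a ^ 2 + 3 ≤ M ^ 11 * (δ / a ^ 2 + 1) := by
    calc 4 * ((3 + 2 * M) * δ + M * d1 ^ 2 + a * (δ + M * d1)) / a ^ 2 + 3
        ≤ 4 * ((3 + 2 * M) * δ + (100 + 2 * M) * a ^ 2) / a ^ 2 + 3 := by gcongr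
      _ = (12 + 8 * M) * (δ / a ^ 2) + (403 + 8 * M) := by
        field_simp
        ring
      _ ≤ M ^ 11 * (δ / a ^ 2) + M ^ 11 := add_le_add (mul_le_mul_of_nonneg_right (by linarith) hq) hM11
      _ = M ^ 11 * (δ / a ^ 2 + 1) := by ring
  calc M ^ 59 * ((τ.f + |τ.n.k| + a) / a ^ 2) * (4 * ((3 + 2 * M) * δ + M * d1 ^ 2 + a * (δ + M * d1)) / a ^ 2 + 3) * W0
      ≤ M ^ 59 * ((τ.f + |τ.n.k| + a) / a ^ 2) * (M ^ 11 * (δ / a ^ 2 + 1)) * W0 := by gcongr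
    _ = M ^ 70 * ((τ.f + |τ.n.k| + a) / a ^ 2) * (δ / a ^ 2 + 1) * W0 := by ring

/-- anchor `-δ h(V_i)/k`:  `rt_g2_cover` with `anc = rtG2Anc τ.n δ a`, `Rg = 600M²δ(f+a)/κ + a(δ + M d1) ≤ 600M²δ(f+a)/κ + (100+M)a²` (`rt_g2_rg2`);   `4Rg/a² + 3 ≤ 2400 M² δ(f+a)/(κa²) + 403 + 4M ≤ M^14 (δ(f+a)/(κa²) + 1)`. -/
theorem rt_g2_cover2 {M l δ t D : ℝ} {τ : RtTest} (H : RtG2H M l δ t D τ) {η a W0 : ℝ} (hk : τ.n.k ≠ 0) (ha : 0 < a) (ha1 : a ≤ 1) (hδa : δ ≤ 100 * a) (hda : D / τ.r ≤ a)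
    (hW0 : 0 ≤ W0)
    (hcell : ∀ w ∈ rtG2S M l δ t D τ, RtCover {p | p ∈ rtG2S M l δ t D τ ∧
      rtG2Key (τ.g2par l δ t) (t / l) a (rtG2Anc τ.n δ a) p = rtG2Key (τ.g2par l δ t) (t / l) a (rtG2Anc τ.n δ a) w} l D η W0) :
    RtCover (rtG2S M l δ t D τ) l D η (M ^ 73 * ((τ.f + |τ.n.k| + a) / a ^ 2) * (δ * (τ.f + a) / (|τ.n.k| * a ^ 2) + 1) * W0) := by
  obtain ⟨d0, -, -⟩ := rt_g2_d1 H
  have hM := H.M2
  have hδ := H.δ0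
  have hf := H.adm.f_pos
  have hM0 : 0 < M := by linarith
  have hκ : 0 < |τ.n.k| := abs_pos.2 hk
  have hb : τ.n.Bd 100 := by simpa using H.adm.bd
  set d1 := D / τ.r with hd1
  set κ := |τ.n.k| with hκdef
  have hRg0 : 0 ≤ 600 * M ^ 2 * δ * (τ.f + a) / κ + a * (δ + M * d1) := by positivity
  have hRg : ∀ p ∈ rtG2S M l δ t D τ, |rtG2Ht (τ.g2par l δ t) (t / l) a (rtG2Anc τ.n δ a) p| ≤ 600 * M ^ 2 * δ * (τ.f + a) / κ + a * (δ + M * d1) :=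
    fun p hp => rt_g2_rg2 hb hk hM hδ hf.le d0 ha ha1 (rt_g2_fact H hp)
  refine (rt_g2_cover H ha ha1 hδa hda (rtG2Anc τ.n δ a) hRg0 hRg hW0 hcell).mono subset_rfl le_rfl ?_
  have hX : 0 ≤ (τ.f + κ + a) / a ^ 2 := by positivity
  have ha2 : 0 < a ^ 2 := by positivity
  have hRgle : 600 * M ^ 2 * δ * (τ.f + a) / κ + a * (δ + M * d1) ≤ 600 * M ^ 2 * δ * (τ.f + a) / κ + (100 + M) * a ^ 2 := by
    have h3 : δ + M * d1 ≤ 100 * a + M * a := add_le_add hδa (mul_le_mul_of_nonneg_left hda hM0.le)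
    have h4 : a * (δ + M * d1) ≤ a * (100 * a + M * a) := mul_le_mul_of_nonneg_left h3 ha.le
    nlinarith
  have hM14 : 403 + 4 * M ≤ M ^ 14 := by
    have h1 : (2:ℝ) ^ 13 ≤ M ^ 13 := rt_g2_Mpow hM 13
    have h2 : M ^ 14 = M ^ 13 * M := by ring
    nlinarith
  have hM14' : 2400 * M ^ 2 ≤ M ^ 14 := by
    have h1 : (2:ℝ) ^ 12 ≤ M ^ 12 := rt_g2_Mpow hM 12
    have h2 : M ^ 14 = M ^ 12 * M ^ 2 := by ring
    have h3 : 0 < M ^ 2 := by positivity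
    nlinarith
  have hq : 0 ≤ δ * (τ.f + a) / (κ * a ^ 2) := by positivity
  have hkey : 4 * (600 * M ^ 2 * δ * (τ.f + a) / κ + a * (δ + M * d1)) / a ^ 2 + 3 ≤ M ^ 14 * (δ * (τ.f + a) / (κ * a ^ 2) + 1) := by
    calc 4 * (600 * M ^ 2 * δ * (τ.f + a) / κ + a * (δ + M * d1)) / a ^ 2 + 3
        ≤ 4 * (600 * M ^ 2 * δ * (τ.f + a) / κ + (100 + M) * a ^ 2) / a ^ 2 + 3 := by gcongr
      _ = (2400 * M ^ 2) * (δ * (τ.f + a) / (κ * a ^ 2)) + (403 + 4 * M) := by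
        field_simp
        ring
      _ ≤ M ^ 14 * (δ * (τ.f + a) / (κ * a ^ 2)) + M ^ 14 := add_le_add (mul_le_mul_of_nonneg_right hM14' hq) hM14
      _ = M ^ 14 * (δ * (τ.f + a) / (κ * a ^ 2) + 1) := by ring
  calc M ^ 59 * ((τ.f + κ + a) / a ^ 2) * (4 * (600 * M ^ 2 * δ * (τ.f + a) / κ + a * (δ + M * d1)) / a ^ 2 + 3) * W0
      ≤ M ^ 59 * ((τ.f + κ + a) / a ^ 2) * (M ^ 14 * (δ * (τ.f + a) / (κ * a ^ 2) + 1)) * W0 := by gcongr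
    _ = M ^ 73 * ((τ.f + κ + a) / a ^ 2) * (δ * (τ.f + a) / (κ * a ^ 2) + 1) * W0 := by ring

/-! ## LEAF L-256-RT-G2-XA : the thin cases      (~250 l.) -/

/-- `a ≤ a^(1-η)` for `0 < a ≤ 1`, `0 < η` (auxiliary form used by `rt_g2_thin_w`) -/
theorem rt_g2_le_rpow {f η : ℝ} (hf : 0 < f) (hf1 : f ≤ 1) (hη : 0 < η) : f ≤ f ^ (1 - η) := by
  calc f = f ^ (1 : ℝ) := (Real.rpow_one f).symm
    _ ≤ f ^ (1 - η) := Real.rpow_le_rpow_of_exponent_ge hf hf1 (by linarith)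

/-- `(a r)⁴ (f/a)^(1-η) = a^(3+η) r⁴ f^(1-η)`, and `a^(3+η) ≤ a³` for `0 < a ≤ 1`  (`Real.div_rpow`, `Real.rpow_add`, `Real.rpow_natCast`). -/
theorem rt_g2_thin_w {a r f η : ℝ} (ha : 0 < a) (ha1 : a ≤ 1) (hr : 0 < r) (hf : 0 < f) (hη : 0 < η) :
    (a * r) ^ 4 * (f / a) ^ (1 - η) ≤ a ^ 3 * (r ^ 4 * f ^ (1 - η)) := by
  have h1 := rt_g2_le_rpow ha ha1 hη
  have h2 : 0 < a ^ (1 - η) := Real.rpow_pos_of_pos ha _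
  have h3 : 0 < f ^ (1 - η) := Real.rpow_pos_of_pos hf _
  rw [Real.div_rpow hf.le ha.le]
  have h4 : (a * r) ^ 4 * (f ^ (1 - η) / a ^ (1 - η)) = a ^ 3 * (r ^ 4 * f ^ (1 - η)) * (a / a ^ (1 - η)) := by
    field_simp
  rw [h4]
  have h5 : a / a ^ (1 - η) ≤ 1 := (div_le_one h2).2 h1
  have h6 : 0 ≤ a ^ 3 * (r ^ 4 * f ^ (1 - η)) := by positivity
  nlinarith

/-- the square root of `δ` as a width -/
theorem rt_g2_sqrt {M l δ t D : ℝ} {τ : RtTest} (H : RtG2H M l δ t D τ) :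
    0 < Real.sqrt δ ∧ Real.sqrt δ ≤ 1 ∧ Real.sqrt δ ^ 2 = δ ∧ δ ≤ 100 * Real.sqrt δ ∧ D / τ.r ≤ Real.sqrt δ := by
  have h1 : 0 < Real.sqrt δ := Real.sqrt_pos.2 H.δ0
  have h2 : Real.sqrt δ ≤ 1 := Real.sqrt_le_one.2 H.δ1
  have h3 : Real.sqrt δ ^ 2 = δ := Real.sq_sqrt H.δ0.le
  obtain ⟨-, -, h4⟩ := rt_g2_d1 H
  have h5 := H.adm.f_le
  refine ⟨h1, h2, h3, by nlinarith, h4.trans ?_⟩
  nlinarith

/-- **A1.**  `a = √δ` (`a² = δ`, `0 < a ≤ 1`, `δ ≤ a ≤ 100a`, `d1 ≤ f√δ ≤ a`, `a κ ≤ a² = δ`).   `rt_g2_cover0` + `rt_g2_thin`:   `(f + κ + a)/a² ≤ 3/a`, `δ/a² + 1 = 2`, `W0 ≤ M₂^C₁ a³ T` (`rt_g2_thin_w`):   total `≤ 6 M^70 M₂^C₁ a² T ≤ M^73 M₂^C₁ δ T`. -/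
theorem rt_g2_A1 {M l δ t D : ℝ} {τ : RtTest} (H : RtG2H M l δ t D τ) {η C₁ : ℝ} (h0 : 0 < η) (h1 : η < 1) (hG1 : RtG1P η C₁)
    (hκ : |τ.n.k| ≤ Real.sqrt δ) (hf : τ.f ≤ Real.sqrt δ) :
    RtCover (rtG2S M l δ t D τ) l D η (M ^ 90 * (1300 * M ^ 2) ^ C₁ * δ * τ.w η) := by
  obtain ⟨ha, ha1, ha2, hδa, hda⟩ := rt_g2_sqrt H
  have hM := H.M2
  have hM0 : 0 < M := by linarith
  have hf0 := H.adm.f_pos
  have hr0 := H.adm.r_pos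
  set a := Real.sqrt δ with hadef
  set κ := |τ.n.k| with hκdef
  have hκ0 : 0 ≤ κ := abs_nonneg _
  have haκ : a * κ ≤ δ := by
    rw [← ha2]
    nlinarith
  have hP : 0 ≤ (1300 * M ^ 2) ^ C₁ := by positivity
  have hT : 0 < τ.r ^ 4 * τ.f ^ (1 - η) := by positivity
  have hW0 : 0 ≤ (1300 * M ^ 2) ^ C₁ * ((a * τ.r) ^ 4 * (τ.f / a) ^ (1 - η)) := by positivity
  refine (rt_g2_cover0 H ha ha1 hδa hda hW0 fun w hw => rt_g2_thin H hG1 ha ha1 hf haκ (fun _ => 0) w hw).mono subset_rfl le_rfl ?_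
  have hX : (τ.f + κ + a) / a ^ 2 ≤ 3 / a := by
    rw [div_le_div_iff₀ (by positivity) ha]
    nlinarith
  have hq : δ / a ^ 2 + 1 = 2 := by
    rw [ha2, div_self H.δ0.ne']
    norm_num
  have hw := rt_g2_thin_w (η := η) ha ha1 hr0 hf0 h0
  have hM20 : 6 ≤ M ^ 20 := by
    have := rt_g2_Mpow hM 20
    norm_num at this
    linarith
  rw [hq]
  unfold RtTest.w
  calc M ^ 70 * ((τ.f + κ + a) / a ^ 2) * 2 * ((1300 * M ^ 2) ^ C₁ * ((a * τ.r) ^ 4 * (τ.f / a) ^ (1 - η)))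
      ≤ M ^ 70 * (3 / a) * 2 * ((1300 * M ^ 2) ^ C₁ * (a ^ 3 * (τ.r ^ 4 * τ.f ^ (1 - η)))) := by gcongr
    _ = 6 * (M ^ 70 * (1300 * M ^ 2) ^ C₁ * a ^ 2 * (τ.r ^ 4 * τ.f ^ (1 - η))) := by
      field_simp
      ring
    _ ≤ M ^ 20 * (M ^ 70 * (1300 * M ^ 2) ^ C₁ * a ^ 2 * (τ.r ^ 4 * τ.f ^ (1 - η))) := by gcongr
    _ = M ^ 90 * (1300 * M ^ 2) ^ C₁ * δ * (τ.r ^ 4 * τ.f ^ (1 - η)) := by
      rw [ha2]
      ring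

/-- the width `δ/κ` for `√δ < κ` -/
theorem rt_g2_dk {M l δ t D : ℝ} {τ : RtTest} (H : RtG2H M l δ t D τ) (hκ : Real.sqrt δ < |τ.n.k|) :
    0 < |τ.n.k| ∧ |τ.n.k| ≤ 100 ∧ 0 < δ / |τ.n.k| ∧ δ / |τ.n.k| < Real.sqrt δ ∧ δ / |τ.n.k| * |τ.n.k| = δ ∧ δ ≤ 100 * (δ / |τ.n.k|) := by
  obtain ⟨ha, ha1, ha2, -, -⟩ := rt_g2_sqrt H
  have hk0 : 0 < |τ.n.k| := ha.trans hκ
  have hb : τ.n.Bd 100 := by simpa using H.adm.bd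
  have hk100 : |τ.n.k| ≤ 100 := hb.2.2.2.2
  have hδ := H.δ0
  have h1 : δ / |τ.n.k| * |τ.n.k| = δ := div_mul_cancel₀ _ hk0.ne'
  have h2 : 0 < δ / |τ.n.k| := by positivity
  refine ⟨hk0, hk100, h2, ?_, h1, ?_⟩
  · rw [div_lt_iff₀ hk0]
    nlinarith
  · nlinarith

/-- **A2.**  `a = δ/κ` (`κ > √δ > 0`: `a < √δ ≤ 1`, `a κ = δ`, `δ = κ a ≤ 100 a`, `d1 ≤ f ≤ a`).   `rt_g2_cover2` + `rt_g2_thin`:   `f ≤ a ≤ √δ < κ`: `(f + κ + a)/a² ≤ 3κ/a²`;  `δ(f+a)/(κa²) = (f+a)/a ≤ 2`;   total `≤ 9 M^73 M₂^C₁ κ a T = 9 M^73 M₂^C₁ δ T`. -/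
theorem rt_g2_A2 {M l δ t D : ℝ} {τ : RtTest} (H : RtG2H M l δ t D τ) {η C₁ : ℝ} (h0 : 0 < η) (h1 : η < 1) (hG1 : RtG1P η C₁)
    (hκ : Real.sqrt δ < |τ.n.k|) (hf : τ.f ≤ δ / |τ.n.k|) :
    RtCover (rtG2S M l δ t D τ) l D η (M ^ 90 * (1300 * M ^ 2) ^ C₁ * δ * τ.w η) := by
  obtain ⟨hs, hs1, hs2, -, hds⟩ := rt_g2_sqrt H
  obtain ⟨hκ0, hκ100, ha, has, haκ, hδa⟩ := rt_g2_dk H hκ
  obtain ⟨-, -, hd3⟩ := rt_g2_d1 H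
  have hM := H.M2
  have hM0 : 0 < M := by linarith
  have hf0 := H.adm.f_pos
  have hr0 := H.adm.r_pos
  have hk : τ.n.k ≠ 0 := abs_pos.1 hκ0
  set a := δ / |τ.n.k| with hadef
  set κ := |τ.n.k| with hκdef
  have ha1 : a ≤ 1 := has.le.trans hs1
  have hda : D / τ.r ≤ a := by
    refine hd3.trans (le_trans ?_ hf)
    nlinarith
  have hP : 0 ≤ (1300 * M ^ 2) ^ C₁ := by positivity
  have hT : 0 < τ.r ^ 4 * τ.f ^ (1 - η) := by positivity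
  have hW0 : 0 ≤ (1300 * M ^ 2) ^ C₁ * ((a * τ.r) ^ 4 * (τ.f / a) ^ (1 - η)) := by positivity
  refine (rt_g2_cover2 H hk ha ha1 hδa hda hW0 fun w hw => rt_g2_thin H hG1 ha ha1 hf haκ.le (rtG2Anc τ.n δ a) w hw).mono subset_rfl le_rfl ?_
  have hX : (τ.f + κ + a) / a ^ 2 ≤ 3 * κ / a ^ 2 := by
    gcongr
    linarith
  have hq : δ * (τ.f + a) / (κ * a ^ 2) + 1 ≤ 3 := by
    have : δ * (τ.f + a) / (κ * a ^ 2) = (τ.f + a) / a := by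
      rw [← haκ]
      field_simp
    rw [this]
    have : (τ.f + a) / a ≤ 2 := by
      rw [div_le_iff₀ ha]
      linarith
    linarith
  have hw := rt_g2_thin_w (η := η) ha ha1 hr0 hf0 h0
  have hδ := H.δ0
  have hq0 : 0 ≤ δ * (τ.f + a) / (κ * a ^ 2) + 1 := by positivity
  have hM17 : 9 ≤ M ^ 17 := by
    have := rt_g2_Mpow hM 17
    norm_num at this
    linarith
  unfold RtTest.w
  calc M ^ 73 * ((τ.f + κ + a) / a ^ 2) * (δ * (τ.f + a) / (κ * a ^ 2) + 1) * ((1300 * M ^ 2) ^ C₁ * ((a * τ.r) ^ 4 * (τ.f / a) ^ (1 - η)))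
      ≤ M ^ 73 * (3 * κ / a ^ 2) * 3 * ((1300 * M ^ 2) ^ C₁ * (a ^ 3 * (τ.r ^ 4 * τ.f ^ (1 - η)))) := by gcongr
    _ = 9 * (M ^ 73 * (1300 * M ^ 2) ^ C₁ * (a * κ) * (τ.r ^ 4 * τ.f ^ (1 - η))) := by
      field_simp
      ring
    _ ≤ M ^ 17 * (M ^ 73 * (1300 * M ^ 2) ^ C₁ * (a * κ) * (τ.r ^ 4 * τ.f ^ (1 - η))) := by gcongr
    _ = M ^ 90 * (1300 * M ^ 2) ^ C₁ * δ * (τ.r ^ 4 * τ.f ^ (1 - η)) := by
      rw [haκ]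
      ring

/-! ## LEAF L-256-RT-G2-XB : the thick cases      (~300 l.) -/

/-- `f ≤ f^(1-η)` for `0 < f ≤ 1`, `0 < η`. -/
theorem rt_g2_f_le {f η : ℝ} (hf : 0 < f) (hf1 : f ≤ 1) (hη : 0 < η) : f ≤ f ^ (1 - η) := by
  exact rt_g2_le_rpow hf hf1 hη

/-- **B1.**  `a = √δ`.   `rt_g2_cover0` + `rt_g2_thick`:   `κ ≤ a < f`: `(f + κ + a)/a² ≤ 3f/a²`, `δ/a² + 1 = 2`, `W0 = a⁴ r⁴`:   total `≤ 6 M^70 f a² r⁴ = 6 M^70 δ f r⁴ ≤ M^73 δ T` (`rt_g2_f_le`). -/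
theorem rt_g2_B1 {M l δ t D : ℝ} {τ : RtTest} (H : RtG2H M l δ t D τ) {η : ℝ} (h0 : 0 < η) (h1 : η < 1)
    (hκ : |τ.n.k| ≤ Real.sqrt δ) (hf : Real.sqrt δ < τ.f) :
    RtCover (rtG2S M l δ t D τ) l D η (M ^ 90 * δ * τ.w η) := by
  obtain ⟨ha, ha1, ha2, hδa, hda⟩ := rt_g2_sqrt H
  have hM := H.M2
  have hM0 : 0 < M := by linarith
  have hf0 := H.adm.f_pos
  have hr0 := H.adm.r_pos
  set a := Real.sqrt δ with hadef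
  set κ := |τ.n.k| with hκdef
  have hκ0 : 0 ≤ κ := abs_nonneg _
  have hW0 : 0 ≤ (a * τ.r) ^ 4 := by positivity
  refine (rt_g2_cover0 H ha ha1 hδa hda hW0 fun w _ => rt_g2_thick H ha hda (fun _ => 0) w).mono subset_rfl le_rfl ?_
  have hX : (τ.f + κ + a) / a ^ 2 ≤ 3 * τ.f / a ^ 2 := by
    gcongr
    linarith
  have hq : δ / a ^ 2 + 1 = 2 := by
    rw [ha2, div_self H.δ0.ne']
    norm_num
  have hfle := rt_g2_f_le hf0 H.adm.f_le h0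
  have hM20 : 6 ≤ M ^ 20 := by
    have := rt_g2_Mpow hM 20
    norm_num at this
    linarith
  rw [hq]
  unfold RtTest.w
  calc M ^ 70 * ((τ.f + κ + a) / a ^ 2) * 2 * (a * τ.r) ^ 4
      ≤ M ^ 70 * (3 * τ.f / a ^ 2) * 2 * (a * τ.r) ^ 4 := by gcongr
    _ = 6 * (M ^ 70 * a ^ 2 * (τ.r ^ 4 * τ.f)) := by
      field_simp
      ring
    _ ≤ M ^ 20 * (M ^ 70 * a ^ 2 * (τ.r ^ 4 * τ.f ^ (1 - η))) := by gcongr
    _ = M ^ 90 * δ * (τ.r ^ 4 * τ.f ^ (1 - η)) := by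
      rw [ha2]
      ring

/-- the width of the cases B2:  `a = max (δ/κ) d1` satisfies `0 < a ≤ 1`, `δ ≤ 100 a`, `d1 ≤ a`, `a ≤ f`, `a² ≤ δ`, `κ a² ≤ 100 δ f`
(`δ/κ < √δ`, `d1 ≤ f √δ`;   `κ (δ/κ)² = δ (δ/κ) < δ f`,  `κ d1² ≤ 100 f² δ ≤ 100 δ f`). -/
theorem rt_g2_B2_a {M l δ t D : ℝ} {τ : RtTest} (H : RtG2H M l δ t D τ) (hκ : Real.sqrt δ < |τ.n.k|) (hf : δ / |τ.n.k| < τ.f) :
    0 < max (δ / |τ.n.k|) (D / τ.r) ∧ max (δ / |τ.n.k|) (D / τ.r) ≤ 1 ∧ δ ≤ 100 * max (δ / |τ.n.k|) (D / τ.r) ∧ D / τ.r ≤ max (δ / |τ.n.k|) (D / τ.r) ∧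
      max (δ / |τ.n.k|) (D / τ.r) ≤ τ.f ∧ max (δ / |τ.n.k|) (D / τ.r) ^ 2 ≤ δ ∧ |τ.n.k| * max (δ / |τ.n.k|) (D / τ.r) ^ 2 ≤ 100 * δ * τ.f := by
  obtain ⟨hs, hs1, hs2, -, hds⟩ := rt_g2_sqrt H
  obtain ⟨hκ0, hκ100, ha, has, haκ, hδa⟩ := rt_g2_dk H hκ
  obtain ⟨hd0, hd2, hd3⟩ := rt_g2_d1 H
  have hf0 := H.adm.f_pos
  have hf1 := H.adm.f_le
  have hδ := H.δ0
  set b := δ / |τ.n.k| with hbdef
  set d1 := D / τ.r with hd1def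
  set κ := |τ.n.k| with hκdef
  set s := Real.sqrt δ with hsdef
  have hd1f : d1 ≤ τ.f := hd3.trans (by nlinarith)
  refine ⟨lt_max_of_lt_left ha, max_le (has.le.trans hs1) (hds.trans hs1), hδa.trans (by gcongr; exact le_max_left _ _), le_max_right _ _, max_le hf.le hd1f, ?_, ?_⟩
  · rcases max_cases b d1 with ⟨e, -⟩ | ⟨e, -⟩ <;> rw [e]
    · nlinarith
    · nlinarith
  · rcases max_cases b d1 with ⟨e, -⟩ | ⟨e, -⟩ <;> rw [e]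
    · have : κ * b ^ 2 = δ * b := by
        rw [← haκ]
        ring
      rw [this]
      nlinarith
    · have h1 : κ * d1 ^ 2 ≤ 100 * (τ.f ^ 2 * δ) := by
        have : 0 ≤ d1 ^ 2 := by positivity
        nlinarith
      have h2 : τ.f ^ 2 ≤ τ.f := by nlinarith
      nlinarith

/-- **B2a.**  `κ ≤ f`.   `rt_g2_cover0` + `rt_g2_thick`, `a` of `rt_g2_B2_a`:   `(f + κ + a)/a² ≤ 3f/a²`;   total `≤ 3 M^70 f (δ + a²) r⁴ ≤ 6 M^70 δ f r⁴`. -/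
theorem rt_g2_B2a {M l δ t D : ℝ} {τ : RtTest} (H : RtG2H M l δ t D τ) {η : ℝ} (h0 : 0 < η) (h1 : η < 1)
    (hκ : Real.sqrt δ < |τ.n.k|) (hf : δ / |τ.n.k| < τ.f) (hκf : |τ.n.k| ≤ τ.f) :
    RtCover (rtG2S M l δ t D τ) l D η (M ^ 90 * δ * τ.w η) := by
  obtain ⟨ha, ha1, hδa, hda, haf, ha2, -⟩ := rt_g2_B2_a H hκ hf
  have hM := H.M2
  have hM0 : 0 < M := by linarith
  have hf0 := H.adm.f_pos
  have hr0 := H.adm.r_pos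
  have hδ := H.δ0
  set a := max (δ / |τ.n.k|) (D / τ.r) with hadef
  set κ := |τ.n.k| with hκdef
  have hW0 : 0 ≤ (a * τ.r) ^ 4 := by positivity
  refine (rt_g2_cover0 H ha ha1 hδa hda hW0 fun w _ => rt_g2_thick H ha hda (fun _ => 0) w).mono subset_rfl le_rfl ?_
  have hX : (τ.f + κ + a) / a ^ 2 ≤ 3 * τ.f / a ^ 2 := by
    gcongr
    linarith
  have hfle := rt_g2_f_le hf0 H.adm.f_le h0
  have hM20 : 6 ≤ M ^ 20 := by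
    have := rt_g2_Mpow hM 20
    norm_num at this
    linarith
  unfold RtTest.w
  calc M ^ 70 * ((τ.f + κ + a) / a ^ 2) * (δ / a ^ 2 + 1) * (a * τ.r) ^ 4
      ≤ M ^ 70 * (3 * τ.f / a ^ 2) * (δ / a ^ 2 + 1) * (a * τ.r) ^ 4 := by gcongr
    _ = 3 * (M ^ 70 * (δ + a ^ 2) * (τ.r ^ 4 * τ.f)) := by
      field_simp
    _ ≤ 3 * (M ^ 70 * (δ + δ) * (τ.r ^ 4 * τ.f ^ (1 - η))) := by gcongr
    _ = 6 * (M ^ 70 * δ * (τ.r ^ 4 * τ.f ^ (1 - η))) := by ring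
    _ ≤ M ^ 20 * (M ^ 70 * δ * (τ.r ^ 4 * τ.f ^ (1 - η))) := by gcongr
    _ = M ^ 90 * δ * (τ.r ^ 4 * τ.f ^ (1 - η)) := by ring

/-- **B2b.**  `f < κ`.   `rt_g2_cover2` + `rt_g2_thick`:   `(f + κ + a)/a² ≤ 3κ/a²`, `δ(f+a)/(κa²) ≤ 2δf/(κa²)`;   total `≤ 3 M^73 (2δf + κa²) r⁴ ≤ 306 M^73 δ f r⁴ ≤ M^82 δ f r⁴`. -/
theorem rt_g2_B2b {M l δ t D : ℝ} {τ : RtTest} (H : RtG2H M l δ t D τ) {η : ℝ} (h0 : 0 < η) (h1 : η < 1)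
    (hκ : Real.sqrt δ < |τ.n.k|) (hf : δ / |τ.n.k| < τ.f) (hκf : τ.f < |τ.n.k|) :
    RtCover (rtG2S M l δ t D τ) l D η (M ^ 90 * δ * τ.w η) := by
  obtain ⟨ha, ha1, hδa, hda, haf, ha2, haκ⟩ := rt_g2_B2_a H hκ hf
  obtain ⟨hκ0, -, -, -, -, -⟩ := rt_g2_dk H hκ
  have hM := H.M2
  have hM0 : 0 < M := by linarith
  have hf0 := H.adm.f_pos
  have hr0 := H.adm.r_pos
  have hδ := H.δ0
  have hk : τ.n.k ≠ 0 := abs_pos.1 hκ0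
  set a := max (δ / |τ.n.k|) (D / τ.r) with hadef
  set κ := |τ.n.k| with hκdef
  have hW0 : 0 ≤ (a * τ.r) ^ 4 := by positivity
  refine (rt_g2_cover2 H hk ha ha1 hδa hda hW0 fun w _ => rt_g2_thick H ha hda (rtG2Anc τ.n δ a) w).mono subset_rfl le_rfl ?_
  have hX : (τ.f + κ + a) / a ^ 2 ≤ 3 * κ / a ^ 2 := by
    gcongr
    linarith
  have hq : δ * (τ.f + a) / (κ * a ^ 2) + 1 ≤ δ * (2 * τ.f) / (κ * a ^ 2) + 1 := by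
    gcongr
    linarith
  have hfle := rt_g2_f_le hf0 H.adm.f_le h0
  have hM17 : 306 ≤ M ^ 17 := by
    have := rt_g2_Mpow hM 17
    norm_num at this
    linarith
  unfold RtTest.w
  calc M ^ 73 * ((τ.f + κ + a) / a ^ 2) * (δ * (τ.f + a) / (κ * a ^ 2) + 1) * (a * τ.r) ^ 4
      ≤ M ^ 73 * (3 * κ / a ^ 2) * (δ * (2 * τ.f) / (κ * a ^ 2) + 1) * (a * τ.r) ^ 4 := by gcongr
    _ = 3 * (M ^ 73 * (2 * δ * τ.f + κ * a ^ 2) * τ.r ^ 4) := by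
      field_simp
    _ ≤ 3 * (M ^ 73 * (2 * δ * τ.f + 100 * δ * τ.f) * τ.r ^ 4) := by gcongr
    _ = 306 * (M ^ 73 * δ * (τ.r ^ 4 * τ.f)) := by ring
    _ ≤ M ^ 17 * (M ^ 73 * δ * (τ.r ^ 4 * τ.f ^ (1 - η))) := by gcongr
    _ = M ^ 90 * δ * (τ.r ^ 4 * τ.f ^ (1 - η)) := by ring

end Claimed.Agent.R256
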