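import Claimed.Agent.R256.Rt.G2Caps

/-!
# Row 256, folder Rt, file G2Cell: THE SHEARED GRID AT THE TIME `θ` AND THE GENERAL COVERING SCHEME (unit RT-G2)      (architect helper18; prefix `rt_g2_`)      CONTRACT
Mathlib only.   Frame `Φ`, time `θ ∈ [0,1]`, width `a ∈ (0,1]`, anchor `anc : ℤ × ℤ → ℝ`.   For a row `p`: `V = Φ.V p`, `ξ = Φ.g2xi θ p`, `ζ = Φ.g2ze θ p`, `i = rtG2Cell (a/4) V`, `V_i = rtG2Pt (a/4) i`.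
KEY `rtG2Key Φ θ a anc p = (i, rtG2Cell (a/4) ξ, ⌊(ζ - 2 V_i·ξ - anc i)/(a²/2)⌋)`.
* `rt_g2_cell_box` : rows with the same key lie in one parabolic box of width `a` (of the frame `Φ`, at the time `0`).
* `rt_g2_rg0`, `rt_g2_rg2` : the range of the last index for the anchors `0` and `-δ h(V_i)/k`.
* `rt_g2_cover` : the general scheme: `RtCover S l D η (M^59 (f + κ + a)/a² (4 Rg/a² + 3) W0)` from a covering of weight `W0` of every cell.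
Every `sorry` is a leaf `L-256-RT-G2-*`.  Statements are frozen (a FALSE statement: one line to helper18); auxiliary lemmas (prefix `rt_g2_`) directly above your theorem; edit only your block.
-/

set_option autoImplicit false

namespace Claimed.Agent.R256

open scoped BigOperators

/-- the sheared height `ζ - 2 V_i·ξ - anc i` -/
noncomputable def rtG2Ht (Φ : RtTest) (θ a : ℝ) (anc : ℤ × ℤ → ℝ) (p : RtRow) : ℝ :=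
  Φ.g2ze θ p - 2 * rtIp (rtG2Pt (a / 4) (rtG2Cell (a / 4) (Φ.V p))) (Φ.g2xi θ p) - anc (rtG2Cell (a / 4) (Φ.V p))

/-- the key -/
noncomputable def rtG2Key (Φ : RtTest) (θ a : ℝ) (anc : ℤ × ℤ → ℝ) (p : RtRow) : (ℤ × ℤ) × (ℤ × ℤ) × ℤ :=
  (rtG2Cell (a / 4) (Φ.V p), rtG2Cell (a / 4) (Φ.g2xi θ p), ⌊rtG2Ht Φ θ a anc p / (a ^ 2 / 2)⌋)

/-- the anchor `-δ h(V_i)/k` -/
noncomputable def rtG2Anc (n : RtPoly) (δ a : ℝ) (i : ℤ × ℤ) : ℝ := -(δ * n.g2h (rtG2Pt (a / 4) i) / n.k)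

theorem rt_g2_cell_eqns_cite : True := by
  have := @rtG2Ht.eq_1
  have := @rtG2Key.eq_1
  have := @rtG2Anc.eq_1
  trivial

/-! ## LEAF L-256-RT-G2-K1 : rows with the same key      (~200 l.) -/

/-- `2 |u·v| ≤ |u|² + |v|²` -/
theorem rt_g2_two_ip (u v : ℝ × ℝ) : |2 * rtIp u v| ≤ rtSq u + rtSq v := by
  unfold rtIp rtSq
  rw [abs_le]
  constructor <;> nlinarith [sq_nonneg (u.1 - v.1), sq_nonneg (u.2 - v.2), sq_nonneg (u.1 + v.1), sq_nonneg (u.2 + v.2)]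

/-- vector part of K1 -/
theorem rt_g2_box_sc {θ a : ℝ} (hθ0 : 0 ≤ θ) (hθ1 : θ ≤ 1) {Vp Vw Xp Xw Vi : ℝ × ℝ} {Zp Zw : ℝ}
    (c1 : rtSq (Vp - Vw) ≤ a ^ 2 / 8) (c2 : rtSq ((Xp + θ • Vp) - (Xw + θ • Vw)) ≤ a ^ 2 / 8) (c4 : rtSq (Vw - Vi) ≤ a ^ 2 / 8)
    (c3 : |(Zp + θ * rtSq Vp - 2 * rtIp Vi (Xp + θ • Vp)) - (Zw + θ * rtSq Vw - 2 * rtIp Vi (Xw + θ • Vw))| ≤ a ^ 2 / 2) :
    rtSq (Xp - Xw) ≤ a ^ 2 ∧ |Zp - Zw - 2 * rtIp Vw (Xp - Xw)| ≤ a ^ 2 := by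
  have h0 : 0 ≤ rtSq (Vp - Vw) := rtSq_nonneg _
  have hθ2 : θ ^ 2 ≤ 1 := by nlinarith
  constructor
  · have e : rtSq (Xp - Xw) ≤ 2 * rtSq ((Xp + θ • Vp) - (Xw + θ • Vw)) + 2 * (θ ^ 2 * rtSq (Vp - Vw)) := by
      simp only [rtSq, Prod.fst_sub, Prod.snd_sub, Prod.fst_add, Prod.snd_add, Prod.smul_fst, Prod.smul_snd, smul_eq_mul]
      nlinarith [sq_nonneg ((Xp.1 + θ * Vp.1 - (Xw.1 + θ * Vw.1)) + θ * (Vp.1 - Vw.1)), sq_nonneg ((Xp.2 + θ * Vp.2 - (Xw.2 + θ * Vw.2)) + θ * (Vp.2 - Vw.2))]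
    have e2 : θ ^ 2 * rtSq (Vp - Vw) ≤ 1 * rtSq (Vp - Vw) := mul_le_mul_of_nonneg_right hθ2 h0
    have : 0 ≤ a ^ 2 := sq_nonneg a
    linarith
  · have id : Zp - Zw - 2 * rtIp Vw (Xp - Xw) = ((Zp + θ * rtSq Vp - 2 * rtIp Vi (Xp + θ • Vp)) - (Zw + θ * rtSq Vw - 2 * rtIp Vi (Xw + θ • Vw)))
        - 2 * rtIp (Vw - Vi) ((Xp + θ • Vp) - (Xw + θ • Vw)) - θ * rtSq (Vp - Vw) := by
      simp only [rtSq, rtIp, Prod.fst_sub, Prod.snd_sub, Prod.fst_add, Prod.snd_add, Prod.smul_fst, Prod.smul_snd, smul_eq_mul]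
      ring
    have t1 := rt_g2_two_ip (Vw - Vi) ((Xp + θ • Vp) - (Xw + θ • Vw))
    have t2 : θ * rtSq (Vp - Vw) ≤ 1 * rtSq (Vp - Vw) := mul_le_mul_of_nonneg_right hθ1 h0
    have t3 : 0 ≤ θ * rtSq (Vp - Vw) := mul_nonneg hθ0 h0
    have : 0 ≤ a ^ 2 := sq_nonneg a
    rw [id]
    rw [abs_le] at c3 t1 ⊢
    constructor <;> linarith [c3.1, c3.2, t1.1, t1.2]

/-- **PLAN.**  `a' = a/4`.  From `hk` (`Prod.mk.injEq`): same cell of `V`, same cell of `ξ`, same floor of the height.   `rt_g2_cell_close`: `rtSq (V_p - V_w) ≤ 2a'² = a²/8`, `rtSq (ξ_p - ξ_w) ≤ a²/8`;   `rt_g1_floor_close`: `|Ht_p - Ht_w| ≤ a²/2`; the anchors and `V_i` coincide.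
`box 1` of the sub-test (`rt_g1_sub_x`, `rt_g1_sub_V`, `rt_g1_sub_z`, `rt_g2_sq_smul`):   (V) `rtSq (V_p - V_w) ≤ a²`.   (x) `X = ξ - θ V`: `X_p - X_w = (ξ_p - ξ_w) - θ (V_p - V_w)`, `rtSq ≤ (√(a²/8)(1+θ))²`: use `rtSq (u - θ v) ≤ 2 rtSq u + 2 θ² rtSq v ≤ a²/2`.
(z) IDENTITY (`Z = ζ - θ rtSq V`; unfold `g2xi, g2ze, rtIp, rtSq`; ring):   `Z_p - Z_w - 2 V_w·(X_p - X_w) = (Ht_p - Ht_w) + 2 (V_i - V_w)·(ξ_p - ξ_w) - θ rtSq (V_p - V_w)`;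
`rtSq (V_w - V_i) ≤ a²/8` (`rt_g2_cell_near`), so `|2 (V_i - V_w)·(ξ_p - ξ_w)| ≤ 2 · a²/8 = a²/4` (`rtIp_sq_le` or `2|u·v| ≤ rtSq u + rtSq v`);   total `≤ a²/2 + a²/4 + a²/8 ≤ a²`. -/
theorem rt_g2_cell_box (Φ : RtTest) (hl : Φ.l ≠ 0) (hr : Φ.r ≠ 0) {θ a : ℝ} (hθ0 : 0 ≤ θ) (hθ1 : θ ≤ 1) (ha : 0 < a) (anc : ℤ × ℤ → ℝ) {w p : RtRow}
    (hk : rtG2Key Φ θ a anc p = rtG2Key Φ θ a anc w) (f' : ℝ) (n' : RtPoly) : p ∈ (Φ.g1sub w a f' n').box 1 := by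
  have ha4 : 0 < a / 4 := by linarith
  have ha2 : 0 < a ^ 2 := by positivity
  simp only [rtG2Key, Prod.mk.injEq] at hk
  obtain ⟨k1, k2, k3⟩ := hk
  have e8 : 2 * (a / 4) ^ 2 = a ^ 2 / 8 := by ring
  have c1 := rt_g2_cell_close ha4 k1
  have c2 := rt_g2_cell_close ha4 k2
  have c3 := rt_g1_floor_close (by positivity : 0 < a ^ 2 / 2) k3
  have c4 := rt_g2_cell_near ha4 (Φ.V w)
  rw [e8] at c1 c2 c4
  unfold rtG2Ht at c3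
  rw [k1] at c3
  have c3' : |(Φ.z p + θ * rtSq (Φ.V p) - 2 * rtIp (rtG2Pt (a / 4) (rtG2Cell (a / 4) (Φ.V w))) (Φ.x p + θ • Φ.V p))
      - (Φ.z w + θ * rtSq (Φ.V w) - 2 * rtIp (rtG2Pt (a / 4) (rtG2Cell (a / 4) (Φ.V w))) (Φ.x w + θ • Φ.V w))| ≤ a ^ 2 / 2 := by
    refine le_trans (le_of_eq ?_) c3
    congr 1
    unfold RtTest.g2ze RtTest.g2xi
    ring
  obtain ⟨b1, b2⟩ := rt_g2_box_sc hθ0 hθ1 c1 c2 c4 c3'
  have hinv : (a⁻¹) ^ 2 * a ^ 2 = 1 := by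
    field_simp
  refine ⟨?_, ?_, ?_⟩
  · rw [rt_g1_sub_x, rt_g2_sq_smul, one_pow, ← hinv]
    exact mul_le_mul_of_nonneg_left b1 (by positivity)
  · rw [rt_g1_sub_z Φ hl hr, abs_div, abs_of_pos ha2, div_le_one ha2]
    exact b2
  · rw [rt_g1_sub_V, rt_g2_sq_smul, one_pow, ← hinv]
    exact mul_le_mul_of_nonneg_left (c1.trans (by linarith)) (by positivity)

/-! ## LEAF L-256-RT-G2-K2 : the ranges of the sheared height      (~200 l.) -/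

/-- the corner of the cell of side `a/4` is within `a/2` -/
theorem rt_g2_near_half {a : ℝ} (ha : 0 < a) (V : ℝ × ℝ) : rtSq (V - rtG2Pt (a / 4) (rtG2Cell (a / 4) V)) ≤ (a / 2) ^ 2 := by
  have h := rt_g2_cell_near (by linarith : 0 < a / 4) V
  nlinarith [sq_nonneg a]

/-- the shear term -/
theorem rt_g2_shear {δ d1 M a : ℝ} {V ξ : ℝ × ℝ} (hM : 2 ≤ M) (hδ : 0 < δ) (hd0 : 0 ≤ d1) (ha : 0 < a) (hxi : rtSq ξ ≤ (δ + M * d1) ^ 2) :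
    |2 * rtIp (V - rtG2Pt (a / 4) (rtG2Cell (a / 4) V)) ξ| ≤ a * (δ + M * d1) := by
  have hB : 0 ≤ δ + M * d1 := by positivity
  have h := rtIp_abs_le (by linarith : 0 ≤ a / 2) hB (rt_g2_near_half ha V) hxi
  rw [abs_mul, abs_two]
  linarith

/-- anchor `0`.   `ζ - 2V_i·ξ = (ζ - 2V·ξ) + 2 (V - V_i)·ξ`;  `rtSq (V - V_i) ≤ 2 (a/4)² ≤ (a/2)²` (`rt_g2_cell_near`), `rtSq ξ ≤ (δ + M d1)²`:  `|2 (V - V_i)·ξ| ≤ a (δ + M d1)` (`rtIp_abs_le`). -/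
theorem rt_g2_rg0 {n : RtPoly} {δ f d1 M a : ℝ} {V ξ : ℝ × ℝ} {ζ : ℝ} (hM : 2 ≤ M) (hδ : 0 < δ) (hd0 : 0 ≤ d1) (ha : 0 < a)
    (h : RtG2Fact n δ f d1 M V ξ ζ) :
    |ζ - 2 * rtIp (rtG2Pt (a / 4) (rtG2Cell (a / 4) V)) ξ - 0| ≤ (3 + 2 * M) * δ + M * d1 ^ 2 + a * (δ + M * d1) := by
  have id : ζ - 2 * rtIp (rtG2Pt (a / 4) (rtG2Cell (a / 4) V)) ξ - 0 = (ζ - 2 * rtIp V ξ) + 2 * rtIp (V - rtG2Pt (a / 4) (rtG2Cell (a / 4) V)) ξ := by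
    simp only [rtIp, Prod.fst_sub, Prod.snd_sub]
    ring
  rw [id]
  exact (abs_add_le _ _).trans (add_le_add h.hv (rt_g2_shear hM hδ hd0 ha h.hxi))

/-- variation of `h` between a point and the corner of its cell -/
theorem rt_g2_h_var {n : RtPoly} {M a : ℝ} {V : ℝ × ℝ} (hn : n.Bd 100) (hM : 2 ≤ M) (ha : 0 < a) (ha1 : a ≤ 1) (hV : rtSq V ≤ (1 + M) ^ 2) :
    |n.g2h (rtG2Pt (a / 4) (rtG2Cell (a / 4) V)) - n.g2h V| ≤ 600 * M ^ 2 * a := by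
  obtain ⟨-, -, hal, hbe, -⟩ := hn
  obtain ⟨Vi, hVi⟩ : ∃ Vi, Vi = rtG2Pt (a / 4) (rtG2Cell (a / 4) V) := ⟨_, rfl⟩
  have hnear := rt_g2_near_half ha V
  rw [← hVi] at hnear ⊢
  have id : n.g2h Vi - n.g2h V = -rtIp (V - Vi) (n.al + n.be • ((2 : ℝ) • V - (V - Vi))) := by
    simp only [RtPoly.g2h, rtIp, rtSq, Prod.fst_sub, Prod.snd_sub, Prod.fst_add, Prod.snd_add, Prod.smul_fst, Prod.smul_snd, smul_eq_mul]
    ring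
  have h2V : rtSq ((2 : ℝ) • V) ≤ (2 * (1 + M)) ^ 2 := by
    rw [rt_g2_sq_smul]
    nlinarith
  have hW : rtSq ((2 : ℝ) • V - (V - Vi)) ≤ (2 * (1 + M) + a / 2) ^ 2 := rt_g2_sq_sub (by linarith) (by linarith) h2V hnear
  have hbW : rtSq (n.be • ((2 : ℝ) • V - (V - Vi))) ≤ (100 * (2 * (1 + M) + a / 2)) ^ 2 := by
    rw [rt_g2_sq_smul, mul_pow]
    have hb2 : n.be ^ 2 ≤ 100 ^ 2 := sq_le_sq' (by linarith [(abs_le.1 hbe).1]) (abs_le.1 hbe).2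
    exact mul_le_mul hb2 hW (rtSq_nonneg _) (by norm_num)
  have hS := rt_g2_sq_add (by norm_num : (0 : ℝ) ≤ 100) (by positivity : 0 ≤ 100 * (2 * (1 + M) + a / 2)) hal hbW
  have hip := rtIp_abs_le (by linarith : 0 ≤ a / 2) (by positivity : 0 ≤ 100 + 100 * (2 * (1 + M) + a / 2)) hnear hS
  rw [id, abs_neg]
  refine hip.trans ?_
  have h1 : 100 + 100 * (2 * (1 + M) + a / 2) ≤ 350 + 200 * M := by linarith
  have h2 : a / 2 * (100 + 100 * (2 * (1 + M) + a / 2)) ≤ a / 2 * (350 + 200 * M) := mul_le_mul_of_nonneg_left h1 (by linarith)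
  have h3 : 350 + 200 * M ≤ 1200 * M ^ 2 := by nlinarith
  have h4 : a / 2 * (350 + 200 * M) ≤ a / 2 * (1200 * M ^ 2) := mul_le_mul_of_nonneg_left h3 (by linarith)
  linarith

/-- anchor `-δ h(V_i)/k`.   `ζ - 2V_i·ξ + δ h(V_i)/k = [ζ - 2V·ξ + δ h(V)/k] + 2 (V - V_i)·ξ + δ (h(V_i) - h(V))/k`.   First bracket `= δ G/k` (`rt_g2_G_h`), modulus `≤ 600 M² f δ/|k|`.   Second `≤ a (δ + M d1)`.
Third: `h(V_i) - h(V) = (V_i - V)·(α + β (V_i + V))`, `|V_i - V| ≤ a/2`, `|V_i + V| ≤ 2(1+M) + 1/2`, so `|h(V_i) - h(V)| ≤ (a/2)(100 + 100 (2M + 5/2)) = a (175 + 100 M) ≤ 600 M² a`. -/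
theorem rt_g2_rg2 {n : RtPoly} {δ f d1 M a : ℝ} {V ξ : ℝ × ℝ} {ζ : ℝ} (hn : n.Bd 100) (hk : n.k ≠ 0) (hM : 2 ≤ M) (hδ : 0 < δ) (hf : 0 ≤ f) (hd0 : 0 ≤ d1)
    (ha : 0 < a) (ha1 : a ≤ 1) (h : RtG2Fact n δ f d1 M V ξ ζ) :
    |ζ - 2 * rtIp (rtG2Pt (a / 4) (rtG2Cell (a / 4) V)) ξ - rtG2Anc n δ a (rtG2Cell (a / 4) V)| ≤
      600 * M ^ 2 * δ * (f + a) / |n.k| + a * (δ + M * d1) := by
  have hk0 : 0 < |n.k| := abs_pos.2 hk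
  have hG := rt_g2_G_h n hδ.ne' V ξ ζ
  have id : ζ - 2 * rtIp (rtG2Pt (a / 4) (rtG2Cell (a / 4) V)) ξ - rtG2Anc n δ a (rtG2Cell (a / 4) V)
      = δ * n.G 0 (δ⁻¹ • ξ) (ζ / δ) V / n.k + 2 * rtIp (V - rtG2Pt (a / 4) (rtG2Cell (a / 4) V)) ξ
        + δ * (n.g2h (rtG2Pt (a / 4) (rtG2Cell (a / 4) V)) - n.g2h V) / n.k := by
    rw [hG]
    unfold rtG2Anc
    simp only [rtIp, Prod.fst_sub, Prod.snd_sub]
    field_simp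
    ring
  have t1 : |δ * n.G 0 (δ⁻¹ • ξ) (ζ / δ) V / n.k| ≤ δ * (600 * M ^ 2 * f) / |n.k| := by
    rw [abs_div, abs_mul, abs_of_pos hδ]
    exact div_le_div_of_nonneg_right (mul_le_mul_of_nonneg_left h.hG hδ.le) hk0.le
  have t3 : |δ * (n.g2h (rtG2Pt (a / 4) (rtG2Cell (a / 4) V)) - n.g2h V) / n.k| ≤ δ * (600 * M ^ 2 * a) / |n.k| := by
    rw [abs_div, abs_mul, abs_of_pos hδ]
    exact div_le_div_of_nonneg_right (mul_le_mul_of_nonneg_left (rt_g2_h_var hn hM ha ha1 h.hV) hδ.le) hk0.le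
  have t2 := rt_g2_shear (V := V) hM hδ hd0 ha h.hxi
  have e : 600 * M ^ 2 * δ * (f + a) / |n.k| = δ * (600 * M ^ 2 * f) / |n.k| + δ * (600 * M ^ 2 * a) / |n.k| := by ring
  rw [id, e]
  refine (abs_add_le _ _).trans ?_
  have := abs_add_le (δ * n.G 0 (δ⁻¹ • ξ) (ζ / δ) V / n.k) (2 * rtIp (V - rtG2Pt (a / 4) (rtG2Cell (a / 4) V)) ξ)
  linarith

/-! ## LEAF L-256-RT-G2-K3 : the general covering scheme      (~250 l.) -/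

theorem rt_g2_cnt1 {M f κ a : ℝ} (hM : 2 ≤ M) (hf : 0 ≤ f) (hκ : 0 ≤ κ) (ha : 0 < a) :
    100000 * (1 + M) ^ 3 * (600 * M ^ 2 * (f + κ) + κ + a / 4) / (a / 4) ^ 2 ≤ M ^ 37 * ((f + κ + a) / a ^ 2) := by
  have hM0 : 0 < M := by linarith
  have hs : 0 ≤ f + κ + a := by positivity
  have h1 : (1 + M) ^ 3 ≤ (3 / 2 * M) ^ 3 := pow_le_pow_left₀ (by linarith) (by linarith) 3
  have hM2 : 4 ≤ M ^ 2 := by nlinarith
  have h2 : 600 * M ^ 2 * (f + κ) + κ + a / 4 ≤ 601 * M ^ 2 * (f + κ + a) := by nlinarith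
  have h20 : 0 ≤ 600 * M ^ 2 * (f + κ) + κ + a / 4 := by positivity
  have h3 : (2 : ℝ) ^ 32 ≤ M ^ 32 := pow_le_pow_left₀ (by norm_num) hM 32
  have e : 100000 * (1 + M) ^ 3 * (600 * M ^ 2 * (f + κ) + κ + a / 4) / (a / 4) ^ 2
      = 1600000 * ((1 + M) ^ 3 * (600 * M ^ 2 * (f + κ) + κ + a / 4)) / a ^ 2 := by
    field_simp
    ring
  rw [e, ← mul_div_assoc]
  refine div_le_div_of_nonneg_right ?_ (by positivity)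
  calc 1600000 * ((1 + M) ^ 3 * (600 * M ^ 2 * (f + κ) + κ + a / 4))
      ≤ 1600000 * ((3 / 2 * M) ^ 3 * (601 * M ^ 2 * (f + κ + a))) := by
        refine mul_le_mul_of_nonneg_left (mul_le_mul h1 h2 h20 (by positivity)) (by norm_num)
    _ = 3245400000 * (M ^ 5 * (f + κ + a)) := by ring
    _ ≤ 2 ^ 32 * (M ^ 5 * (f + κ + a)) := by
        refine mul_le_mul_of_nonneg_right (by norm_num) (by positivity)
    _ ≤ M ^ 32 * (M ^ 5 * (f + κ + a)) := mul_le_mul_of_nonneg_right h3 (by positivity)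
    _ = M ^ 37 * (f + κ + a) := by ring

theorem rt_g2_cnt2 {M : ℝ} (hM : 2 ≤ M) : 803 + 8 * M ≤ M ^ 11 := by
  have h3 : (2 : ℝ) ^ 10 ≤ M ^ 10 := pow_le_pow_left₀ (by norm_num) hM 10
  have e : M ^ 11 = M ^ 10 * M := by ring
  rw [e]
  nlinarith

/-- **PLAN.**  `Φ = τ.g2par l δ t`, `θ = t/l`, `f = τ.f`, `κ = |τ.n.k|`, `d1 = D/τ.r`, `S = rtG2S ..`.   `rt_g2_fact H hp` at every `p ∈ S`.
`caps` from `rt_g2_caps τ.n` with `κ`, `R = 1 + M`, `ε = 600 M² (f + κ)`, mesh `a/4` (`disc = 1` means `rtSq α - 4βd = 1 - 4kc ≥ 1 - 400κ`, `|c| ≤ 100`).   `B = δ + M d1`, `Gx = ⌈B/(a/4)⌉`, `Gz = ⌈Rg/(a²/2)⌉`.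
Index set `I = caps ×ˢ ((Icc (-Gx) Gx ×ˢ Icc (-Gx) Gx) ×ˢ Icc (-Gz) Gz)`;  `rtG2Key .. p ∈ I` (`rt_g2_cell_mem`, `rt_g1_floor_mem`, `hRg`).   `rt_g1_cells S key I .. W0 hW0 hcell`:  `RtCover S l D η (I.card W0)`.
COUNT (`Finset.card_product`, `rt_g1_card_Icc`):   `caps.card ≤ 10⁵ (1+M)³ (ε + κ + a/4)/(a/4)² ≤ 10⁵ · 3.375 M³ · 601 M² (f + κ + a) · 16/a² ≤ 2^32 M⁵ (..)/a² ≤ M^37 (f + κ + a)/a²`;
`B/(a/4) ≤ 4 (100 + M)` (`hδa`, `hda`), `2Gx + 1 ≤ 803 + 8M ≤ M^11`;   `2Gz + 1 ≤ 4Rg/a² + 3`.   `37 + 22 = 59`. -/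
theorem rt_g2_cover {M l δ t D : ℝ} {τ : RtTest} (H : RtG2H M l δ t D τ) {η a Rg W0 : ℝ} (ha : 0 < a) (ha1 : a ≤ 1) (hδa : δ ≤ 100 * a) (hda : D / τ.r ≤ a)
    (anc : ℤ × ℤ → ℝ) (hRg0 : 0 ≤ Rg) (hRg : ∀ p ∈ rtG2S M l δ t D τ, |rtG2Ht (τ.g2par l δ t) (t / l) a anc p| ≤ Rg) (hW0 : 0 ≤ W0)
    (hcell : ∀ w ∈ rtG2S M l δ t D τ,
      RtCover {p | p ∈ rtG2S M l δ t D τ ∧ rtG2Key (τ.g2par l δ t) (t / l) a anc p = rtG2Key (τ.g2par l δ t) (t / l) a anc w} l D η W0) :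
    RtCover (rtG2S M l δ t D τ) l D η (M ^ 59 * ((τ.f + |τ.n.k| + a) / a ^ 2) * (4 * Rg / a ^ 2 + 3) * W0) := by
  classical
  have hM := H.M2
  have hM0 : 0 < M := by linarith
  have hb : τ.n.Bd 100 := by simpa using H.adm.bd
  obtain ⟨hc, hd, hal, hbe, hk⟩ := hb
  have hf0 := H.adm.f_pos
  have hκ : 0 ≤ |τ.n.k| := abs_nonneg _
  obtain ⟨hd0, -, -⟩ := rt_g2_d1 H
  have ha4 : 0 < a / 4 := by linarith
  have ha2 : 0 < a ^ 2 / 2 := by positivity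
  have hdisc : 1 - 400 * |τ.n.k| ≤ rtSq τ.n.al - 4 * τ.n.be * τ.n.d := by
    have h1 := H.adm.disc
    unfold RtPoly.disc at h1
    have h2 : |τ.n.k * τ.n.c| ≤ |τ.n.k| * 100 := by
      rw [abs_mul]
      exact mul_le_mul_of_nonneg_left hc hκ
    have h3 := (abs_le.1 h2).2
    linarith
  obtain ⟨caps, hcard, hcaps⟩ := rt_g2_caps τ.n (κ := |τ.n.k|) (R := 1 + M) (ε := 600 * M ^ 2 * (τ.f + |τ.n.k|)) (a := a / 4) hd hbe hal hκ hdisc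
    (by linarith) (by positivity) ha4 (by linarith)
  have hB : 0 ≤ δ + M * (D / τ.r) := by
    have := H.δ0
    positivity
  obtain ⟨Gx, hGx⟩ : ∃ Gx : ℤ, Gx = ⌈(δ + M * (D / τ.r)) / (a / 4)⌉ := ⟨_, rfl⟩
  obtain ⟨Gz, hGz⟩ : ∃ Gz : ℤ, Gz = ⌈Rg / (a ^ 2 / 2)⌉ := ⟨_, rfl⟩
  have hGx0 : 0 ≤ Gx := by rw [hGx]; exact Int.ceil_nonneg (by positivity)
  have hGz0 : 0 ≤ Gz := by rw [hGz]; exact Int.ceil_nonneg (by positivity)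
  have hI : ∀ p ∈ rtG2S M l δ t D τ, rtG2Key (τ.g2par l δ t) (t / l) a anc p ∈
      caps ×ˢ ((Finset.Icc (-Gx) Gx ×ˢ Finset.Icc (-Gx) Gx) ×ˢ Finset.Icc (-Gz) Gz) := by
    intro p hp
    have hF := rt_g2_fact H hp
    unfold rtG2Key
    refine Finset.mem_product.2 ⟨hcaps _ hF.hV hF.hh, Finset.mem_product.2 ⟨?_, ?_⟩⟩
    · rw [hGx]
      exact rt_g2_cell_mem ha4 hB hF.hxi
    · rw [hGz]
      exact rt_g1_floor_mem ha2 (hRg p hp)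
  have hcov := rt_g1_cells (rtG2S M l δ t D τ) (rtG2Key (τ.g2par l δ t) (t / l) a anc) _ hI l D η W0 hW0 hcell
  refine hcov.mono subset_rfl le_rfl (mul_le_mul_of_nonneg_right ?_ hW0)
  rw [Finset.card_product, Finset.card_product, Finset.card_product]
  push_cast
  rw [rt_g1_card_Icc Gx hGx0, rt_g1_card_Icc Gz hGz0]
  have c1 : (caps.card : ℝ) ≤ M ^ 37 * ((τ.f + |τ.n.k| + a) / a ^ 2) := hcard.trans (rt_g2_cnt1 hM hf0.le hκ ha)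
  have c2 : 2 * (Gx : ℝ) + 1 ≤ M ^ 11 := by
    have h1 : (Gx : ℝ) < (δ + M * (D / τ.r)) / (a / 4) + 1 := by rw [hGx]; exact Int.ceil_lt_add_one _
    have h2 : (δ + M * (D / τ.r)) / (a / 4) ≤ 4 * (100 + M) := by
      rw [div_le_iff₀ ha4]
      have : M * (D / τ.r) ≤ M * a := mul_le_mul_of_nonneg_left hda hM0.le
      nlinarith
    have := rt_g2_cnt2 hM
    linarith
  have c3 : 2 * (Gz : ℝ) + 1 ≤ 4 * Rg / a ^ 2 + 3 := by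
    have h1 : (Gz : ℝ) < Rg / (a ^ 2 / 2) + 1 := by rw [hGz]; exact Int.ceil_lt_add_one _
    have e : Rg / (a ^ 2 / 2) = 2 * Rg / a ^ 2 := by field_simp
    have e2 : 4 * Rg / a ^ 2 = 2 * (2 * Rg / a ^ 2) := by ring
    rw [e] at h1
    rw [e2]
    linarith
  have p1 : (0 : ℝ) ≤ 2 * (Gx : ℝ) + 1 := by
    have : (0 : ℝ) ≤ (Gx : ℝ) := by exact_mod_cast hGx0
    linarith
  have p3 : (0 : ℝ) ≤ 2 * (Gz : ℝ) + 1 := by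
    have : (0 : ℝ) ≤ (Gz : ℝ) := by exact_mod_cast hGz0
    linarith
  have hs : 0 ≤ (τ.f + |τ.n.k| + a) / a ^ 2 := by positivity
  calc (caps.card : ℝ) * ((2 * (Gx : ℝ) + 1) * (2 * (Gx : ℝ) + 1) * (2 * (Gz : ℝ) + 1))
      ≤ (M ^ 37 * ((τ.f + |τ.n.k| + a) / a ^ 2)) * (M ^ 11 * M ^ 11 * (4 * Rg / a ^ 2 + 3)) := by
        refine mul_le_mul c1 (mul_le_mul (mul_le_mul c2 c2 p1 (by positivity)) c3 p3 (by positivity)) (by positivity) (by positivity)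
    _ = M ^ 59 * ((τ.f + |τ.n.k| + a) / a ^ 2) * (4 * Rg / a ^ 2 + 3) := by ring

end Claimed.Agent.R256
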