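import Claimed.Agent.R256.Rt.G2Case

/-!
# Row 256, folder Rt, file G2Main: THE COVERING THEOREM G2 (Lemma rt:single, 07 l.208-287)      (architect helper18; prefix `rt_g2_`)      CONTRACT
`rt_g2_main` = assembly of the five cases of `G2Case.lean`; `C = 13 C₁ + 90`, `C₁` = the exponent of G1.
-/

set_option autoImplicit false

namespace Claimed.Agent.R256

open scoped BigOperators

/-! ## LEAF L-256-RT-G2-M : the assembly      (~120 l.) -/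

/-- `1300 M² ≤ M^13` (`1300 ≤ 2^11 ≤ M^11`), so `M^90 (1300 M²)^C₁ ≤ M^90 (M^13)^C₁ = M^(13 C₁ + 90)`  (`Real.rpow_le_rpow`, `Real.rpow_natCast`, `Real.rpow_mul`, `Real.rpow_add`). -/
theorem rt_g2_pow {M C₁ : ℝ} (hM : 2 ≤ M) (hC : 0 < C₁) : M ^ 90 * (1300 * M ^ 2) ^ C₁ ≤ M ^ (13 * C₁ + 90) ∧ M ^ 90 ≤ M ^ (13 * C₁ + 90) := by
  have hM0 : 0 < M := by linarith
  have hM1 : 1 ≤ M := by linarith
  have h1300 : 1300 * M ^ 2 ≤ M ^ 13 := by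
    have h1 : (2:ℝ) ^ 11 ≤ M ^ 11 := pow_le_pow_left₀ (by norm_num) hM 11
    have h2 : M ^ 13 = M ^ 11 * M ^ 2 := by ring
    have h3 : 0 < M ^ 2 := by positivity
    nlinarith
  have h1 : (1300 * M ^ 2) ^ C₁ ≤ M ^ (13 * C₁) := by
    calc (1300 * M ^ 2) ^ C₁ ≤ (M ^ 13) ^ C₁ := Real.rpow_le_rpow (by positivity) h1300 hC.le
      _ = M ^ (13 * C₁) := by
        rw [← Real.rpow_natCast M 13, ← Real.rpow_mul hM0.le]
        norm_num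
  have h2 : M ^ (13 * C₁ + 90) = M ^ 90 * M ^ (13 * C₁) := by
    rw [Real.rpow_add hM0, mul_comm]
    congr 1
    exact_mod_cast Real.rpow_natCast M 90
  have h3 : 1 ≤ M ^ (13 * C₁) := Real.one_le_rpow hM1 (by positivity)
  have h4 : 0 < M ^ 90 := by positivity
  rw [h2]
  exact ⟨by gcongr, by nlinarith⟩

/-- **G2.**   **PLAN.**  `⟨C₁, hC₁, hG1⟩ := rt_g1_main η h0 h1` (`hG1 : RtG1P η C₁` by `Iff.rfl`/unfolding).   `C = 13 C₁ + 90`.   `H : RtG2H M l δ t D τ` from the hypotheses.   Cases: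
`κ ≤ √δ`: `f ≤ √δ` → `rt_g2_A1`, else `rt_g2_B1`;     `√δ < κ`: `f ≤ δ/κ` → `rt_g2_A2`; else `κ ≤ f` → `rt_g2_B2a`, else `rt_g2_B2b`.   `RtCover.mono` with `rt_g2_pow` (`δ τ.w η ≥ 0`: `RtTest.w_pos`). -/
theorem rt_g2_main (η : ℝ) (h0 : 0 < η) (h1 : η < 1) :
    ∃ C : ℝ, 0 < C ∧ ∀ (M l δ t D : ℝ) (τ : RtTest), 2 ≤ M → 0 < l → 0 < δ → δ ≤ 1 → 0 ≤ t → t ≤ l → 0 ≤ D →
      τ.Adm 1 → τ.l = δ * l → D ≤ τ.unc * Real.sqrt δ → RtCover (rtG2S M l δ t D τ) l D η (M ^ C * δ * τ.w η) := by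
  obtain ⟨C₁, hC₁, hG1⟩ := rt_g1_main η h0 h1
  have hG1' : RtG1P η C₁ := hG1
  refine ⟨13 * C₁ + 90, by positivity, ?_⟩
  intro M l δ t D τ hM hl hδ hδ1 ht htl hD hadm hlen hunc
  have H : RtG2H M l δ t D τ := ⟨hM, hl, hδ, hδ1, ht, htl, hD, hadm, hlen, hunc⟩
  obtain ⟨p1, p2⟩ := rt_g2_pow hM hC₁
  have hw := τ.w_pos hadm η
  have e1 : M ^ 90 * (1300 * M ^ 2) ^ C₁ * δ * τ.w η ≤ M ^ (13 * C₁ + 90) * δ * τ.w η := by gcongr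
  have e2 : M ^ 90 * δ * τ.w η ≤ M ^ (13 * C₁ + 90) * δ * τ.w η := by gcongr
  by_cases hκ : |τ.n.k| ≤ Real.sqrt δ
  · by_cases hf : τ.f ≤ Real.sqrt δ
    · exact (rt_g2_A1 H h0 h1 hG1' hκ hf).mono subset_rfl le_rfl e1
    · exact (rt_g2_B1 H h0 h1 hκ (not_le.1 hf)).mono subset_rfl le_rfl e2
  · have hκ' := not_le.1 hκ
    by_cases hf : τ.f ≤ δ / |τ.n.k|
    · exact (rt_g2_A2 H h0 h1 hG1' hκ' hf).mono subset_rfl le_rfl e1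
    · by_cases hκf : |τ.n.k| ≤ τ.f
      · exact (rt_g2_B2a H h0 h1 hκ' (not_le.1 hf) hκf).mono subset_rfl le_rfl e2
      · exact (rt_g2_B2b H h0 h1 hκ' (not_le.1 hf) (not_le.1 hκf)).mono subset_rfl le_rfl e2

end Claimed.Agent.R256
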