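import Claimed.Agent.R256.Rt.G2Par

/-!
# Row 256, folder Rt, file G2Norm: NORMAL FORM OF THE PREDECESSOR SET (unit RT-G2)      (architect helper18; prefix `rt_g2_`)      CONTRACT
Mathlib only, model free.   Notation: child test `τ` (`τ.Adm 1`, length `δ l`), `Φ = τ.g2par l δ t`, `θ = t/l ∈ [0,1]`, `f = τ.f`, `d1 = D/τ.r` (`d1² ≤ f² δ`), `n = τ.n`, `κ = |n.k| ≤ 100`.
For a row `p` at the parent time: `V = Φ.V p`, `ξ = Φ.g2xi θ p`, `ζ = Φ.g2ze θ p`  (so `τ.V (p.flow t) = V`, `τ.x (p.flow t) = ξ/δ`, `τ.z (p.flow t) = ζ/δ`).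
* `RtG2H M l δ t D τ` = the standing hypotheses of G2;   `rtG2S` = the set to be covered.
* `RtG2N n δ f d1 M V ξ ζ` = normal form of "`p.flow t` is `M`-near to a row of `τ.set 1`".      `rt_g2_norm`.
* `RtG2Fact n δ f d1 M V ξ ζ` = the six consequences used by the covering.      `rt_g2_fact`.
Every `sorry` is a leaf `L-256-RT-G2-*`.  Statements are frozen (a FALSE statement: one line to helper18); auxiliary lemmas (prefix `rt_g2_`) directly above your theorem; edit only your block.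
-/

set_option autoImplicit false

namespace Claimed.Agent.R256

open scoped BigOperators

/-- the planar polynomial `h(V) = d + α·V + β|V|²` -/
def RtPoly.g2h (n : RtPoly) (V : ℝ × ℝ) : ℝ := n.d + rtIp n.al V + n.be * rtSq V

/-- normal form of the nearness to the child test -/
def RtG2N (n : RtPoly) (δ f d1 M : ℝ) (V ξ : ℝ × ℝ) (ζ : ℝ) : Prop :=
  ∃ (x' : ℝ × ℝ) (z' : ℝ) (V' : ℝ × ℝ), rtSq x' ≤ 1 ∧ |z'| ≤ 1 ∧ rtSq V' ≤ 1 ∧ |n.F 0 x' z'| ≤ f ∧ |n.G 0 x' z' V'| ≤ f ∧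
    δ * rtSq (V - V') ≤ (M * d1) ^ 2 ∧ rtSq (ξ - δ • x') ≤ (M * d1) ^ 2 ∧ |ζ - δ * z' - 2 * rtIp V (ξ - δ • x')| ≤ M * d1 ^ 2

/-- the consequences used by the covering -/
structure RtG2Fact (n : RtPoly) (δ f d1 M : ℝ) (V ξ : ℝ × ℝ) (ζ : ℝ) : Prop where
  hV : rtSq V ≤ (1 + M) ^ 2
  hxi : rtSq ξ ≤ (δ + M * d1) ^ 2
  hv : |ζ - 2 * rtIp V ξ| ≤ (3 + 2 * M) * δ + M * d1 ^ 2
  hG : |n.G 0 (δ⁻¹ • ξ) (ζ / δ) V| ≤ 600 * M ^ 2 * f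
  hF : |δ * n.F 0 (δ⁻¹ • ξ) (ζ / δ)| ≤ 700 * M ^ 2 * f
  hh : |n.g2h V| ≤ 600 * M ^ 2 * (f + |n.k|)

theorem rt_g2_norm_eqns_cite : True := by
  have := @RtPoly.g2h.eq_1
  have := @RtG2N.eq_1
  trivial

/-! ## LEAF L-256-RT-G2-T : triangle inequalities for `rtSq`      (~80 l.) -/

/-- `|u + v| ≤ |u| + |v|` in the form used everywhere  (`rtSq (u+v) = rtSq u + 2 rtIp u v + rtSq v`, `rtIp_abs_le`). -/
theorem rt_g2_sq_add {u v : ℝ × ℝ} {a b : ℝ} (ha : 0 ≤ a) (hb : 0 ≤ b) (hu : rtSq u ≤ a ^ 2) (hv : rtSq v ≤ b ^ 2) : rtSq (u + v) ≤ (a + b) ^ 2 := by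
  have h := (abs_le.1 (rtIp_abs_le ha hb hu hv)).2
  have e : rtSq (u + v) = rtSq u + 2 * rtIp u v + rtSq v := by
    simp only [rtSq, rtIp, Prod.fst_add, Prod.snd_add]
    ring
  have e2 : (a + b) ^ 2 = a ^ 2 + 2 * (a * b) + b ^ 2 := by ring
  rw [e, e2]
  linarith

theorem rt_g2_sq_sub {u v : ℝ × ℝ} {a b : ℝ} (ha : 0 ≤ a) (hb : 0 ≤ b) (hu : rtSq u ≤ a ^ 2) (hv : rtSq v ≤ b ^ 2) : rtSq (u - v) ≤ (a + b) ^ 2 := by
  have h := (abs_le.1 (rtIp_abs_le ha hb hu hv)).1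
  have e : rtSq (u - v) = rtSq u - 2 * rtIp u v + rtSq v := by
    simp only [rtSq, rtIp, Prod.fst_sub, Prod.snd_sub]
    ring
  have e2 : (a + b) ^ 2 = a ^ 2 + 2 * (a * b) + b ^ 2 := by ring
  rw [e, e2]
  linarith

theorem rt_g2_sq_smul (c : ℝ) (u : ℝ × ℝ) : rtSq (c • u) = c ^ 2 * rtSq u := by
  simp only [rtSq, Prod.smul_fst, Prod.smul_snd, smul_eq_mul]
  ring

/-- both coordinates `≤ b` in modulus ⟹ `rtSq ≤ 2 b²`. -/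
theorem rt_g2_sq_coord {u : ℝ × ℝ} {b : ℝ} (h1 : |u.1| ≤ b) (h2 : |u.2| ≤ b) : rtSq u ≤ 2 * b ^ 2 := by
  have e1 : u.1 ^ 2 ≤ b ^ 2 := by
    rw [← sq_abs u.1]
    exact pow_le_pow_left₀ (abs_nonneg _) h1 2
  have e2 : u.2 ^ 2 ≤ b ^ 2 := by
    rw [← sq_abs u.2]
    exact pow_le_pow_left₀ (abs_nonneg _) h2 2
  unfold rtSq
  linarith

/-! ## LEAF L-256-RT-G2-N1 : the normal form      (~150 l.) -/

/-- the standing hypotheses of G2 -/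
structure RtG2H (M l δ t D : ℝ) (τ : RtTest) : Prop where
  M2 : 2 ≤ M
  l0 : 0 < l
  δ0 : 0 < δ
  δ1 : δ ≤ 1
  t0 : 0 ≤ t
  tl : t ≤ l
  D0 : 0 ≤ D
  adm : τ.Adm 1
  len : τ.l = δ * l
  unc : D ≤ τ.unc * Real.sqrt δ

/-- the set to be covered  (`= rtPred M (D/√δ) (l D) (l D²) t (τ.set 1)` of `Geo.lean`, unfolded) -/
def rtG2S (M l δ t D : ℝ) (τ : RtTest) : Set RtRow :=
  {p | ∃ p' ∈ τ.set 1, rtSq (p'.A - (p.flow t).A) ≤ (M * (D / Real.sqrt δ)) ^ 2 ∧ rtSq (p'.b - (p.flow t).b) ≤ (M * (l * D)) ^ 2 ∧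
    |p'.y - (p.flow t).y - 2 * rtIp (p.flow t).A (p'.b - (p.flow t).b)| ≤ M * (l * D ^ 2)}

/-- `d1 = D/r`:  `0 ≤ d1`, `d1² ≤ f² δ` (`D ≤ r f √δ`, `Real.sq_sqrt`), hence `d1 ≤ f`, `d1 ≤ √δ`, `d1 ≤ 1`. -/
theorem rt_g2_d1 {M l δ t D : ℝ} {τ : RtTest} (H : RtG2H M l δ t D τ) :
    0 ≤ D / τ.r ∧ (D / τ.r) ^ 2 ≤ τ.f ^ 2 * δ ∧ D / τ.r ≤ τ.f * Real.sqrt δ := by
  have hr := H.adm.r_pos
  have h0 : 0 ≤ D / τ.r := div_nonneg H.D0 hr.le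
  have h3 : D / τ.r ≤ τ.f * Real.sqrt δ := by
    rw [div_le_iff₀ hr]
    have := H.unc
    unfold RtTest.unc at this
    calc D ≤ τ.r * τ.f * Real.sqrt δ := this
      _ = τ.f * Real.sqrt δ * τ.r := by ring
  refine ⟨h0, ?_, h3⟩
  calc (D / τ.r) ^ 2 ≤ (τ.f * Real.sqrt δ) ^ 2 := pow_le_pow_left₀ h0 h3 2
    _ = τ.f ^ 2 * δ := by rw [mul_pow, Real.sq_sqrt H.δ0.le]

/-- **PLAN.**  `p' ∈ τ.set 1` and the three nearness bounds from `hp`;  `x' = τ.x p'`, `z' = τ.z p'`, `V' = τ.V p'` (`τ.set 1`, `τ.box 1`: `1 ^ 2 = 1`, `1 * f = f`).   `p̃ = p.flow t`, `r = τ.r`, `d1 = D/r`.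
`V - V' = r⁻¹ • (p̃.A - p'.A)` (`rt_g2_par_V`):  `δ rtSq (V - V') = δ rtSq (p'.A - p̃.A)/r² ≤ δ (M D/√δ)²/r² = (M d1)²` (`Real.sq_sqrt`).
`ξ = δ • τ.x p̃` (`rt_g2_par_x`), `ξ - δ • x' = δ • (τ.x p̃ - τ.x p') = (l r)⁻¹ • (p̃.b - p'.b)` (`τ.l = δ l`):  `rtSq ≤ (M l D)²/(l r)² = (M d1)²`.
`ζ = δ τ.z p̃` (`rt_g2_par_z`);   `ζ - δ z' - 2 V·(ξ - δ x') = -(p'.y - p̃.y - 2 p̃.A·(p'.b - p̃.b))/(l r²)`  (unfold `RtTest.z, x, V`, `rtIp`; `field_simp; ring`):  modulus `≤ M l D²/(l r²) = M d1²`. -/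
theorem rt_g2_norm {M l δ t D : ℝ} {τ : RtTest} (H : RtG2H M l δ t D τ) {p : RtRow} (hp : p ∈ rtG2S M l δ t D τ) :
    RtG2N τ.n δ τ.f (D / τ.r) M ((τ.g2par l δ t).V p) ((τ.g2par l δ t).g2xi (t / l) p) ((τ.g2par l δ t).g2ze (t / l) p) := by
  obtain ⟨p', hp', hA, hb, hy⟩ := hp
  obtain ⟨⟨hx', hz', hV'⟩, hF', hG'⟩ := hp'
  have hl := H.l0
  have hδ := H.δ0
  have hr := H.adm.r_pos
  have hsq : Real.sqrt δ ^ 2 = δ := Real.sq_sqrt hδ.le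
  have hxi : (τ.g2par l δ t).g2xi (t / l) p = δ • τ.x (p.flow t) := by
    rw [rt_g2_par_x τ t hl.ne' hδ.ne' hr.ne' H.len p, smul_smul, mul_inv_cancel₀ hδ.ne', one_smul]
  have hze : (τ.g2par l δ t).g2ze (t / l) p = δ * τ.z (p.flow t) := by
    rw [rt_g2_par_z τ t hl.ne' hδ.ne' hr.ne' H.len p]
    field_simp
  rw [hxi, hze, ← rt_g2_par_V]
  generalize p.flow t = P at *
  have e3 : δ • τ.x P - δ • τ.x p' = (l * τ.r)⁻¹ • (P.b - p'.b) := by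
    unfold RtTest.x
    rw [H.len]
    ext
    · simp only [Prod.fst_sub, Prod.smul_fst, smul_eq_mul]
      field_simp
      ring
    · simp only [Prod.snd_sub, Prod.smul_snd, smul_eq_mul]
      field_simp
      ring
  refine ⟨τ.x p', τ.z p', τ.V p', by simpa using hx', by simpa using hz', by simpa using hV', by simpa [RtTest.Fv] using hF',
    by simpa [RtTest.Gv] using hG', ?_, ?_, ?_⟩
  · have e : τ.V P - τ.V p' = τ.r⁻¹ • (P.A - p'.A) := by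
      unfold RtTest.V
      rw [← smul_sub]
      congr 1
      abel
    have e2 : rtSq (P.A - p'.A) = rtSq (p'.A - P.A) := by
      simp only [rtSq, Prod.fst_sub, Prod.snd_sub]
      ring
    rw [e, rt_g2_sq_smul, e2]
    calc δ * (τ.r⁻¹ ^ 2 * rtSq (p'.A - P.A)) ≤ δ * (τ.r⁻¹ ^ 2 * (M * (D / Real.sqrt δ)) ^ 2) := by gcongr
      _ = (M * (D / τ.r)) ^ 2 := by
        rw [mul_pow M, div_pow, hsq]
        field_simp
  · have e2 : rtSq (P.b - p'.b) = rtSq (p'.b - P.b) := by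
      simp only [rtSq, Prod.fst_sub, Prod.snd_sub]
      ring
    rw [e3, rt_g2_sq_smul, e2]
    calc (l * τ.r)⁻¹ ^ 2 * rtSq (p'.b - P.b) ≤ (l * τ.r)⁻¹ ^ 2 * (M * (l * D)) ^ 2 := by gcongr
      _ = (M * (D / τ.r)) ^ 2 := by
        field_simp
  · rw [e3]
    have e : δ * τ.z P - δ * τ.z p' - 2 * rtIp (τ.V P) ((l * τ.r)⁻¹ • (P.b - p'.b))
        = -((p'.y - P.y - 2 * rtIp P.A (p'.b - P.b)) / (l * τ.r ^ 2)) := by
      simp only [RtTest.z, RtTest.V, H.len, rtIp, Prod.fst_sub, Prod.snd_sub, Prod.smul_fst, Prod.smul_snd, smul_eq_mul]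
      field_simp
      ring
    rw [e, abs_neg, abs_div, abs_of_pos (by positivity : 0 < l * τ.r ^ 2), div_le_iff₀ (by positivity)]
    calc |p'.y - P.y - 2 * rtIp P.A (p'.b - P.b)| ≤ M * (l * D ^ 2) := hy
      _ = M * (D / τ.r) ^ 2 * (l * τ.r ^ 2) := by
        field_simp

/-! ## LEAF L-256-RT-G2-N2 : the consequences `V`, `xi`, `v`      (~150 l.) -/

/-- the error of the velocity -/
theorem rt_g2_eV {δ f d1 M : ℝ} {e : ℝ × ℝ} (hδ : 0 < δ) (hd : d1 ^ 2 ≤ f ^ 2 * δ) (h : δ * rtSq e ≤ (M * d1) ^ 2) :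
    rtSq e ≤ (M * f) ^ 2 := by
  have h1 : δ * rtSq e ≤ δ * (M * f) ^ 2 := by
    calc δ * rtSq e ≤ (M * d1) ^ 2 := h
      _ = M ^ 2 * d1 ^ 2 := by ring
      _ ≤ M ^ 2 * (f ^ 2 * δ) := by gcongr
      _ = δ * (M * f) ^ 2 := by ring
  exact le_of_mul_le_mul_left h1 hδ

/-- **PLAN.**  `x', z', V'` from `h`.   `e_V = V - V'`: `δ rtSq e_V ≤ (M d1)² ≤ M² f² δ`, so `rtSq e_V ≤ (M f)² ≤ M²`;  `e_ξ = ξ - δ x'`, `rtSq e_ξ ≤ (M d1)²`;  `e_ζ = ζ - δ z' - 2 V·e_ξ`, `|e_ζ| ≤ M d1²`.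
`V = V' + e_V` (`rt_g2_sq_add`);   `ξ = δ x' + e_ξ` (`rtSq (δ x') = δ² rtSq x' ≤ δ²`);   `ζ - 2 V·ξ = δ z' + e_ζ - 2 δ V·x'` (ring), `|V·x'| ≤ (1 + M f) · 1 ≤ 1 + M`: in fact `≤ δ + M d1² + 2δ(1 + M) `… use `|V·x'| ≤ 1 + M f ≤ 1 + M` and `3 + 2M = 1 + 2(1 + M)`. -/
theorem rt_g2_fact1 {n : RtPoly} {δ f d1 M : ℝ} {V ξ : ℝ × ℝ} {ζ : ℝ} (hM : 2 ≤ M) (hδ : 0 < δ) (hδ1 : δ ≤ 1) (hf : 0 < f) (hf1 : f ≤ 1)
    (hd0 : 0 ≤ d1) (hd : d1 ^ 2 ≤ f ^ 2 * δ) (h : RtG2N n δ f d1 M V ξ ζ) :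
    rtSq V ≤ (1 + M) ^ 2 ∧ rtSq ξ ≤ (δ + M * d1) ^ 2 ∧ |ζ - 2 * rtIp V ξ| ≤ (3 + 2 * M) * δ + M * d1 ^ 2 := by
  obtain ⟨x', z', V', h1, h2, h3, -, -, h6, h7, h8⟩ := h
  have hM0 : 0 ≤ M := by linarith
  have heV : rtSq (V - V') ≤ M ^ 2 := by
    refine (rt_g2_eV hδ hd h6).trans ?_
    have : M * f ≤ M := by nlinarith
    exact pow_le_pow_left₀ (by positivity) this 2
  have hV : rtSq V ≤ (1 + M) ^ 2 := by
    have := rt_g2_sq_add (u := V') (v := V - V') (a := 1) (b := M) zero_le_one hM0 (by simpa using h3) heV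
    rwa [add_sub_cancel] at this
  refine ⟨hV, ?_, ?_⟩
  · have hx : rtSq (δ • x') ≤ δ ^ 2 := by
      rw [rt_g2_sq_smul]
      have := mul_le_mul_of_nonneg_left h1 (sq_nonneg δ)
      linarith
    have := rt_g2_sq_add (u := δ • x') (v := ξ - δ • x') (a := δ) (b := M * d1) hδ.le (by positivity) hx h7
    rwa [add_sub_cancel] at this
  · have e : ζ - 2 * rtIp V ξ = δ * z' + (ζ - δ * z' - 2 * rtIp V (ξ - δ • x')) - 2 * δ * rtIp V x' := by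
      simp only [rtIp, Prod.fst_sub, Prod.snd_sub, Prod.smul_fst, Prod.smul_snd, smul_eq_mul]
      ring
    have hVx : |rtIp V x'| ≤ (1 + M) * 1 := rtIp_abs_le (by linarith) zero_le_one hV (by simpa using h1)
    rw [e]
    have t1 : |δ * z'| ≤ δ := by
      rw [abs_mul, abs_of_pos hδ]
      nlinarith
    have t2 : |2 * δ * rtIp V x'| ≤ 2 * δ * (1 + M) := by
      rw [abs_mul, abs_of_pos (by positivity : 0 < 2 * δ)]
      have := mul_le_mul_of_nonneg_left hVx (by positivity : 0 ≤ 2 * δ)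
      linarith
    calc |δ * z' + (ζ - δ * z' - 2 * rtIp V (ξ - δ • x')) - 2 * δ * rtIp V x'|
        ≤ |δ * z' + (ζ - δ * z' - 2 * rtIp V (ξ - δ • x'))| + |2 * δ * rtIp V x'| := abs_sub _ _
      _ ≤ |δ * z'| + |ζ - δ * z' - 2 * rtIp V (ξ - δ • x')| + |2 * δ * rtIp V x'| := by
        gcongr
        exact abs_add_le _ _
      _ ≤ δ + M * d1 ^ 2 + 2 * δ * (1 + M) := by gcongr
      _ = (3 + 2 * M) * δ + M * d1 ^ 2 := by ring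

/-! ## LEAF L-256-RT-G2-N3 : the consequences `G`, `F`, `h`      (~250 l.) -/

/-- `G(ξ/δ, ζ/δ, V) = h(V) + (k/δ)(ζ - 2 V·ξ)`   (unfold, `field_simp`, `ring`). -/
theorem rt_g2_G_h (n : RtPoly) {δ : ℝ} (hδ : δ ≠ 0) (V ξ : ℝ × ℝ) (ζ : ℝ) :
    n.G 0 (δ⁻¹ • ξ) (ζ / δ) V = n.g2h V + n.k / δ * (ζ - 2 * rtIp V ξ) := by
  simp only [RtPoly.G, RtPoly.g2h, rtIp, rtSq, Prod.fst_sub, Prod.snd_sub, Prod.smul_fst, Prod.smul_snd, smul_eq_mul]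
  field_simp
  ring

/-- the arithmetic of the bound of `G` -/
theorem rt_g2_num_G {f M : ℝ} (hM : 2 ≤ M) (hf : 0 < f) (hf1 : f ≤ 1) :
    100 * (M * f ^ 2) + M * f * (100 + 200) + 100 * (M * f * (1 + M + 1)) + f ≤ 600 * M ^ 2 * f := by
  have h1 : 0 ≤ f * (600 * M ^ 2 - (100 * M * f + 500 * M + 100 * M ^ 2 + 1)) := by
    refine mul_nonneg hf.le ?_
    have : 100 * M * f ≤ 100 * M := by nlinarith
    nlinarith
  nlinarith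

/-- the arithmetic of the bound of `F` -/
theorem rt_g2_num_F {f M : ℝ} (hM : 2 ≤ M) (hf : 0 < f) (hf1 : f ≤ 1) :
    100 * (M * f) + 100 * (2 * ((1 + M) * (M * f)) + M * f) + 100 * (2 * (1 * (M * f)) + (M * f) ^ 2) + f ≤ 700 * M ^ 2 * f := by
  have h1 : 0 ≤ f * (700 * M ^ 2 - (600 * M + 200 * M ^ 2 + 100 * M ^ 2 * f + 1)) := by
    refine mul_nonneg hf.le ?_
    have : 100 * M ^ 2 * f ≤ 100 * M ^ 2 := by nlinarith [sq_nonneg M]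
    nlinarith
  nlinarith

/-- **PLAN.**  Notation of `rt_g2_fact1`; `x = ξ/δ = x' + e_ξ/δ`, `z = ζ/δ = z' + (2V·e_ξ + e_ζ)/δ`.   IDENTITIES (unfold, `field_simp`, `ring`):
`G(x,z,V) - G(x',z',V') = k e_ζ/δ + e_V·(α - 2k x') + β e_V·(V + V')`,
`δ (F(x,z) - F(x',z')) = α·e_ξ + β (2V·e_ξ + e_ζ) - k (2 x'·e_ξ + rtSq e_ξ/δ)`.
BOUNDS (`n.Bd 100`; `|e_V| ≤ M f`, `|e_ξ| ≤ M d1 ≤ M f`, `rtSq e_ξ/δ ≤ M² f²`, `|e_ζ|/δ ≤ M f²`, `|e_ζ| ≤ M f`, `|V| ≤ 1 + M`, `|V + V'| ≤ 2 + M`, `f ≤ 1`, `M ≥ 2`; `rtIp_abs_le`):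
`|G - G'| ≤ 100 M f + M f (100 + 200) + 100 M f (2 + M) = M f (600 + 100 M) ≤ 400 M² f`, `|G'| ≤ f`:   `|G| ≤ 600 M² f`.
`|δ(F - F')| ≤ 100 M f + 100 (2 (1+M) M f + M f) + 100 (2 M f + M² f) = 100 M f (6 + 3M) ≤ 600 M² f`, `|δ F'| ≤ f`:   `|δ F| ≤ 700 M² f`.
`h(V) = G - (k/δ)(ζ - 2V·ξ)` (`rt_g2_G_h`), `|ζ - 2V·ξ|/δ ≤ 3 + 2M + M f² ≤ 3 + 3M ≤ 600 M²`:   `|h| ≤ 600 M² f + |k| · 600 M²`. -/
theorem rt_g2_fact2 {n : RtPoly} {δ f d1 M : ℝ} {V ξ : ℝ × ℝ} {ζ : ℝ} (hn : n.Bd 100) (hM : 2 ≤ M) (hδ : 0 < δ) (hδ1 : δ ≤ 1) (hf : 0 < f) (hf1 : f ≤ 1)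
    (hd0 : 0 ≤ d1) (hd : d1 ^ 2 ≤ f ^ 2 * δ) (h : RtG2N n δ f d1 M V ξ ζ) :
    |n.G 0 (δ⁻¹ • ξ) (ζ / δ) V| ≤ 600 * M ^ 2 * f ∧ |δ * n.F 0 (δ⁻¹ • ξ) (ζ / δ)| ≤ 700 * M ^ 2 * f ∧
      |n.g2h V| ≤ 600 * M ^ 2 * (f + |n.k|) := by
  obtain ⟨hV, hxi, hv⟩ := rt_g2_fact1 hM hδ hδ1 hf hf1 hd0 hd h
  obtain ⟨x', z', V', h1, h2, h3, h4, h5, h6, h7, h8⟩ := h
  obtain ⟨-, -, bal, bbe, bk⟩ := hn
  have hM0 : 0 ≤ M := by linarith
  have hMf : 0 ≤ M * f := by positivity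
  have hdf : d1 ≤ f := by
    have : d1 ^ 2 ≤ f ^ 2 := hd.trans (by nlinarith [sq_nonneg f])
    exact (pow_le_pow_iff_left₀ hd0 hf.le two_ne_zero).1 this
  have heV : rtSq (V - V') ≤ (M * f) ^ 2 := rt_g2_eV hδ hd h6
  have hexi : rtSq (ξ - δ • x') ≤ (M * f) ^ 2 :=
    h7.trans (pow_le_pow_left₀ (by positivity) (mul_le_mul_of_nonneg_left hdf hM0) 2)
  have hx1 : rtSq x' ≤ 1 ^ 2 := by simpa using h1
  have hV1 : rtSq V' ≤ 1 ^ 2 := by simpa using h3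
  set eζ := ζ - δ * z' - 2 * rtIp V (ξ - δ • x') with heζ
  -- bounds of the error of the height
  have hz1 : |eζ / δ| ≤ M * f ^ 2 := by
    rw [abs_div, abs_of_pos hδ, div_le_iff₀ hδ]
    calc |eζ| ≤ M * d1 ^ 2 := h8
      _ ≤ M * (f ^ 2 * δ) := by gcongr
      _ = M * f ^ 2 * δ := by ring
  have hz2 : |eζ| ≤ M * f := by
    calc |eζ| ≤ M * d1 ^ 2 := h8
      _ ≤ M * (f ^ 2 * δ) := by gcongr
      _ ≤ M * f := by
        refine mul_le_mul_of_nonneg_left ?_ hM0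
        have : f ^ 2 * δ ≤ f ^ 2 * 1 := by gcongr
        nlinarith
  have hq : rtSq (ξ - δ • x') / δ ≤ (M * f) ^ 2 := by
    rw [div_le_iff₀ hδ]
    calc rtSq (ξ - δ • x') ≤ (M * d1) ^ 2 := h7
      _ = M ^ 2 * d1 ^ 2 := by ring
      _ ≤ M ^ 2 * (f ^ 2 * δ) := by gcongr
      _ = (M * f) ^ 2 * δ := by ring
  have hq0 : 0 ≤ rtSq (ξ - δ • x') / δ := div_nonneg (rtSq_nonneg _) hδ.le
  -- the bound of G
  have hG : |n.G 0 (δ⁻¹ • ξ) (ζ / δ) V| ≤ 600 * M ^ 2 * f := by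
    have e : n.G 0 (δ⁻¹ • ξ) (ζ / δ) V = n.k * (eζ / δ) + rtIp (V - V') (n.al - (2 * n.k) • x')
        + n.be * rtIp (V - V') (V + V') + n.G 0 x' z' V' := by
      simp only [heζ, RtPoly.G, rtIp, rtSq, Prod.fst_sub, Prod.snd_sub, Prod.fst_add, Prod.snd_add, Prod.smul_fst, Prod.smul_snd,
        smul_eq_mul]
      field_simp
      ring
    have b1 : |n.k * (eζ / δ)| ≤ 100 * (M * f ^ 2) := by
      rw [abs_mul]
      exact mul_le_mul bk hz1 (abs_nonneg _) (by norm_num)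
    have s1 : rtSq ((2 * n.k) • x') ≤ 200 ^ 2 := by
      rw [rt_g2_sq_smul]
      have hk2 : (2 * n.k) ^ 2 ≤ 200 ^ 2 := by
        rw [← sq_abs (2 * n.k), abs_mul, abs_two]
        exact pow_le_pow_left₀ (by positivity) (by linarith) 2
      calc (2 * n.k) ^ 2 * rtSq x' ≤ 200 ^ 2 * 1 := mul_le_mul hk2 h1 (rtSq_nonneg _) (by norm_num)
        _ = 200 ^ 2 := by ring
    have b2 : |rtIp (V - V') (n.al - (2 * n.k) • x')| ≤ M * f * (100 + 200) :=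
      rtIp_abs_le hMf (by norm_num) heV (rt_g2_sq_sub (by norm_num) (by norm_num) bal s1)
    have b3 : |n.be * rtIp (V - V') (V + V')| ≤ 100 * (M * f * (1 + M + 1)) := by
      rw [abs_mul]
      exact mul_le_mul bbe (rtIp_abs_le hMf (by linarith) heV (rt_g2_sq_add (by linarith) zero_le_one hV hV1)) (abs_nonneg _)
        (by norm_num)
    rw [e]
    calc |n.k * (eζ / δ) + rtIp (V - V') (n.al - (2 * n.k) • x') + n.be * rtIp (V - V') (V + V') + n.G 0 x' z' V'|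
        ≤ |n.k * (eζ / δ)| + |rtIp (V - V') (n.al - (2 * n.k) • x')| + |n.be * rtIp (V - V') (V + V')| + |n.G 0 x' z' V'| := by
          refine (abs_add_le _ _).trans ?_
          gcongr
          refine (abs_add_le _ _).trans ?_
          gcongr
          exact abs_add_le _ _
      _ ≤ 100 * (M * f ^ 2) + M * f * (100 + 200) + 100 * (M * f * (1 + M + 1)) + f := by gcongr
      _ ≤ 600 * M ^ 2 * f := rt_g2_num_G hM hf hf1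
  refine ⟨hG, ?_, ?_⟩
  · have e : δ * n.F 0 (δ⁻¹ • ξ) (ζ / δ) = rtIp n.al (ξ - δ • x') + n.be * (2 * rtIp V (ξ - δ • x') + eζ)
        - n.k * (2 * rtIp x' (ξ - δ • x') + rtSq (ξ - δ • x') / δ) + δ * n.F 0 x' z' := by
      simp only [heζ, RtPoly.F, rtIp, rtSq, Prod.fst_sub, Prod.snd_sub, Prod.smul_fst, Prod.smul_snd, smul_eq_mul]
      field_simp
      ring
    have b1 : |rtIp n.al (ξ - δ • x')| ≤ 100 * (M * f) := rtIp_abs_le (by norm_num) hMf bal hexi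
    have b2 : |n.be * (2 * rtIp V (ξ - δ • x') + eζ)| ≤ 100 * (2 * ((1 + M) * (M * f)) + M * f) := by
      rw [abs_mul]
      refine mul_le_mul bbe ?_ (abs_nonneg _) (by norm_num)
      refine (abs_add_le _ _).trans ?_
      rw [abs_mul, abs_two]
      have := rtIp_abs_le (by linarith : (0 : ℝ) ≤ 1 + M) hMf hV hexi
      linarith
    have b3 : |n.k * (2 * rtIp x' (ξ - δ • x') + rtSq (ξ - δ • x') / δ)| ≤ 100 * (2 * (1 * (M * f)) + (M * f) ^ 2) := by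
      rw [abs_mul]
      refine mul_le_mul bk ?_ (abs_nonneg _) (by norm_num)
      refine (abs_add_le _ _).trans ?_
      rw [abs_mul, abs_two, abs_of_nonneg hq0]
      have := rtIp_abs_le zero_le_one hMf hx1 hexi
      linarith
    have b4 : |δ * n.F 0 x' z'| ≤ f := by
      rw [abs_mul, abs_of_pos hδ]
      calc δ * |n.F 0 x' z'| ≤ 1 * f := mul_le_mul hδ1 h4 (abs_nonneg _) zero_le_one
        _ = f := one_mul f
    rw [e]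
    calc |rtIp n.al (ξ - δ • x') + n.be * (2 * rtIp V (ξ - δ • x') + eζ)
          - n.k * (2 * rtIp x' (ξ - δ • x') + rtSq (ξ - δ • x') / δ) + δ * n.F 0 x' z'|
        ≤ |rtIp n.al (ξ - δ • x')| + |n.be * (2 * rtIp V (ξ - δ • x') + eζ)|
          + |n.k * (2 * rtIp x' (ξ - δ • x') + rtSq (ξ - δ • x') / δ)| + |δ * n.F 0 x' z'| := by
          refine (abs_add_le _ _).trans ?_
          gcongr
          refine (abs_sub _ _).trans ?_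
          gcongr
          exact abs_add_le _ _
      _ ≤ 100 * (M * f) + 100 * (2 * ((1 + M) * (M * f)) + M * f) + 100 * (2 * (1 * (M * f)) + (M * f) ^ 2) + f := by gcongr
      _ ≤ 700 * M ^ 2 * f := rt_g2_num_F hM hf hf1
  · have e : n.g2h V = n.G 0 (δ⁻¹ • ξ) (ζ / δ) V - n.k * ((ζ - 2 * rtIp V ξ) / δ) := by
      rw [rt_g2_G_h n hδ.ne']
      ring
    have b1 : |(ζ - 2 * rtIp V ξ) / δ| ≤ 600 * M ^ 2 := by
      rw [abs_div, abs_of_pos hδ, div_le_iff₀ hδ]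
      calc |ζ - 2 * rtIp V ξ| ≤ (3 + 2 * M) * δ + M * d1 ^ 2 := hv
        _ ≤ (3 + 2 * M) * δ + M * (f ^ 2 * δ) := by gcongr
        _ ≤ (3 + 2 * M) * δ + M * (1 * δ) := by
          gcongr
          nlinarith
        _ = (3 + 3 * M) * δ := by ring
        _ ≤ 600 * M ^ 2 * δ := by
          gcongr
          nlinarith
    rw [e]
    calc |n.G 0 (δ⁻¹ • ξ) (ζ / δ) V - n.k * ((ζ - 2 * rtIp V ξ) / δ)|
        ≤ |n.G 0 (δ⁻¹ • ξ) (ζ / δ) V| + |n.k * ((ζ - 2 * rtIp V ξ) / δ)| := abs_sub _ _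
      _ ≤ 600 * M ^ 2 * f + |n.k| * (600 * M ^ 2) := by
        rw [abs_mul]
        gcongr
      _ = 600 * M ^ 2 * (f + |n.k|) := by ring

/-- the facts at a row of the set -/
theorem rt_g2_fact {M l δ t D : ℝ} {τ : RtTest} (H : RtG2H M l δ t D τ) {p : RtRow} (hp : p ∈ rtG2S M l δ t D τ) :
    RtG2Fact τ.n δ τ.f (D / τ.r) M ((τ.g2par l δ t).V p) ((τ.g2par l δ t).g2xi (t / l) p) ((τ.g2par l δ t).g2ze (t / l) p) := by
  have hN := rt_g2_norm H hp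
  obtain ⟨d0, d2, _⟩ := rt_g2_d1 H
  have hb : τ.n.Bd 100 := by simpa using H.adm.bd
  obtain ⟨a1, a2, a3⟩ := rt_g2_fact1 H.M2 H.δ0 H.δ1 H.adm.f_pos H.adm.f_le d0 d2 hN
  obtain ⟨b1, b2, b3⟩ := rt_g2_fact2 hb H.M2 H.δ0 H.δ1 H.adm.f_pos H.adm.f_le d0 d2 hN
  exact ⟨a1, a2, a3, b1, b2, b3⟩

/-- the sublevel bounds in the parent frame: `Φ.Gv = G`, `Φ.Fv = δ F - θ G` (`rt_g2_par_Gv`, `rt_g2_par_Fv`), `0 ≤ θ ≤ 1`. -/
theorem rt_g2_FG {M l δ t D : ℝ} {τ : RtTest} (H : RtG2H M l δ t D τ) {p : RtRow} (hp : p ∈ rtG2S M l δ t D τ) :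
    |(τ.g2par l δ t).Fv p| ≤ 1300 * M ^ 2 * τ.f ∧ |(τ.g2par l δ t).Gv p| ≤ 1300 * M ^ 2 * τ.f := by
  have hF := rt_g2_fact H hp
  have hδ := H.δ0
  have hθ0 : 0 ≤ t / l := div_nonneg H.t0 H.l0.le
  have hθ1 : t / l ≤ 1 := (div_le_one H.l0).2 H.tl
  have hpos : 0 ≤ M ^ 2 * τ.f := mul_nonneg (sq_nonneg M) H.adm.f_pos.le
  constructor
  · rw [rt_g2_par_Fv τ t hδ.ne' p]
    refine (abs_sub _ _).trans ?_
    rw [abs_mul (t / l), abs_of_nonneg hθ0]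
    have h1 := hF.hF
    have h2 := hF.hG
    have h3 : t / l * |τ.n.G 0 (δ⁻¹ • (τ.g2par l δ t).g2xi (t / l) p) ((τ.g2par l δ t).g2ze (t / l) p / δ) ((τ.g2par l δ t).V p)|
        ≤ 1 * (600 * M ^ 2 * τ.f) := mul_le_mul hθ1 h2 (abs_nonneg _) zero_le_one
    linarith
  · rw [rt_g2_par_Gv τ t hδ.ne' p]
    have h2 := hF.hG
    linarith

end Claimed.Agent.R256
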