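import Claimed.Agent.R256.Rt.G1Main

/-!
# Row 256, folder Rt, file G2Par: THE PARENT FRAME of a child test (unit RT-G2)      (architect helper18; prefix `rt_g2_`)
Mathlib only, model free.   Child test `τ` of length `δ l`, read at the time offset `t`; `θ = t / l`.
* `τ.g2par l δ t` : the FRAME at the parent time: length `l`, width `τ.r`, centre = backflow of the centre of `τ`, polynomial `ñ = (δ c - d θ, d, α, β - k θ/δ, k/δ)` (`= δ F_child` in parent coordinates; same discriminant).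
* for a row `p` at the parent time with frame coordinates `X, Z, V`:   `τ.V (p.flow t) = V`,  `τ.x (p.flow t) = (X + θ V)/δ`,  `τ.z (p.flow t) = (Z + θ |V|²)/δ`,
  `Φ.Gv p = τ.Gv (p.flow t)`,   `Φ.Fv p = δ τ.Fv (p.flow t) - θ τ.Gv (p.flow t)`.
-/

set_option autoImplicit false

namespace Claimed.Agent.R256

open scoped BigOperators

/-- the parent polynomial -/
noncomputable def RtPoly.g2par (n : RtPoly) (δ θ : ℝ) : RtPoly :=
  ⟨δ * n.c - n.d * θ, n.d, n.al, n.be - n.k * θ / δ, n.k / δ⟩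

/-- the parent frame -/
noncomputable def RtTest.g2par (τ : RtTest) (l δ t : ℝ) : RtTest :=
  ⟨l, τ.r, τ.f, τ.As, τ.bs - t • τ.As, τ.ys - t * rtSq τ.As, τ.n.g2par δ (t / l)⟩

/-- time-`θ` position in parent units -/
noncomputable def RtTest.g2xi (Φ : RtTest) (θ : ℝ) (p : RtRow) : ℝ × ℝ := Φ.x p + θ • Φ.V p

/-- time-`θ` height in parent units -/
noncomputable def RtTest.g2ze (Φ : RtTest) (θ : ℝ) (p : RtRow) : ℝ := Φ.z p + θ * rtSq (Φ.V p)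

theorem rt_g2_par_eqns_cite : True := by
  have := @RtPoly.g2par.eq_1
  have := @RtTest.g2par.eq_1
  have := @RtTest.g2xi.eq_1
  have := @RtTest.g2ze.eq_1
  trivial

theorem rt_g2_par_disc (n : RtPoly) {δ : ℝ} (hδ : δ ≠ 0) (θ : ℝ) : (n.g2par δ θ).disc = n.disc := by
  simp only [RtPoly.disc, RtPoly.g2par]
  field_simp
  ring

theorem rt_g2_par_V (τ : RtTest) (l δ t : ℝ) (p : RtRow) : τ.V (p.flow t) = (τ.g2par l δ t).V p := rfl

theorem rt_g2_par_x (τ : RtTest) {l δ : ℝ} (t : ℝ) (hl : l ≠ 0) (hδ : δ ≠ 0) (hr : τ.r ≠ 0) (hτ : τ.l = δ * l) (p : RtRow) :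
    τ.x (p.flow t) = δ⁻¹ • (τ.g2par l δ t).g2xi (t / l) p := by
  ext <;>
  · simp only [RtTest.x, RtTest.V, RtTest.g2xi, RtTest.g2par, RtRow.flow, hτ, Prod.smul_fst, Prod.smul_snd, Prod.fst_sub, Prod.snd_sub,
      Prod.fst_add, Prod.snd_add, smul_eq_mul]
    field_simp
    ring

theorem rt_g2_par_z (τ : RtTest) {l δ : ℝ} (t : ℝ) (hl : l ≠ 0) (hδ : δ ≠ 0) (hr : τ.r ≠ 0) (hτ : τ.l = δ * l) (p : RtRow) :
    τ.z (p.flow t) = (τ.g2par l δ t).g2ze (t / l) p / δ := by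
  simp only [RtTest.z, RtTest.V, RtTest.g2ze, RtTest.g2par, RtRow.flow, hτ, rtIp, rtSq, Prod.smul_fst, Prod.smul_snd, Prod.fst_sub,
    Prod.snd_sub, Prod.fst_add, Prod.snd_add, smul_eq_mul]
  field_simp
  ring

/-- `G̃` at time `0` in terms of the time-`θ` coordinates -/
theorem rt_g2_poly_G (n : RtPoly) {δ : ℝ} (hδ : δ ≠ 0) (θ : ℝ) (X : ℝ × ℝ) (Z : ℝ) (V : ℝ × ℝ) :
    (n.g2par δ θ).G 0 X Z V = n.G 0 (δ⁻¹ • (X + θ • V)) ((Z + θ * rtSq V) / δ) V := by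
  simp only [RtPoly.G, RtPoly.g2par, rtIp, rtSq, Prod.smul_fst, Prod.smul_snd, Prod.fst_sub, Prod.snd_sub, Prod.fst_add, Prod.snd_add,
    smul_eq_mul]
  field_simp
  ring

/-- `F̃` at time `0` in terms of the time-`θ` coordinates -/
theorem rt_g2_poly_F (n : RtPoly) {δ : ℝ} (hδ : δ ≠ 0) (θ : ℝ) (X : ℝ × ℝ) (Z : ℝ) (V : ℝ × ℝ) :
    (n.g2par δ θ).F 0 X Z = δ * n.F 0 (δ⁻¹ • (X + θ • V)) ((Z + θ * rtSq V) / δ)
      - θ * n.G 0 (δ⁻¹ • (X + θ • V)) ((Z + θ * rtSq V) / δ) V := by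
  simp only [RtPoly.F, RtPoly.G, RtPoly.g2par, rtIp, rtSq, Prod.smul_fst, Prod.smul_snd, Prod.fst_sub, Prod.snd_sub, Prod.fst_add,
    Prod.snd_add, smul_eq_mul]
  field_simp
  ring

theorem rt_g2_par_Gv (τ : RtTest) {l δ : ℝ} (t : ℝ) (hδ : δ ≠ 0) (p : RtRow) :
    (τ.g2par l δ t).Gv p = τ.n.G 0 (δ⁻¹ • (τ.g2par l δ t).g2xi (t / l) p) ((τ.g2par l δ t).g2ze (t / l) p / δ) ((τ.g2par l δ t).V p) :=
  rt_g2_poly_G τ.n hδ (t / l) _ _ _

theorem rt_g2_par_Fv (τ : RtTest) {l δ : ℝ} (t : ℝ) (hδ : δ ≠ 0) (p : RtRow) :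
    (τ.g2par l δ t).Fv p = δ * τ.n.F 0 (δ⁻¹ • (τ.g2par l δ t).g2xi (t / l) p) ((τ.g2par l δ t).g2ze (t / l) p / δ)
      - t / l * τ.n.G 0 (δ⁻¹ • (τ.g2par l δ t).g2xi (t / l) p) ((τ.g2par l δ t).g2ze (t / l) p / δ) ((τ.g2par l δ t).V p) :=
  rt_g2_poly_F τ.n hδ (t / l) _ _ _

end Claimed.Agent.R256
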