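import Claimed.Agent.R256.Rt.PclDefs

/-!
# Row 256, folder Rt, file PclGeo : PATCHCL, THE GEOMETRY OF THE LABELS      (architect helper157; prefix `rt_pc_`)      CONTRACT FILE

Every `sorry` is a LEAF (subtask target `row256`, names `L-256-RT-PC-*`).   Prove IN PLACE, statement verbatim, auxiliary lemmas directly above.   Elementary real algebra and inequalities; no measure, no paper: the complete proof is in each docstring.
* `rt_pc_den`    (DEN)    `1/2 ≤ |den| ≤ 2`, `den = dn`, `|tm| ≤ 3` at the old times `|t| ≤ 2` of a row of the patch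
* `rt_pc_rate`   (RATE)   the new time increases at a rate `≥ 1/5`;   `rt_pc_range` : new times of `θ ∈ [0,1]` lie in `[-2.6, 2.8]`
* `rt_pc_lip`    (LIP)    variation of a hyperquadric polynomial between two events of the same time
* `rt_pc_time`   (TIME)   two rows of the patch which are `ε`-close at the old time `θ` have new times within `10⁵ P⁶ ε`
* `rt_pc_close`  (CLOSE)  two physical rows in the box of one label are `24 s`-close in parent units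
* `rt_pc_thin`   (THIN)   good rows: `|A₂'| ≤ 24 fs`, `|b₂'| ≤ 12 fs`, transformed rows bounded
* `rt_pc_labq`   (LABQ)   the cylinder test of a label at a rounded new time `T'` (endlift + omitted vertical displacement + position units + bounded centre)
* **`rt_pc_lab1`** (LAB, proved from the above up to the leaf `rt_pc_round`): one new interval and one cylinder test for every label.
-/

set_option autoImplicit false

namespace Claimed.Agent.R256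

attribute [local implicit_reducible] CclPar.sys RdClPar.sys

/-! ## 1. The clock of a flattening chart -/

/-- LEAF `L-256-RT-PC-DEN`.   `Φ = rtChart p₀ n`.   `h.fwd q hq t ht` : `den ≠ 0`, `|den| ≤ 2`, `|tm| ≤ 3`;  `h.ex.den_ray q (h.dom q hq) t` : `den = dn`.
Lower bound: `τ = Φ.tm q t`, `|τ| ≤ 3`; `h.hit q hq τ` gives `t'` with `2⁻¹ ≤ |den (q.ev t')|`, `Φ.tm q t' = τ`; `rt_ch_tm_sub` (both `dn ≠ 0`) and `(h.wr q hq).1 : 4/5 ≤ wr` force `t' = t`. -/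
theorem rt_pc_den {P : ℝ} {n : RtPoly} {p₀ : RtRow} (h : RtChartOk P n p₀) {q : RtRow} (hq : q ∈ rtBx p₀ 1 (rtChRho P)) {t : ℝ}
    (ht : |t| ≤ 2) :
    (rtChart p₀ n).den (q.ev t) = (rtChart p₀ n).dn q t ∧ 1 / 2 ≤ |(rtChart p₀ n).dn q t| ∧ |(rtChart p₀ n).dn q t| ≤ 2 ∧
      |(rtChart p₀ n).tm q t| ≤ 3 := by
  obtain ⟨a1, a2, a3⟩ := (rt_le_dn h hq).1 t ht
  exact ⟨a1, a2, a3, (h.fwd q hq t ht).2.2⟩

theorem rt_pc_rate_sign (d0 d1 t t' : ℝ) (ht : |t| ≤ 2) (ht' : |t'| ≤ 2) (H : ∀ x : ℝ, |x| ≤ 2 → 1 / 2 ≤ |d0 + x * d1|) :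
    0 < (d0 + t * d1) * (d0 + t' * d1) := by
  by_contra hneg
  rw [not_lt] at hneg
  set a := d0 + t * d1 with ha
  set b := d0 + t' * d1 with hb
  have ha0 : a ≠ 0 := by
    intro h0
    have := H t ht
    rw [← ha, h0, abs_zero] at this
    norm_num at this
  have hab : a - b ≠ 0 := by
    intro h0
    have e : b = a := by linarith
    rw [e] at hneg
    have : 0 < a * a := mul_self_pos.2 ha0
    linarith
  have hsq : 0 < (a - b) ^ 2 := by positivity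
  set lam := a * (a - b) / (a - b) ^ 2 with hlam
  have l0 : 0 ≤ lam := div_nonneg (by nlinarith [sq_nonneg a]) hsq.le
  have l1 : lam ≤ 1 := by
    rw [hlam, div_le_one hsq]
    nlinarith [sq_nonneg b]
  have hx : |t + lam * (t' - t)| ≤ 2 := by
    rw [abs_le] at ht ht' ⊢
    constructor <;> nlinarith [ht.1, ht.2, ht'.1, ht'.2]
  have hz : d0 + (t + lam * (t' - t)) * d1 = 0 := by
    have e : d0 + (t + lam * (t' - t)) * d1 = a + lam * (b - a) := by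
      rw [ha, hb]
      ring
    rw [e, hlam]
    field_simp
    ring
  have := H _ hx
  rw [hz, abs_zero] at this
  norm_num at this

/-- LEAF `L-256-RT-PC-RATE`.   `dn q ·` is affine and does not vanish on `[-2,2]` (`rt_pc_den`), so `dn q t * dn q t' > 0` (if the signs differed, the affine function would vanish at a convex combination, which lies in `[-2,2]`);
`≤ 4`;  `rt_ch_tm_sub`, `4/5 ≤ wr`. -/
theorem rt_pc_rate {P : ℝ} {n : RtPoly} {p₀ : RtRow} (h : RtChartOk P n p₀) {q : RtRow} (hq : q ∈ rtBx p₀ 1 (rtChRho P)) {t t' : ℝ}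
    (ht : |t| ≤ 2) (ht' : |t'| ≤ 2) (htt : t ≤ t') : (t' - t) / 5 ≤ (rtChart p₀ n).tm q t' - (rtChart p₀ n).tm q t := by
  have hpos : 0 < (rtChart p₀ n).dn q t * (rtChart p₀ n).dn q t' :=
    rt_pc_rate_sign _ _ t t' ht ht' (fun x hx => (rt_pc_den h hq hx).2.1)
  have ne : (rtChart p₀ n).dn q t ≠ 0 := left_ne_zero_of_mul hpos.ne'
  have ne' : (rtChart p₀ n).dn q t' ≠ 0 := right_ne_zero_of_mul hpos.ne'
  rw [rt_ch_tm_sub (rtChart p₀ n) q ne ne', le_div_iff₀ hpos]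
  have hwr := (h.wr q hq).1
  have u1 := (rt_pc_den h hq ht).2.2.1
  have u2 := (rt_pc_den h hq ht').2.2.1
  have h4 : (rtChart p₀ n).dn q t * (rtChart p₀ n).dn q t' ≤ 4 := by
    calc (rtChart p₀ n).dn q t * (rtChart p₀ n).dn q t' ≤ |(rtChart p₀ n).dn q t * (rtChart p₀ n).dn q t'| := le_abs_self _
      _ = |(rtChart p₀ n).dn q t| * |(rtChart p₀ n).dn q t'| := abs_mul _ _
      _ ≤ 2 * 2 := mul_le_mul u1 u2 (abs_nonneg _) (by norm_num)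
      _ = 4 := by norm_num
  have hd : 0 ≤ t' - t := by linarith
  calc (t' - t) / 5 * ((rtChart p₀ n).dn q t * (rtChart p₀ n).dn q t') ≤ (t' - t) / 5 * 4 :=
        mul_le_mul_of_nonneg_left h4 (by positivity)
    _ = 4 / 5 * (t' - t) := by ring
    _ ≤ (rtChart p₀ n).wr q * (t' - t) := mul_le_mul_of_nonneg_right hwr hd

/-- the new times of the labels -/
theorem rt_pc_range {P : ℝ} {n : RtPoly} {p₀ : RtRow} (h : RtChartOk P n p₀) {q : RtRow} (hq : q ∈ rtBx p₀ 1 (rtChRho P)) {θ : ℝ}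
    (h0 : 0 ≤ θ) (h1 : θ ≤ 1) : -(13 / 5) ≤ (rtChart p₀ n).tm q θ ∧ (rtChart p₀ n).tm q θ ≤ 14 / 5 := by
  have hθ : |θ| ≤ 2 := abs_le.2 ⟨by linarith, by linarith⟩
  have a := rt_pc_rate h hq (t := -2) (t' := θ) (by norm_num) hθ (by linarith)
  have b := rt_pc_rate h hq (t := θ) (t' := 2) hθ (by norm_num) (by linarith)
  have c := abs_le.1 (rt_pc_den h hq (t := -2) (by norm_num)).2.2.2
  have e := abs_le.1 (rt_pc_den h hq (t := 2) (by norm_num)).2.2.2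
  constructor <;> linarith [c.1, e.2]

/-- two-sided form of RATE -/
theorem rt_pc_rate_abs {P : ℝ} {n : RtPoly} {p₀ : RtRow} (h : RtChartOk P n p₀) {q : RtRow} (hq : q ∈ rtBx p₀ 1 (rtChRho P)) {t t' : ℝ}
    (ht : |t| ≤ 2) (ht' : |t'| ≤ 2) : |t' - t| ≤ 5 * |(rtChart p₀ n).tm q t' - (rtChart p₀ n).tm q t| := by
  rcases le_total t t' with htt | htt
  · have a := rt_pc_rate h hq ht ht' htt
    rw [abs_of_nonneg (by linarith : 0 ≤ t' - t)]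
    have := le_abs_self ((rtChart p₀ n).tm q t' - (rtChart p₀ n).tm q t)
    linarith
  · have a := rt_pc_rate h hq ht' ht htt
    rw [abs_sub_comm t' t, abs_of_nonneg (by linarith : 0 ≤ t - t')]
    have := neg_abs_le ((rtChart p₀ n).tm q t' - (rtChart p₀ n).tm q t)
    linarith

/-- LEAF `L-256-RT-PC-LIP`.   `m` any polynomial with `m.Bd B`, `m.disc = 0`;  `w` a row with `|m.Fe (w.ev t)| ≤ F0` for `t = -2, 2, θ`.   EXACT: `m.Fe (w.ev t) = m.F 0 w.b w.y + t * m.G 0 w.b w.y w.A` (unfold, `ring`), so `|G| ≤ F0 / 2`.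
With `e = q.ev θ`, `e' = w.ev θ`, `Δ = e.b - e'.b`, `ζ = e.y - e'.y - 2 w.A·Δ`:   `m.Fe e - m.Fe e' = rtIp (m.g θ e'.b w.A) Δ + (m.be + m.k θ) ζ - m.k rtSq Δ` (unfold, `ring`).
`rt_disc_identity m θ e'.b e'.y w.A` + `rt_G_ray` : `rtSq g = 4 (be + k θ) G - 4 k F ≤ 4 (2B)(F0/2) + 4 B F0 = 8 B F0 ≤ (3 B F0)²`;  `rtIp_abs_le` : `|g·Δ| ≤ 3 B F0 ε`;  `|(be + k θ) ζ| ≤ 2 B ε`;  `|k| rtSq Δ ≤ B ε² ≤ B ε`.   Total `≤ 6 B F0 ε`. -/
theorem rt_pc_lip {m : RtPoly} {B F0 θ ε : ℝ} {q w : RtRow} (hB : 1 ≤ B) (hF0 : 1 ≤ F0) (hm : m.Bd B) (hd : m.disc = 0) (hθ : |θ| ≤ 1)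
    (hε0 : 0 ≤ ε) (hε1 : ε ≤ 1) (h1 : |m.Fe (w.ev (-2))| ≤ F0) (h2 : |m.Fe (w.ev 2)| ≤ F0) (h3 : |m.Fe (w.ev θ)| ≤ F0)
    (hb : rtSq ((q.flow θ).b - (w.flow θ).b) ≤ ε ^ 2)
    (hy : |(q.flow θ).y - (w.flow θ).y - 2 * rtIp w.A ((q.flow θ).b - (w.flow θ).b)| ≤ ε) :
    |m.Fe (q.ev θ) - m.Fe (w.ev θ)| ≤ 8 * B * F0 * ε := by
  obtain ⟨-, -, -, hbe, hk⟩ := hm
  have key : m.Fe (q.ev θ) - m.Fe (w.ev θ) = rtIp (m.g θ (w.flow θ).b w.A) ((q.flow θ).b - (w.flow θ).b)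
      + (m.be + m.k * θ) * ((q.flow θ).y - (w.flow θ).y - 2 * rtIp w.A ((q.flow θ).b - (w.flow θ).b))
      - m.k * rtSq ((q.flow θ).b - (w.flow θ).b) := by
    simp only [RtPoly.Fe, RtPoly.F, RtPoly.g, RtRow.ev, RtRow.flow, rtIp, rtSq, Prod.fst_add, Prod.snd_add, Prod.fst_sub, Prod.snd_sub,
      Prod.smul_fst, Prod.smul_snd, smul_eq_mul]
    ring
  have aff : ∀ t, m.Fe (w.ev t) = m.F 0 w.b w.y + t * m.G 0 w.b w.y w.A := fun t => rt_F_ray m t w.b w.y w.A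
  have hG : |m.G 0 w.b w.y w.A| ≤ F0 / 2 := by
    rw [aff] at h1 h2
    rw [abs_le] at h1 h2 ⊢
    constructor <;> linarith [h1.1, h1.2, h2.1, h2.2]
  have hbk : |m.be + m.k * θ| ≤ 2 * B := by
    calc |m.be + m.k * θ| ≤ |m.be| + |m.k * θ| := abs_add_le _ _
      _ = |m.be| + |m.k| * |θ| := by rw [abs_mul]
      _ ≤ B + B * 1 := add_le_add hbe (mul_le_mul hk hθ (abs_nonneg _) (by linarith))
      _ = 2 * B := by ring
  have hBF : 1 ≤ B * F0 := by nlinarith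
  have hg : rtSq (m.g θ (w.flow θ).b w.A) ≤ (3 * B * F0) ^ 2 := by
    have id := rt_disc_identity m θ (w.flow θ).b (w.flow θ).y w.A
    have gr : m.G θ (w.flow θ).b (w.flow θ).y w.A = m.G 0 w.b w.y w.A := rt_G_ray m θ w.b w.y w.A
    have fe : m.F θ (w.flow θ).b (w.flow θ).y = m.Fe (w.ev θ) := rfl
    rw [id, hd, gr, fe]
    have a1 : |(m.be + m.k * θ) * m.G 0 w.b w.y w.A| ≤ 2 * B * (F0 / 2) := by
      rw [abs_mul]
      exact mul_le_mul hbk hG (abs_nonneg _) (by linarith)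
    have a2 : |m.k * m.Fe (w.ev θ)| ≤ B * F0 := by
      rw [abs_mul]
      exact mul_le_mul hk h3 (abs_nonneg _) (by linarith)
    have b1 := (abs_le.1 a1).2
    have b2 := (abs_le.1 a2).1
    nlinarith
  have t1 : |rtIp (m.g θ (w.flow θ).b w.A) ((q.flow θ).b - (w.flow θ).b)| ≤ 3 * B * F0 * ε :=
    rtIp_abs_le (by positivity) hε0 hg hb
  have t2 : |(m.be + m.k * θ) * ((q.flow θ).y - (w.flow θ).y - 2 * rtIp w.A ((q.flow θ).b - (w.flow θ).b))| ≤ 2 * B * ε := by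
    rw [abs_mul]
    exact mul_le_mul hbk hy (abs_nonneg _) (by linarith)
  have t3 : |m.k * rtSq ((q.flow θ).b - (w.flow θ).b)| ≤ B * ε := by
    rw [abs_mul, abs_of_nonneg (rtSq_nonneg _)]
    calc |m.k| * rtSq ((q.flow θ).b - (w.flow θ).b) ≤ B * ε ^ 2 := mul_le_mul hk hb (rtSq_nonneg _) (by linarith)
      _ ≤ B * ε := by
        apply mul_le_mul_of_nonneg_left _ (by linarith)
        nlinarith
  rw [key]
  have hBε : 0 ≤ B * ε := by positivity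
  have e1 : 2 * B * ε ≤ 2 * B * F0 * ε := by nlinarith
  have e2 : B * ε ≤ B * F0 * ε := by nlinarith
  have s1 := abs_le.1 t1
  have s2 := abs_le.1 t2
  have s3 := abs_le.1 t3
  have hnn : 0 ≤ B * F0 * ε := by positivity
  rw [abs_le]
  constructor <;> linarith [s1.1, s1.2, s2.1, s2.2, s3.1, s3.2]

/-- LEAF `L-256-RT-PC-TIME`.   `Φ = rtChart p₀ n`, `B = 300 P⁶`.   `rt_lf_surj h ⟨0,1,(0,0),0,0⟩ = mt`, `rt_lf_surj h ⟨1,0,(0,0),0,0⟩ = m1`;  `h.pol_bd_inv _ 1` : both `Bd B`;  `h.ex.disc` : both discriminants are `0`.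
For a row `r` of the patch and `|t| ≤ 2` (`rt_pc_den`: `den ≠ 0`):  `h.ex.pol mt (r.ev t)` + `h.ex.ray` : `Φ.tm r t = mt.Fe (r.ev t) / den`,  `h.ex.pol m1` : `den = m1.Fe (r.ev t)`.   So `|mt.Fe| ≤ 6`, `|m1.Fe| ≤ 2` on `w`.
`rt_pc_lip` : `|Δ mt.Fe| ≤ 48 B ε`, `|Δ m1.Fe| ≤ 16 B ε`.   `tm_q - tm_w = (Δ mt.Fe - tm_w Δ den) / den_q`, `|den_q| ≥ 1/2`, `|tm_w| ≤ 3` : `≤ 2 (48 + 48) B ε = 57600 P⁶ ε`. -/
theorem rt_pc_time {P : ℝ} (hP : 1 ≤ P) {n : RtPoly} {p₀ : RtRow} (h : RtChartOk P n p₀) {q w : RtRow}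
    (hq : q ∈ rtBx p₀ 1 (rtChRho P)) (hw : w ∈ rtBx p₀ 1 (rtChRho P)) {θ ε : ℝ} (hθ : |θ| ≤ 1) (hε0 : 0 ≤ ε) (hε1 : ε ≤ 1)
    (hb : rtSq ((q.flow θ).b - (w.flow θ).b) ≤ ε ^ 2)
    (hy : |(q.flow θ).y - (w.flow θ).y - 2 * rtIp w.A ((q.flow θ).b - (w.flow θ).b)| ≤ ε) :
    |(rtChart p₀ n).tm q θ - (rtChart p₀ n).tm w θ| ≤ 100000 * P ^ 6 * ε := by
  obtain ⟨mt, hmt⟩ := rt_lf_surj h ⟨0, 1, (0, 0), 0, 0⟩
  obtain ⟨m1, hm1⟩ := rt_lf_surj h ⟨1, 0, (0, 0), 0, 0⟩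
  have hP6 : 1 ≤ P ^ 6 := one_le_pow₀ hP
  have hB : (1 : ℝ) ≤ 300 * P ^ 6 * 1 := by linarith
  have hbt : mt.Bd (300 * P ^ 6 * 1) := h.pol_bd_inv mt 1 zero_le_one (by rw [hmt]; simp [RtPoly.Bd, rtSq])
  have hb1 : m1.Bd (300 * P ^ 6 * 1) := h.pol_bd_inv m1 1 zero_le_one (by rw [hm1]; simp [RtPoly.Bd, rtSq])
  have hdt : mt.disc = 0 := by rw [← h.ex.disc mt, hmt]; simp [RtPoly.disc, rtSq]
  have hd1 : m1.disc = 0 := by rw [← h.ex.disc m1, hm1]; simp [RtPoly.disc, rtSq]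
  have key : ∀ r ∈ rtBx p₀ 1 (rtChRho P), ∀ t : ℝ, |t| ≤ 2 →
      mt.Fe (r.ev t) = (rtChart p₀ n).tm r t * (rtChart p₀ n).dn r t ∧ m1.Fe (r.ev t) = (rtChart p₀ n).dn r t ∧
        1 / 2 ≤ |(rtChart p₀ n).dn r t| ∧ |(rtChart p₀ n).dn r t| ≤ 2 ∧ |(rtChart p₀ n).tm r t| ≤ 3 := by
    intro r hr t ht
    obtain ⟨e1, e2, e3, e4⟩ := rt_pc_den h hr ht
    have hdn : (rtChart p₀ n).dn r t ≠ 0 := by
      intro h0
      rw [h0, abs_zero] at e2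
      norm_num at e2
    have hden : (rtChart p₀ n).den (r.ev t) ≠ 0 := by rw [e1]; exact hdn
    have a1 := h.ex.pol mt (r.ev t) hden
    have a2 := h.ex.pol m1 (r.ev t) hden
    rw [hmt, h.ex.ray r (h.dom r hr) t hden, e1] at a1
    rw [hm1, e1] at a2
    have b1 : (⟨0, 1, (0, 0), 0, 0⟩ : RtPoly).Fe (((rtChart p₀ n).row r).ev ((rtChart p₀ n).tm r t)) = (rtChart p₀ n).tm r t := by
      simp [RtPoly.Fe, RtPoly.F, RtRow.ev, rtIp]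
    have b2 : ∀ e, (⟨1, 0, (0, 0), 0, 0⟩ : RtPoly).Fe e = 1 := by
      intro e
      simp [RtPoly.Fe, RtPoly.F, rtIp]
    rw [b1] at a1
    rw [b2] at a2
    refine ⟨?_, ?_, e2, e3, e4⟩
    · rw [a1]
      exact (div_mul_cancel₀ _ hdn).symm
    · rw [eq_div_iff hdn, one_mul] at a2
      exact a2.symm
  have h2 : |(2 : ℝ)| ≤ 2 := by norm_num
  have hm2 : |(-2 : ℝ)| ≤ 2 := by norm_num
  have hθ2 : |θ| ≤ 2 := by linarith
  have bdt : ∀ t : ℝ, |t| ≤ 2 → |mt.Fe (w.ev t)| ≤ 6 := by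
    intro t ht
    obtain ⟨c1, -, -, c4, c5⟩ := key w hw t ht
    rw [c1, abs_mul]
    nlinarith [abs_nonneg ((rtChart p₀ n).tm w t), abs_nonneg ((rtChart p₀ n).dn w t)]
  have bd1 : ∀ t : ℝ, |t| ≤ 2 → |m1.Fe (w.ev t)| ≤ 2 := by
    intro t ht
    obtain ⟨-, c2, -, c4, -⟩ := key w hw t ht
    rw [c2]
    exact c4
  have L1 := rt_pc_lip hB (by norm_num : (1 : ℝ) ≤ 6) hbt hdt hθ hε0 hε1 (bdt _ hm2) (bdt _ h2) (bdt _ hθ2) hb hy
  have L2 := rt_pc_lip hB (by norm_num : (1 : ℝ) ≤ 2) hb1 hd1 hθ hε0 hε1 (bd1 _ hm2) (bd1 _ h2) (bd1 _ hθ2) hb hy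
  obtain ⟨q1, q2, q3, -, -⟩ := key q hq θ hθ2
  obtain ⟨w1, w2, -, -, w5⟩ := key w hw θ hθ2
  rw [q1, w1] at L1
  rw [q2, w2] at L2
  generalize (rtChart p₀ n).tm q θ = tq at *
  generalize (rtChart p₀ n).tm w θ = tw at *
  generalize (rtChart p₀ n).dn q θ = dq at *
  generalize (rtChart p₀ n).dn w θ = dw at *
  have e : (tq - tw) * dq = (tq * dq - tw * dw) - tw * (dq - dw) := by ring
  have h5 : |tq - tw| * |dq| ≤ 8 * (300 * P ^ 6 * 1) * 6 * ε + 3 * (8 * (300 * P ^ 6 * 1) * 2 * ε) := by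
    rw [← abs_mul, e]
    refine (abs_sub _ _).trans (add_le_add L1 ?_)
    rw [abs_mul]
    exact mul_le_mul w5 L2 (abs_nonneg _) (by norm_num)
  have hBε : 0 ≤ P ^ 6 * ε := by positivity
  have h6 : |tq - tw| * (1 / 2) ≤ |tq - tw| * |dq| := mul_le_mul_of_nonneg_left q3 (abs_nonneg _)
  nlinarith

/-! ## 2. Rows of one label -/

theorem rt_pc_close_aux {k : ℝ} (hk : 0 < k) (p : ℝ × ℝ) (h : rtSq (k⁻¹ • p) ≤ 1 ^ 2) : rtSq p ≤ k ^ 2 := by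
  have e : rtSq (k⁻¹ • p) = rtSq p / k ^ 2 := by
    simp only [rtSq, Prod.smul_fst, Prod.smul_snd, smul_eq_mul]
    field_simp
  rw [e, one_pow, div_le_one (by positivity)] at h
  exact h

/-- LEAF `L-256-RT-PC-CLOSE`.   `σ` = physical label (length `σ.l = δ l`, width `r/2 ≤ σ.r ≤ 2 r`), parent frame `(l, r, c)`, `x, x'` physical root rows whose flows by `t` lie in `σ.box 1`.
`rt_lp_nrm_row`, `rt_lp_flow` : `((rtNrm l r c).row x).flow (t / l) = rtLfNrm l r (c.flow t) (x.flow t)`.   With `u = x.flow t`, `u' = x'.flow t`:   `Δb_n = (l r)⁻¹ (u.b - u'.b)`, `|u.b - u'.b| ≤ 2 σ.l σ.r`  (`≤ 4 δ` after division);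
tilt `= (u.y - u'.y - 2 u'.A·(u.b - u'.b)) / (l r²)` (exact, `field_simp; ring`), numerator `= (σ.z u - σ.z u') σ.l σ.r² - 2 (u'.A - σ.As)·(u.b - u'.b)`, `≤ 2 σ.l σ.r² + 4 σ.l σ.r² ≤ 24 δ l r²`. -/
theorem rt_pc_close {l r δ t : ℝ} (hl : 0 < l) (hr : 0 < r) (hδ : 0 ≤ δ) (c : RtRow) (σ : RtTest) (hσl : σ.l = δ * l) (hσl0 : 0 < σ.l) (hσ0 : 0 < σ.r)
    (hσr : σ.r ≤ 2 * r) {x x' : RtRow} (hx : x.flow t ∈ σ.box 1) (hx' : x'.flow t ∈ σ.box 1) :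
    rtSq ((((rtNrm l r c).row x).flow (t / l)).b - (((rtNrm l r c).row x').flow (t / l)).b) ≤ (24 * δ) ^ 2 ∧
    |(((rtNrm l r c).row x).flow (t / l)).y - (((rtNrm l r c).row x').flow (t / l)).y
        - 2 * rtIp ((rtNrm l r c).row x').A ((((rtNrm l r c).row x).flow (t / l)).b - (((rtNrm l r c).row x').flow (t / l)).b)| ≤ 24 * δ := by
  rw [rt_lp_nrm_row, rt_lp_nrm_row, rt_lp_flow hl.ne' hr.ne', rt_lp_flow hl.ne' hr.ne']
  obtain ⟨u, hu⟩ : ∃ u, u = x.flow t := ⟨_, rfl⟩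
  obtain ⟨u', hu'⟩ : ∃ u', u' = x'.flow t := ⟨_, rfl⟩
  obtain ⟨c', hc'⟩ : ∃ c', c' = c.flow t := ⟨_, rfl⟩
  have hA' : x'.A = u'.A := by rw [hu']; rfl
  have hcA : c.A = c'.A := by rw [hc']; rfl
  rw [← hu, ← hu', ← hc']
  rw [← hu] at hx
  rw [← hu'] at hx'
  obtain ⟨hx1, hx2, -⟩ := hx
  obtain ⟨hx1', hx2', hx3'⟩ := hx'
  obtain ⟨k, hk⟩ : ∃ k, k = σ.l * σ.r := ⟨_, rfl⟩
  have hk0 : 0 < k := by rw [hk]; positivity
  have hp : rtSq (u.b - σ.bs) ≤ k ^ 2 := by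
    unfold RtTest.x at hx1
    rw [← hk] at hx1
    exact rt_pc_close_aux hk0 _ hx1
  have hp' : rtSq (u'.b - σ.bs) ≤ k ^ 2 := by
    unfold RtTest.x at hx1'
    rw [← hk] at hx1'
    exact rt_pc_close_aux hk0 _ hx1'
  have hw : rtSq (u'.A - σ.As) ≤ σ.r ^ 2 := by
    unfold RtTest.V at hx3'
    exact rt_pc_close_aux hσ0 _ hx3'
  have hd : rtSq (u.b - u'.b) ≤ (2 * k) ^ 2 := by
    simp only [rtSq, Prod.fst_sub, Prod.snd_sub] at hp hp' ⊢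
    nlinarith [sq_nonneg ((u.b.1 - σ.bs.1) + (u'.b.1 - σ.bs.1)), sq_nonneg ((u.b.2 - σ.bs.2) + (u'.b.2 - σ.bs.2))]
  have hlr : 0 < l * r := by positivity
  have hk2 : k ≤ 2 * δ * (l * r) := by
    rw [hk, hσl]
    have : δ * l * σ.r ≤ δ * l * (2 * r) := mul_le_mul_of_nonneg_left hσr (by positivity)
    linarith
  have e1 : (rtLfNrm l r c' u).b - (rtLfNrm l r c' u').b = (l * r)⁻¹ • (u.b - u'.b) := by
    ext <;> simp only [rtLfNrm, Prod.fst_sub, Prod.snd_sub, Prod.smul_fst, Prod.smul_snd, smul_eq_mul] <;> ring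
  constructor
  · rw [e1]
    have e : rtSq ((l * r)⁻¹ • (u.b - u'.b)) = rtSq (u.b - u'.b) / (l * r) ^ 2 := by
      simp only [rtSq, Prod.smul_fst, Prod.smul_snd, smul_eq_mul]
      field_simp
    rw [e, div_le_iff₀ (by positivity)]
    have h1 : (2 * k) ^ 2 ≤ (4 * δ * (l * r)) ^ 2 := pow_le_pow_left₀ (by positivity) (by linarith) 2
    have h2 : (4 * δ * (l * r)) ^ 2 ≤ (24 * δ) ^ 2 * (l * r) ^ 2 := by
      have : 0 ≤ δ ^ 2 * (l * r) ^ 2 := by positivity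
      nlinarith
    linarith
  · have e2 : (rtLfNrm l r c' u).y - (rtLfNrm l r c' u').y
        - 2 * rtIp (rtLfNrm l r c x').A ((rtLfNrm l r c' u).b - (rtLfNrm l r c' u').b)
        = (u.y - u'.y - 2 * rtIp u'.A (u.b - u'.b)) / (l * r ^ 2) := by
      rw [e1]
      simp only [rtLfNrm, rtIp, Prod.fst_sub, Prod.snd_sub, Prod.smul_fst, Prod.smul_snd, smul_eq_mul, hA', hcA]
      field_simp
      ring
    have e3 : u.y - u'.y - 2 * rtIp u'.A (u.b - u'.b)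
        = (σ.z u - σ.z u') * (σ.l * σ.r ^ 2) - 2 * rtIp (u'.A - σ.As) (u.b - u'.b) := by
      simp only [RtTest.z, rtIp, Prod.fst_sub, Prod.snd_sub]
      field_simp
      ring
    have h1 : |rtIp (u'.A - σ.As) (u.b - u'.b)| ≤ σ.r * (2 * k) := rtIp_abs_le hσ0.le (by positivity) hw hd
    have h2 : |σ.z u - σ.z u'| ≤ 2 := by
      have := abs_sub (σ.z u) (σ.z u')
      linarith
    have hq0 : 0 < σ.l * σ.r ^ 2 := by positivity
    have h3 : |(σ.z u - σ.z u') * (σ.l * σ.r ^ 2)| ≤ 2 * (σ.l * σ.r ^ 2) := by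
      rw [abs_mul, abs_of_pos hq0]
      exact mul_le_mul_of_nonneg_right h2 hq0.le
    have h4 : |u.y - u'.y - 2 * rtIp u'.A (u.b - u'.b)| ≤ 6 * (σ.l * σ.r ^ 2) := by
      rw [e3]
      have a1 := abs_sub ((σ.z u - σ.z u') * (σ.l * σ.r ^ 2)) (2 * rtIp (u'.A - σ.As) (u.b - u'.b))
      have a2 : |2 * rtIp (u'.A - σ.As) (u.b - u'.b)| ≤ 2 * (σ.r * (2 * k)) := by
        rw [abs_mul, abs_two]
        linarith
      have a3 : 2 * (σ.r * (2 * k)) = 4 * (σ.l * σ.r ^ 2) := by rw [hk]; ring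
      linarith
    have h5 : σ.r ^ 2 ≤ (2 * r) ^ 2 := pow_le_pow_left₀ hσ0.le hσr 2
    have h6 : σ.l * σ.r ^ 2 ≤ δ * l * (2 * r) ^ 2 := by
      rw [hσl]
      exact mul_le_mul_of_nonneg_left h5 (by positivity)
    rw [e2, abs_div, abs_of_pos (by positivity : 0 < l * r ^ 2), div_le_iff₀ (by positivity)]
    calc _ ≤ 6 * (σ.l * σ.r ^ 2) := h4
      _ ≤ 6 * (δ * l * (2 * r) ^ 2) := by linarith
      _ = 24 * δ * (l * r ^ 2) := by ring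

/-- LEAF `L-256-RT-PC-THIN`.   `q ∈ d.In P fs` : buffered patch (`⊆` patch: `rt_lf_bx_mono`), `|F|, |G| ≤ fs`.   `rt_chart_thin` : `|b₂'| ≤ 2 (fs + 5 fs)`, `|A₂'| ≤ 4 (fs + 5 fs)`;  `rt_lf_img` (`|θ| ≤ 8`). -/
theorem rt_pc_thin {P fs : ℝ} (hP : 1 ≤ P) (d : RtPd) (h : RtChartOk P d.nL d.p0) {q : RtRow} (hq : q ∈ d.In P fs) :
    q ∈ rtBx d.p0 1 (rtChRho P) ∧ |((rtChart d.p0 d.nL).row q).b.2| ≤ 12 * fs ∧ |((rtChart d.p0 d.nL).row q).A.2| ≤ 24 * fs ∧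
      ∀ θ : ℝ, |θ| ≤ 8 → rtLfSm (((rtChart d.p0 d.nL).row q).flow θ) := by
  obtain ⟨hq1, hF, hG⟩ := hq
  have hρ : 0 < rtChRho P := by unfold rtChRho; positivity
  have hb : q ∈ rtBx d.p0 1 (rtChRho P) := rt_lf_bx_mono zero_le_one (by positivity) (by linarith) hq1
  obtain ⟨t1, t2⟩ := rt_chart_thin h hb
  exact ⟨hb, by linarith, by linarith, fun θ hθ => rt_lf_img hP h hb hθ⟩

/-! ## 3. The hypotheses of the block -/

/-- the test of a label as an `RdTst` -/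
def rtPcT {η : ℝ} {p : RdClPar} (E : Xp (p.sys η)) (l : Fin E.L) : RdTst := E.ts l

/-- the physical time offset of a label -/
noncomputable def rtPcDt {P : PkSys} (E : Xp P) (l : Fin E.L) : ℝ := tmL E.kf (E.iv l) - tmL E.k0 E.i0

/-- **the hypotheses of the geometric part**: `E` free valid experiment of the classical round model, `d` patch data, `P` coefficient bound, `M ≥ P³⁰` comparison constant, `fs = f_*` -/
structure RtPcHyp (η : ℝ) (p : RdClPar) (E : Xp (p.sys η)) (d : RtPd) (P M fs : ℝ) : Prop where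
  val : E.Valid
  free : E.st = []
  P2 : 2 ≤ P
  PM : P ^ 30 ≤ M
  r_pos : 0 < d.ψ.r
  chart : RtChartOk P d.nL d.p0
  f_pos : 0 < d.f
  f_fs : d.f ≤ fs
  lab_r : ∀ l, d.ψ.r / 2 ≤ (rtPcT E l).r ∧ (rtPcT E l).r ≤ 2 * d.ψ.r
  lab_f : ∀ l, d.f / 2 ≤ (rtPcT E l).f ∧ (rtPcT E l).f ≤ d.f
  lab_n : ∀ l, d.Con (d.N E) (tmL E.k0 E.i0) E.kf (tmL E.kf (E.iv l)) (rtPcT E l) fs
  /-- (rt:very-thin) -/
  thin : fs ^ 3 * M ^ 100 ≤ E.s * (d.f / 2)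
  small : M * E.s ≤ 1 / 100

/-- the good physical root rows that meet the label `l` -/
def rtPcS {η : ℝ} {p : RdClPar} (E : Xp (p.sys η)) (d : RtPd) (P fs : ℝ) (l : Fin E.L) : Set RtRow :=
  {x | x ∈ rtPcG (d.N E) d P fs ∧ x.flow (rtPcDt E l) ∈ (rtPcT E l).rows E.kf}

theorem rt_pc_hyp_eqns_cite : True := by
  have := @rtPcT.eq_1
  have := @rtPcDt.eq_1
  have := @rtPcS.eq_1
  trivial

/-- LEAF `L-256-RT-PC-CLK`.   `E.Valid.iv_in l : ancI E.kf E.k0 (E.iv l) = E.i0` (`gn_mem_ivs`: `i0 2^n ≤ iv l < (i0+1) 2^n`, `E.kf - E.k0 = E.n`);  `tmL k i = i / 2^k`, `rdLen k = 2⁻¹^k`, `E.s = 2⁻¹^n`, `E.kf = E.k0 + E.n`. -/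
theorem rt_pc_clk {P : PkSys} (E : Xp P) (hiv : ∀ l, ancI E.kf E.k0 (E.iv l) = E.i0) (l : Fin E.L) :
    rtPcTh E l = ((E.iv l : ℝ) - E.i0 * 2 ^ E.n) * E.s ∧ 0 ≤ rtPcTh E l ∧ rtPcTh E l ≤ 1 ∧ rtPcTh E l = rtPcDt E l / rdLen E.k0 ∧
      0 ≤ rtPcDt E l ∧ rtPcDt E l ≤ rdLen E.k0 ∧ rdLen E.kf / rdLen E.k0 = E.s ∧ rdLen E.kf = E.s * rdLen E.k0 := by
  have hm := (gn_mem_ivs E.k0 E.i0 E.kf (E.iv l)).2 (hiv l)
  have hkn : E.kf - E.k0 = E.n := by unfold Xp.kf; omega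
  unfold ivs at hm
  rw [hkn, Finset.mem_Ico] at hm
  have m1 : (E.i0 : ℝ) * 2 ^ E.n ≤ (E.iv l : ℝ) := by exact_mod_cast hm.1
  have m2 : (E.iv l : ℝ) ≤ ((E.i0 : ℝ) + 1) * 2 ^ E.n := by exact_mod_cast hm.2.le
  have hl0 : 0 < rdLen E.k0 := by unfold rdLen; positivity
  have hs0 : 0 < E.s := by unfold Xp.s; positivity
  have hs2 : E.s * 2 ^ E.n = 1 := by
    unfold Xp.s
    rw [← mul_pow]
    norm_num
  have e8 : rdLen E.kf = E.s * rdLen E.k0 := by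
    unfold rdLen Xp.s Xp.kf
    rw [pow_add]
    ring
  have e1 : rtPcTh E l = ((E.iv l : ℝ) - E.i0 * 2 ^ E.n) * E.s := by
    unfold rtPcTh tmL rdLen Xp.s Xp.kf
    rw [pow_add, inv_pow, inv_pow]
    field_simp
  have e4 : rtPcTh E l = rtPcDt E l / rdLen E.k0 := rfl
  have h2 : 0 ≤ rtPcTh E l := by
    rw [e1]
    exact mul_nonneg (by linarith) hs0.le
  have h3 : rtPcTh E l ≤ 1 := by
    rw [e1, ← hs2, mul_comm]
    exact mul_le_mul_of_nonneg_left (by linarith) hs0.le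
  have e5 : rtPcDt E l = rtPcTh E l * rdLen E.k0 := by
    rw [e4]
    field_simp
  refine ⟨e1, h2, h3, e4, ?_, ?_, ?_, e8⟩
  · rw [e5]
    exact mul_nonneg h2 hl0.le
  · rw [e5]
    nlinarith
  · rw [e8]
    field_simp

/-! ## 4. The cylinder test of a label -/

/-- doubling the widths absorbs an omitted vertical displacement -/
theorem rt_pc_labq_abs {Q : CyT} {δ e Λ : ℝ} {z : Cy5} (hin : cyIn Q δ z) (hbe : |Q.be| ≤ Λ) (hK : |Q.K| ≤ Λ) (hδ : 0 ≤ δ) (hr : 0 ≤ Q.r)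
    (he0 : 0 ≤ e) (h1 : e ≤ 3 * δ * Q.r ^ 2) (h2 : Λ * e ≤ Q.f) (h3 : Λ * e ≤ δ * Q.f) :
    cyIn { Q with r := 2 * Q.r, f := 2 * Q.f } δ { z with Y := z.Y - e } := by
  obtain ⟨i1, i2, i3, i4, i5⟩ := hin
  have hKe : |Q.K * e| ≤ Λ * e := by
    rw [abs_mul, abs_of_nonneg he0]
    exact mul_le_mul_of_nonneg_right hK he0
  have hbe' : |Q.be * e| ≤ Λ * e := by
    rw [abs_mul, abs_of_nonneg he0]
    exact mul_le_mul_of_nonneg_right hbe he0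
  have hδr : 0 ≤ δ * Q.r := mul_nonneg hδ hr
  refine ⟨?_, ?_, ?_, ?_, ?_⟩
  · show |z.X - Q.x| ≤ 2 * Q.r
    linarith
  · show |z.B - Q.b| ≤ δ * (2 * Q.r)
    linarith
  · show |z.Y - e - Q.y - 2 * Q.x * (z.B - Q.b)| ≤ δ * (2 * Q.r) ^ 2
    have e1 : z.Y - e - Q.y - 2 * Q.x * (z.B - Q.b) = cyTilt Q z - e := by unfold cyTilt; ring
    rw [e1]
    have := abs_sub (cyTilt Q z) e
    rw [abs_of_nonneg he0] at this
    nlinarith
  · show |z.N - Q.c - Q.al * z.X - Q.be * z.X ^ 2 - Q.K * (z.Y - e - 2 * z.X * z.B)| ≤ 2 * Q.f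
    have e1 : z.N - Q.c - Q.al * z.X - Q.be * z.X ^ 2 - Q.K * (z.Y - e - 2 * z.X * z.B) = cyVel Q z + Q.K * e := by unfold cyVel; ring
    rw [e1]
    have := abs_add_le (cyVel Q z) (Q.K * e)
    linarith
  · show |z.D - Q.d - Q.al * z.B - Q.be * (z.Y - e) + Q.K * z.B ^ 2| ≤ δ * (2 * Q.f)
    have e1 : z.D - Q.d - Q.al * z.B - Q.be * (z.Y - e) + Q.K * z.B ^ 2 = cyPos Q z + Q.be * e := by unfold cyPos; ring
    rw [e1]
    have := abs_add_le (cyPos Q z) (Q.be * e)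
    linarith

/-- a test which contains a bounded point has a bounded centre -/
theorem rt_pc_labq_cen {Q : CyT} {δ : ℝ} {z : Cy5} (hin : cyIn Q δ z) (hδ1 : δ ≤ 1) (hR : 1 ≤ Q.r)
    (hX : |z.X| ≤ 1) (hB : |z.B| ≤ 1) (hY : |z.Y| ≤ 1) : |Q.x| ≤ 2 * Q.r ∧ |Q.b| ≤ 2 * Q.r ∧ |Q.y| ≤ 6 * Q.r ^ 2 := by
  obtain ⟨i1, i2, i3, -, -⟩ := hin
  have hr0 : 0 ≤ Q.r := by linarith
  have hδr : δ * Q.r ≤ Q.r := by nlinarith
  have hδr2 : δ * Q.r ^ 2 ≤ Q.r ^ 2 := by nlinarith [sq_nonneg Q.r]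
  have hx : |Q.x| ≤ 2 * Q.r := by
    have e : Q.x = z.X - (z.X - Q.x) := by ring
    rw [e]
    have := abs_sub z.X (z.X - Q.x)
    linarith
  have hb : |Q.b| ≤ 2 * Q.r := by
    have e : Q.b = z.B - (z.B - Q.b) := by ring
    rw [e]
    have := abs_sub z.B (z.B - Q.b)
    linarith
  refine ⟨hx, hb, ?_⟩
  have e : Q.y = z.Y - cyTilt Q z - 2 * (Q.x * (z.B - Q.b)) := by unfold cyTilt; ring
  rw [e]
  have a1 := abs_sub (z.Y - cyTilt Q z) (2 * (Q.x * (z.B - Q.b)))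
  have a2 := abs_sub z.Y (cyTilt Q z)
  have a3 : |2 * (Q.x * (z.B - Q.b))| ≤ 2 * (2 * Q.r * Q.r) := by
    rw [abs_mul, abs_of_pos (by norm_num : (0 : ℝ) < 2)]
    have := rt_lf_stab_m2 hx (i2.trans hδr)
    linarith
  nlinarith

/-- LEAF `L-256-RT-PC-LABQ`.   `Q = rtPcT E l`, `δ = E.s`, `q' = rtPcRow (d.N E) d x`.
(1) `rt_endlift_con d Q` (`M`, `P`, `fs`, `T0 = tmL E.k0 E.i0`, `T = tmL E.kf (E.iv l)`, `k0 = E.k0`, `k = E.kf`; `(Q.toT E.kf).Adm 1 = H.val.ts_ok l`; `d.N E = rtNrm (rdLen E.k0) d.ψ.r d.ψ.cen` by `rfl`; `rt_pc_clk`; `Q.rows k = set 1 ⊆ set M`;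
    thinness `fs³ M¹⁰⁰ ≤ δ d.f / 2 ≤ δ Q.f`) : `Qe` with `r = M⁴⁰`, `f = M²⁰ Q.f / fs`, shear `≤ M²⁰`, `cyIn Qe δ (rtFl fs (q'.flow T'))`.
(2) `rt_pc_ideal` : the ideal point differs only in `Y`, by `e = (T'+4) A₂'² ∈ [0, 7 (24 fs)²]` (`rt_pc_thin`).   `fs² M¹⁰⁰ ≤ δ / 2` (from `thin`, `d.f ≤ fs`), `4032 fs³ ≤ δ Q.f`.   Doubling the widths absorbs `e` (tilt: `e ≤ 3 δ r²`; velocity: `|K| e ≤ f`; position: `|be| e ≤ δ f`)  (direct, or `rt_lf_stab`).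
(3) centre: if no row satisfies the hypotheses take `⟨0,0,0,2M⁴⁰,2(M²⁰Q.f/fs),0,0,0,0,0⟩`; otherwise a witness has `|X|,|B|,|Y| ≤ 1` (`rt_pc_thin`, `rtLfSm`), so `|Qe.x| ≤ 1 + M⁴⁰`, `|Qe.b| ≤ 1 + δ M⁴⁰`, `|Qe.y| ≤ 1 + δ M⁸⁰ + 2 |Qe.x| δ M⁴⁰`.
(4) `Qc = cyT8 {Qe with r := 2 r, f := 2 f}`, `rt_pc_sc8_in`. -/
theorem rt_pc_labq {η : ℝ} {p : RdClPar} {E : Xp (p.sys η)} {d : RtPd} {P M fs : ℝ} (H : RtPcHyp η p E d P M fs) (l : Fin E.L) (T' : ℝ)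
    (hT : |T'| ≤ 3) (hT2 : |T' + E.s| ≤ 3) :
    ∃ Qc : CyT, Qc.r = 2 * M ^ 40 ∧ Qc.f = 2 * (M ^ 20 * (rtPcT E l).f / fs) ∧ |Qc.x| ≤ 8 * M ^ 80 ∧ |Qc.b| ≤ 8 * M ^ 80 ∧
      |Qc.y| ≤ 8 * M ^ 80 ∧ cySh Qc (8 * M ^ 20) ∧
      ∀ x ∈ rtPcS E d P fs l, |rtPcTm (d.N E) d x (rtPcTh E l) - T'| ≤ M * E.s →
        cyIn Qc (E.s / 8) (cySc8 (cyFlow (T' + 4) (rtFl fs ((rtPcRow (d.N E) d x).flow (-4))))) := by
  have hP1 : (1 : ℝ) ≤ P := by linarith [H.P2]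
  have hs0 : 0 < E.s := by unfold Xp.s; positivity
  have hM30 : (2 : ℝ) ^ 30 ≤ M := (pow_le_pow_left₀ (by norm_num) H.P2 30).trans H.PM
  have hM : (4032 : ℝ) ≤ M := by norm_num at hM30; linarith
  have hM1 : (1 : ℝ) ≤ M := by linarith
  have hM0 : (0 : ℝ) < M := by linarith
  have hs1 : E.s ≤ 1 := by
    have := H.small
    nlinarith
  have hPM : P ≤ M := by
    refine le_trans ?_ H.PM
    calc P = P ^ 1 := (pow_one P).symm
      _ ≤ P ^ 30 := pow_le_pow_right₀ hP1 (by norm_num)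
  have hfs : 0 < fs := lt_of_lt_of_le H.f_pos H.f_fs
  have hQf0 : 0 < (rtPcT E l).f := by have := (H.lab_f l).1; have := H.f_pos; linarith
  obtain ⟨-, c2, c3, c4, c5, c6, c7, c8⟩ := rt_pc_clk E H.val.iv_in l
  have hthin : fs ^ 3 * M ^ 100 ≤ E.s * (rtPcT E l).f :=
    H.thin.trans (mul_le_mul_of_nonneg_left (H.lab_f l).1 hs0.le)
  by_cases hne : ∃ x ∈ rtPcS E d P fs l, |rtPcTm (d.N E) d x (rtPcTh E l) - T'| ≤ M * E.s
  swap
  · refine ⟨⟨0, 0, 0, 2 * M ^ 40, 2 * (M ^ 20 * (rtPcT E l).f / fs), 0, 0, 0, 0, 0⟩, rfl, rfl, ?_, ?_, ?_, ?_, fun x hx ht => absurd ⟨x, hx, ht⟩ hne⟩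
    · show |(0 : ℝ)| ≤ _
      rw [abs_zero]; positivity
    · show |(0 : ℝ)| ≤ _
      rw [abs_zero]; positivity
    · show |(0 : ℝ)| ≤ _
      rw [abs_zero]; positivity
    · have h0 : |(0 : ℝ)| ≤ 8 * M ^ 20 := by rw [abs_zero]; positivity
      exact ⟨h0, h0, h0, h0, h0⟩
  obtain ⟨Qe, q1, q2, q3, q4⟩ := rt_endlift_con (M := M) (P := P) (fs := fs) (T0 := tmL E.k0 E.i0) (T := tmL E.kf (E.iv l)) (T' := T')
    (k0 := E.k0) (k := E.kf) d (rtPcT E l) (by linarith) hP1 hPM H.chart H.r_pos (H.val.ts_ok l) (Nat.le_add_right _ _)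
    ((H.lab_r l).2.trans (mul_le_mul_of_nonneg_right (by linarith) H.r_pos.le))
    (by
      have e : tmL E.kf (E.iv l) - tmL E.k0 E.i0 = rtPcDt E l := rfl
      rw [e, abs_of_nonneg c5]
      have := rdLen_pos E.k0
      linarith)
    hT (by rw [c7]; exact hT2) hfs ((H.lab_f l).2.trans H.f_fs) (H.lab_n l) (by rw [c7]; exact hthin)
  rw [c7] at q4
  -- the exact point of a good row
  have hpt : ∀ x ∈ rtPcS E d P fs l, |rtPcTm (d.N E) d x (rtPcTh E l) - T'| ≤ M * E.s →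
      cyIn Qe E.s (rtFl fs ((rtPcRow (d.N E) d x).flow T')) := by
    intro x hx ht
    refine q4 x (rt_pc_thin hP1 d H.chart hx.1).1 ?_ ht
    obtain ⟨b1, b2, b3⟩ := hx.2
    have hf0 : 0 ≤ ((rtPcT E l).toT E.kf).f := hQf0.le
    exact ⟨rt_in_box_mono _ zero_le_one hM1 b1, b2.trans (mul_le_mul_of_nonneg_right hM1 hf0),
      b3.trans (mul_le_mul_of_nonneg_right hM1 hf0)⟩
  have hM40 : (1 : ℝ) ≤ M ^ 40 := one_le_pow₀ hM1
  have hM20 : (1 : ℝ) ≤ M ^ 20 := one_le_pow₀ hM1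
  have hM80 : M ^ 80 = M ^ 40 * M ^ 40 := by ring
  have hM100 : (4032 : ℝ) ≤ M ^ 100 := by
    calc (4032 : ℝ) ≤ M := hM
      _ = M ^ 1 := (pow_one M).symm
      _ ≤ M ^ 100 := pow_le_pow_right₀ hM1 (by norm_num)
  -- numerics of the thinness
  have t1 : 4032 * fs ^ 3 ≤ E.s * (rtPcT E l).f := by
    have : 0 ≤ fs ^ 3 := by positivity
    nlinarith
  have t2 : 4032 * fs ^ 2 ≤ E.s := by
    have h1 : E.s * (rtPcT E l).f ≤ E.s * fs := mul_le_mul_of_nonneg_left ((H.lab_f l).2.trans H.f_fs) hs0.le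
    have h2 : (4032 * fs ^ 2) * fs ≤ E.s * fs := by
      calc (4032 * fs ^ 2) * fs = 4032 * fs ^ 3 := by ring
        _ ≤ _ := t1.trans h1
    exact le_of_mul_le_mul_right h2 hfs
  -- the centre
  obtain ⟨w, hw, hwt⟩ := hne
  have hsm := (rt_pc_thin hP1 d H.chart hw.1).2.2.2 T' (by linarith)
  have hsq : ∀ u : ℝ × ℝ, rtSq u ≤ 1 → |u.1| ≤ 1 := by
    intro u hu
    unfold rtSq at hu
    exact abs_le_one_iff_mul_self_le_one.2 (by nlinarith [sq_nonneg u.2])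
  obtain ⟨k1, k2, k3⟩ := rt_pc_labq_cen (hpt w hw hwt) hs1 (by rw [q1]; exact hM40) (hsq _ hsm.1) (hsq _ hsm.2.1) hsm.2.2
  rw [q1] at k1 k2 k3
  have hM80' : M ^ 40 ≤ M ^ 80 := by rw [hM80]; nlinarith
  have hM80'' : (M ^ 40) ^ 2 = M ^ 80 := by ring
  rw [hM80''] at k3
  have hM80p : 0 < M ^ 80 := by positivity
  obtain ⟨s1, s2, s3, s4, s5⟩ := q3
  have h8 : ∀ a b : ℝ, |a| ≤ b → 0 ≤ b → |a / 8| ≤ 8 * b := by
    intro a b h hb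
    rw [abs_div, abs_of_pos (by norm_num : (0 : ℝ) < 8)]
    linarith
  refine ⟨cyT8 { Qe with r := 2 * Qe.r, f := 2 * Qe.f }, ?_, ?_, ?_, ?_, ?_, ?_, fun x hx ht => ?_⟩
  · show 2 * Qe.r = _
    rw [q1]
  · show 2 * Qe.f = _
    rw [q2]
  · show |Qe.x| ≤ _
    linarith
  · show |Qe.b / 8| ≤ _
    rw [abs_div, abs_of_pos (by norm_num : (0 : ℝ) < 8)]
    linarith
  · show |Qe.y / 8| ≤ _
    rw [abs_div, abs_of_pos (by norm_num : (0 : ℝ) < 8)]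
    linarith
  · refine ⟨?_, ?_, ?_, ?_, ?_⟩
    · show |Qe.c| ≤ _
      linarith
    · show |Qe.d / 8| ≤ _
      exact h8 _ _ s2 (by positivity)
    · show |Qe.al| ≤ _
      linarith
    · show |Qe.be| ≤ _
      linarith
    · show |8 * Qe.K| ≤ _
      rw [abs_mul, abs_of_pos (by norm_num : (0 : ℝ) < 8)]
      linarith
  · rw [rt_pc_sc8_in, rt_pc_ideal]
    obtain ⟨-, -, hA2, -⟩ := rt_pc_thin hP1 d H.chart hx.1
    obtain ⟨T1, T2⟩ := abs_le.1 hT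
    have hA2' : (rtPcRow (d.N E) d x).A.2 ^ 2 ≤ (24 * fs) ^ 2 := by
      have : |(rtPcRow (d.N E) d x).A.2| ≤ 24 * fs := hA2
      rw [← sq_abs]
      exact pow_le_pow_left₀ (abs_nonneg _) this 2
    have he0 : 0 ≤ (T' + 4) * (rtPcRow (d.N E) d x).A.2 ^ 2 := mul_nonneg (by linarith) (sq_nonneg _)
    have he1 : (T' + 4) * (rtPcRow (d.N E) d x).A.2 ^ 2 ≤ 4032 * fs ^ 2 := by
      calc (T' + 4) * (rtPcRow (d.N E) d x).A.2 ^ 2 ≤ 7 * (24 * fs) ^ 2 :=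
            mul_le_mul (by linarith) hA2' (sq_nonneg _) (by norm_num)
        _ = 4032 * fs ^ 2 := by ring
    have hf2 : M ^ 20 * (4032 * fs ^ 2) ≤ E.s * Qe.f := by
      rw [q2]
      have e : E.s * (M ^ 20 * (rtPcT E l).f / fs) = M ^ 20 * (E.s * (rtPcT E l).f / fs) := by ring
      rw [e]
      refine mul_le_mul_of_nonneg_left ?_ (by positivity)
      rw [le_div_iff₀ hfs]
      calc 4032 * fs ^ 2 * fs = 4032 * fs ^ 3 := by ring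
        _ ≤ _ := t1
    have hQef : 0 ≤ Qe.f := by rw [q2]; positivity
    refine rt_pc_labq_abs (Λ := M ^ 20) (hpt x hx ht) s4 s5 hs0.le (by rw [q1]; positivity) he0 ?_ ?_ ?_
    · rw [q1, hM80'']
      have h1 : E.s * 1 ≤ E.s * M ^ 80 := mul_le_mul_of_nonneg_left (one_le_pow₀ hM1) hs0.le
      linarith
    · exact (mul_le_mul_of_nonneg_left he1 (by positivity)).trans (hf2.trans (mul_le_of_le_one_left hQef hs1))
    · exact (mul_le_mul_of_nonneg_left he1 (by positivity)).trans hf2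

/-- LEAF `L-256-RT-PC-VAR`.   `rt_pc_close` (`σ = (rtPcT E l).toT E.kf`, `δ = E.s`, `rt_pc_clk`; `rows = set 1 ⊆ box 1`) + `rt_pc_time` (`ε = 24 s ≤ 1`; `rt_pc_thin` for the patch; `|θ| ≤ 1`) :
`≤ 2400000 P⁶ s`, and `2400000 ≤ 2²² ≤ P²²`, `4 P²⁸ ≤ P³⁰ ≤ M`. -/
theorem rt_pc_var {η : ℝ} {p : RdClPar} {E : Xp (p.sys η)} {d : RtPd} {P M fs : ℝ} (H : RtPcHyp η p E d P M fs) (l : Fin E.L)
    {x x' : RtRow} (hx : x ∈ rtPcS E d P fs l) (hx' : x' ∈ rtPcS E d P fs l) :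
    |rtPcTm (d.N E) d x (rtPcTh E l) - rtPcTm (d.N E) d x' (rtPcTh E l)| ≤ M / 4 * E.s := by
  have hP1 : (1 : ℝ) ≤ P := by linarith [H.P2]
  have hs0 : 0 < E.s := by unfold Xp.s; positivity
  have hM : (4 : ℝ) ≤ M := by
    have : (2 : ℝ) ^ 30 ≤ P ^ 30 := pow_le_pow_left₀ (by norm_num) H.P2 30
    have := H.PM
    norm_num at *
    linarith
  have hs1 : E.s ≤ 1 / 400 := by
    have := H.small
    nlinarith
  obtain ⟨-, c2, c3, c4, -, -, -, c8⟩ := rt_pc_clk E H.val.iv_in l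
  have hl0 : 0 < rdLen E.k0 := rdLen_pos _
  have hr0 : 0 < (rtPcT E l).r := by have := (H.lab_r l).1; have := H.r_pos; linarith
  have hcl := rt_pc_close (l := rdLen E.k0) (r := d.ψ.r) (δ := E.s) (t := rtPcDt E l) hl0 H.r_pos hs0.le d.ψ.cen
    ((rtPcT E l).toT E.kf) c8 (rdLen_pos _) hr0 (H.lab_r l).2 hx.2.1 hx'.2.1
  rw [← c4] at hcl
  have ht := rt_pc_time hP1 H.chart (rt_pc_thin hP1 d H.chart hx.1).1 (rt_pc_thin hP1 d H.chart hx'.1).1 (θ := rtPcTh E l)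
    (ε := 24 * E.s) (abs_le.2 ⟨by linarith, c3⟩) (by positivity) (by linarith) hcl.1 hcl.2
  refine le_trans ht ?_
  have h24 : (2 : ℝ) ^ 24 ≤ P ^ 24 := pow_le_pow_left₀ (by norm_num) H.P2 24
  have hP6 : 0 < P ^ 6 := by positivity
  have h30 : P ^ 30 = P ^ 24 * P ^ 6 := by ring
  have hPM := H.PM
  have h1 : 9600000 * P ^ 6 ≤ M := by
    rw [h30] at hPM
    norm_num at h24
    nlinarith
  nlinarith

/-- LEAF `L-256-RT-PC-ROUND`.   `j = ⌊(τ + 4) / s⌋₊`, `s = 2⁻¹^n` : `(τ+4)/s ≤ 6.8 * 2^n < 2^(n+3)`;  `Nat.floor_le`, `Nat.lt_floor_add_one`. -/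
theorem rt_pc_round (n : ℕ) {τ : ℝ} (h1 : -(13 / 5) ≤ τ) (h2 : τ ≤ 14 / 5) :
    ∃ j : ℕ, j < 2 ^ (n + 3) ∧ rtPcTau n j ≤ τ ∧ τ < rtPcTau n j + (2 : ℝ)⁻¹ ^ n := by
  have hs0 : (0 : ℝ) < (2 : ℝ)⁻¹ ^ n := by positivity
  have hs2 : (2 : ℝ)⁻¹ ^ n * 2 ^ n = 1 := by
    rw [← mul_pow]
    norm_num
  have hq0 : 0 ≤ (τ + 4) / (2 : ℝ)⁻¹ ^ n := div_nonneg (by linarith) hs0.le
  have f1 := Nat.floor_le hq0
  have f2 := Nat.lt_floor_add_one ((τ + 4) / (2 : ℝ)⁻¹ ^ n)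
  rw [le_div_iff₀ hs0] at f1
  rw [div_lt_iff₀ hs0] at f2
  refine ⟨⌊(τ + 4) / (2 : ℝ)⁻¹ ^ n⌋₊, ?_, ?_, ?_⟩
  · have : ((⌊(τ + 4) / (2 : ℝ)⁻¹ ^ n⌋₊ : ℕ) : ℝ) < ((2 ^ (n + 3) : ℕ) : ℝ) := by
      push_cast
      rw [pow_add]
      have h3 : ((⌊(τ + 4) / (2 : ℝ)⁻¹ ^ n⌋₊ : ℕ) : ℝ) * ((2 : ℝ)⁻¹ ^ n * 2 ^ n) ≤ (τ + 4) * 2 ^ n := by
        rw [← mul_assoc]
        exact mul_le_mul_of_nonneg_right f1 (by positivity)
      rw [hs2, mul_one] at h3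
      have h4 : (0 : ℝ) < 2 ^ n := by positivity
      nlinarith
    exact_mod_cast this
  · unfold rtPcTau
    linarith
  · unfold rtPcTau
    linarith

/-- the properties of the new interval and of the cylinder test of the label `l` -/
def RtPcLab1 {η : ℝ} {p : RdClPar} (E : Xp (p.sys η)) (d : RtPd) (P M fs : ℝ) (l : Fin E.L) (j : ℕ) (Qc : CyT) : Prop :=
  j < 2 ^ (E.n + 3) ∧ Qc.r = 2 * M ^ 40 ∧ Qc.f = 2 * (M ^ 20 * (rtPcT E l).f / fs) ∧ |Qc.x| ≤ 8 * M ^ 80 ∧ |Qc.b| ≤ 8 * M ^ 80 ∧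
    |Qc.y| ≤ 8 * M ^ 80 ∧ cySh Qc (8 * M ^ 20) ∧
    ∀ x ∈ rtPcS E d P fs l, |rtPcTm (d.N E) d x (rtPcTh E l) - rtPcTau E.n j| ≤ M * E.s ∧
      cyIn Qc ((2 : ℝ)⁻¹ ^ (0 + (E.n + 3))) (cyFlow (tmL (0 + (E.n + 3)) j) (rtPcZ (d.N E) d fs x))

theorem rt_pc_lab_eqns_cite : True := by
  have := @RtPcLab1.eq_1
  trivial

/-- **LAB**: one new interval and one cylinder test for every label -/
theorem rt_pc_lab1 {η : ℝ} {p : RdClPar} {E : Xp (p.sys η)} {d : RtPd} {P M fs : ℝ} (H : RtPcHyp η p E d P M fs) (l : Fin E.L) :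
    ∃ (j : ℕ) (Qc : CyT), RtPcLab1 E d P M fs l j Qc := by
  have hs0 : 0 < E.s := by unfold Xp.s; positivity
  have hP1 : (1 : ℝ) ≤ P := by linarith [H.P2]
  have hM : (4 : ℝ) ≤ M := by
    have : (2 : ℝ) ^ 30 ≤ P ^ 30 := pow_le_pow_left₀ (by norm_num) H.P2 30
    have := H.PM
    norm_num at *
    linarith
  have hs1 : E.s ≤ 1 / 400 := by
    have := H.small
    nlinarith
  have hlen : (2 : ℝ)⁻¹ ^ (0 + (E.n + 3)) = E.s / 8 := by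
    unfold Xp.s
    rw [zero_add, pow_add]
    norm_num
    ring
  -- the time of a witness
  obtain ⟨τ, hτ1, hτ2, hτ⟩ : ∃ τ : ℝ, -(13 / 5) ≤ τ ∧ τ ≤ 14 / 5 ∧
      ∀ x ∈ rtPcS E d P fs l, |rtPcTm (d.N E) d x (rtPcTh E l) - τ| ≤ M / 4 * E.s := by
    by_cases hne : (rtPcS E d P fs l).Nonempty
    · obtain ⟨w, hw⟩ := hne
      obtain ⟨-, c0, c1, -⟩ := rt_pc_clk E H.val.iv_in l
      have hr := rt_pc_range H.chart (rt_pc_thin hP1 d H.chart hw.1).1 c0 c1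
      exact ⟨rtPcTm (d.N E) d w (rtPcTh E l), hr.1, hr.2, fun x hx => rt_pc_var H l hx hw⟩
    · exact ⟨0, by norm_num, by norm_num, fun x hx => absurd ⟨x, hx⟩ hne⟩
  obtain ⟨j, hj, hj1, hj2⟩ := rt_pc_round E.n hτ1 hτ2
  have hj2' : τ < rtPcTau E.n j + E.s := hj2
  obtain ⟨Qc, q1, q2, q3, q4, q5, q6, q7⟩ := rt_pc_labq H l (rtPcTau E.n j) (abs_le.2 ⟨by linarith, by linarith⟩)
    (abs_le.2 ⟨by linarith, by linarith⟩)
  refine ⟨j, Qc, hj, q1, q2, q3, q4, q5, q6, fun x hx => ?_⟩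
  have ht : |rtPcTm (d.N E) d x (rtPcTh E l) - rtPcTau E.n j| ≤ M * E.s := by
    have a := abs_le.1 (hτ x hx)
    have hMs : 0 < M * E.s := by positivity
    rw [abs_le]
    constructor <;> nlinarith
  refine ⟨ht, ?_⟩
  rw [hlen, rtPcZ, rt_pc_sc8_flow, rt_pc_tau]
  exact q7 x hx ht

end Claimed.Agent.R256
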