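import Claimed.Agent.R256.Rt.PwDefs
import Claimed.Agent.R256.Rt.LiftReg

/-!
# Row 256, folder Rt, file PwInGeo : INPUT HALF OF THE GLUE OF `rt_patch_wv`, GEOMETRY      (helper22; prefix `rt_pi_`, defs `rtPi*`)      SORRY-FREE

No measure.   `h = √H1` is the aperture and the packet width of the flat root cut (`rdD H1 0 = rdQ H1 0 = h`).
* `rt_pi_near`      `RtNear Λ h h H1 q x'`, `|q.A| ≤ 1`, `h ≤ 1`  ⟹  `cyNear 1 (3 Λ h) (Λ h / fs)` of the flattened coordinates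
* `rtPiQ Q r' f'`   the cylinder test `Q` of the flat picture (widths replaced by `r', f'`) in the units of the chart picture, at length `1`:  `B, Y, D` are multiplied by `4`, widths `4 r', 4 f'`
* `rt_pi_units`     `cyIn Q' 1 (rtFl fs (rtPwSc q)) ⟹ cyIn (rtPiQ ..) 1 (rtFl fs q)`
* `rt_pi_geo`       a new root row of the test `Q`, `RtPwRin`-related to an old root row `z`:  the chart image of `z` at the chart time `-1` lies in `rtPiQ Q (2 r) ((2 + Λ) f)`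
* `rt_pi_geo_root`  a new root row which is `RtPwRin`-related to some old row lies in `fzIn fs (204 + 3 Λ)`
-/

set_option autoImplicit false

namespace Claimed.Agent.R256

/-- the flat test in chart units -/
noncomputable def rtPiQ (Q : CyT) (r' f' : ℝ) : CyT := ⟨Q.x, 4 * Q.b, 4 * Q.y, 4 * r', 4 * f', Q.c, 4 * Q.d, Q.al, Q.be, Q.K / 4⟩

theorem rt_pi_geo_eqns_cite : True := by
  have := @rtPiQ.eq_1
  trivial

theorem rt_pi_rdD0 (H : ℝ) : rdD H 0 = Real.sqrt H := by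
  simp [rdD, rdLen]

theorem rt_pi_rdQ0 (H : ℝ) : rdQ H 0 = Real.sqrt H := by
  simp [rdQ, rdLen]

theorem rt_pi_near {Λ H1 fs : ℝ} {q x' : RtRow} (hΛ : 0 ≤ Λ) (hH : 0 ≤ H1) (hH1 : Real.sqrt H1 ≤ 1) (hfs : 0 < fs) (hA : rtSq q.A ≤ 1)
    (h : RtNear Λ (rdD H1 0) (rdQ H1 0) H1 q x') :
    cyNear 1 (3 * (Λ * Real.sqrt H1)) (Λ * Real.sqrt H1 / fs) (rtFl fs q) (rtFl fs x') := by
  rw [rt_pi_rdD0, rt_pi_rdQ0] at h
  obtain ⟨a1, a2, a3⟩ := h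
  obtain ⟨hh, hhd⟩ : ∃ hh, hh = Real.sqrt H1 := ⟨_, rfl⟩
  rw [← hhd] at a1 a2 hH1 ⊢
  have hh0 : 0 ≤ hh := by
    rw [hhd]
    exact Real.sqrt_nonneg _
  have hsq : H1 = hh ^ 2 := by
    rw [hhd, Real.sq_sqrt hH]
  have hL : 0 ≤ Λ * hh := mul_nonneg hΛ hh0
  have b1 := rt_chp_fst hL a1
  have b2 := rt_chp_snd hL a1
  have b3 := rt_chp_fst hL a2
  have b4 := rt_chp_snd hL a2
  have b5 : |rtIp q.A (x'.b - q.b)| ≤ 1 * (Λ * hh) := rtIp_abs_le zero_le_one hL (by simpa using hA) a2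
  have b6 : Λ * H1 ≤ Λ * hh := by
    rw [hsq]
    have : hh ^ 2 ≤ hh := by nlinarith
    exact mul_le_mul_of_nonneg_left this hΛ
  refine ⟨?_, ?_, ?_, ?_, ?_⟩
  · show |x'.A.1 - q.A.1| ≤ _
    have : |(x'.A - q.A).1| ≤ Λ * hh := b1
    simp only [Prod.fst_sub] at this
    linarith
  · show |x'.b.1 - q.b.1| ≤ _
    have : |(x'.b - q.b).1| ≤ Λ * hh := b3
    simp only [Prod.fst_sub] at this
    linarith
  · show |x'.y - q.y| ≤ _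
    have c1 := abs_le.1 a3
    have c2 := abs_le.1 b5
    rw [abs_le]
    constructor <;> linarith [c1.1, c1.2, c2.1, c2.2]
  · show |x'.A.2 / fs - q.A.2 / fs| ≤ _
    have : |(x'.A - q.A).2| ≤ Λ * hh := b2
    simp only [Prod.snd_sub] at this
    rw [← sub_div, abs_div, abs_of_pos hfs]
    exact div_le_div_of_nonneg_right this hfs.le
  · show |x'.b.2 / fs - q.b.2 / fs| ≤ _
    have : |(x'.b - q.b).2| ≤ Λ * hh := b4
    simp only [Prod.snd_sub] at this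
    rw [← sub_div, abs_div, abs_of_pos hfs, one_mul]
    exact div_le_div_of_nonneg_right this hfs.le

theorem rt_pi_near_symm {l eb en : ℝ} {z z' : Cy5} (h : cyNear l eb en z z') : cyNear l eb en z' z := by
  obtain ⟨a1, a2, a3, a4, a5⟩ := h
  exact ⟨by rwa [abs_sub_comm], by rwa [abs_sub_comm], by rwa [abs_sub_comm], by rwa [abs_sub_comm], by rwa [abs_sub_comm]⟩

theorem rt_pi_units {Q : CyT} {r' f' fs : ℝ} {q : RtRow} (hr : 0 ≤ r') (hf : 0 ≤ f')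
    (h : cyIn { Q with r := r', f := f' } 1 (rtFl fs (rtPwSc q))) : cyIn (rtPiQ Q r' f') 1 (rtFl fs q) := by
  obtain ⟨a1, a2, a3, a4, a5⟩ := h
  simp only [cyTilt, cyVel, cyPos, rtFl, rtPwSc, Prod.smul_fst, Prod.smul_snd, smul_eq_mul, one_mul] at a1 a2 a3 a4 a5
  refine ⟨?_, ?_, ?_, ?_, ?_⟩
  · show |q.A.1 - Q.x| ≤ 4 * r'
    linarith
  · show |q.b.1 - 4 * Q.b| ≤ 1 * (4 * r')
    have e : q.b.1 - 4 * Q.b = 4 * (4⁻¹ * q.b.1 - Q.b) := by ring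
    rw [e, abs_mul, abs_of_pos (by norm_num : (0 : ℝ) < 4)]
    linarith
  · show |q.y - 4 * Q.y - 2 * Q.x * (q.b.1 - 4 * Q.b)| ≤ 1 * (4 * r') ^ 2
    have e : q.y - 4 * Q.y - 2 * Q.x * (q.b.1 - 4 * Q.b) = 4 * (q.y / 4 - Q.y - 2 * Q.x * (4⁻¹ * q.b.1 - Q.b)) := by ring
    rw [e, abs_mul, abs_of_pos (by norm_num : (0 : ℝ) < 4)]
    nlinarith [sq_nonneg r']
  · show |q.A.2 / fs - Q.c - Q.al * q.A.1 - Q.be * q.A.1 ^ 2 - Q.K / 4 * (q.y - 2 * q.A.1 * q.b.1)| ≤ 4 * f'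
    have e : q.A.2 / fs - Q.c - Q.al * q.A.1 - Q.be * q.A.1 ^ 2 - Q.K / 4 * (q.y - 2 * q.A.1 * q.b.1)
        = q.A.2 / fs - Q.c - Q.al * q.A.1 - Q.be * q.A.1 ^ 2 - Q.K * (q.y / 4 - 2 * q.A.1 * (4⁻¹ * q.b.1)) := by ring
    rw [e]
    linarith
  · show |q.b.2 / fs - 4 * Q.d - Q.al * q.b.1 - Q.be * q.y + Q.K / 4 * q.b.1 ^ 2| ≤ 1 * (4 * f')
    have e : q.b.2 / fs - 4 * Q.d - Q.al * q.b.1 - Q.be * q.y + Q.K / 4 * q.b.1 ^ 2
        = 4 * (4⁻¹ * q.b.2 / fs - Q.d - Q.al * (4⁻¹ * q.b.1) - Q.be * (q.y / 4) + Q.K * (4⁻¹ * q.b.1) ^ 2) := by ring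
    rw [e, abs_mul, abs_of_pos (by norm_num : (0 : ℝ) < 4)]
    linarith

/-- the flattened coordinates of a scaled row -/
theorem rt_pi_sc_bd {fs : ℝ} {q : RtRow} (h : cyBd 1 (rtFl fs q)) : cyBd 1 (rtFl fs (rtPwSc q)) := by
  obtain ⟨a1, a2, a3⟩ := h
  simp only [rtFl] at a1 a2 a3
  refine ⟨a1, ?_, ?_⟩
  · show |((4 : ℝ)⁻¹ • q.b).1| ≤ 1
    simp only [Prod.smul_fst, smul_eq_mul]
    rw [abs_mul, abs_of_pos (by norm_num : (0 : ℝ) < 4⁻¹)]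
    linarith
  · show |q.y / 4| ≤ 1
    rw [abs_div, abs_of_pos (by norm_num : (0 : ℝ) < 4)]
    linarith

theorem rt_pi_geo {d : RtPd} {k0 : ℕ} {P fs H1 Λ Λs : ℝ} {Q : CyT} {z' z : RtZ} (hP : 1 ≤ P) (hch : RtChartOk P d.nL d.p0) (hfs : 0 < fs)
    (hH : 0 ≤ H1) (hΛ : 1 ≤ Λ) (hΛs : 0 ≤ Λs) (hsh : cySh Q Λs) (hr : 0 < Q.r) (hf : 0 < Q.f) (hunc : rdD H1 0 ≤ fs * Q.f)
    (s1 : fs * Q.f ≤ 1) (s2 : 3 * Λ * (fs * Q.f) ≤ 1) (s3 : 48 * Λ * Λs * fs ≤ 1) (s4 : 3 * Λ * (fs * Q.f) ≤ Q.r)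
    (s5 : (5 + 2 * Q.r) * (Λ * (fs * Q.f)) ≤ Q.r ^ 2)
    (hR : RtPwRin d k0 P fs H1 Λ z' z) (hin : cyIn Q 1 (fzFl fs z'.2)) :
    rtPwP d k0 (RdWvPar.co 0 z.2) ∈ rtLrIn P fs d.nL d.p0 ∧
      cyIn (rtPiQ Q (2 * Q.r) ((2 + Λ) * Q.f)) 1 (rtFl fs (((rtChart d.p0 d.nL).row (rtPwP d k0 (RdWvPar.co 0 z.2))).flow (-1))) := by
  obtain ⟨hIn, hnr⟩ := hR
  have hIn' := rt_lr_in_of d (by linarith) hIn
  refine ⟨hIn', ?_⟩
  have hθ : |(-1 : ℝ)| ≤ 8 := by norm_num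
  obtain ⟨c1, -, -, -⟩ := rt_lr_bd hP hch hfs hθ hIn'
  have hsm := rt_lf_img hP hch hIn'.1 hθ
  obtain ⟨q, hq⟩ : ∃ q, q = ((rtChart d.p0 d.nL).row (rtPwP d k0 (RdWvPar.co 0 z.2))).flow (-1) := ⟨_, rfl⟩
  have e0 : rtPwIm d k0 (RdWvPar.co 0 z.2) 0 = rtPwSc q := by
    rw [hq]
    unfold rtPwIm
    norm_num
  rw [e0] at hnr
  rw [← hq] at c1 hsm ⊢
  rw [rt_pi_rdD0] at hunc
  have hh0 : 0 ≤ Real.sqrt H1 := Real.sqrt_nonneg _
  have hΛ0 : 0 ≤ Λ := by linarith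
  have hn := rt_pi_near_symm (rt_pi_near (q := rtPwSc q) hΛ0 hH (hunc.trans s1) hfs hsm.1 hnr)
  have hLh : Λ * Real.sqrt H1 ≤ Λ * (fs * Q.f) := mul_le_mul_of_nonneg_left hunc hΛ0
  have hLh0 : 0 ≤ Λ * Real.sqrt H1 := mul_nonneg hΛ0 hh0
  have hen : Λ * Real.sqrt H1 / fs ≤ Λ * Q.f := by
    rw [div_le_iff₀ hfs]
    calc Λ * Real.sqrt H1 ≤ Λ * (fs * Q.f) := hLh
      _ = Λ * Q.f * fs := by ring
  have c2 := rt_pi_sc_bd c1
  -- the new row is bounded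
  have c3 : cyBd 2 (fzFl fs z'.2) := by
    obtain ⟨n1, n2, n3, -, -⟩ := hn
    obtain ⟨d1, d2, d3⟩ := c2
    have e1 : 3 * (Λ * Real.sqrt H1) ≤ 1 := by linarith
    refine ⟨?_, ?_, ?_⟩
    · have t := abs_sub_abs_le_abs_sub (fzFl fs z'.2).X (rtFl fs (rtPwSc q)).X
      have n1' : |(fzFl fs z'.2).X - (rtFl fs (rtPwSc q)).X| ≤ 3 * (Λ * Real.sqrt H1) := by
        rw [abs_sub_comm]
        exact n1
      linarith
    · have t := abs_sub_abs_le_abs_sub (fzFl fs z'.2).B (rtFl fs (rtPwSc q)).B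
      have n2' : |(fzFl fs z'.2).B - (rtFl fs (rtPwSc q)).B| ≤ 1 * (3 * (Λ * Real.sqrt H1)) := by
        rw [abs_sub_comm]
        exact n2
      linarith
    · have t := abs_sub_abs_le_abs_sub (fzFl fs z'.2).Y (rtFl fs (rtPwSc q)).Y
      have n3' : |(fzFl fs z'.2).Y - (rtFl fs (rtPwSc q)).Y| ≤ 1 * (3 * (Λ * Real.sqrt H1)) := by
        rw [abs_sub_comm]
        exact n3
      linarith
  have c2' : cyBd 2 (rtFl fs (rtPwSc q)) := ⟨c2.1.trans (by norm_num), c2.2.1.trans (by norm_num), c2.2.2.trans (by norm_num)⟩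
  refine rt_pi_units (by positivity) (by positivity) ?_
  refine rt_lf_stab (Λ := Λs) (W := 2) (eb := 3 * (Λ * Real.sqrt H1)) (en := Λ * Real.sqrt H1 / fs) zero_le_one le_rfl (by positivity)
    (by positivity) hΛs (by norm_num) hr.le hsh c3 c2' hn hin ?_ ?_ ?_
  · linarith
  · nlinarith
  · have e1 : 8 * Λs * 2 * (3 * (Λ * Real.sqrt H1)) ≤ 48 * Λs * (Λ * (fs * Q.f)) := by
      have := mul_le_mul_of_nonneg_left hLh (by positivity : 0 ≤ 48 * Λs)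
      linarith
    have e2 : 48 * Λs * (Λ * (fs * Q.f)) = (48 * Λ * Λs * fs) * Q.f := by ring
    have e3 : (48 * Λ * Λs * fs) * Q.f ≤ 1 * Q.f := mul_le_mul_of_nonneg_right s3 hf.le
    linarith

theorem rt_pi_geo_root {d : RtPd} {k0 : ℕ} {P fs H1 Λ : ℝ} {z' z : RtZ} (hP : 1 ≤ P) (hch : RtChartOk P d.nL d.p0) (hfs : 0 < fs) (hfs1 : fs ≤ 1)
    (hH : 0 ≤ H1) (hΛ : 1 ≤ Λ) (hunc : rdD H1 0 ≤ fs) (hR : RtPwRin d k0 P fs H1 Λ z' z) : z'.2 ∈ fzIn fs (204 + 3 * Λ) := by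
  obtain ⟨hIn, hnr⟩ := hR
  have hIn' := rt_lr_in_of d (by linarith) hIn
  have hθ : |(-1 : ℝ)| ≤ 8 := by norm_num
  obtain ⟨c1, cN, cD, -⟩ := rt_lr_bd hP hch hfs hθ hIn'
  have hsm := rt_lf_img hP hch hIn'.1 hθ
  obtain ⟨q, hq⟩ : ∃ q, q = ((rtChart d.p0 d.nL).row (rtPwP d k0 (RdWvPar.co 0 z.2))).flow (-1) := ⟨_, rfl⟩
  have e0 : rtPwIm d k0 (RdWvPar.co 0 z.2) 0 = rtPwSc q := by
    rw [hq]
    unfold rtPwIm
    norm_num
  rw [e0] at hnr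
  rw [← hq] at c1 cN cD hsm
  rw [rt_pi_rdD0] at hunc
  have hh0 : 0 ≤ Real.sqrt H1 := Real.sqrt_nonneg _
  have hΛ0 : 0 ≤ Λ := by linarith
  obtain ⟨n1, n2, n3, n4, n5⟩ := rt_pi_near (q := rtPwSc q) hΛ0 hH (hunc.trans hfs1) hfs hsm.1 hnr
  obtain ⟨d1, d2, d3⟩ := rt_pi_sc_bd c1
  have hLh : Λ * Real.sqrt H1 ≤ Λ := by
    have := mul_le_mul_of_nonneg_left (hunc.trans hfs1) hΛ0
    linarith
  have hen : Λ * Real.sqrt H1 / fs ≤ Λ := by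
    rw [div_le_iff₀ hfs]
    exact mul_le_mul_of_nonneg_left hunc hΛ0
  have dN : |(rtFl fs (rtPwSc q)).N| ≤ 24 := cN
  have dD : |(rtFl fs (rtPwSc q)).D| ≤ 204 := by
    show |((4 : ℝ)⁻¹ • q.b).2 / fs| ≤ 204
    have e : ((4 : ℝ)⁻¹ • q.b).2 / fs = 4⁻¹ * (q.b.2 / fs) := by
      simp only [Prod.smul_snd, smul_eq_mul]
      ring
    have cD' : |q.b.2 / fs| ≤ 204 := cD
    rw [e, abs_mul, abs_of_pos (by norm_num : (0 : ℝ) < 4⁻¹)]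
    linarith [abs_nonneg (q.b.2 / fs)]
  have key : ∀ a b c e : ℝ, |a - b| ≤ e → |b| ≤ c → |a| ≤ c + e := by
    intro a b c e h1 h2
    have t := abs_sub_abs_le_abs_sub a b
    linarith
  refine ⟨?_, ?_, ?_, ?_, ?_⟩
  · have := key _ _ _ _ n1 d1
    exact this.trans (by linarith)
  · have := key _ _ _ _ n2 d2
    exact this.trans (by linarith)
  · have := key _ _ _ _ n3 d3
    exact this.trans (by linarith)
  · have := key _ _ _ _ n4 dN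
    exact this.trans (by linarith)
  · have := key _ _ _ _ n5 dD
    exact this.trans (by linarith)

end Claimed.Agent.R256
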