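import Claimed.Agent.R256.Rt.PwInMs
import Claimed.Agent.R256.Rt.PwInGeo

/-!
# Row 256, folder Rt, file PwIn : INPUT HALF OF THE GLUE OF `rt_patch_wv`, EXPLICIT FORM      (helper22; prefix `rt_pi_`)      SORRY-FREE

The two analytic fields `reg`, `root` of `FzDat.Ok` for the flat state `G` of the I1 exit `RtPwI1`, with EXPLICIT constants (no powers of `s`, no `n ≥ n0`).
* `rt_pi_reg`       `ms0 {cyIn Q 1 ∘ fzFl fs} ≤ Aa κ r⁴ M^C fs^(1-η) 2^16 Λ cyWt Q + ε`;   `C` depends only on `η` (it is the constant of `rt_lr_reg`);   ONE smallness hypothesis `fs (204 + M + 5 Λs)^40 ≤ Q.r² Q.f`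
* `rt_pi_root`      `ms0 (fzIn fs R0)ᶜ ≤ ε` for `R0 ≥ 204 + 3 Λ`
-/

set_option autoImplicit false

namespace Claimed.Agent.R256

open MeasureTheory
open scoped ENNReal

theorem rt_pi_cell_meas (Q : CyT) (l fs : ℝ) : MeasurableSet {x : RdWvPar.Ph | cyIn Q l (fzFl fs x)} := by
  have e : {x : RdWvPar.Ph | cyIn Q l (fzFl fs x)} = {x | |(fzFl fs x).X - Q.x| ≤ Q.r} ∩ ({x | |(fzFl fs x).B - Q.b| ≤ l * Q.r} ∩
      ({x | |cyTilt Q (fzFl fs x)| ≤ l * Q.r ^ 2} ∩ ({x | |cyVel Q (fzFl fs x)| ≤ Q.f} ∩ {x | |cyPos Q (fzFl fs x)| ≤ l * Q.f}))) := by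
    ext x
    rfl
  rw [e]
  refine MeasurableSet.inter ?_ (MeasurableSet.inter ?_ (MeasurableSet.inter ?_ (MeasurableSet.inter ?_ ?_)))
  all_goals
    refine measurableSet_le ?_ measurable_const
    simp only [cyTilt, cyVel, cyPos, fzFl, rtFl]
    fun_prop

theorem rt_pi_in_meas (fs R : ℝ) : MeasurableSet (fzIn fs R) := by
  have e : fzIn fs R = {x | |(fzFl fs x).X| ≤ R} ∩ ({x | |(fzFl fs x).B| ≤ R} ∩ ({x | |(fzFl fs x).Y| ≤ R} ∩ ({x | |(fzFl fs x).N| ≤ R} ∩ {x | |(fzFl fs x).D| ≤ R}))) := by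
    ext x
    rfl
  rw [e]
  refine MeasurableSet.inter ?_ (MeasurableSet.inter ?_ (MeasurableSet.inter ?_ (MeasurableSet.inter ?_ ?_)))
  all_goals
    refine measurableSet_le ?_ measurable_const
    simp only [fzFl, rtFl]
    fun_prop

theorem rt_pi_tm0 : tmL 0 0 = 0 := by
  simp [tmL]

/-- the weight of the enlarged test in chart units -/
theorem rt_pi_wt {η Λ : ℝ} (h0 : 0 < η) (h1 : η < 1) (hΛ : 1 ≤ Λ) {Q : CyT} (hr : 0 < Q.r) (hf : 0 < Q.f) :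
    cyWt η (rtPiQ Q (2 * Q.r) ((2 + Λ) * Q.f)) ≤ 2 ^ 16 * Λ * cyWt η Q := by
  unfold cyWt rtPiQ
  show (4 * (2 * Q.r)) ^ (3 + η) * (4 * ((2 + Λ) * Q.f)) ^ (1 - η) ≤ _
  have e1 : (4 * (2 * Q.r)) ^ (3 + η) = 8 ^ (3 + η) * Q.r ^ (3 + η) := by
    rw [← Real.mul_rpow (by norm_num) hr.le]
    congr 1
    ring
  have e2 : (4 * ((2 + Λ) * Q.f)) ^ (1 - η) = (4 * (2 + Λ)) ^ (1 - η) * Q.f ^ (1 - η) := by
    rw [← Real.mul_rpow (by positivity) hf.le]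
    congr 1
    ring
  have a1 : (8 : ℝ) ^ (3 + η) ≤ 8 ^ (4 : ℝ) := Real.rpow_le_rpow_of_exponent_le (by norm_num) (by linarith)
  have a2 : (4 * (2 + Λ)) ^ (1 - η) ≤ (4 * (2 + Λ)) ^ (1 : ℝ) := Real.rpow_le_rpow_of_exponent_le (by linarith) (by linarith)
  rw [Real.rpow_one] at a2
  have a3 : (8 : ℝ) ^ (4 : ℝ) = 4096 := by
    rw [show (4 : ℝ) = ((4 : ℕ) : ℝ) by norm_num, Real.rpow_natCast]
    norm_num
  rw [a3] at a1
  have p1 : 0 < Q.r ^ (3 + η) := Real.rpow_pos_of_pos hr _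
  have p2 : 0 < Q.f ^ (1 - η) := Real.rpow_pos_of_pos hf _
  have p3 : 0 < (8 : ℝ) ^ (3 + η) := Real.rpow_pos_of_pos (by norm_num) _
  have p4 : 0 < (4 * (2 + Λ)) ^ (1 - η) := Real.rpow_pos_of_pos (by positivity) _
  rw [e1, e2]
  calc 8 ^ (3 + η) * Q.r ^ (3 + η) * ((4 * (2 + Λ)) ^ (1 - η) * Q.f ^ (1 - η))
      = (8 ^ (3 + η) * (4 * (2 + Λ)) ^ (1 - η)) * (Q.r ^ (3 + η) * Q.f ^ (1 - η)) := by ring
    _ ≤ (4096 * (4 * (2 + Λ))) * (Q.r ^ (3 + η) * Q.f ^ (1 - η)) := by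
        refine mul_le_mul_of_nonneg_right ?_ (by positivity)
        exact mul_le_mul a1 a2 p4.le (by norm_num)
    _ ≤ (2 ^ 16 * Λ) * (Q.r ^ (3 + η) * Q.f ^ (1 - η)) := by
        refine mul_le_mul_of_nonneg_right ?_ (by positivity)
        nlinarith

/-- the five smallness conditions of `rt_pi_geo` follow from one -/
theorem rt_pi_small {fs M Λ Λs r f : ℝ} (hM : 2 ≤ M) (hfs : 0 < fs) (hΛ : 1 ≤ Λ) (hΛM : Λ ≤ M) (hΛs : 0 ≤ Λs) (hr : 0 < r) (hrM : 8 * r ≤ M)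
    (hf : 0 < f) (hfM : 4 * ((2 + Λ) * f) ≤ M) (hsm : fs * (204 + M + 5 * Λs) ^ 40 ≤ r ^ 2 * f) :
    fs * f ≤ 1 ∧ 3 * Λ * (fs * f) ≤ 1 ∧ 48 * Λ * Λs * fs ≤ 1 ∧ 3 * Λ * (fs * f) ≤ r ∧ (5 + 2 * r) * (Λ * (fs * f)) ≤ r ^ 2 := by
  obtain ⟨K, hK⟩ : ∃ K, K = 204 + M + 5 * Λs := ⟨_, rfl⟩
  rw [← hK] at hsm
  have k1 : 206 ≤ K := by linarith
  have k0 : 0 < K := by linarith
  have k11 : 1 ≤ K := by linarith
  have hrK : r ≤ K := by linarith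
  have hfK : f ≤ K := by nlinarith
  have hΛK : Λ ≤ K := by linarith
  have hsK : Λs ≤ K := by linarith
  have A1 : fs * K ^ 37 ≤ 1 := by
    have a : (fs * K ^ 37) * K ^ 3 ≤ 1 * K ^ 3 := by
      calc (fs * K ^ 37) * K ^ 3 = fs * K ^ 40 := by ring
        _ ≤ r ^ 2 * f := hsm
        _ ≤ K ^ 2 * K := mul_le_mul (pow_le_pow_left₀ hr.le hrK 2) hfK hf.le (by positivity)
        _ = 1 * K ^ 3 := by ring
    exact le_of_mul_le_mul_right a (by positivity)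
  have A2 : fs * f * K ^ 38 ≤ r ^ 2 := by
    have a : (fs * f * K ^ 38) * K ^ 2 ≤ r ^ 2 * K ^ 2 := by
      calc (fs * f * K ^ 38) * K ^ 2 = (fs * K ^ 40) * f := by ring
        _ ≤ (r ^ 2 * f) * f := mul_le_mul_of_nonneg_right hsm hf.le
        _ = r ^ 2 * f ^ 2 := by ring
        _ ≤ r ^ 2 * K ^ 2 := mul_le_mul_of_nonneg_left (pow_le_pow_left₀ hf.le hfK 2) (by positivity)
    exact le_of_mul_le_mul_right a (by positivity)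
  have A3 : fs * f * K ^ 37 ≤ r := by
    have a : (fs * f * K ^ 37) * K ≤ r * K := by
      calc (fs * f * K ^ 37) * K = fs * f * K ^ 38 := by ring
        _ ≤ r ^ 2 := A2
        _ = r * r := by ring
        _ ≤ r * K := mul_le_mul_of_nonneg_left hrK hr.le
    exact le_of_mul_le_mul_right a k0
  have q1 : K ≤ K ^ 37 := by
    calc K = K ^ 1 := (pow_one K).symm
      _ ≤ K ^ 37 := pow_le_pow_right₀ k11 (by norm_num)
  have q3 : K ^ 3 ≤ K ^ 37 := pow_le_pow_right₀ k11 (by norm_num)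
  have q38 : K ^ 3 ≤ K ^ 38 := pow_le_pow_right₀ k11 (by norm_num)
  have hff : 0 < fs * f := mul_pos hfs hf
  have c1 : 3 * Λ ≤ K ^ 3 := by
    have : 3 * Λ ≤ K * K := by nlinarith
    calc 3 * Λ ≤ K * K := this
      _ = K ^ 2 * 1 := by ring
      _ ≤ K ^ 2 * K := mul_le_mul_of_nonneg_left k11 (by positivity)
      _ = K ^ 3 := by ring
  refine ⟨?_, ?_, ?_, ?_, ?_⟩
  · calc fs * f ≤ fs * K := mul_le_mul_of_nonneg_left hfK hfs.le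
      _ ≤ fs * K ^ 37 := mul_le_mul_of_nonneg_left q1 hfs.le
      _ ≤ 1 := A1
  · have c2 : 3 * Λ * f ≤ K ^ 3 := by
      have t1 : 3 * Λ ≤ K * K := by nlinarith
      calc 3 * Λ * f ≤ (K * K) * K := mul_le_mul t1 hfK hf.le (by positivity)
        _ = K ^ 3 := by ring
    calc 3 * Λ * (fs * f) = fs * (3 * Λ * f) := by ring
      _ ≤ fs * K ^ 37 := mul_le_mul_of_nonneg_left (c2.trans q3) hfs.le
      _ ≤ 1 := A1
  · have c2 : 48 * Λ * Λs ≤ K ^ 3 := by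
      have t1 : 48 * Λ ≤ K * K := by nlinarith
      calc 48 * Λ * Λs ≤ (K * K) * K := mul_le_mul t1 hsK hΛs (by positivity)
        _ = K ^ 3 := by ring
    calc 48 * Λ * Λs * fs = fs * (48 * Λ * Λs) := by ring
      _ ≤ fs * K ^ 37 := mul_le_mul_of_nonneg_left (c2.trans q3) hfs.le
      _ ≤ 1 := A1
  · calc 3 * Λ * (fs * f) = fs * f * (3 * Λ) := by ring
      _ ≤ fs * f * K ^ 37 := mul_le_mul_of_nonneg_left (c1.trans q3) hff.le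
      _ ≤ r := A3
  · have c2 : (5 + 2 * r) * Λ ≤ K ^ 3 := by
      have t1 : 5 + 2 * r ≤ K * K := by nlinarith
      calc (5 + 2 * r) * Λ ≤ (K * K) * K := mul_le_mul t1 hΛK (by linarith) (by positivity)
        _ = K ^ 3 := by ring
    calc (5 + 2 * r) * (Λ * (fs * f)) = fs * f * ((5 + 2 * r) * Λ) := by ring
      _ ≤ fs * f * K ^ 38 := mul_le_mul_of_nonneg_left (c2.trans q38) hff.le
      _ ≤ r ^ 2 := A2

/-- the aperture of the old root cut in terms of the flat aperture -/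
theorem rt_pi_unc {H H1 r : ℝ} {k0 : ℕ} (hr : 0 < r) (hH1 : H1 = H / (4 * rdLen k0 * r ^ 2)) : rdD H k0 = 2 * r * rdD H1 0 := by
  have hl := rdLen_pos k0
  rw [rt_pi_rdD0]
  unfold rdD
  have e : H / rdLen k0 = (2 * r) ^ 2 * H1 := by
    rw [hH1]
    field_simp
    ring
  rw [e, Real.sqrt_mul (by positivity), Real.sqrt_sq (by positivity)]

/-- **REG, explicit form** -/
theorem rt_pi_reg (η : ℝ) (h0 : 0 < η) (h1 : η < 1) :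
    ∃ C : ℝ, 0 < C ∧ ∀ (p : RdWvPar) (E : Xp (p.sys η)) (d : RtPd) (P fs Λ Aa ε : ℝ) (p1 : RdWvPar) (G : RtKc) (b1 bT1 : ℕ), E.Valid →
      RtPwI1 p E d P fs Λ Aa ε p1 G b1 bT1 → ∀ (M Λs : ℝ) (Q : CyT), 2 ≤ M → 1 ≤ P → P ≤ M → RtChartOk P d.nL d.p0 → 0 < d.ψ.r → 0 < fs →
      1 ≤ Λ → Λ ≤ M → 0 ≤ Aa → 0 ≤ ε → cySh Q Λs → 0 < Q.r → 8 * Q.r ≤ M → 0 < Q.f → 4 * ((2 + Λ) * Q.f) ≤ M → rdD p1.H 0 ≤ fs * Q.f →
      fs * (204 + M + 5 * Λs) ^ 40 ≤ Q.r ^ 2 * Q.f →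
      (p1.sys 0).ms 0 0 b1 {x | cyIn Q 1 (fzFl fs x)} G
        ≤ Aa * (E.ka * (d.ψ.r ^ 4 * (M ^ C * (fs ^ (1 - η) * (2 ^ 16 * Λ * cyWt η Q))))) + ε := by
  obtain ⟨C, hC, H⟩ := rt_lr_reg η h0 h1
  refine ⟨C, hC, fun p E d P fs Λ Aa ε p1 G b1 bT1 hV hI M Λs Q hM hP hPM hch hr hfs hΛ hΛM hAa hε hsh hQr hQrM hQf hQfM hunc => ?_⟩
  have hΛs : 0 ≤ Λs := (abs_nonneg _).trans hsh.1
  obtain ⟨Qs, hQs⟩ : ∃ Qs, Qs = rtPiQ Q (2 * Q.r) ((2 + Λ) * Q.f) := ⟨_, rfl⟩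
  have qr : Qs.r = 4 * (2 * Q.r) := by rw [hQs]; rfl
  have qf : Qs.f = 4 * ((2 + Λ) * Q.f) := by rw [hQs]; rfl
  have qal : Qs.al = Q.al := by rw [hQs]; rfl
  have qbe : Qs.be = Q.be := by rw [hQs]; rfl
  have qK : Qs.K = Q.K / 4 := by rw [hQs]; rfl
  have g1 : |Qs.K| ≤ Λs := by
    rw [qK, abs_div, abs_of_pos (by norm_num : (0 : ℝ) < 4)]
    have := hsh.2.2.2.2
    linarith [abs_nonneg Q.K]
  have g2 : Q.r ^ 2 * Q.f ≤ Qs.r ^ 2 * Qs.f := by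
    rw [qr, qf]
    have t0 : 0 < Q.r ^ 2 * Q.f := by positivity
    have e : (4 * (2 * Q.r)) ^ 2 * (4 * ((2 + Λ) * Q.f)) = (256 * (2 + Λ)) * (Q.r ^ 2 * Q.f) := by ring
    have t1 : 1 * (Q.r ^ 2 * Q.f) ≤ (256 * (2 + Λ)) * (Q.r ^ 2 * Q.f) := mul_le_mul_of_nonneg_right (by linarith) t0.le
    rw [e]
    linarith
  have g3 : rdD p.H E.k0 ≤ d.ψ.r * (fs * Qs.f) := by
    rw [rt_pi_unc hr hI.H_eq, qf]
    have t1 : 2 * d.ψ.r * rdD p1.H 0 ≤ 2 * d.ψ.r * (fs * Q.f) := mul_le_mul_of_nonneg_left hunc (by positivity)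
    have t0 : 0 < d.ψ.r * (fs * Q.f) := by positivity
    have e : d.ψ.r * (fs * (4 * ((2 + Λ) * Q.f))) = (4 * (2 + Λ)) * (d.ψ.r * (fs * Q.f)) := by ring
    have t2 : 2 * (d.ψ.r * (fs * Q.f)) ≤ (4 * (2 + Λ)) * (d.ψ.r * (fs * Q.f)) := mul_le_mul_of_nonneg_right (by linarith) t0.le
    rw [e]
    linarith
  have g4 : 0 < Qs.r := by rw [qr]; positivity
  have g5 : Qs.r ≤ M := by rw [qr]; linarith
  have g6 : 0 < Qs.f := by rw [qf]; positivity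
  have g7 : Qs.f ≤ M := by rw [qf]; exact hQfM
  have g8 : |Qs.al| ≤ Λs := by rw [qal]; exact hsh.2.2.1
  have g9 : |Qs.be| ≤ Λs := by rw [qbe]; exact hsh.2.2.2.1
  intro hsm
  obtain ⟨s1, s2, s3, s4, s5⟩ := rt_pi_small hM hfs hΛ hΛM hΛs hQr hQrM hQf hQfM hsm
  have hmain := H (rtMdWv η h0 h1) (rt_md_wv_ok η h0 h1) p p.H_pos (tmL E.k0 E.i0) E.k0 E.b0 E.ka E.v hV.ka_pos.le hV.reg M Λs P fs (-1) d.ψ.r d.ψ.cen
    d.nL d.p0 Qs hM hP hPM hch (by norm_num) hfs g4 g5 g6 g7 g8 g9 g1 (hsm.trans g2) hr g3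
  clear hsm
  have hms := rt_pi_ms (η := η) hAa hε hI.inn (rt_pi_cell_meas Q 1 fs)
    (N1 := {x | (rtNrm (rdLen E.k0) d.ψ.r d.ψ.cen).row (RdWvPar.co (tmL E.k0 E.i0) x) ∈ rtLrIn P fs d.nL d.p0 ∧
      cyIn Qs 1 (rtFl fs (((rtChart d.p0 d.nL).row ((rtNrm (rdLen E.k0) d.ψ.r d.ψ.cen).row (RdWvPar.co (tmL E.k0 E.i0) x))).flow (-1)))})
    (fun z' z hz' hR => by
      have := rt_pi_geo hP hch hfs p1.H_pos.le hΛ hΛs hsh hQr hQf hunc s1 s2 s3 s4 s5 hR hz'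
      rw [← hQs] at this
      exact this)
  rw [rt_pi_tm0] at hms
  refine hms.trans ?_
  have hw := rt_pi_wt h0 h1 hΛ hQr hQf
  rw [← hQs] at hw
  have hfin : E.ka * (d.ψ.r ^ 4 * (M ^ C * (fs ^ (1 - η) * cyWt η Qs))) ≤ E.ka * (d.ψ.r ^ 4 * (M ^ C * (fs ^ (1 - η) * (2 ^ 16 * Λ * cyWt η Q)))) := by
    have p1 : 0 < M ^ C := Real.rpow_pos_of_pos (by linarith) _
    have p2 : 0 < fs ^ (1 - η) := Real.rpow_pos_of_pos hfs _
    have := hV.ka_pos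
    gcongr
  exact add_le_add (mul_le_mul_of_nonneg_left (hmain.trans hfin) hAa) le_rfl

/-- **ROOT, explicit form** -/
theorem rt_pi_root {η : ℝ} {p : RdWvPar} {E : Xp (p.sys η)} {d : RtPd} {P fs Λ Aa ε : ℝ} {p1 : RdWvPar} {G : RtKc} {b1 bT1 : ℕ}
    (hI : RtPwI1 p E d P fs Λ Aa ε p1 G b1 bT1) (hP : 1 ≤ P) (hch : RtChartOk P d.nL d.p0) (hfs : 0 < fs) (hfs1 : fs ≤ 1) (hΛ : 1 ≤ Λ)
    (hAa : 0 ≤ Aa) (hε : 0 ≤ ε) (hunc : rdD p1.H 0 ≤ fs) {R0 : ℝ} (hR0 : 204 + 3 * Λ ≤ R0) :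
    (p1.sys 0).ms 0 0 b1 (fzIn fs R0)ᶜ G ≤ ε := by
  have hms := rt_pi_ms (η := η) hAa hε hI.inn (rt_pi_in_meas fs R0).compl (N1 := ∅)
    (fun z' z hz' hR => by
      refine hz' ?_
      obtain ⟨a1, a2, a3, a4, a5⟩ := rt_pi_geo_root hP hch hfs hfs1 p1.H_pos.le hΛ hunc hR
      exact ⟨a1.trans hR0, a2.trans hR0, a3.trans hR0, a4.trans hR0, a5.trans hR0⟩)
  rw [rt_pi_tm0] at hms
  have e : Aa * ((p.sys η).mu (tmL E.k0 E.i0) E.k0 E.b0 E.v).real (∅ : Set RdWvPar.Ph) + ε = Aa * 0 + ε :=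
    congrArg (fun t => Aa * t + ε) measureReal_empty
  refine hms.trans (le_of_eq (e.trans ?_))
  rw [mul_zero, zero_add]

end Claimed.Agent.R256
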