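import Claimed.Agent.R256.Rt.PwDefs
import Claimed.Agent.R256.Rt.LiftReg
import Claimed.Agent.R256.Rt.Ker

/-!
# Row 256, folder Rt, file PwInMs : INPUT HALF OF THE GLUE OF `rt_patch_wv`, MEASURE PART      (helper22; prefix `rt_pi_`)      SORRY-FREE

* `rt_pi_view`      the energy of a measurable set of rows in a one-time view `(rtVmP p k {i}, rtVdP p k b v)` is the mass of the energy measure `(p.sys η).mu (tmL k i) k b v`
* `rt_pi_ms`        a transfer between two one-time views bounds `ms` of a measurable set `S` of new rows by `Aa μ_old(N1) + ε`, `N1` = ANY set which contains the old partners of the rows of `S`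
-/

set_option autoImplicit false

namespace Claimed.Agent.R256

open MeasureTheory
open scoped ENNReal

theorem rt_pi_vd_meas (p : RdWvPar) (k b : ℕ) (v : RtKc) : Measurable (rtVdP p k b v) := by
  refine measurable_from_prod_countable_right fun j => ?_
  exact ((Lp.stronglyMeasurable (p.an (tmL k j) k b v)).measurable.enorm).pow_const 2

theorem rt_pi_view (p : RdWvPar) (η : ℝ) (k i b : ℕ) (v : RtKc) {S : Set RdWvPar.Ph} (hS : MeasurableSet S) :
    ∫⁻ z in {z : RtZ | z.2 ∈ S}, rtVdP p k b v z ∂(rtVmP p k {i}) = ((p.sys η).mu (tmL k i) k b v) S := by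
  have := rt_k_rw_sf p k
  have e1 : rtVmP p k {i} = Measure.map (Prod.mk i) (p.rw k) := by
    unfold rtVmP
    rw [Measure.restrict_singleton, Measure.count_singleton, one_smul, Measure.dirac_prod]
  have hS' : MeasurableSet {z : RtZ | z.2 ∈ S} := measurable_snd hS
  rw [e1, setLIntegral_map hS' (rt_pi_vd_meas p k b v) measurable_prodMk_left]
  have e2 : ((p.sys η).mu (tmL k i) k b v) S = ∫⁻ x in S, ENNReal.ofReal (‖(p.an (tmL k i) k b v : RdWvPar.Ph → ℂ) x‖ ^ 2) ∂(p.rw k) :=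
    withDensity_apply _ hS
  rw [e2]
  refine lintegral_congr fun x => ?_
  show ‖(p.an (tmL k i) k b v : RdWvPar.Ph → ℂ) x‖ₑ ^ 2 = ENNReal.ofReal (‖(p.an (tmL k i) k b v : RdWvPar.Ph → ℂ) x‖ ^ 2)
  rw [ENNReal.ofReal_pow (norm_nonneg _), ofReal_norm]

theorem rt_pi_aux {X : Type} [MeasurableSpace X] (μ1 μ : Measure X) [IsFiniteMeasure μ1] [IsFiniteMeasure μ] {S N1 : Set X} {Aa ε : ℝ}
    (hAa : 0 ≤ Aa) (hε : 0 ≤ ε) (h : μ1 S ≤ ENNReal.ofReal Aa * μ N1 + ENNReal.ofReal ε) : μ1.real S ≤ Aa * μ.real N1 + ε := by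
  have h2 : μ N1 = ENNReal.ofReal (μ.real N1) := by
    rw [ofReal_measureReal]
  rw [h2, ← ENNReal.ofReal_mul hAa, ← ENNReal.ofReal_add (mul_nonneg hAa measureReal_nonneg) hε] at h
  exact ENNReal.toReal_le_of_le_ofReal (add_nonneg (mul_nonneg hAa measureReal_nonneg) hε) h

/-- **a transfer between one-time views bounds the energy of a set of new rows** -/
theorem rt_pi_ms {η : ℝ} {p p1 : RdWvPar} {k k1 i i1 b b1 : ℕ} {v G : RtKc} {R : RtZ → RtZ → Prop} {Aa ε : ℝ} (hAa : 0 ≤ Aa) (hε : 0 ≤ ε)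
    (h : RtXf (rtVmP p1 k1 {i1}) (rtVdP p1 k1 b1 G) (rtVmP p k {i}) (rtVdP p k b v) R Set.univ (ENNReal.ofReal Aa) (ENNReal.ofReal ε))
    {S : Set RdWvPar.Ph} (hS : MeasurableSet S) {N1 : Set RdWvPar.Ph} (hN : ∀ z' z : RtZ, z'.2 ∈ S → R z' z → z.2 ∈ N1) :
    (p1.sys 0).ms (tmL k1 i1) k1 b1 S G ≤ Aa * ((p.sys η).mu (tmL k i) k b v).real N1 + ε := by
  have hf1 := gn_mu_finite (P := p1.sys 0) (tmL k1 i1) k1 b1 G
  have hf := gn_mu_finite (P := p.sys η) (tmL k i) k b v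
  obtain ⟨N2, hN2⟩ : ∃ N2 : Set RdWvPar.Ph, N2 = toMeasurable ((p.sys η).mu (tmL k i) k b v) N1 := ⟨_, rfl⟩
  have hN2m : MeasurableSet N2 := by
    rw [hN2]
    exact measurableSet_toMeasurable _ _
  have hsub : N1 ⊆ N2 := by
    rw [hN2]
    exact subset_toMeasurable _ _
  have hmu : ((p.sys η).mu (tmL k i) k b v) N2 = ((p.sys η).mu (tmL k i) k b v) N1 := by
    rw [hN2]
    exact measure_toMeasurable _
  have h1 := rt_xa_set h (S := {z : RtZ | z.2 ∈ S}) (measurable_snd hS) (Set.subset_univ _) (N := {z : RtZ | z.2 ∈ N2})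
    (fun z' hz' z hR => hsub (hN z' z hz' hR))
  rw [rt_pi_view p1 0 k1 i1 b1 G hS, rt_pi_view p η k i b v hN2m, hmu] at h1
  have e0 : (p1.sys 0).ms (tmL k1 i1) k1 b1 S G = ((p1.sys 0).mu (tmL k1 i1) k1 b1 G).real S := gn_ms_eq_mu (P := p1.sys 0) _ _ _ hS G
  rw [e0]
  exact @rt_pi_aux _ _ _ _ hf1 hf _ _ _ _ hAa hε h1

end Claimed.Agent.R256
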