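import Claimed.Agent.R256.Rt.PwIn
import Claimed.Agent.R256.Rt.PwDat

/-!
# Row 256, folder Rt, file PwInPw : INPUT HALF OF THE GLUE OF `rt_patch_wv`, POWER FORM      (helper22; prefix `rt_pi_`)      SORRY-FREE

`s = E.s = 2^-n`, scale of the flat datum `s₁ = 2^-(n+2) = s/4`, `s² ≤ s₁ ≤ s` for `n ≥ 2`.      I1 exit with `P = s^-b0`, `Λ = s^-lam`, `Aa = s^-a`, `ε = s^Ae e`.
* `rt_pi_reg_pw`      the field `reg` of `FzDat.Ok` with `bq = 2^(g n) κ r⁴ fs^(1-η)` if `a + lam + CL (b0 + lam + 3 g0) < g`, `Ae ≥ C + 8 Dt + 1`, `fs ≤ s^(40 (b0 + lam + 3 g0 + 2 Dt + 4) + 6 Dt)`, `n ≥ n0`;   `CL` depends only on `η`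
* `rt_pi_root_pw`     the field `root` if `2 lam < g0`, `Ae ≥ 2 A'`, `n ≥ n0`.
-/

set_option autoImplicit false

namespace Claimed.Agent.R256

open MeasureTheory

/-- `s^-x` is large -/
theorem rt_pi_big (x : ℝ) (hx : 0 < x) (K : ℝ) : ∃ n0 : ℕ, ∀ n : ℕ, n0 ≤ n → K ≤ ((2 : ℝ)⁻¹ ^ n) ^ (-x) := by
  obtain ⟨n0, hn0⟩ := exists_nat_ge (K / x)
  refine ⟨n0, fun n hn => ?_⟩
  have e : ((2 : ℝ)⁻¹ ^ n) ^ (-x) = 2 ^ (x * n) := by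
    rw [← Real.rpow_natCast, ← Real.rpow_mul (by norm_num), Real.inv_rpow (by norm_num), ← Real.rpow_neg (by norm_num)]
    congr 1
    ring
  rw [e]
  have h1 : K ≤ x * n := by
    have : K / x ≤ n := hn0.trans (by exact_mod_cast hn)
    rw [div_le_iff₀ hx] at this
    linarith
  have h2 : x * n ≤ (2 : ℝ) ^ (x * n) := by
    have a1 := Real.add_one_le_exp (x * n * Real.log 2)
    have a2 : (2 : ℝ) ^ (x * n) = Real.exp (x * n * Real.log 2) := by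
      rw [Real.rpow_def_of_pos (by norm_num), mul_comm]
    have a3 : (1 / 2 : ℝ) ≤ Real.log 2 := by
      have := Real.log_two_gt_d9
      linarith
    by_cases hc : x * n ≤ 2
    · have : (1 : ℝ) ≤ 2 ^ (x * n) := Real.one_le_rpow (by norm_num) (by positivity)
      by_cases hc1 : x * n ≤ 1
      · linarith
      · have : (2 : ℝ) ^ (1 : ℝ) ≤ 2 ^ (x * n) := Real.rpow_le_rpow_of_exponent_le (by norm_num) (by linarith)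
        rw [Real.rpow_one] at this
        linarith
    · -- `2^t ≥ t` for `t ≥ 2` through `2^t = (2^(t/2))² ≥ (1 + t/4)²`
      have b1 : (2 : ℝ) ^ (x * n) = (2 ^ (x * n / 2)) ^ 2 := by
        rw [← Real.rpow_natCast, ← Real.rpow_mul (by norm_num)]
        congr 1
        push_cast
        ring
      have b2 : 1 + x * n / 4 ≤ (2 : ℝ) ^ (x * n / 2) := by
        have c1 := Real.add_one_le_exp (x * n / 2 * Real.log 2)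
        have c2 : (2 : ℝ) ^ (x * n / 2) = Real.exp (x * n / 2 * Real.log 2) := by
          rw [Real.rpow_def_of_pos (by norm_num), mul_comm]
        rw [c2]
        have : x * n / 4 ≤ x * n / 2 * Real.log 2 := by
          have : 0 ≤ x * n := by positivity
          nlinarith
        linarith
      rw [b1]
      have b3 : (1 + x * n / 4) ^ 2 ≤ ((2 : ℝ) ^ (x * n / 2)) ^ 2 := pow_le_pow_left₀ (by positivity) b2 2
      nlinarith [sq_nonneg (x * n / 4 - 1)]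
  exact h1.trans h2

section

variable {s : ℝ}

theorem rt_pi_s_add (hs : 0 < s) (x y : ℝ) : s ^ x * s ^ y = s ^ (x + y) := (Real.rpow_add hs x y).symm

theorem rt_pi_s_anti (hs : 0 < s) (hs1 : s ≤ 1) {x y : ℝ} (h : x ≤ y) : s ^ y ≤ s ^ x := Real.rpow_le_rpow_of_exponent_ge hs hs1 h

theorem rt_pi_s_one (hs : 0 < s) (hs1 : s ≤ 1) {x : ℝ} (h : 0 ≤ x) : 1 ≤ s ^ (-x) := by
  have := rt_pi_s_anti hs hs1 (show -x ≤ 0 by linarith)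
  rwa [Real.rpow_zero] at this

/-- `s^(2x) ≤ (s/4)^x` -/
theorem rt_pi_s_lo (hs : 0 < s) (hs4 : s ≤ 1 / 4) {x : ℝ} (h : 0 ≤ x) : s ^ (2 * x) ≤ (s / 4) ^ x := by
  have e : s ^ (2 * x) = (s ^ 2) ^ x := by
    rw [← Real.rpow_natCast, ← Real.rpow_mul hs.le]
    norm_num
  rw [e]
  exact Real.rpow_le_rpow (by positivity) (by nlinarith) h

/-- `(s/4)^-x ≤ s^-(2x)` -/
theorem rt_pi_s_hi (hs : 0 < s) (hs4 : s ≤ 1 / 4) {x : ℝ} (h : 0 ≤ x) : (s / 4) ^ (-x) ≤ s ^ (-(2 * x)) := by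
  rw [Real.rpow_neg (by positivity), Real.rpow_neg hs.le]
  exact inv_anti₀ (Real.rpow_pos_of_pos hs _) (rt_pi_s_lo hs hs4 h)

end

theorem rt_pi_s4 {P : PkSys} (E : Xp P) : (2 : ℝ)⁻¹ ^ (E.n + 2) = E.s / 4 := by
  unfold Xp.s
  rw [pow_add]
  norm_num
  ring

theorem rt_pi_s_le4 {P : PkSys} (E : Xp P) (hn : 2 ≤ E.n) : E.s ≤ 1 / 4 := by
  unfold Xp.s
  calc (2 : ℝ)⁻¹ ^ E.n ≤ (2 : ℝ)⁻¹ ^ 2 := pow_le_pow_of_le_one (by norm_num) (by norm_num) hn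
    _ = 1 / 4 := by norm_num

/-- the numerical part of `rt_pi_reg_pw`: the hypotheses of `rt_pi_reg` -/
theorem rt_pi_num1 {s Dt g0 b0 lam fs : ℝ} (hs : 0 < s) (hs4 : s ≤ 1 / 4) (hDt : 0 < Dt) (hg0 : 0 < g0) (hb0 : 0 < b0) (hlam : 0 ≤ lam)
    (h12 : 12 ≤ s ^ (-g0)) (hfs : 0 < fs) (hfsW : fs ≤ s ^ (40 * (b0 + lam + 3 * g0 + 2 * Dt + 4) + 6 * Dt)) {Q : CyT}
    (q1 : (s / 4) ^ Dt ≤ Q.r) (q2 : Q.r ≤ (s / 4) ^ (-g0)) (q3 : (s / 4) ^ Dt ≤ Q.f) (q4 : Q.f ≤ (s / 4) ^ (-g0)) (q5 : cySh Q ((s / 4) ^ (-Dt))) :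
    2 ≤ s ^ (-(b0 + lam + 3 * g0)) ∧ 1 ≤ s ^ (-b0) ∧ s ^ (-b0) ≤ s ^ (-(b0 + lam + 3 * g0)) ∧ 1 ≤ s ^ (-lam) ∧ s ^ (-lam) ≤ s ^ (-(b0 + lam + 3 * g0)) ∧
      cySh Q (s ^ (-(2 * Dt))) ∧ 0 < Q.r ∧ 8 * Q.r ≤ s ^ (-(b0 + lam + 3 * g0)) ∧ 0 < Q.f ∧ 4 * ((2 + s ^ (-lam)) * Q.f) ≤ s ^ (-(b0 + lam + 3 * g0)) ∧
      fs * (204 + s ^ (-(b0 + lam + 3 * g0)) + 5 * s ^ (-(2 * Dt))) ^ 40 ≤ Q.r ^ 2 * Q.f ∧ s ^ (2 * Dt) ≤ Q.r ∧ s ^ (2 * Dt) ≤ Q.f := by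
  have hs1 : s ≤ 1 := by linarith
  obtain ⟨m, hm⟩ : ∃ m, m = b0 + lam + 3 * g0 := ⟨_, rfl⟩
  rw [← hm] at hfsW ⊢
  have r_lo : s ^ (2 * Dt) ≤ Q.r := (rt_pi_s_lo hs hs4 hDt.le).trans q1
  have f_lo : s ^ (2 * Dt) ≤ Q.f := (rt_pi_s_lo hs hs4 hDt.le).trans q3
  have r_hi : Q.r ≤ s ^ (-(2 * g0)) := q2.trans (rt_pi_s_hi hs hs4 hg0.le)
  have f_hi : Q.f ≤ s ^ (-(2 * g0)) := q4.trans (rt_pi_s_hi hs hs4 hg0.le)
  have hL := rt_pi_s_hi hs hs4 hDt.le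
  have p0 : 0 < s ^ (2 * Dt) := Real.rpow_pos_of_pos hs _
  have hr0 : 0 < Q.r := p0.trans_le r_lo
  have hf0 : 0 < Q.f := p0.trans_le f_lo
  have pg : 0 < s ^ (-(2 * g0)) := Real.rpow_pos_of_pos hs _
  have pl : 0 < s ^ (-lam) := Real.rpow_pos_of_pos hs _
  have l1 : 1 ≤ s ^ (-lam) := rt_pi_s_one hs hs1 hlam
  have a8 : 8 * Q.r ≤ s ^ (-m) := by
    calc 8 * Q.r ≤ 12 * s ^ (-(2 * g0)) := by nlinarith
      _ ≤ s ^ (-g0) * s ^ (-(2 * g0)) := mul_le_mul_of_nonneg_right h12 pg.le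
      _ = s ^ (-(3 * g0)) := by
          rw [rt_pi_s_add hs]
          congr 1
          ring
      _ ≤ s ^ (-m) := rt_pi_s_anti hs hs1 (by linarith)
  have a4 : 4 * ((2 + s ^ (-lam)) * Q.f) ≤ s ^ (-m) := by
    calc 4 * ((2 + s ^ (-lam)) * Q.f) ≤ 4 * ((3 * s ^ (-lam)) * s ^ (-(2 * g0))) := by
          have : (2 + s ^ (-lam)) * Q.f ≤ (3 * s ^ (-lam)) * s ^ (-(2 * g0)) := mul_le_mul (by linarith) f_hi hf0.le (by positivity)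
          linarith
      _ = 12 * (s ^ (-lam) * s ^ (-(2 * g0))) := by ring
      _ ≤ s ^ (-g0) * (s ^ (-lam) * s ^ (-(2 * g0))) := mul_le_mul_of_nonneg_right h12 (by positivity)
      _ = s ^ (-(lam + 3 * g0)) := by
          rw [rt_pi_s_add hs, rt_pi_s_add hs]
          congr 1
          ring
      _ ≤ s ^ (-m) := rt_pi_s_anti hs hs1 (by linarith)
  have hK : 204 + s ^ (-m) + 5 * s ^ (-(2 * Dt)) ≤ s ^ (-(m + 2 * Dt + 4)) := by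
    have u0 : 0 < s ^ (-(m + 2 * Dt)) := Real.rpow_pos_of_pos hs _
    have u1 : s ^ (-m) ≤ s ^ (-(m + 2 * Dt)) := rt_pi_s_anti hs hs1 (by linarith)
    have u2 : s ^ (-(2 * Dt)) ≤ s ^ (-(m + 2 * Dt)) := rt_pi_s_anti hs hs1 (by linarith)
    have u3 : 1 ≤ s ^ (-(m + 2 * Dt)) := rt_pi_s_one hs hs1 (by linarith)
    have u4 : (256 : ℝ) ≤ s ^ (-(4 : ℝ)) := by
      rw [Real.rpow_neg hs.le, show (4 : ℝ) = ((4 : ℕ) : ℝ) by norm_num, Real.rpow_natCast]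
      have : s ^ 4 ≤ (1 / 4) ^ 4 := pow_le_pow_left₀ hs.le hs4 4
      rw [le_inv_comm₀ (by norm_num) (by positivity)]
      calc s ^ 4 ≤ (1 / 4) ^ 4 := this
        _ = (256 : ℝ)⁻¹ := by norm_num
    calc 204 + s ^ (-m) + 5 * s ^ (-(2 * Dt)) ≤ 256 * s ^ (-(m + 2 * Dt)) := by linarith
      _ ≤ s ^ (-(4 : ℝ)) * s ^ (-(m + 2 * Dt)) := mul_le_mul_of_nonneg_right u4 u0.le
      _ = s ^ (-(m + 2 * Dt + 4)) := by
          rw [rt_pi_s_add hs]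
          congr 1
          ring
  have hK0 : 0 ≤ 204 + s ^ (-m) + 5 * s ^ (-(2 * Dt)) := by
    have v1 : 0 < s ^ (-m) := Real.rpow_pos_of_pos hs _
    have v2 : 0 < s ^ (-(2 * Dt)) := Real.rpow_pos_of_pos hs _
    linarith
  have hsm : fs * (204 + s ^ (-m) + 5 * s ^ (-(2 * Dt))) ^ 40 ≤ Q.r ^ 2 * Q.f := by
    obtain ⟨K, hKd⟩ : ∃ K, K = 204 + s ^ (-m) + 5 * s ^ (-(2 * Dt)) := ⟨_, rfl⟩
    rw [← hKd] at hK hK0 ⊢
    have w1 : K ^ 40 ≤ s ^ (-(40 * (m + 2 * Dt + 4))) := by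
      calc K ^ 40 ≤ (s ^ (-(m + 2 * Dt + 4))) ^ 40 := pow_le_pow_left₀ hK0 hK 40
        _ = s ^ (-(40 * (m + 2 * Dt + 4))) := by
            rw [← Real.rpow_natCast, ← Real.rpow_mul hs.le]
            congr 1
            push_cast
            ring
    calc fs * K ^ 40 ≤ s ^ (40 * (m + 2 * Dt + 4) + 6 * Dt) * s ^ (-(40 * (m + 2 * Dt + 4))) :=
          mul_le_mul hfsW w1 (by positivity) (Real.rpow_pos_of_pos hs _).le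
      _ = (s ^ (2 * Dt)) ^ 2 * s ^ (2 * Dt) := by
          rw [rt_pi_s_add hs, ← Real.rpow_natCast (s ^ (2 * Dt)), ← Real.rpow_mul hs.le, rt_pi_s_add hs]
          congr 1
          push_cast
          ring
      _ ≤ Q.r ^ 2 * Q.f := mul_le_mul (pow_le_pow_left₀ p0.le r_lo 2) f_lo p0.le (by positivity)
  refine ⟨?_, rt_pi_s_one hs hs1 hb0.le, rt_pi_s_anti hs hs1 (by linarith), l1, rt_pi_s_anti hs hs1 (by linarith), ?_, hr0, a8, hf0, a4, hsm, r_lo, f_lo⟩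
  · have : s ^ (-g0) ≤ s ^ (-m) := rt_pi_s_anti hs hs1 (by linarith)
    linarith
  · obtain ⟨c1, c2, c3, c4, c5⟩ := q5
    exact ⟨c1.trans hL, c2.trans hL, c3.trans hL, c4.trans hL, c5.trans hL⟩

/-- the numerical part of `rt_pi_reg_pw`: the conclusion -/
theorem rt_pi_num2 {s η Dt g a lam m CL Ae Cc ka r4 fse w e : ℝ} (hs : 0 < s) (hs4 : s ≤ 1 / 4) (h0 : 0 < η) (h1 : η < 1) (hDt : 0 < Dt)
    (hx : 0 ≤ a + lam + CL * m) (hbig : 2 ^ 17 ≤ s ^ (-(g - (a + lam + CL * m)))) (hgx : a + lam + CL * m < g) (hAe : Cc + 8 * Dt + 1 ≤ Ae)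
    (hB : 0 < ka * r4 * fse) (hw : s ^ (8 * Dt) ≤ w) (he0 : 0 ≤ e) (he : e ≤ s ^ (-Cc) * (ka * r4 * fse)) :
    s ^ (-a) * (ka * (r4 * ((s ^ (-m)) ^ CL * (fse * (2 ^ 16 * s ^ (-lam) * w))))) + s ^ Ae * e ≤ s ^ (-g) * (ka * r4 * fse) * w := by
  have hs1 : s ≤ 1 := by linarith
  obtain ⟨B, hBd⟩ : ∃ B, B = ka * r4 * fse := ⟨_, rfl⟩
  rw [← hBd] at hB he ⊢
  have pw : 0 < s ^ (8 * Dt) := Real.rpow_pos_of_pos hs _
  have hw0 : 0 < w := pw.trans_le hw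
  have hBw : 0 < B * w := mul_pos hB hw0
  have e1 : (s ^ (-m)) ^ CL = s ^ (-(CL * m)) := by
    rw [← Real.rpow_mul hs.le]
    congr 1
    ring
  have t1 : s ^ (-a) * (ka * (r4 * ((s ^ (-m)) ^ CL * (fse * (2 ^ 16 * s ^ (-lam) * w))))) = 2 ^ 16 * s ^ (-(a + lam + CL * m)) * (B * w) := by
    have : s ^ (-(a + lam + CL * m)) = s ^ (-a) * s ^ (-(CL * m)) * s ^ (-lam) := by
      rw [rt_pi_s_add hs, rt_pi_s_add hs]
      congr 1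
      ring
    rw [e1, this, hBd]
    ring
  have t2 : 2 ^ 17 * s ^ (-(a + lam + CL * m)) ≤ s ^ (-g) := by
    calc 2 ^ 17 * s ^ (-(a + lam + CL * m)) ≤ s ^ (-(g - (a + lam + CL * m))) * s ^ (-(a + lam + CL * m)) :=
          mul_le_mul_of_nonneg_right hbig (Real.rpow_pos_of_pos hs _).le
      _ = s ^ (-g) := by
          rw [rt_pi_s_add hs]
          congr 1
          ring
  have t3 : s ^ Ae * e ≤ 1 / 4 * (B * w) := by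
    have u1 : s ^ Ae * e ≤ s ^ Ae * (s ^ (-Cc) * B) := mul_le_mul_of_nonneg_left he (Real.rpow_pos_of_pos hs _).le
    have u2 : B ≤ s ^ (-(8 * Dt)) * (B * w) := by
      have : 1 ≤ s ^ (-(8 * Dt)) * w := by
        calc (1 : ℝ) = s ^ (-(8 * Dt)) * s ^ (8 * Dt) := by
              rw [rt_pi_s_add hs]
              simp
          _ ≤ s ^ (-(8 * Dt)) * w := mul_le_mul_of_nonneg_left hw (Real.rpow_pos_of_pos hs _).le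
      calc B = 1 * B := (one_mul B).symm
        _ ≤ (s ^ (-(8 * Dt)) * w) * B := mul_le_mul_of_nonneg_right this hB.le
        _ = _ := by ring
    have u3 : s ^ Ae * (s ^ (-Cc) * B) ≤ s ^ Ae * (s ^ (-Cc) * (s ^ (-(8 * Dt)) * (B * w))) := by
      have q1 : 0 < s ^ Ae := Real.rpow_pos_of_pos hs _
      have q2 : 0 < s ^ (-Cc) := Real.rpow_pos_of_pos hs _
      gcongr
    have u4 : s ^ Ae * (s ^ (-Cc) * (s ^ (-(8 * Dt)) * (B * w))) = s ^ (Ae - Cc - 8 * Dt) * (B * w) := by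
      have : s ^ (Ae - Cc - 8 * Dt) = s ^ Ae * s ^ (-Cc) * s ^ (-(8 * Dt)) := by
        rw [rt_pi_s_add hs, rt_pi_s_add hs]
        congr 1
      rw [this]
      ring
    have u5 : s ^ (Ae - Cc - 8 * Dt) ≤ 1 / 4 := by
      calc s ^ (Ae - Cc - 8 * Dt) ≤ s ^ (1 : ℝ) := rt_pi_s_anti hs hs1 (by linarith)
        _ = s := Real.rpow_one s
        _ ≤ 1 / 4 := hs4
    calc s ^ Ae * e ≤ s ^ (Ae - Cc - 8 * Dt) * (B * w) := by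
          rw [← u4]
          exact u1.trans u3
      _ ≤ 1 / 4 * (B * w) := mul_le_mul_of_nonneg_right u5 hBw.le
  have t4 : 1 ≤ s ^ (-g) := rt_pi_s_one hs hs1 (by linarith)
  rw [t1]
  have t5 : 2 ^ 16 * s ^ (-(a + lam + CL * m)) * (B * w) ≤ 1 / 2 * s ^ (-g) * (B * w) := by
    refine mul_le_mul_of_nonneg_right ?_ hBw.le
    linarith
  have t6 : 1 / 4 * (B * w) ≤ 1 / 2 * s ^ (-g) * (B * w) := by
    refine mul_le_mul_of_nonneg_right ?_ hBw.le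
    linarith
  calc 2 ^ 16 * s ^ (-(a + lam + CL * m)) * (B * w) + s ^ Ae * e ≤ 1 / 2 * s ^ (-g) * (B * w) + 1 / 2 * s ^ (-g) * (B * w) := by linarith
    _ = s ^ (-g) * B * w := by ring

/-- `cyWt Q ≥ s^(8 Dt)` -/
theorem rt_pi_wt_lo {s η Dt : ℝ} (hs : 0 < s) (h0 : 0 < η) (h1 : η < 1) {Q : CyT} (hr : s ^ (2 * Dt) ≤ Q.r) (hf : s ^ (2 * Dt) ≤ Q.f) :
    s ^ (8 * Dt) ≤ cyWt η Q := by
  unfold cyWt
  have p0 : 0 < s ^ (2 * Dt) := Real.rpow_pos_of_pos hs _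
  calc s ^ (8 * Dt) = (s ^ (2 * Dt)) ^ (3 + η) * (s ^ (2 * Dt)) ^ (1 - η) := by
        rw [← Real.rpow_mul hs.le, ← Real.rpow_mul hs.le, rt_pi_s_add hs]
        congr 1
        ring
    _ ≤ Q.r ^ (3 + η) * Q.f ^ (1 - η) :=
        mul_le_mul (Real.rpow_le_rpow p0.le hr (by linarith)) (Real.rpow_le_rpow p0.le hf (by linarith)) (Real.rpow_pos_of_pos p0 _).le
          (Real.rpow_pos_of_pos (p0.trans_le hr) _).le

/-- **REG, power form** -/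
theorem rt_pi_reg_pw (η : ℝ) (h0 : 0 < η) (h1 : η < 1) :
    ∃ CL : ℝ, 0 < CL ∧ ∀ (g Dt g0 b0 lam a : ℝ) (C : ℕ), 0 < Dt → 0 < g0 → 0 < b0 → 0 ≤ lam → 0 ≤ a → a + lam + CL * (b0 + lam + 3 * g0) < g →
      ∃ n0 : ℕ, ∀ (p : RdWvPar) (E : Xp (p.sys η)) (d : RtPd) (fs : ℝ) (p1 : RdWvPar) (G : RtKc) (b1 bT1 : ℕ) (Ae : ℝ), n0 ≤ E.n → E.Valid →
      RtChartOk (E.s ^ (-b0)) d.nL d.p0 → 0 < d.ψ.r → 0 < fs → E.e ≤ E.s ^ (-(C : ℝ)) * (E.ka * d.ψ.r ^ 4 * fs ^ (1 - η)) →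
      (C : ℝ) + 8 * Dt + 1 ≤ Ae → fs ≤ E.s ^ (40 * (b0 + lam + 3 * g0 + 2 * Dt + 4) + 6 * Dt) →
      RtPwI1 p E d (E.s ^ (-b0)) fs (E.s ^ (-lam)) (E.s ^ (-a)) (E.s ^ Ae * E.e) p1 G b1 bT1 →
      ∀ Q : CyT, ((2 : ℝ)⁻¹ ^ (E.n + 2)) ^ Dt ≤ Q.r → Q.r ≤ ((2 : ℝ)⁻¹ ^ (E.n + 2)) ^ (-g0) → ((2 : ℝ)⁻¹ ^ (E.n + 2)) ^ Dt ≤ Q.f →
        Q.f ≤ ((2 : ℝ)⁻¹ ^ (E.n + 2)) ^ (-g0) → cySh Q (((2 : ℝ)⁻¹ ^ (E.n + 2)) ^ (-Dt)) → rdD p1.H 0 ≤ fs * Q.f →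
        (p1.sys 0).ms 0 0 b1 {x | cyIn Q 1 (fzFl fs x)} G ≤ 2 ^ (g * E.n) * (E.ka * d.ψ.r ^ 4 * fs ^ (1 - η)) * cyWt η Q := by
  obtain ⟨CL, hCL, H⟩ := rt_pi_reg η h0 h1
  refine ⟨CL, hCL, fun g Dt g0 b0 lam a C hDt hg0 hb0 hlam ha hg => ?_⟩
  obtain ⟨n1, hn1⟩ := rt_pi_big g0 hg0 12
  obtain ⟨n2, hn2⟩ := rt_pi_big (g - (a + lam + CL * (b0 + lam + 3 * g0))) (by linarith) (2 ^ 17)
  refine ⟨max 2 (max n1 n2), fun p E d fs p1 G b1 bT1 Ae hn hV hch hr hfs hehi hAe hfsW hI Q q1 q2 q3 q4 q5 q6 => ?_⟩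
  have hn_2 : 2 ≤ E.n := (le_max_left _ _).trans hn
  have hn_1 : n1 ≤ E.n := ((le_max_left _ _).trans (le_max_right _ _)).trans hn
  have hn_3 : n2 ≤ E.n := ((le_max_right _ _).trans (le_max_right _ _)).trans hn
  have hs := gn_s_pos E
  have hs4 := rt_pi_s_le4 E hn_2
  have h12 : 12 ≤ E.s ^ (-g0) := hn1 E.n hn_1
  have hbig : 2 ^ 17 ≤ E.s ^ (-(g - (a + lam + CL * (b0 + lam + 3 * g0)))) := hn2 E.n hn_3
  rw [rt_pi_s4] at q1 q2 q3 q4 q5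
  obtain ⟨c1, c2, c3, c4, c5, c6, c7, c8, c9, c10, c11, c12, c13⟩ := rt_pi_num1 hs hs4 hDt hg0 hb0 hlam h12 hfs hfsW q1 q2 q3 q4 q5
  have hA0 : 0 ≤ E.s ^ (-a) := (Real.rpow_pos_of_pos hs _).le
  have hε0 : 0 ≤ E.s ^ Ae * E.e := mul_nonneg (Real.rpow_pos_of_pos hs _).le hV.e_pos.le
  have hmain := H p E d (E.s ^ (-b0)) fs (E.s ^ (-lam)) (E.s ^ (-a)) (E.s ^ Ae * E.e) p1 G b1 bT1 hV hI (E.s ^ (-(b0 + lam + 3 * g0))) (E.s ^ (-(2 * Dt))) Q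
    c1 c2 c3 hch hr hfs c4 c5 hA0 hε0 c6 c7 c8 c9 c10 q6 c11
  refine hmain.trans ?_
  have e2 : (2 : ℝ) ^ (g * E.n) = E.s ^ (-g) := by
    rw [gn_s_rpow]
    congr 1
    ring
  rw [e2]
  have hB : 0 < E.ka * d.ψ.r ^ 4 * fs ^ (1 - η) := by
    have := hV.ka_pos
    have := Real.rpow_pos_of_pos hfs (1 - η)
    positivity
  exact rt_pi_num2 hs hs4 h0 h1 hDt (by positivity) hbig hg hAe hB (rt_pi_wt_lo hs h0 h1 c12 c13) hV.e_pos.le hehi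

/-- **ROOT, power form** -/
theorem rt_pi_root_pw (g0 lam : ℝ) (A' : ℕ) (hlam : 0 ≤ lam) (hg : 2 * lam < g0) :
    ∃ n0 : ℕ, ∀ (η : ℝ) (p : RdWvPar) (E : Xp (p.sys η)) (d : RtPd) (fs b0 a : ℝ) (p1 : RdWvPar) (G : RtKc) (b1 bT1 : ℕ) (Ae : ℝ), n0 ≤ E.n → E.Valid →
      0 ≤ b0 → RtChartOk (E.s ^ (-b0)) d.nL d.p0 → 0 < fs → fs ≤ 1 → rdD p1.H 0 ≤ fs → 2 * (A' : ℝ) ≤ Ae →
      RtPwI1 p E d (E.s ^ (-b0)) fs (E.s ^ (-lam)) (E.s ^ (-a)) (E.s ^ Ae * E.e) p1 G b1 bT1 →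
      (p1.sys 0).ms 0 0 b1 (fzIn fs (((2 : ℝ)⁻¹ ^ (E.n + 2)) ^ (-(g0 / 2))))ᶜ G ≤ ((2 : ℝ)⁻¹ ^ (E.n + 2)) ^ (A' : ℝ) * E.e := by
  obtain ⟨n1, hn1⟩ := rt_pi_big (g0 / 2 - lam) (by linarith) 207
  refine ⟨max 2 n1, fun η p E d fs b0 a p1 G b1 bT1 Ae hn hV hb0 hch hfs hfs1 hunc hAe hI => ?_⟩
  have hn_2 : 2 ≤ E.n := (le_max_left _ _).trans hn
  have hn_1 : n1 ≤ E.n := (le_max_right _ _).trans hn
  have hs := gn_s_pos E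
  have hs4 := rt_pi_s_le4 E hn_2
  have hs1 : E.s ≤ 1 := by linarith
  have h207 : 207 ≤ E.s ^ (-(g0 / 2 - lam)) := hn1 E.n hn_1
  rw [rt_pi_s4]
  have l1 : 1 ≤ E.s ^ (-lam) := rt_pi_s_one hs hs1 hlam
  have hR0 : 204 + 3 * E.s ^ (-lam) ≤ (E.s / 4) ^ (-(g0 / 2)) := by
    have u1 : E.s ^ (-(g0 / 2)) ≤ (E.s / 4) ^ (-(g0 / 2)) :=
      Real.rpow_le_rpow_of_nonpos (by positivity) (by linarith) (by linarith)
    have u2 : 207 * E.s ^ (-lam) ≤ E.s ^ (-(g0 / 2)) := by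
      calc 207 * E.s ^ (-lam) ≤ E.s ^ (-(g0 / 2 - lam)) * E.s ^ (-lam) := mul_le_mul_of_nonneg_right h207 (by linarith)
        _ = E.s ^ (-(g0 / 2)) := by
            rw [rt_pi_s_add hs]
            congr 1
            ring
    linarith
  have hA0 : 0 ≤ E.s ^ (-a) := (Real.rpow_pos_of_pos hs _).le
  have hε0 : 0 ≤ E.s ^ Ae * E.e := mul_nonneg (Real.rpow_pos_of_pos hs _).le hV.e_pos.le
  refine (rt_pi_root hI (rt_pi_s_one hs hs1 hb0) hch hfs hfs1 l1 hA0 hε0 hunc hR0).trans ?_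
  refine mul_le_mul_of_nonneg_right ?_ hV.e_pos.le
  exact (rt_pi_s_anti hs hs1 hAe).trans (rt_pi_s_lo hs hs4 (Nat.cast_nonneg A'))

end Claimed.Agent.R256
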