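import Claimed.Agent.R256.Rt.PwTop
import Claimed.Agent.R256.Rt.XoContract

/-!
# Row 256, folder Rt, file PwxDefs : THE ADAPTER `rt_xo_main ⟹ RtPwX` : DATA AND INTERFACE      (CO-256-RtPwX, head helper225; prefix `rt_px_`, defs `rtPx*`, `RtPx*`)      SORRY-FREE, DEFINITIONS ONLY

`RtPwX` (`Rt/PwTop.lean`, ASYMPTOTIC I1)  ⟸  `RtPxN` (NON-ASYMPTOTIC I1, below)  ⟸  `rt_xo_main` (`Rt/XoContract.lean`, helper76) + SYM + IN + OUT.
POSTS.   `Rt/PwxAsy.lean` (`rt_pxa_`, helper295): `RtPxN η → RtPwX η h0 h1`.      `Rt/PwxSym.lean` (`rt_pxs_`, helper144): dilation `r₂`, clock shift, factor `1/8`.      `Rt/PwxInGeo.lean` (`rt_pxi_`, helper22): backward association ⟹ `RtPwRin`.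
         `Rt/PwxOut*.lean` (`rt_pz_`, head helper236; helper136 geometry, helper111 restriction to the patch): the OUT arrow.      `Rt/PwxRoot.lean` (`rt_pxr_`, helper299): the root set `S₀` = image of `d.In`.      `Rt/PwxMain.lean` (helper225): IN arrow, assembly of `RtPxN`.
DATA OF XO FOR PATCH DATA `d`, coefficient bound `P ≥ 1`:   `r₂ = 1/(4P)`, `r = r₂ ψ.r`, `c = rtXgCen ℓ₀ ψ.r ψ.cen p₀`, `e = nL.g 0 p₀.b p₀.A`, `β = nL.be r₂`, `κ = 4 nL.k r₂`   (header of `Rt/XoContract.lean`).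
PICTURES.   physical `(p, tmL)`  →XO→  `(p' = rtXoP p k0 r, rtTm)`, `H' = H/(4 ℓ₀ r₂² ψ.r²)`  →SYM→  flat `(p1, tmL)`, `H1 = r₂² H' = H/(4 ℓ₀ ψ.r²)`, rows `(r₂ A, r₂ b, r₂² y)` (`rtPxDil`), same time index, state `G = W v1 / 8`.
THE ORDER OF THE CONSTANTS.   `M` (exponent of the tolerance) is ABSOLUTE: it is chosen before `bm, N`.      `P ≤ Λ` is a hypothesis: all powers of `P` are absorbed in `Λ^M` (in the asymptotic glue `Λ = s^-a`, `b1 = a = min(g,1)/(M+1)`).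
-/

set_option autoImplicit false

namespace Claimed.Agent.R256

open MeasureTheory
open scoped ENNReal

/-- the auxiliary width `r₂ = 1/(4P)` -/
noncomputable def rtPxR2 (P : ℝ) : ℝ := 1 / (4 * P)

/-- the width unit of XO -/
noncomputable def RtPd.xr (d : RtPd) (P : ℝ) : ℝ := rtPxR2 P * d.ψ.r

/-- the physical centre ray of XO (parametrised at the root time) -/
noncomputable def RtPd.xc (d : RtPd) (k0 : ℕ) : RtRow := rtXgCen (rdLen k0) d.ψ.r d.ψ.cen d.p0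

/-- the unit normal of XO -/
def RtPd.xe (d : RtPd) : ℝ × ℝ := d.nL.g 0 d.p0.b d.p0.A

/-- `β` of XO -/
noncomputable def RtPd.xb (d : RtPd) (P : ℝ) : ℝ := d.nL.be * rtPxR2 P

/-- `κ` of XO -/
noncomputable def RtPd.xk (d : RtPd) (P : ℝ) : ℝ := 4 * d.nL.k * rtPxR2 P

/-- the normalising chart of XO -/
noncomputable def RtPd.xS (d : RtPd) (k0 i0 : ℕ) (P : ℝ) : RtCh := rtChS (tmL k0 i0) (4 * rdLen k0) (d.xr P) (d.xc k0) d.xe

/-- the dilation of the rows: picture `p'` → flat picture -/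
def rtPxDil (r₂ : ℝ) (x : RdWvPar.Ph) : RdWvPar.Ph := (r₂ • x.1, r₂ • x.2.1, r₂ ^ 2 * x.2.2)

/-- the Planck parameter of the flat picture -/
noncomputable def RtPd.xH (d : RtPd) (H : ℝ) (k0 : ℕ) : ℝ := H / (4 * rdLen k0 * d.ψ.r ^ 2)

/-- **the hypotheses of the non-asymptotic I1** on `(p, E, d)`: coefficient bound `P`, sublevel `fs`, tolerance `Λ`, root tail `ε₀`, bound of the generations `bm` -/
structure RtPxHyp {η : ℝ} (p : RdWvPar) (E : Xp (p.sys η)) (d : RtPd) (P fs Λ ε₀ : ℝ) (bm : ℕ) : Prop where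
  spec : p.Spec E.b0 E.v
  gen0 : E.b0 + 8 ≤ bm
  genT : E.bT ≤ bm
  P_ge : 1 ≤ P
  P_le : P ≤ Λ
  r_pos : 0 < d.ψ.r
  disc : d.nL.disc = 1
  bd : d.nL.Bd P
  chart : RtChartOk P d.nL d.p0
  eps_nn : 0 ≤ ε₀
  root : (p.sys η).ms (tmL E.k0 E.i0) E.k0 E.b0 {x | (d.N E).row (RdWvPar.co (tmL E.k0 E.i0) x) ∉ d.In P fs} E.v ≤ ε₀

/-- **NON-ASYMPTOTIC I1**:   tolerance `Λ^M`, constant `K = K(bm, N)`, error `K 4^(n+2) (ε₀ + Λ^-N ‖v‖²)`;   generations `b0 + 8` (root), `b0 + 7` (terminal) -/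
def RtPxN (η : ℝ) : Prop :=
  ∃ M : ℕ, ∀ bm N : ℕ, ∃ K : ℝ, 1 ≤ K ∧ ∀ (p : RdWvPar) (E : Xp (p.sys η)) (d : RtPd) (P fs Λ ε₀ : ℝ), RtPxHyp p E d P fs Λ ε₀ bm → K ≤ Λ →
    Λ ^ M * rdD (d.xH p.H E.k0) (E.n + 2) ≤ 1 → Λ ^ M * rdLen (E.n + 2) ≤ 1 →
    ∃ (p1 : RdWvPar) (G : RtKc),
      RtPwI1 p E d P fs (Λ ^ M) K (K * (2 ^ (2 * (E.n + 2)) * (ε₀ + Λ ^ (-(N : ℝ)) * ‖E.v‖ ^ 2))) p1 G (E.b0 + 8) (E.b0 + 7)

theorem rt_pxdefs_eqns_cite : True := by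
  have := @rtPxR2.eq_1
  have := @RtPd.xr.eq_1
  have := @RtPd.xc.eq_1
  have := @RtPd.xe.eq_1
  have := @RtPd.xb.eq_1
  have := @RtPd.xk.eq_1
  have := @RtPd.xS.eq_1
  have := @rtPxDil.eq_1
  have := @RtPd.xH.eq_1
  have := @RtPxN.eq_1
  trivial

end Claimed.Agent.R256
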