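import Claimed.Agent.R256.Rt.XoContract
import Claimed.Agent.R256.Rt.PwIn

/-!
# Row 256, folder Rt, file PwxInGeo : ADAPTER `rt_xo_main ⟹ RtPwX`, GEOMETRY OF THE INPUT ARROW      (helper22; owner of the adapter helper225; prefix `rt_pxi_`, defs `rtPxi*`)      NO SORRY HERE (uses the open leaf `rt_xg_paper`)

No measure.   DATA: patch data `d`, `ℓ = rdLen k0`, `r = ψ.r`, `c₀ = ψ.cen`, `r₂ = 1/(4P)`, `c = rtXgCen ℓ r c₀ p0`, `e = nL.g 0 p0.b p0.A`, `β = nL.be r₂`, `κ = 4 nL.k r₂`;   `B = rtXoB T0 (4ℓ) (r₂ r) c e β κ`, `F = rtXoF ..`.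
* `rt_pxi_db_inv`, `rt_pxi_ln_inv`, `rt_pxi_s_inv`      the elementary row maps are inverted by the opposite parameters
* `rt_pxi_FB`      `F.row (B.row ρ) = ρ` for `ρ ∈ rtB3 (39, 33, 14)/1000`
* `rt_pxi_e`       `|e|² = 1` (from `RtChartOk.flat`)
* **`rt_pxi_main`**   a row `x₂` of the new root of `rt_xo_main` (time `-1/4`, ray in the box `(39, 33, 14)/1000`) which is `RtAsR`-associated through `B` (tolerance `Λ`, scales of the old root) with an old root row `x'` of the buffered patch: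
                   the row `x₂`, in the width unit of the flat picture (`rtPxiSc r₂`), is `(25088 Λ⁶)²`-near (scales of the flat root) to the image `rtPwIm d k0 (co x') 0`:   this is the second half of `RtPwRin`.
ROUTE:   the normalisation is an exact symmetry of `RtNear` (`rt_pxi_n_near`), shift to the time `0` (`rt_xg_n1_shift`), `rt_chart_box` (width `√H1`), `rt_xg_paper`, `rt_pxi_FB`, shift to the chart time `-1`, units.
-/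

set_option autoImplicit false

namespace Claimed.Agent.R256

/-- a row of the picture of `rt_xo_main` (width unit `r₂ ψ.r`) in the flat picture (width unit `ψ.r`) -/
def rtPxiSc (r₂ : ℝ) (q : RtRow) : RtRow := ⟨r₂ • q.A, r₂ • q.b, r₂ ^ 2 * q.y⟩

theorem rt_pxi_eqns_cite : True := by
  have := @rtPxiSc.eq_1
  trivial

/-! ## 1. The inverse row maps -/

theorem rt_pxi_db_sq (γ : ℝ) (p : RtRow) (h : rtCfQ γ p ≠ 0) : rtSq (rtCfRowDb γ p).A = rtSq p.A / rtCfQ γ p := by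
  have e : rtSq (rtCfRowDb γ p).A = (p.A.1 ^ 2 + (p.A.2 + γ * rtSq p.A) ^ 2) / rtCfQ γ p ^ 2 := by
    simp only [rtCfRowDb, rtSq]
    field_simp
  rw [e, div_eq_div_iff (pow_ne_zero 2 h) h]
  simp only [rtCfQ, rtSq]
  ring

theorem rt_pxi_db_Q (γ : ℝ) (p : RtRow) (h : rtCfQ γ p ≠ 0) : rtCfQ (-γ) (rtCfRowDb γ p) = 1 / rtCfQ γ p := by
  have e : rtCfQ (-γ) (rtCfRowDb γ p) = 1 + 2 * (-γ) * ((p.A.2 + γ * rtSq p.A) / rtCfQ γ p) + (-γ) ^ 2 * rtSq (rtCfRowDb γ p).A := rfl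
  rw [e, rt_pxi_db_sq γ p h]
  field_simp
  simp only [rtCfQ]
  ring

theorem rt_pxi_db_inv (γ : ℝ) (p : RtRow) (h : rtCfQ γ p ≠ 0) : rtCfRowDb (-γ) (rtCfRowDb γ p) = p := by
  have hQ := rt_pxi_db_Q γ p h
  have hS := rt_pxi_db_sq γ p h
  obtain ⟨Q, hQd⟩ : ∃ Q, Q = rtCfQ γ p := ⟨_, rfl⟩
  rw [← hQd] at h hQ hS
  have hQe : Q = 1 + 2 * γ * p.A.2 + γ ^ 2 * rtSq p.A := hQd
  obtain ⟨p', hp'⟩ : ∃ p', p' = rtCfRowDb γ p := ⟨_, rfl⟩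
  rw [← hp'] at hQ hS ⊢
  have a1 : p'.A.1 = p.A.1 / Q := by rw [hp', hQd]; rfl
  have a2 : p'.A.2 = (p.A.2 + γ * rtSq p.A) / Q := by rw [hp', hQd]; rfl
  have b1 : p'.b.1 = p.b.1 - rtCfT0 γ p * (p.A.1 / Q) := by rw [hp', hQd]; rfl
  have b2 : p'.b.2 = p.b.2 + γ * p.y - rtCfT0 γ p * ((p.A.2 + γ * rtSq p.A) / Q) := by rw [hp', hQd]; rfl
  have y1 : p'.y = p.y - rtCfT0 γ p * (rtSq p.A / Q) := by rw [hp', hQd]; rfl
  have t0 : rtCfT0 γ p = 2 * γ * p.b.2 + γ ^ 2 * p.y := rfl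
  have t1 : rtCfT0 (-γ) p' = 2 * (-γ) * p'.b.2 + (-γ) ^ 2 * p'.y := rfl
  ext
  · show p'.A.1 / rtCfQ (-γ) p' = p.A.1
    rw [hQ, a1]
    field_simp
  · show (p'.A.2 + -γ * rtSq p'.A) / rtCfQ (-γ) p' = p.A.2
    rw [hQ, a2, hS]
    field_simp
    ring
  · show p'.b.1 - rtCfT0 (-γ) p' * (p'.A.1 / rtCfQ (-γ) p') = p.b.1
    rw [hQ, t1, a1, b1, b2, y1, t0]
    field_simp
    rw [hQe]
    ring
  · show p'.b.2 + -γ * p'.y - rtCfT0 (-γ) p' * ((p'.A.2 + -γ * rtSq p'.A) / rtCfQ (-γ) p') = p.b.2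
    rw [hQ, t1, a2, hS, b2, y1, t0]
    field_simp
    rw [hQe]
    ring
  · show p'.y - rtCfT0 (-γ) p' * (rtSq p'.A / rtCfQ (-γ) p') = p.y
    rw [hQ, t1, hS, b2, y1, t0]
    field_simp
    rw [hQe]
    ring

/-- the rate of a dual boost does not vanish on slow rays -/
theorem rt_pxi_Q_ne {γ : ℝ} {p : RtRow} (hγ : |γ| ≤ 1) (hp : rtSq p.A ≤ (1 / 2 : ℝ) ^ 2) : rtCfQ γ p ≠ 0 := by
  have a2 := abs_le.1 (rt_chp_snd (by norm_num) hp)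
  have g := abs_le.1 hγ
  rw [rt_cf_Q_eq]
  have h1 : 1 / 2 ≤ 1 + γ * p.A.2 := by nlinarith [a2.1, a2.2, g.1, g.2]
  have h2 : 0 < (1 + γ * p.A.2) ^ 2 := by positivity
  have h3 : 0 ≤ γ ^ 2 * p.A.1 ^ 2 := by positivity
  linarith

theorem rt_pxi_db_row_inv {γ : ℝ} {p : RtRow} (hγ : |γ| ≤ 1) (hp : rtSq p.A ≤ (1 / 2 : ℝ) ^ 2) : (rtChDb (-γ)).row ((rtChDb γ).row p) = p :=
  rt_pxi_db_inv γ p (rt_pxi_Q_ne hγ hp)

theorem rt_pxi_ln_row (c : ℝ) (p : RtRow) : (rtChLn c).row p = ⟨p.A - c • p.b, p.b, p.y - c * rtSq p.b⟩ := by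
  simp only [rtChLn, rtChCf, rtCfRow, rtCfD0, rtCfD1, rtIp, rtSq]
  ext <;> simp
  ring

theorem rt_pxi_ln_inv (c : ℝ) (p : RtRow) : (rtChLn (-c)).row ((rtChLn c).row p) = p := by
  rw [rt_pxi_ln_row, rt_pxi_ln_row]
  ext <;> simp

theorem rt_pxi_s_inv (θ l r : ℝ) (c : RtRow) (e : ℝ × ℝ) (hl : l ≠ 0) (hr : r ≠ 0) (he : rtSq e = 1) (p : RtRow) :
    (rtChS θ l r c e).row ((rtChSi θ l r c e).row p) = p := by
  have he' : e.1 ^ 2 + e.2 ^ 2 = 1 := he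
  ext
  · simp only [rtChS, rtChSi, RtCh.comp, rtChSc, rtChRot, rtChCen, rtChTr, RtRow.flow, rtCfRowRot, rtCfRowCen, rtRot, Prod.fst_add, Prod.snd_add, Prod.fst_sub, Prod.snd_sub, Prod.smul_fst, Prod.smul_snd, smul_eq_mul, Prod.fst_neg, Prod.snd_neg, inv_inv]
    field_simp
    linear_combination (r * p.A.1) * he'
  · simp only [rtChS, rtChSi, RtCh.comp, rtChSc, rtChRot, rtChCen, rtChTr, RtRow.flow, rtCfRowRot, rtCfRowCen, rtRot, Prod.fst_add, Prod.snd_add, Prod.fst_sub, Prod.snd_sub, Prod.smul_fst, Prod.smul_snd, smul_eq_mul, Prod.fst_neg, Prod.snd_neg, inv_inv]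
    field_simp
    linear_combination (r * p.A.2) * he'
  · simp only [rtChS, rtChSi, RtCh.comp, rtChSc, rtChRot, rtChCen, rtChTr, RtRow.flow, rtCfRowRot, rtCfRowCen, rtRot, Prod.fst_add, Prod.snd_add, Prod.fst_sub, Prod.snd_sub, Prod.smul_fst, Prod.smul_snd, smul_eq_mul, Prod.fst_neg, Prod.snd_neg, inv_inv]
    field_simp
    linear_combination (l * r * p.b.1) * he'
  · simp only [rtChS, rtChSi, RtCh.comp, rtChSc, rtChRot, rtChCen, rtChTr, RtRow.flow, rtCfRowRot, rtCfRowCen, rtRot, Prod.fst_add, Prod.snd_add, Prod.fst_sub, Prod.snd_sub, Prod.smul_fst, Prod.smul_snd, smul_eq_mul, Prod.fst_neg, Prod.snd_neg, inv_inv]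
    field_simp
    linear_combination (l * r * p.b.2) * he'
  · simp only [rtChS, rtChSi, RtCh.comp, rtChSc, rtChRot, rtChCen, rtChTr, RtRow.flow, rtCfRowRot, rtCfRowCen, rtRot, rtSq, rtIp, Prod.fst_add, Prod.snd_add, Prod.fst_sub, Prod.snd_sub, Prod.smul_fst, Prod.smul_snd, smul_eq_mul, Prod.fst_neg, Prod.snd_neg, inv_inv]
    field_simp
    ring

theorem rt_pxi_comp_row (Φ Ψ : RtCh) (p : RtRow) : (Φ.comp Ψ).row p = Φ.row (Ψ.row p) := rfl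

theorem rt_pxi_B_row (θ l r : ℝ) (c : RtRow) (e : ℝ × ℝ) (β κ : ℝ) (ρ : RtRow) : (rtXoB θ l r c e β κ).row ρ
    = (rtChSi θ l r c e).row ((rtChDb (-(κ / 2 + β))).row ((rtChLn 1).row ((rtChDb κ).row ((rtChLn (-1)).row ((rtChDb (-(κ / 2))).row ρ))))) := by
  unfold rtXoB
  simp only [rt_pxi_comp_row]

theorem rt_pxi_F_row (θ l r : ℝ) (c : RtRow) (e : ℝ × ℝ) (β κ : ℝ) (ρ : RtRow) : (rtXoF θ l r c e β κ).row ρ
    = (rtChDb (κ / 2)).row ((rtChLn 1).row ((rtChDb (-κ)).row ((rtChLn (-1)).row ((rtChDb (κ / 2 + β)).row ((rtChS θ l r c e).row ρ))))) := by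
  unfold rtXoF
  simp only [rt_pxi_comp_row]

/-- **the transport chart inverts the inverse chart on the rays of the new root box** -/
theorem rt_pxi_FB (θ l r : ℝ) (c : RtRow) (e : ℝ × ℝ) (hl : l ≠ 0) (hr : r ≠ 0) (he : rtSq e = 1) {β κ : ℝ} (hβ : |β| ≤ 1 / 4) (hκ : |κ| ≤ 1)
    {ρ : RtRow} (hρ : ρ ∈ rtB3 (39 / 1000) (33 / 1000) (14 / 1000)) : (rtXoF θ l r c e β κ).row ((rtXoB θ l r c e β κ).row ρ) = ρ := by
  have k1 := abs_le.1 hκ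
  have b1 := abs_le.1 hβ
  have g1 : |(-(κ / 2))| ≤ 1 := by
    rw [abs_le]
    constructor <;> linarith [k1.1, k1.2]
  have g3 : |(-(κ / 2 + β))| ≤ 1 := by
    rw [abs_le]
    constructor <;> linarith [k1.1, k1.2, b1.1, b1.2]
  obtain ⟨p1, hp1⟩ : ∃ p1, p1 = (rtChDb (-(κ / 2))).row ρ := ⟨_, rfl⟩
  obtain ⟨p2, hp2⟩ : ∃ p2, p2 = (rtChLn (-1)).row p1 := ⟨_, rfl⟩
  obtain ⟨p3, hp3⟩ : ∃ p3, p3 = (rtChDb κ).row p2 := ⟨_, rfl⟩
  obtain ⟨p4, hp4⟩ : ∃ p4, p4 = (rtChLn 1).row p3 := ⟨_, rfl⟩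
  obtain ⟨p5, hp5⟩ : ∃ p5, p5 = (rtChDb (-(κ / 2 + β))).row p4 := ⟨_, rfl⟩
  have x1 : p1 ∈ rtB3 (46 / 1000) (54 / 1000) (15 / 1000) := by
    have := rt_xg_b3_db g1 (by norm_num) (by norm_num) (by norm_num) (by norm_num) hρ
    rw [← hp1] at this
    refine rt_xg_ag_b3_mono (by norm_num) (by norm_num) ?_ ?_ (by norm_num) this
    · have := abs_nonneg (-(κ / 2))
      nlinarith
    · nlinarith
  have x2 : p2 ∈ rtB3 (1 / 10) (54 / 1000) (18 / 1000) := by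
    have := rt_xg_b3_ln (c := -1) (by norm_num) (by norm_num) (by norm_num) x1
    rw [← hp2] at this
    exact rt_xg_ag_b3_mono (by norm_num) (by norm_num) (by norm_num) (by norm_num) (by norm_num) this
  have x3 : p3 ∈ rtB3 (14 / 100) (10 / 100) (3 / 100) := by
    have := rt_xg_b3_db hκ (by norm_num) (by norm_num) (by norm_num) (by norm_num) x2
    rw [← hp3] at this
    refine rt_xg_ag_b3_mono (by norm_num) (by norm_num) ?_ ?_ (by norm_num) this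
    · have := abs_nonneg κ
      nlinarith
    · nlinarith
  have x4 : p4 ∈ rtB3 (24 / 100) (10 / 100) (4 / 100) := by
    have := rt_xg_b3_ln (c := 1) (by norm_num) (by norm_num) (by norm_num) x3
    rw [← hp4] at this
    exact rt_xg_ag_b3_mono (by norm_num) (by norm_num) (by norm_num) (by norm_num) (by norm_num) this
  rw [rt_pxi_B_row, ← hp1, ← hp2, ← hp3, ← hp4, ← hp5, rt_pxi_F_row, rt_pxi_s_inv θ l r c e hl hr he]
  have i5 : (rtChDb (κ / 2 + β)).row p5 = p4 := by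
    have := rt_pxi_db_row_inv g3 (p := p4) (x4.1.trans (by norm_num))
    rw [neg_neg, ← hp5] at this
    exact this
  have i4 : (rtChLn (-1)).row p4 = p3 := by
    rw [hp4]
    exact rt_pxi_ln_inv 1 p3
  have i3 : (rtChDb (-κ)).row p3 = p2 := by
    rw [hp3]
    exact rt_pxi_db_row_inv hκ (x2.1.trans (by norm_num))
  have i2 : (rtChLn 1).row p2 = p1 := by
    have := rt_pxi_ln_inv (-1) p1
    rw [neg_neg, ← hp2] at this
    exact this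
  have i1 : (rtChDb (κ / 2)).row p1 = ρ := by
    have := rt_pxi_db_row_inv g1 (p := ρ) (hρ.1.trans (by norm_num))
    rw [neg_neg, ← hp1] at this
    exact this
  rw [i5, i4, i3, i2, i1]

/-! ## 2. Normalisation, boxes -/

theorem rt_pxi_e {P : ℝ} {n : RtPoly} {p₀ : RtRow} (h : RtChartOk P n p₀) : rtSq (n.g 0 p₀.b p₀.A) = 1 := by
  have hf := h.flat
  simp only [rtChart, RtCh.comp, rtChCf, rtChDb, rtChRot, rtChCen, RtPoly.cf, RtPoly.db, RtPoly.rot, RtPoly.cen, rtFlat, RtPoly.mk.injEq] at hf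
  obtain ⟨c1, c2, c3, -, -⟩ := hf
  have c4 := congrArg Prod.snd c3
  rw [c1] at c2 c4
  simp only [rt_rot_self, Prod.snd_add, Prod.smul_snd, smul_eq_mul] at c4
  simp only [zero_mul, sub_zero] at c2
  rw [c2] at c4
  simpa using c4

theorem rt_pxi_n_near {l r : ℝ} (c : RtRow) (e : ℝ × ℝ) (hl : 0 < l) (hr : 0 < r) (he : rtSq e = 1) (s : ℝ) {Λ d q H : ℝ} {X Y : RtRow}
    (h : RtNear Λ (r * d) (l * r * q) (l * r ^ 2 * H) X Y) : RtNear Λ d q H (rtXgXsN l r c e s X) (rtXgXsN l r c e s Y) := by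
  obtain ⟨h1, h2, h3⟩ := h
  have eA : (rtXgXsN l r c e s Y).A - (rtXgXsN l r c e s X).A = r⁻¹ • rtRot e (Y.A - X.A) := by
    ext <;> simp only [rtXgXsN, rtRot, Prod.fst_sub, Prod.snd_sub, Prod.smul_fst, Prod.smul_snd, smul_eq_mul] <;> ring
  have eb : (rtXgXsN l r c e s Y).b - (rtXgXsN l r c e s X).b = (l * r)⁻¹ • rtRot e (Y.b - X.b) := by
    ext <;> simp only [rtXgXsN, rtRot, Prod.fst_sub, Prod.snd_sub, Prod.smul_fst, Prod.smul_snd, smul_eq_mul] <;> ring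
  have sq_smul : ∀ (a : ℝ) (v : ℝ × ℝ), rtSq (a • v) = a ^ 2 * rtSq v := by
    intro a v
    simp only [rtSq, Prod.smul_fst, Prod.smul_snd, smul_eq_mul]
    ring
  have ip_smul : ∀ (a a' : ℝ) (v v' : ℝ × ℝ), rtIp (a • v) (a' • v') = a * a' * rtIp v v' := by
    intro a a' v v'
    simp only [rtIp, Prod.smul_fst, Prod.smul_snd, smul_eq_mul]
    ring
  refine ⟨?_, ?_, ?_⟩
  · rw [eA, sq_smul, rt_rot_sq, he, one_mul]
    calc r⁻¹ ^ 2 * rtSq (Y.A - X.A) ≤ r⁻¹ ^ 2 * (Λ * (r * d)) ^ 2 := by gcongr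
      _ = (Λ * d) ^ 2 := by
          field_simp
  · rw [eb, sq_smul, rt_rot_sq, he, one_mul]
    calc (l * r)⁻¹ ^ 2 * rtSq (Y.b - X.b) ≤ (l * r)⁻¹ ^ 2 * (Λ * (l * r * q)) ^ 2 := by gcongr
      _ = (Λ * q) ^ 2 := by
          field_simp
  · have e3 : (rtXgXsN l r c e s Y).y - (rtXgXsN l r c e s X).y - 2 * rtIp (rtXgXsN l r c e s X).A ((rtXgXsN l r c e s Y).b - (rtXgXsN l r c e s X).b)
        = (Y.y - X.y - 2 * rtIp X.A (Y.b - X.b)) / (l * r ^ 2) := by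
      rw [eb]
      have : (rtXgXsN l r c e s X).A = r⁻¹ • rtRot e (X.A - c.A) := rfl
      rw [this, ip_smul, rt_rot_ip, he, one_mul]
      simp only [rtXgXsN, rtIp, Prod.fst_sub, Prod.snd_sub]
      field_simp
      ring
    rw [e3, abs_div, abs_of_pos (by positivity : 0 < l * r ^ 2), div_le_iff₀ (by positivity)]
    calc |Y.y - X.y - 2 * rtIp X.A (Y.b - X.b)| ≤ Λ * (l * r ^ 2 * H) := h3
      _ = Λ * H * (l * r ^ 2) := by ring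

theorem rt_pxi_nrm (l r : ℝ) (c X : RtRow) : rtXgXsN l r c (0, 1) 0 X = (rtNrm l r c).row X := by
  simp only [rtXgXsN, rtNrm, RtCh.comp, rtChSc, rtChCen, rtCfRowCen, rtRot]
  ext <;> simp

theorem rt_pxi_bx_iff (p₀ p : RtRow) (R M : ℝ) : p ∈ rtBx p₀ R M ↔ RtNear 1 (M * R) (M * R) (M * R ^ 2) p₀ p := by
  unfold rtBx RtNear
  simp only [Set.mem_ofPred_eq, one_mul]
  tauto

/-- the normalising chart of `rt_xo_main` in terms of the normalising chart of the frame -/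
theorem rt_pxi_S_row (θ l r r₂ : ℝ) (c₀ p₀ : RtRow) (e : ℝ × ℝ) (hl : l ≠ 0) (hr : r ≠ 0) (h2 : r₂ ≠ 0) (b : RtRow) :
    (rtChS θ (4 * l) (r₂ * r) (rtXgCen l r c₀ p₀) e).row b
      = ⟨r₂⁻¹ • rtRot e (((rtNrm l r c₀).row (b.flow θ)).A - p₀.A), (4 * r₂)⁻¹ • rtRot e (((rtNrm l r c₀).row (b.flow θ)).b - p₀.b),
        (((rtNrm l r c₀).row (b.flow θ)).y - p₀.y - 2 * rtIp p₀.A (((rtNrm l r c₀).row (b.flow θ)).b - p₀.b)) / (4 * r₂ ^ 2)⟩ := by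
  ext
  · simp only [rtChS, rtNrm, rtXgCen, RtCh.comp, rtChSc, rtChRot, rtChCen, rtChTr, RtRow.flow, rtCfRowRot, rtCfRowCen, rtRot, Prod.fst_add, Prod.snd_add, Prod.fst_sub, Prod.snd_sub, Prod.smul_fst, Prod.smul_snd, smul_eq_mul]
    field_simp
    ring
  · simp only [rtChS, rtNrm, rtXgCen, RtCh.comp, rtChSc, rtChRot, rtChCen, rtChTr, RtRow.flow, rtCfRowRot, rtCfRowCen, rtRot, Prod.fst_add, Prod.snd_add, Prod.fst_sub, Prod.snd_sub, Prod.smul_fst, Prod.smul_snd, smul_eq_mul]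
    field_simp
    ring
  · simp only [rtChS, rtNrm, rtXgCen, RtCh.comp, rtChSc, rtChRot, rtChCen, rtChTr, RtRow.flow, rtCfRowRot, rtCfRowCen, rtRot, Prod.fst_add, Prod.snd_add, Prod.fst_sub, Prod.snd_sub, Prod.smul_fst, Prod.smul_snd, smul_eq_mul]
    field_simp
    ring
  · simp only [rtChS, rtNrm, rtXgCen, RtCh.comp, rtChSc, rtChRot, rtChCen, rtChTr, RtRow.flow, rtCfRowRot, rtCfRowCen, rtRot, Prod.fst_add, Prod.snd_add, Prod.fst_sub, Prod.snd_sub, Prod.smul_fst, Prod.smul_snd, smul_eq_mul]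
    field_simp
    ring
  · simp only [rtChS, rtNrm, rtXgCen, RtCh.comp, rtChSc, rtChRot, rtChCen, rtChTr, RtRow.flow, rtCfRowRot, rtCfRowCen, rtRot, rtIp, rtSq, Prod.fst_add, Prod.snd_add, Prod.fst_sub, Prod.snd_sub, Prod.smul_fst, Prod.smul_snd, smul_eq_mul]
    field_simp
    ring

/-! ## 3. The main statement -/

/-- the units of the flat picture -/
theorem rt_pxi_sc_near {a b c : ℝ} {Z Z' : RtRow} (h : RtNear 1 a b c Z Z') : RtNear 1 a (b / 4) (c / 4) (rtPwSc Z) (rtPwSc Z') := by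
  obtain ⟨h1, h2, h3⟩ := h
  rw [one_mul] at h1 h2 h3
  refine ⟨by rw [one_mul]; exact h1, ?_, ?_⟩
  · rw [one_mul]
    have e : rtSq ((rtPwSc Z').b - (rtPwSc Z).b) = rtSq (Z'.b - Z.b) / 16 := by
      simp only [rtPwSc, rtSq, Prod.fst_sub, Prod.snd_sub, Prod.smul_fst, Prod.smul_snd, smul_eq_mul]
      ring
    rw [e, div_pow]
    norm_num
    linarith
  · rw [one_mul]
    have e : (rtPwSc Z').y - (rtPwSc Z).y - 2 * rtIp (rtPwSc Z).A ((rtPwSc Z').b - (rtPwSc Z).b) = (Z'.y - Z.y - 2 * rtIp Z.A (Z'.b - Z.b)) / 4 := by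
      simp only [rtPwSc, rtIp, Prod.fst_sub, Prod.snd_sub, Prod.smul_fst, Prod.smul_snd, smul_eq_mul]
      ring
    rw [e, abs_div, abs_of_pos (by norm_num : (0 : ℝ) < 4)]
    linarith

theorem rt_pxi_num {Λ : ℝ} (hΛ : 1 ≤ Λ) : 2 * Λ ≤ 8 * Λ ^ 3 ∧ 2 * Λ + 2 * Λ ^ 2 ≤ 8 * Λ ^ 3 ∧ 4 * Λ + 4 * Λ ^ 3 ≤ 8 * Λ ^ 3 ∧ 1 ≤ 8 * Λ ^ 3 := by
  have h2 : Λ ≤ Λ ^ 2 := by nlinarith
  have h3 : Λ ^ 2 ≤ Λ ^ 3 := by nlinarith [sq_nonneg Λ]
  refine ⟨by linarith, by linarith, by linarith, by linarith⟩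

/-- STEP 1: nearness at the time `te` in the physical scales ⟹ a box of width `h` at the time `0` of the normalised picture -/
theorem rt_pxi_step1 {l r h Λ T0 te : ℝ} (c₀ : RtRow) {X b : RtRow} (hl : 0 < l) (hr : 0 < r) (hh0 : 0 ≤ h) (hΛ : 1 ≤ Λ) (t1 : |te - T0| ≤ Λ * l)
    (t2 : RtNear Λ (r * (2 * h)) (l * r * (2 * h)) (l * r ^ 2 * (4 * h ^ 2)) (X.flow (te - T0)) (b.flow te)) :
    (rtNrm l r c₀).row (b.flow T0) ∈ rtBx ((rtNrm l r c₀).row X) h (8 * Λ ^ 3) := by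
  obtain ⟨Y, hY⟩ : ∃ Y, Y = b.flow T0 := ⟨_, rfl⟩
  obtain ⟨w, hw⟩ : ∃ w, w = te - T0 := ⟨_, rfl⟩
  have eY : b.flow te = Y.flow w := by
    rw [hY, hw, rt_xg_xs_ff]
    congr 1
    ring
  rw [eY, ← hw] at t2
  rw [← hw] at t1
  rw [← hY]
  have e01 : rtSq ((0 : ℝ), (1 : ℝ)) = 1 := by simp [rtSq]
  have t3 := rt_pxi_n_near c₀ (0, 1) hl hr e01 w t2
  obtain ⟨u, hu⟩ : ∃ u, u = w / l := ⟨_, rfl⟩
  have hlu : l * u = w := by
    rw [hu]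
    field_simp
  have fX := rt_xg_xs_n_flow l r c₀ (0, 1) hl.ne' hr.ne' e01 0 u X
  have fY := rt_xg_xs_n_flow l r c₀ (0, 1) hl.ne' hr.ne' e01 0 u Y
  rw [hlu, zero_add, rt_pxi_nrm] at fX fY
  rw [← fX, ← fY] at t3
  have hu1 : |0 - u| ≤ Λ := by
    rw [zero_sub, abs_neg, hu, abs_div, abs_of_pos hl, div_le_iff₀ hl]
    exact t1
  have hΛ0 : 0 ≤ Λ := by linarith
  have t5 := rt_xg_n1_shift (t' := 0) (σ := Λ) (by positivity) (by positivity) (rt_xg_n1_of t3) hu1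
  rw [rt_xg_xs_f0, rt_xg_xs_f0] at t5
  obtain ⟨n1, n2, n3, -⟩ := rt_pxi_num hΛ
  rw [rt_pxi_bx_iff]
  refine rt_xg_n1_to (by positivity) (by positivity) ?_ ?_ ?_ t5
  · rw [one_mul]
    have : Λ * (2 * h) = (2 * Λ) * h := by ring
    rw [this]
    exact mul_le_mul_of_nonneg_right n1 hh0
  · rw [one_mul]
    have : Λ * (2 * h) + Λ * (Λ * (2 * h)) = (2 * Λ + 2 * Λ ^ 2) * h := by ring
    rw [this]
    exact mul_le_mul_of_nonneg_right n2 hh0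
  · rw [one_mul]
    have : Λ * (4 * h ^ 2) + Λ * (Λ * (2 * h)) ^ 2 = (4 * Λ + 4 * Λ ^ 3) * h ^ 2 := by ring
    rw [this]
    exact mul_le_mul_of_nonneg_right n3 (by positivity)

/-- STEP 2: a small box around a ray of the buffered patch lies in the patch -/
theorem rt_pxi_step2 {ρ h M : ℝ} {p₀ p p' : RtRow} (hρ0 : 0 < ρ) (hρ : ρ ≤ 1 / 1000) (hh0 : 0 ≤ h) (hM : 1 ≤ M) (hsm : M * h ≤ ρ / 4)
    (hp : p ∈ rtBx p₀ 1 (ρ / 2)) (hp' : p' ∈ rtBx p h M) : p' ∈ rtBx p₀ 1 ρ := by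
  have hMh0 : 0 ≤ M * h := by positivity
  have hh1 : h ≤ 1 := by
    have : 1 * h ≤ M * h := mul_le_mul_of_nonneg_right hM hh0
    linarith
  rw [rt_pxi_bx_iff] at hp hp' ⊢
  have t := rt_xg_n1_trans (by positivity) (by positivity) hMh0 hMh0 hp hp'
  have hMh2 : M * h ^ 2 ≤ M * h := by
    have : h ^ 2 ≤ h := by nlinarith
    exact mul_le_mul_of_nonneg_left this (by linarith)
  refine rt_xg_n1_to (by positivity) (by positivity) ?_ ?_ ?_ t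
  · linarith
  · linarith
  · have : ρ / 2 * 1 * (M * h) ≤ 1 / 8 * (M * h) := mul_le_mul_of_nonneg_right (by linarith) hMh0
    have e : (1 : ℝ) ^ 2 = 1 := one_pow 2
    rw [e]
    linarith

/-- STEP 3: the rays of the patch lie in the box `1/100` of the normalised picture of `rt_xo_main` -/
theorem rt_pxi_step3 {P r₂ : ℝ} (hP : 1 ≤ P) (hr₂ : r₂ = 1 / (4 * P)) {e : ℝ × ℝ} (he : rtSq e = 1) {p₀ bt : RtRow} (hbp : bt ∈ rtBx p₀ 1 (rtChRho P)) :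
    (⟨r₂⁻¹ • rtRot e (bt.A - p₀.A), (4 * r₂)⁻¹ • rtRot e (bt.b - p₀.b), (bt.y - p₀.y - 2 * rtIp p₀.A (bt.b - p₀.b)) / (4 * r₂ ^ 2)⟩ : RtRow)
      ∈ rtB3 (1 / 100) (1 / 100) (1 / 100) := by
  have hP0 : 0 < P := by linarith
  have h20 : 0 < r₂ := by
    rw [hr₂]
    positivity
  have hPr : P * r₂ = 1 / 4 := by
    rw [hr₂]
    field_simp
  have hρ0 : 0 < rtChRho P := by
    unfold rtChRho
    positivity
  have hρ1 : rtChRho P * P ^ 2 = 1 / 1000 := by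
    unfold rtChRho
    field_simp
  obtain ⟨s1, s2, s3⟩ := hbp
  have sq_smul : ∀ (a : ℝ) (v : ℝ × ℝ), rtSq (a • v) = a ^ 2 * rtSq v := by
    intro a v
    simp only [rtSq, Prod.smul_fst, Prod.smul_snd, smul_eq_mul]
    ring
  have hri : r₂⁻¹ = 4 * P := by
    rw [hr₂]
    field_simp
  have hPρ : P * rtChRho P ≤ 1 / 1000 := by
    have : P * rtChRho P ≤ P ^ 2 * rtChRho P := mul_le_mul_of_nonneg_right (by nlinarith) hρ0.le
    linarith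
  refine ⟨?_, ?_, ?_⟩
  · show rtSq (r₂⁻¹ • rtRot _ (bt.A - p₀.A)) ≤ _
    rw [sq_smul, rt_rot_sq, he, one_mul, hri]
    calc (4 * P) ^ 2 * rtSq (bt.A - p₀.A) ≤ (4 * P) ^ 2 * (rtChRho P * 1) ^ 2 := mul_le_mul_of_nonneg_left s3 (by positivity)
      _ = (4 * (P * rtChRho P)) ^ 2 := by ring
      _ ≤ (1 / 100) ^ 2 := pow_le_pow_left₀ (by positivity) (by linarith) 2
  · show rtSq ((4 * r₂)⁻¹ • rtRot _ (bt.b - p₀.b)) ≤ _
    have : (4 * r₂)⁻¹ = P := by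
      rw [hr₂]
      field_simp
    rw [sq_smul, rt_rot_sq, he, one_mul, this]
    calc P ^ 2 * rtSq (bt.b - p₀.b) ≤ P ^ 2 * (rtChRho P * 1) ^ 2 := mul_le_mul_of_nonneg_left s1 (by positivity)
      _ = (P * rtChRho P) ^ 2 := by ring
      _ ≤ (1 / 100) ^ 2 := pow_le_pow_left₀ (by positivity) (by linarith) 2
  · show |(bt.y - p₀.y - 2 * rtIp p₀.A (bt.b - p₀.b)) / (4 * r₂ ^ 2)| ≤ _
    rw [abs_div, abs_of_pos (by positivity : 0 < 4 * r₂ ^ 2), div_le_iff₀ (by positivity)]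
    have e : 1 / 100 * (4 * r₂ ^ 2) * P ^ 2 = 1 / 400 := by
      have : r₂ ^ 2 * P ^ 2 = 1 / 16 := by
        rw [← mul_pow, mul_comm, hPr]
        norm_num
      linarith
    have s2' : |bt.y - p₀.y - 2 * rtIp p₀.A (bt.b - p₀.b)| ≤ rtChRho P := by simpa using s2
    have hP2 : 0 < P ^ 2 := by positivity
    have : rtChRho P * P ^ 2 ≤ 1 / 100 * (4 * r₂ ^ 2) * P ^ 2 := by
      rw [e, hρ1]
      norm_num
    exact s2'.trans (le_of_mul_le_mul_right this hP2)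

/-- STEP 4: the new row in the units of the flat picture -/
theorem rt_pxi_step4 {r₂ : ℝ} (h20 : 0 < r₂) {σ : RtRow} {x₂ : RdWvPar.Ph} (FB : (rtChSc 4 r₂).row σ = rtRay (-(1 / 4)) x₂) :
    rtPxiSc r₂ (RdWvPar.co 0 x₂) = rtPwSc (σ.flow (-1)) := by
  obtain ⟨ρ₂, hρ₂⟩ : ∃ ρ₂, ρ₂ = rtRay (-(1 / 4)) x₂ := ⟨_, rfl⟩
  rw [← hρ₂] at FB
  have a1 : ρ₂.A = r₂⁻¹ • σ.A := by rw [← FB]; rfl
  have a2 : ρ₂.b = (4 * r₂)⁻¹ • σ.b := by rw [← FB]; rfl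
  have a3 : ρ₂.y = σ.y / (4 * r₂ ^ 2) := by rw [← FB]; rfl
  have b1 : ρ₂.A = (RdWvPar.co 0 x₂).A := by rw [hρ₂]; rfl
  have b2 : ρ₂.b = (RdWvPar.co 0 x₂).b + (-(-(1 / 4 : ℝ))) • (RdWvPar.co 0 x₂).A := by rw [hρ₂]; rfl
  have b3 : ρ₂.y = (RdWvPar.co 0 x₂).y + (-(-(1 / 4 : ℝ))) * rtSq (RdWvPar.co 0 x₂).A := by rw [hρ₂]; rfl
  obtain ⟨Z, hZ⟩ : ∃ Z, Z = RdWvPar.co 0 x₂ := ⟨_, rfl⟩
  rw [← hZ] at b1 b2 b3 ⊢
  have c1 : σ.A = r₂ • Z.A := by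
    rw [← b1, a1, smul_smul, mul_inv_cancel₀ h20.ne', one_smul]
  have c2 : σ.b = (4 * r₂) • (Z.b + (1 / 4 : ℝ) • Z.A) := by
    have : ρ₂.b = Z.b + (1 / 4 : ℝ) • Z.A := by rw [b2, neg_neg]
    rw [← this, a2, smul_smul, mul_inv_cancel₀ (by positivity), one_smul]
  have c3 : σ.y = 4 * r₂ ^ 2 * (Z.y + 1 / 4 * rtSq Z.A) := by
    have : ρ₂.y = Z.y + 1 / 4 * rtSq Z.A := by rw [b3, neg_neg]
    rw [← this, a3]
    field_simp
  ext
  · simp only [rtPxiSc, rtPwSc, RtRow.flow, c1]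
  · simp only [rtPxiSc, rtPwSc, RtRow.flow, c1]
  · simp only [rtPxiSc, rtPwSc, RtRow.flow, c1, c2, Prod.fst_add, Prod.smul_fst, smul_eq_mul]
    ring
  · simp only [rtPxiSc, rtPwSc, RtRow.flow, c1, c2, Prod.snd_add, Prod.smul_snd, smul_eq_mul]
    ring
  · simp only [rtPxiSc, rtPwSc, RtRow.flow, c1, c3, rtSq, Prod.smul_fst, Prod.smul_snd, smul_eq_mul]
    ring

/-- STEP 5: a box of width `h` at the chart time `0` ⟹ nearness at the chart time `-1` in the units of the flat picture -/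
theorem rt_pxi_step5 {h M' : ℝ} {q' σ : RtRow} (hh0 : 0 ≤ h) (hM' : 1 ≤ M') (t6 : σ ∈ rtBx q' h M') :
    RtNear (M' ^ 2) h h (h ^ 2) (rtPwSc (q'.flow (-1))) (rtPwSc (σ.flow (-1))) := by
  rw [rt_pxi_bx_iff] at t6
  have t6' : RtNear 1 (M' * h) (M' * h) (M' * h ^ 2) (q'.flow 0) (σ.flow 0) := by
    rw [rt_xg_xs_f0, rt_xg_xs_f0]
    exact t6
  have t7 := rt_xg_n1_shift (t' := -1) (σ := 1) (by positivity) (by positivity) t6' (by norm_num)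
  have t8 := rt_pxi_sc_near t7
  have hM'2 : M' ≤ M' ^ 2 := by nlinarith
  refine rt_xg_n1_to (by positivity) (by positivity) ?_ ?_ ?_ t8
  · exact mul_le_mul_of_nonneg_right hM'2 hh0
  · have : (M' * h + 1 * (M' * h)) / 4 = (M' / 2) * h := by ring
    rw [this]
    exact mul_le_mul_of_nonneg_right (by linarith) hh0
  · have : (M' * h ^ 2 + 1 * (M' * h) ^ 2) / 4 = ((M' + M' ^ 2) / 4) * h ^ 2 := by ring
    rw [this]
    exact mul_le_mul_of_nonneg_right (by linarith) (by positivity)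

/-- **the geometry of the input arrow** -/
theorem rt_pxi_main {d : RtPd} {k0 : ℕ} {T0 P H H1 r₂ Λ : ℝ} {x₂ x' : RdWvPar.Ph}
    (hP : 1 ≤ P) (hch : RtChartOk P d.nL d.p0) (hbd : d.nL.Bd P) (hr : 0 < d.ψ.r) (hr₂ : r₂ = 1 / (4 * P)) (hH : 0 < H)
    (hH1 : H1 = H / (4 * rdLen k0 * d.ψ.r ^ 2)) (hΛ : 1 ≤ Λ) (hsm : 8 * Λ ^ 3 * Real.sqrt H1 ≤ rtChRho P / 4)
    (hbox : rtRay (-(1 / 4)) x₂ ∈ rtB3 (39 / 1000) (33 / 1000) (14 / 1000))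
    (hIn : rtPwP d k0 (RdWvPar.co 0 x') ∈ rtBx d.p0 1 (rtChRho P / 2))
    (has : RtAsR (rtXoB T0 (4 * rdLen k0) (r₂ * d.ψ.r) (rtXgCen (rdLen k0) d.ψ.r d.ψ.cen d.p0) (d.nL.g 0 d.p0.b d.p0.A) (d.nL.be * r₂) (4 * d.nL.k * r₂))
      H k0 Λ (-(1 / 4)) x₂ T0 x') :
    RtNear ((25088 * Λ ^ 6) ^ 2) (rdD H1 0) (rdQ H1 0) H1 (rtPwIm d k0 (RdWvPar.co 0 x') 0) (rtPxiSc r₂ (RdWvPar.co 0 x₂)) := by
  have he := rt_pxi_e hch
  have hP0 : 0 < P := by linarith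
  have h20 : 0 < r₂ := by
    rw [hr₂]
    positivity
  have hPr : P * r₂ = 1 / 4 := by
    rw [hr₂]
    field_simp
  have hl := rdLen_pos k0
  obtain ⟨-, -, -, hbe, hk⟩ := hbd
  have hβ : |d.nL.be * r₂| ≤ 1 / 4 := by
    rw [abs_mul, abs_of_pos h20, ← hPr]
    exact mul_le_mul_of_nonneg_right hbe h20.le
  have hκ : |4 * d.nL.k * r₂| ≤ 1 := by
    rw [abs_mul, abs_mul, abs_of_pos h20, abs_of_pos (by norm_num : (0 : ℝ) < 4)]
    have := mul_le_mul_of_nonneg_right hk h20.le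
    linarith
  have hρ0 : 0 < rtChRho P := by
    unfold rtChRho
    positivity
  have hρ2 : rtChRho P ≤ 1 / 1000 := by
    have hρ1 : rtChRho P * P ^ 2 = 1 / 1000 := by
      unfold rtChRho
      field_simp
    have : rtChRho P * 1 ≤ rtChRho P * P ^ 2 := mul_le_mul_of_nonneg_left (one_le_pow₀ hP) hρ0.le
    linarith
  obtain ⟨t1, t2⟩ := has
  have FB := rt_pxi_FB T0 (4 * rdLen k0) (r₂ * d.ψ.r) (rtXgCen (rdLen k0) d.ψ.r d.ψ.cen d.p0) (d.nL.g 0 d.p0.b d.p0.A) (by positivity) (by positivity)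
    he hβ hκ hbox
  obtain ⟨b, hb⟩ : ∃ b, b = (rtXoB T0 (4 * rdLen k0) (r₂ * d.ψ.r) (rtXgCen (rdLen k0) d.ψ.r d.ψ.cen d.p0) (d.nL.g 0 d.p0.b d.p0.A) (d.nL.be * r₂)
    (4 * d.nL.k * r₂)).row (rtRay (-(1 / 4)) x₂) := ⟨_, rfl⟩
  obtain ⟨te, hte⟩ : ∃ te, te = (rtXoB T0 (4 * rdLen k0) (r₂ * d.ψ.r) (rtXgCen (rdLen k0) d.ψ.r d.ψ.cen d.p0) (d.nL.g 0 d.p0.b d.p0.A) (d.nL.be * r₂)
    (4 * d.nL.k * r₂)).tm (rtRay (-(1 / 4)) x₂) (-(1 / 4)) := ⟨_, rfl⟩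
  rw [← hb] at FB t2
  rw [← hte] at t1 t2
  -- the scales
  have hH10 : 0 < H1 := by
    rw [hH1]
    positivity
  obtain ⟨h, hh⟩ : ∃ h, h = Real.sqrt H1 := ⟨_, rfl⟩
  have hh0 : 0 < h := by
    rw [hh]
    exact Real.sqrt_pos.2 hH10
  have hh2 : H1 = h ^ 2 := by
    rw [hh, Real.sq_sqrt hH10.le]
  rw [← hh] at hsm
  have u1 : rdD H k0 = d.ψ.r * (2 * h) := by
    rw [rt_pi_unc hr hH1, rt_pi_rdD0, ← hh]
    ring
  have u2 : rdQ H k0 = rdLen k0 * d.ψ.r * (2 * h) := by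
    rw [(rt_xg_sc hH k0).2.2.2.1, u1]
    ring
  have u3 : H = rdLen k0 * d.ψ.r ^ 2 * (4 * h ^ 2) := by
    rw [← hh2, hH1]
    field_simp
  have t2' : RtNear Λ (d.ψ.r * (2 * h)) (rdLen k0 * d.ψ.r * (2 * h)) (rdLen k0 * d.ψ.r ^ 2 * (4 * h ^ 2)) ((RdWvPar.co 0 x').flow (te - T0)) (b.flow te) := by
    rw [← u1, ← u2, ← u3]
    exact t2
  have hbx := rt_pxi_step1 d.ψ.cen hl hr hh0.le hΛ t1 t2'
  obtain ⟨-, -, -, hM1⟩ := rt_pxi_num hΛ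
  have hbp := rt_pxi_step2 hρ0 hρ2 hh0.le hM1 hsm hIn hbx
  have hap := rt_lr_bx_half hρ0.le hIn
  have t6 := rt_chart_box hch hbp hap hM1 hh0.le hbx
  have hS : (rtChS T0 (4 * rdLen k0) (r₂ * d.ψ.r) (rtXgCen (rdLen k0) d.ψ.r d.ψ.cen d.p0) (d.nL.g 0 d.p0.b d.p0.A)).row b ∈ rtB3 (1 / 100) (1 / 100) (1 / 100) := by
    rw [rt_pxi_S_row T0 (rdLen k0) d.ψ.r r₂ d.ψ.cen d.p0 _ hl.ne' hr.ne' h20.ne' b]
    exact rt_pxi_step3 hP hr₂ he hbp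
  have pap := (rt_xg_paper T0 (rdLen k0) d.ψ.r r₂ d.ψ.cen d.p0 d.nL hl hr h20 he b T0 hS hβ hκ (by simp)).1
  have eF : (rtXoF T0 (4 * rdLen k0) (r₂ * d.ψ.r) (rtXgCen (rdLen k0) d.ψ.r d.ψ.cen d.p0) (d.nL.g 0 d.p0.b d.p0.A) (d.nL.be * r₂) (4 * d.nL.k * r₂)).row b
      = (rtChSc 4 r₂).row ((rtChart d.p0 d.nL).row ((rtNrm (rdLen k0) d.ψ.r d.ψ.cen).row (b.flow T0))) := pap
  rw [eF] at FB
  have e2 := rt_pxi_step4 h20 FB
  have e1 : rtPwIm d k0 (RdWvPar.co 0 x') 0 = rtPwSc (((rtChart d.p0 d.nL).row (rtPwP d k0 (RdWvPar.co 0 x'))).flow (-1)) := by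
    unfold rtPwIm
    norm_num
  have hM'1 : 1 ≤ 392 * (8 * Λ ^ 3) ^ 2 := by nlinarith
  have t9 := rt_pxi_step5 hh0.le hM'1 t6
  have hMM : 25088 * Λ ^ 6 = 392 * (8 * Λ ^ 3) ^ 2 := by ring
  rw [e1, e2, rt_pi_rdD0, rt_pi_rdQ0, ← hh, hMM, hh2]
  exact t9

end Claimed.Agent.R256
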