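import Claimed.Agent.R256.Rt.PwxDefs
import Claimed.Agent.R256.Rt.PwxInGeo

/-!
# Row 256, folder Rt, file PwxInRel : ADAPTER `rt_xo_main ⟹ RtPwX`, THE RELATION OF THE INPUT ARROW IN THE VOCABULARY OF `Rt/PwxDefs.lean`      (helper22; prefix `rt_pxi_`)      NO SORRY HERE

`rt_pxi_rin` :   backward association of `rt_xo_main` (in) + new ray in the box `(39, 33, 14)/1000` + old row in `d.In P fs`   ⟹   `RtPwRin d k0 P fs (d.xH H k0) ((25088 Λ⁶)²) (j, rtPxDil r₂ x₂) (i, x')`.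
`rt_pxi_small` :   the smallness `8 Λ³ √H1 ≤ ρ/4` follows from `P ≤ Λ`, `32000 ≤ Λ`, `Λ⁶ √H1 ≤ 1`.
-/

set_option autoImplicit false

namespace Claimed.Agent.R256

theorem rt_pxi_small {P Λ h : ℝ} (hP : 1 ≤ P) (hPΛ : P ≤ Λ) (hΛ : 32000 ≤ Λ) (hh : 0 ≤ h) (hsm : Λ ^ 6 * h ≤ 1) : 8 * Λ ^ 3 * h ≤ rtChRho P / 4 := by
  have hP0 : 0 < P := by linarith
  have hΛ0 : 0 < Λ := by linarith
  unfold rtChRho
  rw [div_div, le_div_iff₀ (by positivity)]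
  have h1 : P ^ 2 ≤ Λ ^ 2 := pow_le_pow_left₀ hP0.le hPΛ 2
  calc 8 * Λ ^ 3 * h * (1000 * P ^ 2 * 4) = 32000 * (Λ ^ 3 * h) * P ^ 2 := by ring
    _ ≤ Λ * (Λ ^ 3 * h) * Λ ^ 2 := by
        have : 0 ≤ Λ ^ 3 * h := by positivity
        exact mul_le_mul (mul_le_mul_of_nonneg_right hΛ this) h1 (by positivity) (by positivity)
    _ = Λ ^ 6 * h := by ring
    _ ≤ 1 := hsm

theorem rt_pxi_rin {d : RtPd} {k0 i0 : ℕ} {P fs H Λ : ℝ} {x₂ x' : RdWvPar.Ph} (j i : ℕ)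
    (hP : 1 ≤ P) (hch : RtChartOk P d.nL d.p0) (hbd : d.nL.Bd P) (hr : 0 < d.ψ.r) (hH : 0 < H) (hΛ : 1 ≤ Λ)
    (hsm : 8 * Λ ^ 3 * Real.sqrt (d.xH H k0) ≤ rtChRho P / 4)
    (hbox : x₂ ∈ rtS3 (-(1 / 4)) (39 / 1000) (33 / 1000) (14 / 1000))
    (hIn : rtPwP d k0 (RdWvPar.co 0 x') ∈ d.In P fs)
    (has : RtAsR (rtXoB (tmL k0 i0) (4 * rdLen k0) (d.xr P) (d.xc k0) d.xe (d.xb P) (d.xk P)) H k0 Λ (-(1 / 4)) x₂ (tmL k0 i0) x') :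
    RtPwRin d k0 P fs (d.xH H k0) ((25088 * Λ ^ 6) ^ 2) (j, rtPxDil (rtPxR2 P) x₂) (i, x') :=
  ⟨hIn, rt_pxi_main hP hch hbd hr rfl hH rfl hΛ hsm hbox hIn.1 has⟩

end Claimed.Agent.R256
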