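import Claimed.Agent.R256.Rt.PwxSeams
import Claimed.Agent.R256.Rt.PwxInRel
import Claimed.Agent.R256.Rt.PwInTop

/-!
# Row 256, folder Rt, file PwxInG : THE SEAM `RtPxInG` OF THE ADAPTER `rt_xo_main ⟹ RtPxN`      (helper22; prefix `rt_pxi_`)      NO SORRY HERE

`rt_pxi_ing : RtPxInG`   with `C = 25088²`, `a = 12`.      From `rt_pxi_main` (`Rt/PwxInGeo.lean`).
-/

set_option autoImplicit false

namespace Claimed.Agent.R256

/-- the arithmetic of the constants: the tolerance -/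
theorem rt_pxi_ing_tol {P L : ℝ} (hP : 1 ≤ P) (hL : 1 ≤ L) : (25088 * L ^ 6) ^ 2 ≤ 25088 ^ 2 * (P * L) ^ 12 := by
  have hL0 : 0 < L := by linarith
  have h1 : (1 : ℝ) ≤ P ^ 12 := one_le_pow₀ hP
  have h2 : 0 ≤ L ^ 12 := by positivity
  calc (25088 * L ^ 6) ^ 2 = 25088 ^ 2 * (1 * L ^ 12) := by ring
    _ ≤ 25088 ^ 2 * (P ^ 12 * L ^ 12) := by
        exact mul_le_mul_of_nonneg_left (mul_le_mul_of_nonneg_right h1 h2) (by norm_num)
    _ = 25088 ^ 2 * (P * L) ^ 12 := by ring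

/-- the arithmetic of the constants: the smallness -/
theorem rt_pxi_ing_small {P L h : ℝ} (hP : 1 ≤ P) (hL : 1 ≤ L) (hh : 0 ≤ h) (hsm : 25088 ^ 2 * (P * L) ^ 12 * h ≤ 1) : 8 * L ^ 3 * h ≤ rtChRho P / 4 := by
  have hP0 : 0 < P := by linarith
  have hL0 : 0 < L := by linarith
  unfold rtChRho
  rw [div_div, le_div_iff₀ (by positivity)]
  have h1 : P ^ 2 ≤ P ^ 12 := pow_le_pow_right₀ hP (by norm_num)
  have h2 : L ^ 3 ≤ L ^ 12 := pow_le_pow_right₀ hL (by norm_num)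
  have h3 : P ^ 2 * L ^ 3 ≤ P ^ 12 * L ^ 12 := mul_le_mul h1 h2 (by positivity) (by positivity)
  have h4 : (0 : ℝ) ≤ P ^ 12 * L ^ 12 := by positivity
  calc 8 * L ^ 3 * h * (1000 * P ^ 2 * 4) = 32000 * (P ^ 2 * L ^ 3) * h := by ring
    _ ≤ 25088 ^ 2 * (P ^ 12 * L ^ 12) * h := by
        refine mul_le_mul_of_nonneg_right ?_ hh
        nlinarith
    _ = 25088 ^ 2 * (P * L) ^ 12 * h := by ring
    _ ≤ 1 := hsm

/-- **the seam IN-GEO** -/
theorem rt_pxi_ing : RtPxInG := by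
  refine ⟨25088 ^ 2, 12, by norm_num, ?_⟩
  intro d k0 i0 H P fs L x2 x' hH hP hr _ hbd hch hL hsm hIn hbox has
  have hH1 : 0 ≤ d.xH H k0 := by
    unfold RtPd.xH
    have : 0 < rdLen k0 := by unfold rdLen; positivity
    positivity
  rw [rt_pi_rdD0] at hsm
  have hs : 8 * L ^ 3 * Real.sqrt (d.xH H k0) ≤ rtChRho P / 4 := rt_pxi_ing_small hP hL (Real.sqrt_nonneg _) hsm
  have hb : x2 ∈ rtS3 (-(1 / 4)) (39 / 1000) (33 / 1000) (14 / 1000) :=
    rt_xn_bx_mono (by norm_num) (by norm_num) (by norm_num) (by norm_num) (by norm_num) hbox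
  have hm := (rt_pxi_rin (d := d) (k0 := k0) (i0 := i0) (fs := fs) 0 0 hP hch hbd hr hH hL hs hb hIn has).2
  refine rt_pi_near_mono (by positivity) (rt_pxi_ing_tol hP hL) ?_ ?_ hH1 hm
  · rw [rt_pi_rdD0]; exact Real.sqrt_nonneg _
  · rw [rt_pi_rdQ0]; exact Real.sqrt_nonneg _

end Claimed.Agent.R256
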