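import Claimed.Agent.R256.Rt.XoContract

/-!
# Row 256 (LS paper), folder Rt, file PwxSym : THE EXACT SYMMETRY BETWEEN THE PICTURE OF `rt_xo_main` AND THE FLAT PICTURE OF `RtPwI1`          (unit SYM of the adapter `RtPwX`, owner helper225; this file helper144; prefix `rt_pxs_`, defs `rtPxs*`, `RtPxs*`)          SORRY-FREE

PICTURE OF `rt_xo_main`: Planck parameter `p'`, clock `rtTm k j = j 2^-k - 1/4`, widths in units `r₂ ψ.r`.      FLAT PICTURE (`RtPwI1`, `FzDat`): `p1 = p'.sc 1 r₂⁻¹` (`H1 = H' r₂²`), clock `tmL k j = j 2^-k`, widths in units `ψ.r`.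
`W = shift(1/4) ∘ XS(θ = 1/4, l = 1, r = r₂⁻¹, c = 0, e = (0,1)) ∘ shift(1/4)`      (`rt_xs_shift`, `rt_xs_main`).
* `rtPxsS r₂ (A, b, y) = (r₂ A, r₂ b, r₂² y)`,   `RtPxsR r₂ z z'  :=  z'.1 = z.1 ∧ z'.2 = rtPxsS r₂ z.2`      (`z` in the picture of `rt_xo_main`, `z'` in the flat picture).
* `rt_pxs_ext`       a transfer whose region is conull holds on `univ`.
* `rt_pxs_main`      `W` isometric, `Spec` preserved, transfers BOTH ways at all `(k, b)`, region `univ`, `A = 1`, `ε = 0`.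
* `rt_pxs_sc_ae`, `rt_pxs_sc_up`, `rt_pxs_sc_dn`, `rt_pxs_sc_spec`      the state `c • G`: density `c² D` a.e.; transfers `D_G → D_(cG)` (`A = c⁻²`) and `D_(cG) → D_G` (`A = c²`), any index set, clock `tmL`.
* **`rt_pxs_exit`**  `W_c = c • W`: `‖W_c G‖ = c ‖G‖`, `Spec`, forward transfer `A = (c⁻¹)²`, backward transfer `A = c²`.      USE: `c = 1/8`, `G = W_c v1`: `‖G‖ ≤ ‖v‖`, forward `A = 64`, backward `A = 1/64 ≤ 1`.
* `rt_pxs_iio0`      `Set.Iio (2^0) = {0}`   (the root view of `RtPwI1.inn`).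
-/

set_option autoImplicit false

namespace Claimed.Agent.R256

open MeasureTheory
open scoped ENNReal

/-- the dilation of the rows: from the picture of `rt_xo_main` to the flat picture -/
def rtPxsS (r₂ : ℝ) (x : RdWvPar.Ph) : RdWvPar.Ph := (r₂ • x.1, r₂ • x.2.1, r₂ ^ 2 * x.2.2)

/-- the relation of the exact symmetry -/
def RtPxsR (r₂ : ℝ) (z z' : RtZ) : Prop := z'.1 = z.1 ∧ z'.2 = rtPxsS r₂ z.2

theorem rt_pxs_eqns_cite : True := by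
  have := @rtPxsS.eq_1
  have := @RtPxsR.eq_1
  trivial

theorem rt_pxs_iio0 : Set.Iio (2 ^ 0 : ℕ) = {0} := by
  ext j
  simp

/-! ## 1. Calculus -/

/-- a transfer whose region is conull holds on `univ` -/
theorem rt_pxs_ext {Z Z' : Type} [MeasurableSpace Z] [MeasurableSpace Z'] {ζ : Measure Z} {D : Z → ℝ≥0∞} {ζ' : Measure Z'} {D' : Z' → ℝ≥0∞}
    {R : Z → Z' → Prop} {Z1 : Set Z} {A ε : ℝ≥0∞} (h : RtXf ζ D ζ' D' R Z1 A ε) (hZ1 : MeasurableSet Z1) (hD : AEMeasurable D ζ) (h0 : ζ Z1ᶜ = 0) :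
    RtXf ζ D ζ' D' R Set.univ A ε := by
  have h1 : RtXf ζ D ζ D (fun z z' => z' = z ∧ z ∈ Z1) Set.univ 1 0 := by
    refine rt_xa_restr hZ1 hD Z1ᶜ (fun z hz => hz.2) ?_
    rw [Measure.restrict_eq_zero.2 h0, lintegral_zero_measure]
  refine rt_xa_mono (rt_xa_comp h1 h fun z _ z' hz => hz.1 ▸ hz.2) (fun z _ z'' hz => ?_) subset_rfl (by rw [one_mul]) (by rw [one_mul, zero_add])
  obtain ⟨z', ⟨e, _⟩, hr⟩ := hz
  exact e ▸ hr

/-- the indices outside `I` carry no mass -/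
theorem rt_pxs_vm_null (p : RdWvPar) (k : ℕ) (I : Set ℕ) : MeasurableSet {z : RtZ | z.1 ∈ I} ∧ rtVmP p k I {z : RtZ | z.1 ∈ I}ᶜ = 0 := by
  have := rt_k_rw_sf p k
  have hm : MeasurableSet {z : RtZ | z.1 ∈ I} := measurable_fst (MeasurableSet.of_discrete (s := I))
  refine ⟨hm, ?_⟩
  have e : {z : RtZ | z.1 ∈ I}ᶜ = Iᶜ ×ˢ (Set.univ : Set RdWvPar.Ph) := by
    ext z
    simp
  unfold rtVmP
  rw [e, Measure.prod_prod, Measure.restrict_apply MeasurableSet.of_discrete, Set.compl_inter_self, measure_empty, zero_mul]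

/-! ## 2. The shift of the clock -/

theorem rt_pxs_clock (k j : ℕ) : rtTm k j + 1 / 4 = tmL k j := by
  unfold rtTm
  ring

/-- after the shift by `1/4` the view in the clock `tmL` is the view in the clock `rtTm` -/
theorem rt_pxs_shift_vd (p : RdWvPar) (U : RtKc →L[ℂ] RtKc) (hU : ∀ (T : ℝ) (k b : ℕ) (G : RtKc), p.an (T + 1 / 4) k b (U G) = p.an T k b G)
    (k b : ℕ) (G : RtKc) : rtVdP p k b (U G) = rtVd p k b G := by
  funext z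
  unfold rtVdP rtVd
  rw [← rt_pxs_clock, hU]

theorem rt_pxs_vm (p : RdWvPar) (k : ℕ) : rtVmP p k (Set.Iio (2 ^ k)) = rtVm p k := rfl

/-! ## 3. The dilation -/

/-- the exact relabelling of `rt_xs_main` for the pure dilation -/
theorem rt_pxs_rel (r₂ : ℝ) (h2 : 0 < r₂) (k : ℕ) (z z' : RtZ) :
    RtXsR (rtChS (1 / 4) 1 r₂⁻¹ rtO (0, 1)) k 0 0 z z' ↔ RtPxsR r₂ z z' := by
  unfold RtXsR RtPxsR
  rw [rt_xs_zm (1 / 4) 1 r₂⁻¹ rtO (0, 1) one_ne_zero (inv_pos.2 h2).ne' (by simp [rtSq])]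
  have e : ((r₂⁻¹)⁻¹ • rtRot (0, 1) (z.2.1 - rtO.A), ((1 : ℝ) * r₂⁻¹)⁻¹ • rtRot (0, 1) (z.2.2.1 - rtO.b - (tmL k z.1 - 1 / 4) • rtO.A),
      (z.2.2.2 - rtO.y - 2 * rtIp rtO.A (z.2.2.1 - rtO.b) + (tmL k z.1 - 1 / 4) * rtSq rtO.A) / (1 * r₂⁻¹ ^ 2)) = rtPxsS r₂ z.2 := by
    unfold rtPxsS
    refine Prod.ext ?_ (Prod.ext ?_ ?_)
    · ext <;> simp [rtRot, rtO]
    · ext <;> simp [rtRot, rtO]
    · simp only [rtO, rtIp, rtSq, Prod.fst_zero, Prod.snd_zero]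
      field_simp
      ring
  rw [e, add_zero, add_zero]

/-- **the exact symmetry** -/
theorem rt_pxs_main (p' : RdWvPar) (r₂ : ℝ) (h2 : 0 < r₂) :
    ∃ W : RtKc →L[ℂ] RtKc, (∀ G, ‖W G‖ = ‖G‖) ∧
      (∀ (b : ℕ) (G : RtKc), p'.Spec b G → (p'.sc 1 r₂⁻¹ one_pos (inv_pos.2 h2)).Spec b (W G)) ∧
      ∀ (k b : ℕ) (G : RtKc),
        RtXf (rtVm p' k) (rtVd p' k b G) (rtVmP (p'.sc 1 r₂⁻¹ one_pos (inv_pos.2 h2)) k (Set.Iio (2 ^ k)))
          (rtVdP (p'.sc 1 r₂⁻¹ one_pos (inv_pos.2 h2)) k b (W G)) (RtPxsR r₂) Set.univ 1 0 ∧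
        RtXf (rtVmP (p'.sc 1 r₂⁻¹ one_pos (inv_pos.2 h2)) k (Set.Iio (2 ^ k))) (rtVdP (p'.sc 1 r₂⁻¹ one_pos (inv_pos.2 h2)) k b (W G))
          (rtVm p' k) (rtVd p' k b G) (fun z' z => RtPxsR r₂ z z') Set.univ 1 0 := by
  obtain ⟨p1, hp1⟩ : ∃ p1, p1 = p'.sc 1 r₂⁻¹ one_pos (inv_pos.2 h2) := ⟨_, rfl⟩
  rw [← hp1]
  obtain ⟨U₁, n1, s1, -, a1⟩ := rt_xs_shift p' (1 / 4)
  obtain ⟨U₂, n2, s2, -, a2⟩ := rt_xs_main p' (1 / 4) 1 r₂⁻¹ rtO (0, 1) one_pos (inv_pos.2 h2) (by simp [rtSq])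
  rw [← hp1] at s2 a2
  obtain ⟨U₃, n3, s3, -, a3⟩ := rt_xs_shift p1 (1 / 4)
  refine ⟨U₃.comp (U₂.comp U₁), fun G => ?_, fun b G hG => s3 b _ (s2 b _ (s1 b G hG)), fun k b G => ?_⟩
  · show ‖U₃ (U₂ (U₁ G))‖ = ‖G‖
    rw [n3, n2, n1]
  obtain ⟨f, g⟩ := a2 k k b 0 0 (Set.Iio (2 ^ k)) (U₁ G) (by rw [one_mul]) (by norm_num) (fun j hj => ⟨j, hj, rfl⟩)
  have e3 : rtVdP p1 k b ((U₃.comp (U₂.comp U₁)) G) = rtVd p1 k b (U₂ (U₁ G)) := rt_pxs_shift_vd p1 U₃ a3 k b _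
  rw [rt_pxs_shift_vd p' U₁ a1, rt_pxs_vm] at f g
  rw [e3, rt_pxs_vm]
  constructor
  · exact rt_xa_mono f (fun z _ z' h => (rt_pxs_rel r₂ h2 k z z').1 h) subset_rfl le_rfl le_rfl
  · have hnull := rt_pxs_vm_null p1 k (Set.Iio (2 ^ k))
    rw [rt_pxs_vm] at hnull
    refine rt_pxs_ext (Z1 := {z : RtZ | z.1 ∈ Set.Iio (2 ^ k)}) ?_ hnull.1 (rt_xk_meas p1 k b _) hnull.2
    exact rt_xa_mono g (fun z' _ z h => (rt_pxs_rel r₂ h2 k z z').1 h) (fun z hz => ⟨z.1, hz, rfl⟩) le_rfl le_rfl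

/-! ## 4. Scalars -/

theorem rt_pxs_vd_meas (p : RdWvPar) (k b : ℕ) (v : RtKc) : Measurable (rtVdP p k b v) := by
  refine measurable_from_prod_countable_right fun j => ?_
  exact ((Lp.stronglyMeasurable (p.an (tmL k j) k b v)).measurable.enorm).pow_const 2

/-- the density of `c • G` -/
theorem rt_pxs_sc_ae (p : RdWvPar) (k b : ℕ) (I : Set ℕ) (c : ℝ) (G : RtKc) :
    ∀ᵐ z ∂(rtVmP p k I), rtVdP p k b ((c : ℂ) • G) z = ENNReal.ofReal (c ^ 2) * rtVdP p k b G z := by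
  have := rt_k_rw_sf p k
  have hm : MeasurableSet {z : RtZ | rtVdP p k b ((c : ℂ) • G) z = ENNReal.ofReal (c ^ 2) * rtVdP p k b G z} :=
    measurableSet_eq_fun (rt_pxs_vd_meas p k b _) ((rt_pxs_vd_meas p k b G).const_mul _)
  unfold rtVmP
  rw [Measure.ae_prod_iff_ae_ae hm]
  refine Filter.Eventually.of_forall fun j => ?_
  have e : p.an (tmL k j) k b ((c : ℂ) • G) = (c : ℂ) • p.an (tmL k j) k b G := map_smul _ _ _
  filter_upwards [Lp.coeFn_smul (c : ℂ) (p.an (tmL k j) k b G)] with x hx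
  show ‖(p.an (tmL k j) k b ((c : ℂ) • G) : RdWvPar.Ph → ℂ) x‖ₑ ^ 2 = ENNReal.ofReal (c ^ 2) * ‖(p.an (tmL k j) k b G : RdWvPar.Ph → ℂ) x‖ₑ ^ 2
  rw [e, hx, Pi.smul_apply, enorm_smul, mul_pow]
  congr 1
  rw [← ofReal_norm, Complex.norm_real, Real.norm_eq_abs, ← ENNReal.ofReal_pow (abs_nonneg c), sq_abs]

/-- from the view of `c • G` to the view of `G` -/
theorem rt_pxs_sc_dn (p : RdWvPar) (k b : ℕ) (I : Set ℕ) (c : ℝ) (G : RtKc) (Z0 : Set RtZ) :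
    RtXf (rtVmP p k I) (rtVdP p k b ((c : ℂ) • G)) (rtVmP p k I) (rtVdP p k b G) (fun z z' => z' = z) Z0 (ENNReal.ofReal (c ^ 2)) 0 := by
  refine rt_xa_dom (E := fun _ => 0) (rt_pxs_vd_meas p k b G).aemeasurable aemeasurable_const ?_ (by simp)
  filter_upwards [rt_pxs_sc_ae p k b I c G] with z hz _
  rw [hz, add_zero]

/-- from the view of `G` to the view of `c • G` -/
theorem rt_pxs_sc_up (p : RdWvPar) (k b : ℕ) (I : Set ℕ) (c : ℝ) (hc : 0 < c) (G : RtKc) (Z0 : Set RtZ) :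
    RtXf (rtVmP p k I) (rtVdP p k b G) (rtVmP p k I) (rtVdP p k b ((c : ℂ) • G)) (fun z z' => z' = z) Z0 (ENNReal.ofReal (c⁻¹ ^ 2)) 0 := by
  refine rt_xa_dom (E := fun _ => 0) (rt_pxs_vd_meas p k b _).aemeasurable aemeasurable_const ?_ (by simp)
  filter_upwards [rt_pxs_sc_ae p k b I c G] with z hz _
  rw [hz, add_zero, ← mul_assoc, ← ENNReal.ofReal_mul (by positivity)]
  have e : c⁻¹ ^ 2 * c ^ 2 = 1 := by
    field_simp
  rw [e, ENNReal.ofReal_one, one_mul]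

theorem rt_pxs_sc_spec (p : RdWvPar) (b : ℕ) (c : ℂ) (G : RtKc) (h : p.Spec b G) : p.Spec b (c • G) := by
  unfold RdWvPar.Spec at h ⊢
  filter_upwards [h, Lp.coeFn_smul c G] with q hq he h0
  refine hq fun h1 => h0 ?_
  rw [he, Pi.smul_apply, h1, smul_zero]

/-! ## 5. The exit -/

/-- **EXIT of the unit SYM**: the exact symmetry followed by the multiplication by `c > 0` -/
theorem rt_pxs_exit (p' : RdWvPar) (r₂ : ℝ) (h2 : 0 < r₂) (c : ℝ) (hc : 0 < c) :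
    ∃ W : RtKc →L[ℂ] RtKc, (∀ G, ‖W G‖ = c * ‖G‖) ∧
      (∀ (b : ℕ) (G : RtKc), p'.Spec b G → (p'.sc 1 r₂⁻¹ one_pos (inv_pos.2 h2)).Spec b (W G)) ∧
      ∀ (k b : ℕ) (G : RtKc),
        RtXf (rtVm p' k) (rtVd p' k b G) (rtVmP (p'.sc 1 r₂⁻¹ one_pos (inv_pos.2 h2)) k (Set.Iio (2 ^ k)))
          (rtVdP (p'.sc 1 r₂⁻¹ one_pos (inv_pos.2 h2)) k b (W G)) (RtPxsR r₂) Set.univ (ENNReal.ofReal (c⁻¹ ^ 2)) 0 ∧
        RtXf (rtVmP (p'.sc 1 r₂⁻¹ one_pos (inv_pos.2 h2)) k (Set.Iio (2 ^ k))) (rtVdP (p'.sc 1 r₂⁻¹ one_pos (inv_pos.2 h2)) k b (W G))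
          (rtVm p' k) (rtVd p' k b G) (fun z' z => RtPxsR r₂ z z') Set.univ (ENNReal.ofReal (c ^ 2)) 0 := by
  obtain ⟨W, n, s, a⟩ := rt_pxs_main p' r₂ h2
  refine ⟨(c : ℂ) • W, fun G => ?_, fun b G hG => rt_pxs_sc_spec _ b _ _ (s b G hG), fun k b G => ?_⟩
  · show ‖(c : ℂ) • W G‖ = c * ‖G‖
    rw [norm_smul, Complex.norm_real, Real.norm_of_nonneg hc.le, n]
  obtain ⟨f, g⟩ := a k b G
  constructor
  · refine rt_xa_mono (rt_xa_comp f (rt_pxs_sc_up _ k b _ c hc (W G) Set.univ) fun _ _ _ _ => Set.mem_univ _) (fun z _ z'' hz => ?_) subset_rfl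
      (by rw [one_mul]) (by simp)
    obtain ⟨z', hr, e⟩ := hz
    exact e ▸ hr
  · refine rt_xa_mono (rt_xa_comp (rt_pxs_sc_dn _ k b _ c (W G) Set.univ) g fun _ _ _ _ => Set.mem_univ _) (fun z _ z'' hz => ?_) subset_rfl
      (by rw [mul_one]) (by simp)
    obtain ⟨z', e, hr⟩ := hz
    exact e ▸ hr

end Claimed.Agent.R256
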