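-- KEEP
import Claimed.Agent.R256.Rt.XDefs

/-!
# Row 256, folder Rt, block I1, unit XD (dual boost arrow), file 1: THE CHANGE OF VARIABLES `κ = rtXdK γ`            (unit architect helper290; prefix `rt_xd_`)            CONTRACT
PAPER-FREE (Mathlib + `Rt/XDefs.lean`).   Every `sorry` is a leaf `L-256-XD-*` (name in the docstring).   Statements FROZEN; auxiliary lemmas directly above your theorem, prefix `rt_xd_`; edit only your block.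
IDEA.  On the cone `4 τ ρ = |ξ|²` the dual boost is LINEAR in `(τ, ξ, ρ)`: `τ' = τ`, `ξ' = (ξ₁, ξ₂ + 2γτ)`, `ρ' = ρ + γξ₂ + γ²τ`.   In the coordinates `(ξ, τ)` it is a measure preserving shear; the passage `ρ ↔ τ = |ξ|²/(4ρ)` is a one-dimensional inversion.
No derivative of `κ`, no determinant.      RESULT: `dq' = Q dq` on `{ρ > 0}` (`rt_xd_cov`, `rt_xd_cov_int`).
ANGLES.  `A = ξ/2ρ`, `D = rtXdD γ A = 1 + 2γA₂ + γ²|A|² = Q`, new angle `rtXdA γ A = (A₁, A₂ + γ|A|²)/D` (the Möbius map `a ↦ a/(1+γa)`, `a = A₂ + iA₁`).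
-/

set_option autoImplicit false

namespace Claimed.Agent.R256

open MeasureTheory
open scoped ENNReal

/-- `D_γ(A) = 1 + 2γA₂ + γ²|A|²` -/
def rtXdD (γ : ℝ) (A : ℝ × ℝ) : ℝ := 1 + 2 * γ * A.2 + γ ^ 2 * rtSq A

/-- the action of the dual boost on angles -/
noncomputable def rtXdA (γ : ℝ) (A : ℝ × ℝ) : ℝ × ℝ := (A.1 / rtXdD γ A, (A.2 + γ * rtSq A) / rtXdD γ A)

theorem rt_xd_cov_eqns_cite : True := by
  have := @rtXdD.eq_1
  have := @rtXdA.eq_1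
  trivial

/-! ## 1. The change of variables -/

/-- **LEAF L-256-XD-C1: the inversion on the half line.**   `MeasureTheory.lintegral_image_eq_lintegral_abs_deriv_mul` with `s = Ioi 0`, `f τ = c/τ`, `f' τ = -c/τ²` (`HasDerivAt.hasDerivWithinAt`, `hasDerivAt_inv`/`HasDerivAt.div`), injective on `Ioi 0`, `f '' Ioi 0 = Ioi 0`;  `|-(c/τ²)| = c/τ²`;  `mul_comm`. -/
theorem rt_xd_c_inv (c : ℝ) (hc : 0 < c) (g : ℝ → ℝ≥0∞) :
    ∫⁻ ρ in Set.Ioi (0 : ℝ), g ρ = ∫⁻ τ in Set.Ioi (0 : ℝ), g (c / τ) * ENNReal.ofReal (c / τ ^ 2) := by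
  have himg : (fun τ : ℝ => c / τ) '' Set.Ioi (0 : ℝ) = Set.Ioi (0 : ℝ) := by
    ext y
    constructor
    · rintro ⟨x, hx, rfl⟩
      exact div_pos hc hx
    · intro hy
      have hy' : (0 : ℝ) < y := hy
      exact ⟨c / y, div_pos hc hy', by field_simp⟩
  have hder : ∀ x ∈ Set.Ioi (0 : ℝ), HasDerivWithinAt (fun τ : ℝ => c / τ) (-(c / x ^ 2)) (Set.Ioi 0) x := by
    intro x hx
    have hx' : x ≠ 0 := ne_of_gt hx
    have h := (hasDerivAt_inv hx').const_mul c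
    have e : c * -(x ^ 2)⁻¹ = -(c / x ^ 2) := by
      rw [div_eq_mul_inv]; ring
    rw [e] at h
    have h2 : (fun τ : ℝ => c / τ) = fun τ : ℝ => c * τ⁻¹ := by
      funext τ; rw [div_eq_mul_inv]
    rw [h2]
    exact h.hasDerivWithinAt
  have hinj : Set.InjOn (fun τ : ℝ => c / τ) (Set.Ioi (0 : ℝ)) := by
    intro x hx y hy hxy
    have hx' : x ≠ 0 := ne_of_gt hx
    have hy' : y ≠ 0 := ne_of_gt hy
    have h1 : c / x = c / y := hxy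
    rw [div_eq_div_iff hx' hy'] at h1
    exact (mul_left_cancel₀ hc.ne' h1).symm
  have h := lintegral_image_eq_lintegral_abs_deriv_mul measurableSet_Ioi hder hinj g
  rw [himg] at h
  rw [h]
  refine setLIntegral_congr_fun measurableSet_Ioi fun x hx => ?_
  have hx' : (0 : ℝ) < x := hx
  show ENNReal.ofReal |-(c / x ^ 2)| * g (c / x) = g (c / x) * ENNReal.ofReal (c / x ^ 2)
  rw [abs_neg, abs_of_pos (by positivity), mul_comm]

/-- **LEAF L-256-XD-C2: from `ρ` to `τ = |ξ|²/(4ρ)`.**   `{q | 0 < q.2} = univ ×ˢ Ioi 0`, `Measure.volume_eq_prod`, `Measure.prod_restrict`, `lintegral_prod` (Tonelli; measurability of both integrands);  for `ξ ≠ 0`: `rt_xd_c_inv` with `c = |ξ|²/4`;  `{ξ = 0}` is a null set of the plane (`lintegral_congr_ae`; `Measure.prod`-null: `measure_singleton`/`Set.Countable`). -/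
theorem rt_xd_c_tau (F : RdWvPar.Mo → ℝ≥0∞) (hF : Measurable F) :
    ∫⁻ q in {q : RdWvPar.Mo | 0 < q.2}, F q
      = ∫⁻ x in {x : RdWvPar.Mo | 0 < x.2}, F (x.1, rtSq x.1 / (4 * x.2)) * ENNReal.ofReal (rtSq x.1 / (4 * x.2 ^ 2)) := by
  have hset : {q : RdWvPar.Mo | 0 < q.2} = (Set.univ : Set (ℝ × ℝ)) ×ˢ Set.Ioi (0 : ℝ) := by
    ext q
    simp
  have hvol : (volume : Measure RdWvPar.Mo).restrict ((Set.univ : Set (ℝ × ℝ)) ×ˢ Set.Ioi (0 : ℝ))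
      = (volume : Measure (ℝ × ℝ)).prod ((volume : Measure ℝ).restrict (Set.Ioi 0)) := by
    rw [Measure.volume_eq_prod, ← Measure.prod_restrict, Measure.restrict_univ]
  have hsq : Measurable (fun x : RdWvPar.Mo => rtSq x.1) := by
    unfold rtSq
    fun_prop
  have hG : Measurable (fun x : RdWvPar.Mo => F (x.1, rtSq x.1 / (4 * x.2)) * ENNReal.ofReal (rtSq x.1 / (4 * x.2 ^ 2))) := by
    refine Measurable.mul (hF.comp ?_) (ENNReal.measurable_ofReal.comp ?_)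
    · exact measurable_fst.prodMk (hsq.div (by fun_prop))
    · exact hsq.div (by fun_prop)
  rw [hset, hvol, lintegral_prod _ hF.aemeasurable, lintegral_prod _ hG.aemeasurable]
  have hae : ∀ᵐ ξ : ℝ × ℝ ∂volume, ξ ≠ 0 := by
    rw [ae_iff]
    simp
  refine lintegral_congr_ae ?_
  filter_upwards [hae] with ξ hξ
  have hc : 0 < rtSq ξ / 4 := by
    have : 0 < rtSq ξ := by
      unfold rtSq
      by_contra hcon
      have h1 : ξ.1 ^ 2 + ξ.2 ^ 2 = 0 := le_antisymm (not_lt.1 hcon) (by positivity)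
      have h2 : ξ.1 = 0 := by nlinarith [sq_nonneg ξ.1, sq_nonneg ξ.2]
      have h3 : ξ.2 = 0 := by nlinarith [sq_nonneg ξ.1, sq_nonneg ξ.2]
      exact hξ (Prod.ext h2 h3)
    positivity
  rw [rt_xd_c_inv (rtSq ξ / 4) hc (fun ρ => F (ξ, ρ))]
  refine lintegral_congr fun τ => ?_
  show F (ξ, rtSq ξ / 4 / τ) * ENNReal.ofReal (rtSq ξ / 4 / τ ^ 2) = F (ξ, rtSq ξ / (4 * τ)) * ENNReal.ofReal (rtSq ξ / (4 * τ ^ 2))
  rw [div_div, div_div]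

/-- **LEAF L-256-XD-C3: the shear.**   Tonelli in the order `τ, ξ₁, ξ₂`; translation invariance in `ξ₂` (`lintegral_add_right_eq_self`). -/
theorem rt_xd_c_shear (γ : ℝ) (F : RdWvPar.Mo → ℝ≥0∞) (hF : Measurable F) :
    ∫⁻ x in {x : RdWvPar.Mo | 0 < x.2}, F x = ∫⁻ x in {x : RdWvPar.Mo | 0 < x.2}, F ((x.1.1, x.1.2 + 2 * γ * x.2), x.2) := by
  have hset : {x : RdWvPar.Mo | 0 < x.2} = (Set.univ : Set (ℝ × ℝ)) ×ˢ Set.Ioi (0 : ℝ) := by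
    ext x; simp
  have hvol : (volume : Measure RdWvPar.Mo).restrict ((Set.univ : Set (ℝ × ℝ)) ×ˢ Set.Ioi (0 : ℝ))
      = (volume : Measure (ℝ × ℝ)).prod ((volume : Measure ℝ).restrict (Set.Ioi 0)) := by
    rw [Measure.volume_eq_prod, ← Measure.prod_restrict, Measure.restrict_univ]
  have hG : Measurable fun x : RdWvPar.Mo => F ((x.1.1, x.1.2 + 2 * γ * x.2), x.2) :=
    hF.comp (by fun_prop)
  rw [hset, hvol, lintegral_prod_symm _ hF.aemeasurable, lintegral_prod_symm _ hG.aemeasurable]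
  refine lintegral_congr fun τ => ?_
  have h := lintegral_add_right_eq_self (μ := (volume : Measure (ℝ × ℝ))) (fun ξ => F (ξ, τ)) ((0 : ℝ), 2 * γ * τ)
  rw [← h]
  refine lintegral_congr fun ξ => ?_
  have e : ξ + ((0 : ℝ), 2 * γ * τ) = (ξ.1, ξ.2 + 2 * γ * τ) := by
    ext <;> simp
  rw [e]

/-- **LEAF L-256-XD-C4.**  all operations are measurable (`Measurable.div`, `fun_prop`). -/
theorem rt_xd_K_meas (γ : ℝ) : Measurable (rtXdK γ) ∧ Measurable (rtXdQ γ) := by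
  constructor
  · unfold rtXdK rtSq
    fun_prop
  · unfold rtXdQ rtSq
    fun_prop

/-- `Q ≥ 0` everywhere (junk value `1` at `ρ = 0`) -/
theorem rt_xd_Q_nonneg (γ : ℝ) (q : RdWvPar.Mo) : 0 ≤ rtXdQ γ q := by
  by_cases hq : q.2 = 0
  · simp [rtXdQ, hq]
  · have e : rtXdQ γ q = (1 + γ * q.1.2 / (2 * q.2)) ^ 2 + (γ * q.1.1 / (2 * q.2)) ^ 2 := by
      simp only [rtXdQ, rtSq]
      field_simp
      ring
    rw [e]
    positivity

theorem rt_xd_cov_ae : ∀ᵐ x : RdWvPar.Mo ∂volume, x.1 ≠ 0 := by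
  have hae : ∀ᵐ ξ : ℝ × ℝ ∂volume, ξ ≠ 0 := by
    rw [ae_iff]
    simp
  exact (Measure.quasiMeasurePreserving_fst (μ := (volume : Measure (ℝ × ℝ))) (ν := (volume : Measure ℝ))).ae hae

theorem rt_xd_cov_pt (γ : ℝ) (ξ : ℝ × ℝ) (τ : ℝ) (hξ : ξ ≠ 0) (hτ : 0 < τ) :
    rtXdK γ (ξ, rtSq ξ / (4 * τ)) = ((ξ.1, ξ.2 + 2 * γ * τ), rtSq (ξ.1, ξ.2 + 2 * γ * τ) / (4 * τ)) ∧
      rtXdQ γ (ξ, rtSq ξ / (4 * τ)) * (rtSq ξ / (4 * τ ^ 2)) = rtSq (ξ.1, ξ.2 + 2 * γ * τ) / (4 * τ ^ 2) := by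
  have hs : 0 < rtSq ξ := by
    unfold rtSq
    by_contra hcon
    have h1 : ξ.1 ^ 2 + ξ.2 ^ 2 = 0 := le_antisymm (not_lt.1 hcon) (by positivity)
    have h2 : ξ.1 = 0 := by nlinarith [sq_nonneg ξ.1, sq_nonneg ξ.2]
    have h3 : ξ.2 = 0 := by nlinarith [sq_nonneg ξ.1, sq_nonneg ξ.2]
    exact hξ (Prod.ext h2 h3)
  obtain ⟨s, hse⟩ : ∃ s, s = rtSq ξ := ⟨_, rfl⟩
  have hse' : s = ξ.1 ^ 2 + ξ.2 ^ 2 := hse
  rw [← hse] at hs ⊢
  have hs0 : s ≠ 0 := hs.ne'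
  have hτ0 : τ ≠ 0 := hτ.ne'
  have hS : rtSq (ξ.1, ξ.2 + 2 * γ * τ) = s + 4 * γ * τ * ξ.2 + 4 * γ ^ 2 * τ ^ 2 := by
    simp only [rtSq]
    rw [hse']
    ring
  rw [hS]
  constructor
  · refine Prod.ext (Prod.ext rfl ?_) ?_
    · show ξ.2 + γ * rtSq ξ / (2 * (s / (4 * τ))) = ξ.2 + 2 * γ * τ
      rw [← hse]
      field_simp
      ring
    · show s / (4 * τ) + γ * ξ.2 + γ ^ 2 * rtSq ξ / (4 * (s / (4 * τ))) = (s + 4 * γ * τ * ξ.2 + 4 * γ ^ 2 * τ ^ 2) / (4 * τ)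
      rw [← hse]
      field_simp
  · show (1 + γ * ξ.2 / (s / (4 * τ)) + γ ^ 2 * rtSq ξ / (4 * (s / (4 * τ)) ^ 2)) * (s / (4 * τ ^ 2)) = (s + 4 * γ * τ * ξ.2 + 4 * γ ^ 2 * τ ^ 2) / (4 * τ ^ 2)
    rw [← hse]
    field_simp

/-- **LEAF L-256-XD-C5 (glue): `dq' = Q dq`.**
PLAN.  LHS `=` (`rt_xd_c_tau`, `F = f`) `∫_{τ>0} f (ξ', |ξ'|²/4τ) |ξ'|²/(4τ²)` `=` (`rt_xd_c_shear`) the same at `ξ' = Sξ := (ξ₁, ξ₂ + 2γτ)`.
RHS `=` (`rt_xd_c_tau`, `F q = f (κ q) Q q`) `∫_{τ>0} f (κ (ξ, ρ)) Q (ξ, ρ) |ξ|²/(4τ²)`, `ρ = |ξ|²/4τ`.   For `ξ ≠ 0`, `τ > 0` (a.e.: `lintegral_congr_ae`/`setLIntegral_congr_fun` off the null set `ξ = 0`): `ρ > 0`, `γ|ξ|²/(2ρ) = 2γτ`, so `(κ q).1 = Sξ`;  `|Sξ|² = |ξ|² Q` (`rt_xd_K_sq`), `(κ q).2 = ρ Q = |Sξ|²/4τ` (`rt_xd_K_rho`);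
`Q ≥ 0` (`Q = (1 + γA₂)² + γ²A₁²`): `ENNReal.ofReal_mul`. -/
theorem rt_xd_cov (γ : ℝ) (f : RdWvPar.Mo → ℝ≥0∞) (hf : Measurable f) :
    ∫⁻ q' in {q : RdWvPar.Mo | 0 < q.2}, f q' = ∫⁻ q in {q : RdWvPar.Mo | 0 < q.2}, f (rtXdK γ q) * ENNReal.ofReal (rtXdQ γ q) := by
  obtain ⟨hK, hQ⟩ := rt_xd_K_meas γ
  have hsq : Measurable (fun x : RdWvPar.Mo => rtSq x.1) := by
    unfold rtSq
    fun_prop
  have hF1 : Measurable (fun x : RdWvPar.Mo => f (x.1, rtSq x.1 / (4 * x.2)) * ENNReal.ofReal (rtSq x.1 / (4 * x.2 ^ 2))) := by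
    refine Measurable.mul (hf.comp ?_) (ENNReal.measurable_ofReal.comp ?_)
    · exact measurable_fst.prodMk (hsq.div (by fun_prop))
    · exact hsq.div (by fun_prop)
  have hF2 : Measurable (fun q : RdWvPar.Mo => f (rtXdK γ q) * ENNReal.ofReal (rtXdQ γ q)) :=
    (hf.comp hK).mul (ENNReal.measurable_ofReal.comp hQ)
  have hS : MeasurableSet {x : RdWvPar.Mo | 0 < x.2} := measurableSet_lt measurable_const measurable_snd
  rw [rt_xd_c_tau f hf, rt_xd_c_shear γ _ hF1, rt_xd_c_tau _ hF2]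
  refine lintegral_congr_ae ?_
  filter_upwards [ae_restrict_of_ae rt_xd_cov_ae, ae_restrict_mem hS] with x hx hx2
  obtain ⟨e1, e2⟩ := rt_xd_cov_pt γ x.1 x.2 hx hx2
  show f ((x.1.1, x.1.2 + 2 * γ * x.2), rtSq (x.1.1, x.1.2 + 2 * γ * x.2) / (4 * x.2)) * ENNReal.ofReal (rtSq (x.1.1, x.1.2 + 2 * γ * x.2) / (4 * x.2 ^ 2))
    = f (rtXdK γ (x.1, rtSq x.1 / (4 * x.2))) * ENNReal.ofReal (rtXdQ γ (x.1, rtSq x.1 / (4 * x.2))) * ENNReal.ofReal (rtSq x.1 / (4 * x.2 ^ 2))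
  rw [e1, mul_assoc (f _), ← ENNReal.ofReal_mul (rt_xd_Q_nonneg γ _), e2]

/-- **LEAF L-256-XD-C6: the Bochner form.**
PLAN.  `μ = (volume.restrict {0 < q.2}).withDensity (ofReal ∘ Q)`;  `rt_xd_cov` on indicators gives `Measure.map κ μ = volume.restrict {0 < q.2}` (`Measure.ext`, `Measure.map_apply`, `lintegral_indicator_one`, `withDensity_apply`/`lintegral_withDensity_eq_lintegral_mul`);
`integral_map` (`hg.aestronglyMeasurable`), `integral_withDensity_eq_integral_toReal_smul` (or `integral_withDensity_eq_integral_smul` with `Real.toNNReal`), `ENNReal.toReal_ofReal` (`Q ≥ 0`), `Complex.real_smul`. -/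
theorem rt_xd_cov_int (γ : ℝ) (g : RdWvPar.Mo → ℂ) (hg : Measurable g) :
    ∫ q' in {q : RdWvPar.Mo | 0 < q.2}, g q' = ∫ q in {q : RdWvPar.Mo | 0 < q.2}, ((rtXdQ γ q : ℝ) : ℂ) * g (rtXdK γ q) := by
  obtain ⟨hK, hQ⟩ := rt_xd_K_meas γ
  have hd : Measurable (fun q : RdWvPar.Mo => ENNReal.ofReal (rtXdQ γ q)) := ENNReal.measurable_ofReal.comp hQ
  have hmap : Measure.map (rtXdK γ) (((volume : Measure RdWvPar.Mo).restrict {q : RdWvPar.Mo | 0 < q.2}).withDensity fun q => ENNReal.ofReal (rtXdQ γ q))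
      = (volume : Measure RdWvPar.Mo).restrict {q : RdWvPar.Mo | 0 < q.2} := by
    refine Measure.ext fun A hA => ?_
    rw [Measure.map_apply hK hA, withDensity_apply _ (hK hA), ← lintegral_indicator (hK hA), ← lintegral_indicator_one hA,
      rt_xd_cov γ (A.indicator 1) (measurable_one.indicator hA)]
    refine lintegral_congr fun q => ?_
    by_cases hq : rtXdK γ q ∈ A
    · rw [Set.indicator_of_mem (show q ∈ rtXdK γ ⁻¹' A from hq), Set.indicator_of_mem hq, Pi.one_apply, one_mul]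
    · rw [Set.indicator_of_notMem (show q ∉ rtXdK γ ⁻¹' A from hq), Set.indicator_of_notMem hq, zero_mul]
  conv_lhs => rw [← hmap]
  rw [integral_map hK.aemeasurable hg.aestronglyMeasurable,
    integral_withDensity_eq_integral_toReal_smul hd (Filter.Eventually.of_forall fun q => ENNReal.ofReal_lt_top)]
  refine integral_congr_ae (Filter.Eventually.of_forall fun q => ?_)
  show (ENNReal.ofReal (rtXdQ γ q)).toReal • g (rtXdK γ q) = ((rtXdQ γ q : ℝ) : ℂ) * g (rtXdK γ q)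
  rw [ENNReal.toReal_ofReal (rt_xd_Q_nonneg γ q), Complex.real_smul]

/-! ## 2. Algebra of the angles -/

/-- **LEAF L-256-XD-A1.**  unfold, `field_simp`, `ring`.   (`rtSq (c • v) = c² rtSq v`.) -/
theorem rt_xd_Q_D (γ : ℝ) (q : RdWvPar.Mo) (hq : q.2 ≠ 0) : rtXdQ γ q = rtXdD γ ((2 * q.2)⁻¹ • q.1) := by
  simp only [rtXdQ, rtXdD, rtSq, Prod.smul_fst, Prod.smul_snd, smul_eq_mul]
  field_simp
  ring

/-- **LEAF L-256-XD-A1.**  `(κ q).2 = ρ Q` (`rt_xd_K_rho`);  componentwise `field_simp`, `ring`. -/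
theorem rt_xd_K_ang (γ : ℝ) (q : RdWvPar.Mo) (hq : q.2 ≠ 0) (hQ : rtXdQ γ q ≠ 0) :
    (2 * (rtXdK γ q).2)⁻¹ • (rtXdK γ q).1 = rtXdA γ ((2 * q.2)⁻¹ • q.1) := by
  have h2 : (rtXdK γ q).2 = q.2 * rtXdQ γ q := rt_xd_K_rho γ q hq
  have hD : rtXdD γ ((2 * q.2)⁻¹ • q.1) = rtXdQ γ q := (rt_xd_Q_D γ q hq).symm
  unfold rtXdA
  rw [hD, h2]
  obtain ⟨Q, hQe⟩ : ∃ Q, Q = rtXdQ γ q := ⟨_, rfl⟩
  rw [← hQe] at hQ ⊢
  ext
  · simp only [rtXdK, Prod.smul_fst, smul_eq_mul]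
    field_simp
  · simp only [rtXdK, rtSq, Prod.smul_snd, Prod.smul_fst, smul_eq_mul]
    field_simp

/-- **LEAF L-256-XD-A1.**  `Q_{-γ}(κ q) = ρ/ρ'`:  `rt_xd_K_inv` + `rt_xd_K_rho` twice (or direct `field_simp`). -/
theorem rt_xd_Q_inv (γ : ℝ) (q : RdWvPar.Mo) (hq : q.2 ≠ 0) (hQ : rtXdQ γ q ≠ 0) : rtXdQ (-γ) (rtXdK γ q) * rtXdQ γ q = 1 := by
  have h2 : (rtXdK γ q).2 = q.2 * rtXdQ γ q := rt_xd_K_rho γ q hq
  have h2' : (rtXdK γ q).2 ≠ 0 := by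
    rw [h2]
    exact mul_ne_zero hq hQ
  have h3 := rt_xd_K_rho (-γ) (rtXdK γ q) h2'
  rw [rt_xd_K_inv γ q hq hQ, h2] at h3
  refine mul_left_cancel₀ hq ?_
  rw [mul_one]
  calc q.2 * (rtXdQ (-γ) (rtXdK γ q) * rtXdQ γ q) = q.2 * rtXdQ γ q * rtXdQ (-γ) (rtXdK γ q) := by ring
    _ = q.2 := h3.symm

/-- **LEAF L-256-XD-A2.**  `D = (1 + γA₂)² + γ²A₁²`, `|γ A_i| ≤ 2a`;  upper bound: `D ≤ 1 + 2·2a + 4a²`. -/
theorem rt_xd_D_bd (γ a : ℝ) (A : ℝ × ℝ) (hγ : |γ| ≤ 2) (ha0 : 0 ≤ a) (ha : a ≤ 1 / 4) (hA : rtSq A ≤ a ^ 2) :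
    (1 - 2 * a) ^ 2 ≤ rtXdD γ A ∧ rtXdD γ A ≤ (1 + 2 * a) ^ 2 := by
  obtain ⟨x, y⟩ := A
  simp only [rtSq, rtXdD] at hA ⊢
  have hg : γ ^ 2 ≤ 4 := by
    have := pow_le_pow_left₀ (abs_nonneg γ) hγ 2
    rw [sq_abs] at this
    linarith
  have hy : y ^ 2 ≤ a ^ 2 := by nlinarith [sq_nonneg x]
  have hu2 : (γ * y) ^ 2 ≤ (2 * a) ^ 2 := by
    rw [mul_pow, mul_pow]
    have := mul_le_mul hg hy (sq_nonneg y) (by norm_num : (0 : ℝ) ≤ 4)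
    linarith
  obtain ⟨u1, u2⟩ := abs_le_of_sq_le_sq' hu2 (by linarith)
  have hr : γ ^ 2 * (x ^ 2 + y ^ 2) ≤ 4 * a ^ 2 := by
    have := mul_le_mul hg hA (by positivity) (by norm_num : (0 : ℝ) ≤ 4)
    linarith
  constructor
  · have e : 1 + 2 * γ * y + γ ^ 2 * (x ^ 2 + y ^ 2) = (1 + γ * y) ^ 2 + (γ * x) ^ 2 := by ring
    rw [e]
    have h1 : (1 - 2 * a) ^ 2 ≤ (1 + γ * y) ^ 2 := pow_le_pow_left₀ (by linarith) (by linarith) 2
    nlinarith [sq_nonneg (γ * x)]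
  · nlinarith

/-- **LEAF L-256-XD-A2: the two-point identity, the norm, the inverse.**   `field_simp`, `ring`. -/
theorem rt_xd_two (γ : ℝ) (A B : ℝ × ℝ) (hA : rtXdD γ A ≠ 0) (hB : rtXdD γ B ≠ 0) :
    rtSq (A - B) = rtXdD γ A * rtXdD γ B * rtSq (rtXdA γ A - rtXdA γ B) ∧ rtSq A = rtXdD γ A * rtSq (rtXdA γ A) ∧
      rtXdD (-γ) (rtXdA γ A) * rtXdD γ A = 1 ∧ rtXdA (-γ) (rtXdA γ A) = A := by
  obtain ⟨x, y⟩ := A
  obtain ⟨z, w⟩ := B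
  obtain ⟨d, hd⟩ : ∃ d, d = rtXdD γ (x, y) := ⟨_, rfl⟩
  obtain ⟨e, he⟩ : ∃ e, e = rtXdD γ (z, w) := ⟨_, rfl⟩
  have hd' : d = 1 + 2 * γ * y + γ ^ 2 * (x ^ 2 + y ^ 2) := hd
  have he' : e = 1 + 2 * γ * w + γ ^ 2 * (z ^ 2 + w ^ 2) := he
  have hA' : rtXdA γ (x, y) = (x / d, (y + γ * (x ^ 2 + y ^ 2)) / d) := by rw [hd]; rfl
  have hB' : rtXdA γ (z, w) = (z / e, (w + γ * (z ^ 2 + w ^ 2)) / e) := by rw [he]; rfl
  rw [← hd] at hA
  rw [← he] at hB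
  rw [hA', hB', ← hd, ← he]
  have h3 : rtXdD (-γ) (x / d, (y + γ * (x ^ 2 + y ^ 2)) / d) * d = 1 := by
    simp only [rtXdD, rtSq]
    field_simp
    rw [hd']
    ring
  refine ⟨?_, ?_, h3, ?_⟩
  · simp only [rtSq, Prod.fst_sub, Prod.snd_sub]
    field_simp
    rw [hd', he']
    ring
  · simp only [rtSq]
    field_simp
    rw [hd']
    ring
  · have h4 : rtXdD (-γ) (x / d, (y + γ * (x ^ 2 + y ^ 2)) / d) = 1 / d := by
      rw [eq_div_iff hA]; exact h3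
    unfold rtXdA
    rw [h4]
    simp only [rtSq]
    ext
    · simp only
      field_simp
    · simp only
      field_simp
      rw [hd']
      ring

end Claimed.Agent.R256
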