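-- KEEP
import Claimed.Agent.R256.Rt.XdCov
import Claimed.Agent.R256.Re.SecRow

/-!
# Row 256, folder Rt, block I1, unit XD (dual boost arrow), file 2: DEFINITIONS AND GEOMETRY            (unit architect helper290; prefix `rt_xd_`)            CONTRACT
PAPER-FREE: exact identities and elementary inequalities.   Every `sorry` is a leaf `L-256-XD-*` (name in the docstring).   Statements FROZEN; auxiliary lemmas directly above your theorem, prefix `rt_xd_`; edit only your block.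
ROUTE OF THE ARROW (no new oscillatory estimate, no distorted window, no derivative of the chart):
 (a) the EXACT transport `E = rtXdE γ`: `(E G)(κ q) = G q/Q(q)`;   FIELD IDENTITY `reFld T' (E G) z' = reFld te G ze`, `(te, ze) = DB_{-γ}(T', z') = (rtXdT γ T' z', rtXdZ γ z')`   (`rt_xd_fld`).
 (b) new rows from the new field at the same time (`re_sp_F1`, lag `0`);   the new window at `A'` only sees the piece `secG S G`, `S = rtXdS H k γ A'` (`rt_xd_loc`: EXACT angular support);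
 (c) the old field of the piece is the superposition of the old rows with angle in `S` (`re_sc_F2S`);   absolute values, kernel majorant `re_sc_kb`.
 (d) the convolution of the two majorants along the tilted slice is `≤` ONE majorant `rtXdM` at the old event (`rt_xd_maj`: Peetre + `rt_xd_core`: the boost maps the new packet core into the old one).
 (e) Schur sums (`XdSum.lean`), `rt_xa_ker` (`XdMain.lean`).
NOTATION.  `ℓ = rdLen k`, `d = rdD H k`, `q = rdQ H k`, `d q = H`, `q = d ℓ`, `H = d² ℓ` (`re_sp_dq`).   `‖·‖` on `ReSp = (ℝ × ℝ) × ℝ` is the sup norm of the three coordinates.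
-/

set_option autoImplicit false

namespace Claimed.Agent.R256

open MeasureTheory
open scoped ENNReal

/-- the old time of the new event `(T', z')` -/
def rtXdT (γ T' : ℝ) (z' : ReSp) : ℝ := T' - 2 * γ * z'.1.2 + γ ^ 2 * z'.2

/-- the old position of a new event -/
def rtXdZ (γ : ℝ) (z' : ReSp) : ReSp := ((z'.1.1, z'.1.2 - γ * z'.2), z'.2)

/-- the old root angles seen by the new window at `A'` -/
def rtXdS (H : ℝ) (k : ℕ) (γ : ℝ) (A' : ℝ × ℝ) : Set (ℝ × ℝ) := {A | rtSq A ≤ (3 / 25) ^ 2 ∧ rtSq (rtXdA γ A - A') ≤ 16 * rdD H k ^ 2}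

/-- the normalised displacement between the old event of the new row `x'` (time `T'`) and the old row `x` (time `T`) -/
noncomputable def rtXdY (H : ℝ) (k : ℕ) (γ T' T : ℝ) (x' x : RdWvPar.Ph) : ReSp := reZ H k x.1 (rtXdT γ T' x'.2 - T) (rtXdZ γ x'.2 - x.2)

/-- **the majorant** -/
noncomputable def rtXdM (H : ℝ) (k : ℕ) (γ : ℝ) (N : ℕ) (T' T : ℝ) (x' x : RdWvPar.Ph) : ℝ :=
  open Classical in
  if x.1 ∈ rtXdS H k γ x'.1 then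
    (1 + |rtXdT γ T' x'.2 - T| / rdLen k) ^ N * (rdQ H k ^ 2 * H)⁻¹ * (1 + ‖rtXdY H k γ T' T x' x‖) ^ (-(N : ℝ))
  else 0

theorem rt_xd_geo_eqns_cite : True := by
  have := @rtXdT.eq_1
  have := @rtXdZ.eq_1
  have := @rtXdS.eq_1
  have := @rtXdY.eq_1
  have := @rtXdM.eq_1
  trivial

/-! ## 1. Linear algebra -/

/-- **LEAF L-256-XD-G1.**  `reZ` is additive in `(s, w)`;  `rtXdT`, `rtXdZ` are affine/linear.   unfold, `Prod.ext`, `simp`, `ring`. -/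
theorem rt_xd_lin (H : ℝ) (k : ℕ) (γ : ℝ) (A : ℝ × ℝ) (s s' T' : ℝ) (w w' : ReSp) :
    reZ H k A (s - s') (w - w') = reZ H k A s w - reZ H k A s' w' ∧ rtXdT γ T' (w - w') = rtXdT γ T' w - rtXdT γ 0 w' ∧ rtXdZ γ (w - w') = rtXdZ γ w - rtXdZ γ w' := by
  obtain ⟨⟨w1, w2⟩, w3⟩ := w
  obtain ⟨⟨u1, u2⟩, u3⟩ := w'
  obtain ⟨a1, a2⟩ := A
  refine ⟨?_, ?_, ?_⟩
  · simp only [reZ, rtIp, rtSq, Prod.mk_sub_mk, Prod.smul_mk, smul_eq_mul, Prod.mk.injEq]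
    refine ⟨⟨by ring, by ring⟩, by ring⟩
  · simp only [rtXdT, Prod.mk_sub_mk]
    ring
  · simp only [rtXdZ, Prod.mk_sub_mk, Prod.mk.injEq]
    refine ⟨⟨trivial, by ring⟩, trivial⟩

/-- **LEAF L-256-XD-G1: invariance of the null pairing.**   `δy - 2A·δb + δt|A|² = D(A) (v_y - 2 κ_A(A)·v_b)` for `(δt, δb, δy) = DB_{-γ}(0, v)`.   unfold, `field_simp`, `ring`. -/
theorem rt_xd_null (γ : ℝ) (A : ℝ × ℝ) (v : ReSp) (hD : rtXdD γ A ≠ 0) :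
    (rtXdZ γ v).2 - 2 * rtIp A (rtXdZ γ v).1 + rtXdT γ 0 v * rtSq A = rtXdD γ A * (v.2 - 2 * rtIp (rtXdA γ A) v.1) := by
  obtain ⟨⟨v1, v2⟩, v3⟩ := v
  obtain ⟨a1, a2⟩ := A
  obtain ⟨d, hd⟩ : ∃ d, d = rtXdD γ (a1, a2) := ⟨_, rfl⟩
  have hd' : d = 1 + 2 * γ * a2 + γ ^ 2 * (a1 ^ 2 + a2 ^ 2) := hd
  simp only [rtXdZ, rtXdT, rtIp, rtSq, rtXdA]
  rw [← hd] at hD ⊢
  have e : d * (v3 - 2 * (a1 / d * v1 + (a2 + γ * (a1 ^ 2 + a2 ^ 2)) / d * v2)) = d * v3 - 2 * (a1 * v1 + (a2 + γ * (a1 ^ 2 + a2 ^ 2)) * v2) := by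
    field_simp
  rw [e, hd']
  ring

/-- coordinates and the sup norm of `ReSp` -/
theorem rt_xd_coord (z : ReSp) : |z.1.1| ≤ ‖z‖ ∧ |z.1.2| ≤ ‖z‖ ∧ |z.2| ≤ ‖z‖ := by
  obtain ⟨⟨z1, z2⟩, z3⟩ := z
  simp only [Prod.norm_def, Real.norm_eq_abs]
  refine ⟨?_, ?_, ?_⟩
  · exact (le_max_left _ _).trans (le_max_left _ _)
  · exact (le_max_right _ _).trans (le_max_left _ _)
  · exact le_max_right _ _

theorem rt_xd_norm_le (z : ReSp) (c : ℝ) (h1 : |z.1.1| ≤ c) (h2 : |z.1.2| ≤ c) (h3 : |z.2| ≤ c) : ‖z‖ ≤ c := by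
  obtain ⟨⟨z1, z2⟩, z3⟩ := z
  simp only [Prod.norm_def, Real.norm_eq_abs]
  exact max_le (max_le h1 h2) h3

theorem rt_xd_sq_coord (u : ℝ × ℝ) (c : ℝ) (hc : 0 ≤ c) (h : rtSq u ≤ c ^ 2) : |u.1| ≤ c ∧ |u.2| ≤ c := by
  unfold rtSq at h
  constructor
  · exact abs_le_of_sq_le_sq (by nlinarith [sq_nonneg u.2]) hc
  · exact abs_le_of_sq_le_sq (by nlinarith [sq_nonneg u.1]) hc

/-- the scalar inequalities of `rt_xd_core` -/
theorem rt_xd_core_aux (M d D γ v1 v2 vy x1 x2 b1 b2 κ1 κ2 δ : ℝ) (hM0 : 0 ≤ M) (hd0 : 0 < d) (hd : d ≤ 1 / 100) (hγ : |γ| ≤ 2)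
    (_hDpos : 0 < D) (hDhi : D ≤ (1 + 2 * (3 / 25)) ^ 2) (k1 : |κ1| ≤ 3 / 19) (k2 : |κ2| ≤ 3 / 19) (e1 : |κ1 - b1| ≤ 4 * d) (e2 : |κ2 - b2| ≤ 4 * d)
    (a1 : |x1| ≤ 3 / 25) (a2 : |x2| ≤ 3 / 25) (h1 : |v1| ≤ M) (h2 : |v2| ≤ M) (h3 : |vy - 2 * (b1 * v1 + b2 * v2)| ≤ d * M)
    (hδ' : δ = 0 - 2 * γ * v2 + γ ^ 2 * vy) :
    |v1 - δ * x1| ≤ 4 * M ∧ |v2 - γ * vy - δ * x2| ≤ 4 * M ∧ D * |vy - 2 * (κ1 * v1 + κ2 * v2)| ≤ 28 * (d * M) ∧ |δ| ≤ 8 * M := by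
  have hdM : d * M ≤ M / 100 := by nlinarith
  have hdM0 : 0 ≤ d * M := mul_nonneg hd0.le hM0
  have hb1 : |b1| ≤ 1 / 5 := by
    have : b1 = κ1 - (κ1 - b1) := by ring
    rw [this]
    refine (abs_sub _ _).trans ?_
    have : (3 : ℝ) / 19 + 4 * (1 / 100) ≤ 1 / 5 := by norm_num
    linarith
  have hb2 : |b2| ≤ 1 / 5 := by
    have : b2 = κ2 - (κ2 - b2) := by ring
    rw [this]
    refine (abs_sub _ _).trans ?_
    have : (3 : ℝ) / 19 + 4 * (1 / 100) ≤ 1 / 5 := by norm_num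
    linarith
  have pm : ∀ (x y cx cy : ℝ), |x| ≤ cx → |y| ≤ cy → |x * y| ≤ cx * cy := fun x y cx cy hx hy => by
    rw [abs_mul]
    exact mul_le_mul hx hy (abs_nonneg _) ((abs_nonneg _).trans hx)
  have p1 := abs_le.1 (pm b1 v1 _ _ hb1 h1)
  have p2 := abs_le.1 (pm b2 v2 _ _ hb2 h2)
  have h3' := abs_le.1 h3
  have hvy : |vy| ≤ M := by
    rw [abs_le]
    constructor <;> linarith [p1.1, p1.2, p2.1, p2.2, h3'.1, h3'.2]
  have hg2 : |γ ^ 2| ≤ 4 := by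
    rw [abs_pow]
    calc |γ| ^ 2 ≤ 2 ^ 2 := pow_le_pow_left₀ (abs_nonneg _) hγ 2
      _ = 4 := by norm_num
  have g1 := abs_le.1 (pm γ v2 _ _ hγ h2)
  have g2 := abs_le.1 (pm (γ ^ 2) vy _ _ hg2 hvy)
  have g3 := abs_le.1 (pm γ vy _ _ hγ hvy)
  have hδb : |δ| ≤ 8 * M := by
    rw [abs_le, hδ']
    constructor <;> linarith [g1.1, g1.2, g2.1, g2.2]
  have t1 := abs_le.1 (pm δ x1 _ _ hδb a1)
  have t2 := abs_le.1 (pm δ x2 _ _ hδb a2)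
  have s1 := abs_le.1 (pm (κ1 - b1) v1 _ _ e1 h1)
  have s2 := abs_le.1 (pm (κ2 - b2) v2 _ _ e2 h2)
  have h1' := abs_le.1 h1
  have h2' := abs_le.1 h2
  refine ⟨?_, ?_, ?_, hδb⟩
  · rw [abs_le]
    constructor <;> linarith [h1'.1, h1'.2, t1.1, t1.2]
  · rw [abs_le]
    constructor <;> linarith [h2'.1, h2'.2, t2.1, t2.2, g3.1, g3.2]
  · have w1 : |vy - 2 * (κ1 * v1 + κ2 * v2)| ≤ 17 * (d * M) := by
      have e : vy - 2 * (κ1 * v1 + κ2 * v2) = (vy - 2 * (b1 * v1 + b2 * v2)) - 2 * ((κ1 - b1) * v1) - 2 * ((κ2 - b2) * v2) := by ring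
      rw [e, abs_le]
      constructor <;> linarith [h3'.1, h3'.2, s1.1, s1.2, s2.1, s2.2]
    have w2 : D * |vy - 2 * (κ1 * v1 + κ2 * v2)| ≤ (1 + 2 * (3 / 25)) ^ 2 * (17 * (d * M)) :=
      mul_le_mul hDhi w1 (abs_nonneg _) (by norm_num)
    refine w2.trans ?_
    have : ((1 : ℝ) + 2 * (3 / 25)) ^ 2 * 17 ≤ 28 := by norm_num
    calc (1 + 2 * (3 / 25)) ^ 2 * (17 * (d * M)) = ((1 + 2 * (3 / 25)) ^ 2 * 17) * (d * M) := by ring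
      _ ≤ 28 * (d * M) := mul_le_mul_of_nonneg_right this hdM0

/-- **LEAF L-256-XD-G2: the boost maps the core of the new packet into the core of the old one.**      `n = ‖reZ H k A' 0 v‖`: `|v_b i| ≤ q n`, `|v_y - 2A'·v_b| ≤ H n`.
PLAN.  `|κ_A A|² = |A|²/D ≤ (3/25)²/(19/25)²` (`rt_xd_two`, `rt_xd_D_bd` with `a = 3/25`), so `|A' i| ≤ 3/19 + 4d ≤ 1/5`.   `H = d q ≤ q/100`.   `|v_y| ≤ H n + 2 (|A'₁| + |A'₂|) q n ≤ q n`.
`δt = -2γ v_b₂ + γ² v_y`: `|δt| ≤ 8 q n ≤ ℓ n` (`q = dℓ`).   `δb = (v_b₁, v_b₂ - γ v_y)`: `|δb i| ≤ 3 q n`;  `|(δb - δt A) i| ≤ 3qn + 8qn·(3/25) ≤ 4 q n`.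
last coordinate: `rt_xd_null`, `D ≤ (31/25)² ≤ 8/5`, `v_y - 2κ_A A·v_b = (v_y - 2A'·v_b) - 2(κ_A A - A')·v_b`, `|(κ_A A - A') i| ≤ 4d`, `d q = H`:  `≤ (8/5)(H n + 16 d q n) ≤ 28 H n`. -/
theorem rt_xd_core (H : ℝ) (hH : 0 < H) (k : ℕ) (γ : ℝ) (hγ : |γ| ≤ 2) (hd : rdD H k ≤ 1 / 100) (A' A : ℝ × ℝ) (hA : A ∈ rtXdS H k γ A') (v : ReSp) :
    ‖reZ H k A (rtXdT γ 0 v) (rtXdZ γ v)‖ ≤ 28 * ‖reZ H k A' 0 v‖ ∧ |rtXdT γ 0 v| ≤ rdLen k * ‖reZ H k A' 0 v‖ := by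
  obtain ⟨hd0, hq0, hdq, -, -, hql⟩ := re_sp_dq H hH k
  have hl0 : 0 < rdLen k := rdLen_pos k
  obtain ⟨c1, c2, c3⟩ := rt_xd_coord (reZ H k A' 0 v)
  obtain ⟨n, hn⟩ : ∃ n, n = ‖reZ H k A' 0 v‖ := ⟨_, rfl⟩
  rw [← hn] at c1 c2 c3 ⊢
  have hn0 : 0 ≤ n := hn ▸ norm_nonneg _
  have hnull := rt_xd_null γ A v
  obtain ⟨hA1, hA2⟩ := hA
  obtain ⟨hDlo, hDhi⟩ := rt_xd_D_bd γ (3 / 25) A hγ (by norm_num) (by norm_num) hA1
  have hDpos : 0 < rtXdD γ A := lt_of_lt_of_le (by norm_num) hDlo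
  have htwo := (rt_xd_two γ A A hDpos.ne' hDpos.ne').2.1
  specialize hnull hDpos.ne'
  obtain ⟨q, hq⟩ : ∃ q, q = rdQ H k := ⟨_, rfl⟩
  obtain ⟨d, hdd⟩ : ∃ d, d = rdD H k := ⟨_, rfl⟩
  obtain ⟨l, hl⟩ : ∃ l, l = rdLen k := ⟨_, rfl⟩
  obtain ⟨D, hD⟩ : ∃ D, D = rtXdD γ A := ⟨_, rfl⟩
  obtain ⟨K, hK⟩ : ∃ K, K = rtXdA γ A := ⟨_, rfl⟩
  rw [← hD, ← hK] at hnull htwo
  rw [← hD] at hDlo hDhi hDpos
  rw [← hK, ← hdd] at hA2
  rw [← hdd] at hd hd0 hdq hql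
  rw [← hq] at hq0 hdq hql
  rw [← hl] at hl0 hql ⊢
  have hSK0 : 0 ≤ rtSq K := by unfold rtSq; positivity
  have hSK : rtSq K ≤ (3 / 19) ^ 2 := by nlinarith
  obtain ⟨k1, k2⟩ := rt_xd_sq_coord K (3 / 19) (by norm_num) hSK
  obtain ⟨e1, e2⟩ := rt_xd_sq_coord (K - A') (4 * d) (by positivity) (by rw [mul_pow]; norm_num; linarith)
  obtain ⟨a1, a2⟩ := rt_xd_sq_coord A (3 / 25) (by norm_num) hA1
  obtain ⟨⟨v1, v2⟩, vy⟩ := v
  obtain ⟨x1, x2⟩ := A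
  obtain ⟨b1, b2⟩ := A'
  obtain ⟨κ1, κ2⟩ := K
  simp only [Prod.mk_sub_mk] at e1 e2 k1 k2 a1 a2
  simp only [reZ, rtIp, rtSq, Prod.smul_mk, smul_eq_mul, Prod.mk_sub_mk, zero_mul, sub_zero, add_zero, ← hq] at c1 c2 c3
  obtain ⟨M, hM⟩ : ∃ M, M = q * n := ⟨_, rfl⟩
  have hM0 : 0 ≤ M := hM ▸ mul_nonneg hq0.le hn0
  have hdM : d * M = H * n := by rw [hM, ← mul_assoc, hdq]
  have h1 : |v1| ≤ M := by
    rw [abs_mul, abs_inv, abs_of_pos hq0, inv_mul_le_iff₀ hq0] at c1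
    rw [hM]; exact c1
  have h2 : |v2| ≤ M := by
    rw [abs_mul, abs_inv, abs_of_pos hq0, inv_mul_le_iff₀ hq0] at c2
    rw [hM]; exact c2
  have h3 : |vy - 2 * (b1 * v1 + b2 * v2)| ≤ d * M := by
    rw [abs_div, abs_of_pos hH, div_le_iff₀ hH] at c3
    rw [hdM, mul_comm H n]; exact c3
  obtain ⟨δ, hδ⟩ : ∃ δ, δ = rtXdT γ 0 ((v1, v2), vy) := ⟨_, rfl⟩
  have hδ' : δ = 0 - 2 * γ * v2 + γ ^ 2 * vy := hδ
  rw [← hδ] at hnull ⊢
  obtain ⟨r1, r2, r3, r4⟩ := rt_xd_core_aux M d D γ v1 v2 vy x1 x2 b1 b2 κ1 κ2 δ hM0 hd0 hd hγ hDpos hDhi k1 k2 e1 e2 a1 a2 h1 h2 h3 hδ'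
  have hM28 : 4 * M ≤ q * (28 * n) := by
    have : q * (28 * n) = 28 * M := by rw [hM]; ring
    rw [this]; linarith
  constructor
  · refine rt_xd_norm_le _ _ ?_ ?_ ?_
    · simp only [reZ, rtXdZ, Prod.smul_mk, smul_eq_mul, Prod.mk_sub_mk, ← hq]
      rw [abs_mul, abs_inv, abs_of_pos hq0, inv_mul_le_iff₀ hq0]
      exact r1.trans hM28
    · simp only [reZ, rtXdZ, Prod.smul_mk, smul_eq_mul, Prod.mk_sub_mk, ← hq]
      rw [abs_mul, abs_inv, abs_of_pos hq0, inv_mul_le_iff₀ hq0]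
      exact r2.trans hM28
    · show |((rtXdZ γ ((v1, v2), vy)).2 - 2 * rtIp (x1, x2) (rtXdZ γ ((v1, v2), vy)).1 + δ * rtSq (x1, x2)) / H| ≤ 28 * n
      rw [hnull, abs_div, abs_of_pos hH, div_le_iff₀ hH, abs_mul, abs_of_pos hDpos]
      refine le_trans r3 (le_of_eq ?_)
      rw [hdM]; ring
  · refine r4.trans ?_
    rw [hM, hql]
    have h0 : 0 ≤ l * n := mul_nonneg hl0.le hn0
    have : 8 * (l * d * n) = (8 * d) * (l * n) := by ring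
    rw [this]
    calc 8 * d * (l * n) ≤ 1 * (l * n) := mul_le_mul_of_nonneg_right (by linarith) h0
      _ = l * n := one_mul _

/-- **LEAF L-256-XD-G3: Peetre.**   `1 + ‖a‖ ≤ (1 + ‖a - b‖)(1 + ‖b‖)`;  `Real.rpow_neg`, `Real.rpow_natCast`, `inv_le_..`/`div_le_div`. -/
theorem rt_xd_peetre (N : ℕ) (a b : ReSp) : (1 + ‖a - b‖) ^ (-(N : ℝ)) ≤ (1 + ‖b‖) ^ N * (1 + ‖a‖) ^ (-(N : ℝ)) := by
  have ha : 0 < 1 + ‖a‖ := by positivity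
  have hb : 0 < 1 + ‖b‖ := by positivity
  have hab : 0 < 1 + ‖a - b‖ := by positivity
  have h1 : 1 + ‖a‖ ≤ (1 + ‖a - b‖) * (1 + ‖b‖) := by
    have : ‖a‖ ≤ ‖a - b‖ + ‖b‖ := by
      calc ‖a‖ = ‖(a - b) + b‖ := by rw [sub_add_cancel]
        _ ≤ _ := norm_add_le _ _
    nlinarith [norm_nonneg (a - b), norm_nonneg b]
  have h2 := pow_le_pow_left₀ ha.le h1 N
  rw [mul_pow] at h2
  rw [Real.rpow_neg hab.le, Real.rpow_neg ha.le, Real.rpow_natCast, Real.rpow_natCast, ← div_eq_mul_inv, le_div_iff₀ (by positivity),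
    inv_mul_le_iff₀ (by positivity)]
  exact h2

/-! ## 2. The sets `rtXdS` -/

/-- **LEAF L-256-XD-G4.**  `rtXdA γ` is measurable (quotients of polynomials);  `measurableSet_le`. -/
theorem rt_xd_S_meas (H : ℝ) (k : ℕ) (γ : ℝ) : MeasurableSet {P : (ℝ × ℝ) × (ℝ × ℝ) | P.2 ∈ rtXdS H k γ P.1} ∧ ∀ A', MeasurableSet (rtXdS H k γ A') := by
  have hD : Measurable (rtXdD γ) := by
    unfold rtXdD rtSq
    fun_prop
  have hA : Measurable (rtXdA γ) := by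
    unfold rtXdA
    refine Measurable.prodMk (measurable_fst.div hD) (Measurable.div ?_ hD)
    unfold rtSq
    fun_prop
  have hS : Measurable rtSq := by
    unfold rtSq
    fun_prop
  constructor
  · have : {P : (ℝ × ℝ) × (ℝ × ℝ) | P.2 ∈ rtXdS H k γ P.1} = {P | rtSq P.2 ≤ (3 / 25) ^ 2} ∩ {P | rtSq (rtXdA γ P.2 - P.1) ≤ 16 * rdD H k ^ 2} := rfl
    rw [this]
    exact (measurableSet_le (hS.comp measurable_snd) measurable_const).inter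
      (measurableSet_le (hS.comp ((hA.comp measurable_snd).sub measurable_fst)) measurable_const)
  · intro A'
    have : rtXdS H k γ A' = {A | rtSq A ≤ (3 / 25) ^ 2} ∩ {A | rtSq (rtXdA γ A - A') ≤ 16 * rdD H k ^ 2} := rfl
    rw [this]
    exact (measurableSet_le hS measurable_const).inter (measurableSet_le (hS.comp (hA.sub measurable_const)) measurable_const)

/-- **LEAF L-256-XD-G5: everything the new window sees.**      (`a` = angle of a frequency of the state, `|a| ≤ 1/10`; `Ao` = root angle within `√2 d` of it.)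
PLAN.  `√(rtSq Ao) ≤ 1/10 + √2 d ≤ 3/25`.   `D a ≥ (4/5)²`, `D Ao ≥ (19/25)²` (`rt_xd_D_bd`), `rt_xd_two`: `rtSq (κa - κAo) = rtSq (a - Ao)/(D D) < 2d²/(0.36) ≤ 5.6 d²`.   `rtSq (u + v) ≤ 2 rtSq u + 2 rtSq v`:  `rtSq (κAo - A') ≤ 2·5.6 d² + 2·2 d² ≤ 16 d²`. -/
theorem rt_xd_S_mem (H : ℝ) (k : ℕ) (γ : ℝ) (hγ : |γ| ≤ 2) (hd0 : 0 < rdD H k) (hd : rdD H k ≤ 1 / 100) (A' a Ao : ℝ × ℝ) (ha : rtSq a ≤ (1 / 10) ^ 2)
    (h1 : rtSq (rtXdA γ a - A') < 2 * rdD H k ^ 2) (h2 : rtSq (a - Ao) < 2 * rdD H k ^ 2) : Ao ∈ rtXdS H k γ A' := by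
  obtain ⟨d, hdd⟩ : ∃ d, d = rdD H k := ⟨_, rfl⟩
  unfold rtXdS
  rw [← hdd] at hd0 hd h1 h2 ⊢
  have hd2 : d ^ 2 ≤ 1 / 10000 := by nlinarith
  have hAo : rtSq Ao ≤ (3 / 25) ^ 2 := by
    simp only [rtSq, Prod.fst_sub, Prod.snd_sub] at ha h2 ⊢
    nlinarith [sq_nonneg (a.1 - 5 * (Ao.1 - a.1)), sq_nonneg (a.2 - 5 * (Ao.2 - a.2))]
  refine ⟨hAo, ?_⟩
  have b1 := (rt_xd_D_bd γ (1 / 10) a hγ (by norm_num) (by norm_num) ha).1
  have b2 := (rt_xd_D_bd γ (3 / 25) Ao hγ (by norm_num) (by norm_num) hAo).1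
  have p1 : 0 < rtXdD γ a := lt_of_lt_of_le (by norm_num) b1
  have p2 : 0 < rtXdD γ Ao := lt_of_lt_of_le (by norm_num) b2
  have e := (rt_xd_two γ a Ao p1.ne' p2.ne').1
  have hnn : 0 ≤ rtSq (rtXdA γ a - rtXdA γ Ao) := by
    unfold rtSq
    positivity
  have hprod : (9 / 25 : ℝ) ≤ rtXdD γ a * rtXdD γ Ao := by
    calc (9 / 25 : ℝ) ≤ (1 - 2 * (1 / 10)) ^ 2 * (1 - 2 * (3 / 25)) ^ 2 := by norm_num
      _ ≤ rtXdD γ a * rtXdD γ Ao := mul_le_mul b1 b2 (by positivity) p1.le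
  have h3 : 9 / 25 * rtSq (rtXdA γ a - rtXdA γ Ao) < 2 * d ^ 2 := by
    calc 9 / 25 * rtSq (rtXdA γ a - rtXdA γ Ao) ≤ rtXdD γ a * rtXdD γ Ao * rtSq (rtXdA γ a - rtXdA γ Ao) := mul_le_mul_of_nonneg_right hprod hnn
      _ = rtSq (a - Ao) := e.symm
      _ < 2 * d ^ 2 := h2
  obtain ⟨u, hu⟩ : ∃ u, u = rtXdA γ a := ⟨_, rfl⟩
  obtain ⟨w, hw⟩ : ∃ w, w = rtXdA γ Ao := ⟨_, rfl⟩
  rw [← hu] at h1 h3
  rw [← hw] at h3 ⊢
  simp only [rtSq, Prod.fst_sub, Prod.snd_sub] at h1 h3 ⊢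
  nlinarith [sq_nonneg ((w.1 - u.1) - (u.1 - A'.1)), sq_nonneg ((w.2 - u.2) - (u.2 - A'.2))]

/-- a planar set in a disc lies in a square -/
theorem rt_xd_sq_vol (c : ℝ × ℝ) (ρ : ℝ) (hρ : 0 ≤ ρ) (S : Set (ℝ × ℝ)) (h : ∀ A ∈ S, rtSq (A - c) ≤ ρ ^ 2) :
    volume S ≤ ENNReal.ofReal ((2 * ρ) ^ 2) := by
  have hsub : S ⊆ Set.Icc (c.1 - ρ) (c.1 + ρ) ×ˢ Set.Icc (c.2 - ρ) (c.2 + ρ) := by
    intro A hA
    have h1 := h A hA
    simp only [rtSq, Prod.fst_sub, Prod.snd_sub] at h1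
    obtain ⟨a1, a2⟩ := abs_le_of_sq_le_sq' (show (A.1 - c.1) ^ 2 ≤ ρ ^ 2 by nlinarith [sq_nonneg (A.2 - c.2)]) hρ
    obtain ⟨b1, b2⟩ := abs_le_of_sq_le_sq' (show (A.2 - c.2) ^ 2 ≤ ρ ^ 2 by nlinarith [sq_nonneg (A.1 - c.1)]) hρ
    exact ⟨⟨by linarith, by linarith⟩, ⟨by linarith, by linarith⟩⟩
  refine (measure_mono hsub).trans (le_of_eq ?_)
  rw [Measure.volume_eq_prod, Measure.prod_prod, Real.volume_Icc, Real.volume_Icc, ← ENNReal.ofReal_mul (by linarith)]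
  congr 1
  ring

/-- **LEAF L-256-XD-G6: volumes.**   (1) Empty set: trivial.   Fix `A₁ ∈ S`; for `A ∈ S`: `rtSq (κA - κA₁) ≤ 2·16d² + 2·16d² = 64 d²`, `rt_xd_two`, `D ≤ 8/5`: `rtSq (A - A₁) ≤ 164 d²`, so `|A i - A₁ i| ≤ 13 d`: `S ⊆ Icc`, volume `(26 d)²` (as `re_sc_cap_vol`).
(2) `{A' | A ∈ S(A')} ⊆ {A' | rtSq (A' - κA) ≤ 16 d²} ⊆` a square of side `8d`. -/
theorem rt_xd_S_vol (H : ℝ) (k : ℕ) (γ : ℝ) (hγ : |γ| ≤ 2) (hd0 : 0 < rdD H k) :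
    (∀ A', volume (rtXdS H k γ A') ≤ ENNReal.ofReal (700 * rdD H k ^ 2)) ∧ ∀ A, volume {A' | A ∈ rtXdS H k γ A'} ≤ ENNReal.ofReal (64 * rdD H k ^ 2) := by
  have hd := hd0.le
  constructor
  · intro A'
    rcases (rtXdS H k γ A').eq_empty_or_nonempty with he | ⟨A₁, hA₁⟩
    · rw [he, measure_empty]
      exact zero_le
    refine (rt_xd_sq_vol A₁ (13 * rdD H k) (by positivity) _ ?_).trans (ENNReal.ofReal_le_ofReal (by nlinarith [sq_nonneg (rdD H k)]))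
    rintro A ⟨hA, hA2⟩
    obtain ⟨hB, hB2⟩ := hA₁
    obtain ⟨d1, d2⟩ := rt_xd_D_bd γ (3 / 25) A hγ (by norm_num) (by norm_num) hA
    obtain ⟨e1, e2⟩ := rt_xd_D_bd γ (3 / 25) A₁ hγ (by norm_num) (by norm_num) hB
    have dp : 0 < rtXdD γ A := lt_of_lt_of_le (by norm_num) d1
    have ep : 0 < rtXdD γ A₁ := lt_of_lt_of_le (by norm_num) e1
    rw [(rt_xd_two γ A A₁ dp.ne' ep.ne').1]
    have h64 : rtSq (rtXdA γ A - rtXdA γ A₁) ≤ 64 * rdD H k ^ 2 := by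
      simp only [rtSq, Prod.fst_sub, Prod.snd_sub] at hA2 hB2 ⊢
      nlinarith [sq_nonneg ((rtXdA γ A).1 - A'.1 + ((rtXdA γ A₁).1 - A'.1)), sq_nonneg ((rtXdA γ A).2 - A'.2 + ((rtXdA γ A₁).2 - A'.2))]
    have hDD : rtXdD γ A * rtXdD γ A₁ ≤ 8 / 5 * (8 / 5) := mul_le_mul (d2.trans (by norm_num)) (e2.trans (by norm_num)) ep.le (by norm_num)
    have h0 : 0 ≤ rtSq (rtXdA γ A - rtXdA γ A₁) := by unfold rtSq; positivity
    calc rtXdD γ A * rtXdD γ A₁ * rtSq (rtXdA γ A - rtXdA γ A₁) ≤ 8 / 5 * (8 / 5) * (64 * rdD H k ^ 2) :=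
          mul_le_mul hDD h64 h0 (by norm_num)
      _ ≤ (13 * rdD H k) ^ 2 := by nlinarith [sq_nonneg (rdD H k)]
  · intro A
    refine (rt_xd_sq_vol (rtXdA γ A) (4 * rdD H k) (by positivity) _ ?_).trans (ENNReal.ofReal_le_ofReal (by nlinarith [sq_nonneg (rdD H k)]))
    rintro A' ⟨-, hA2⟩
    simp only [rtSq, Prod.fst_sub, Prod.snd_sub] at hA2 ⊢
    nlinarith

/-! ## 3. Times -/

/-- **LEAF L-256-XD-G7: the time relation.**   `Z = rtXdY .. = (X, Y)`, `u = te - T`, `τ(x) = T + 2γ b₂ + γ² y`:   `T' - τ(x) = u D(A) + 2γ q X₂ + 2γ² q A·X + γ² H Y`   (unfold; `q ≠ 0`, `H ≠ 0`: `field_simp`, `ring`).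
Hence, if `|u| ≤ ℓ`, `|A i| ≤ 3/25`, `q ≤ ℓ/100`, `H ≤ ℓ/100`:   `|T' - τ(x)| ≤ (8/5) ℓ + ℓ ‖Z‖`, i.e. `1 + |T' - τ|/ℓ ≤ 3 (1 + ‖Z‖)`. -/
theorem rt_xd_time (H : ℝ) (hH : 0 < H) (k : ℕ) (γ : ℝ) (hγ : |γ| ≤ 2) (hd : rdD H k ≤ 1 / 100) (T' T : ℝ) (x' x : RdWvPar.Ph) (hA : rtSq x.1 ≤ (3 / 25) ^ 2)
    (hu : |rtXdT γ T' x'.2 - T| ≤ rdLen k) :
    1 + |T' - (T + 2 * γ * x.2.1.2 + γ ^ 2 * x.2.2)| / rdLen k ≤ 3 * (1 + ‖rtXdY H k γ T' T x' x‖) := by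
  obtain ⟨hd0, hq0, hdq, hq2, hd2, hqd⟩ := re_sp_dq H hH k
  have hl := rdLen_pos k
  obtain ⟨A', ⟨b1', b2'⟩, y'⟩ := x'
  obtain ⟨⟨A1, A2⟩, ⟨b1, b2⟩, y⟩ := x
  set Z := rtXdY H k γ T' T (A', (b1', b2'), y') ((A1, A2), (b1, b2), y) with hZ
  set u := rtXdT γ T' ((b1', b2'), y') - T with hu'
  simp only at hA hu ⊢
  have hD := (rt_xd_D_bd γ (3 / 25) (A1, A2) hγ (by norm_num) (by norm_num) hA).2
  have hD0 := (rt_xd_D_bd γ (3 / 25) (A1, A2) hγ (by norm_num) (by norm_num) hA).1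
  -- the identity
  have id : T' - (T + 2 * γ * b2 + γ ^ 2 * y)
      = u * rtXdD γ (A1, A2) + 2 * γ * (rdQ H k * Z.1.2) + 2 * γ ^ 2 * (rdQ H k * (A1 * Z.1.1 + A2 * Z.1.2)) + γ ^ 2 * (H * Z.2) := by
    have z11 : rdQ H k * Z.1.1 = (b1' - b1) - u * A1 := by
      simp only [hZ, rtXdY, reZ, rtXdZ, Prod.fst_sub, Prod.snd_sub, Prod.smul_fst, Prod.smul_snd, smul_eq_mul, Prod.fst_smul]
      field_simp
      rw [hu']; ring
    have z12 : rdQ H k * Z.1.2 = (b2' - γ * y' - b2) - u * A2 := by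
      simp only [hZ, rtXdY, reZ, rtXdZ, Prod.fst_sub, Prod.snd_sub, Prod.smul_fst, Prod.smul_snd, smul_eq_mul]
      field_simp
      rw [hu']; ring
    have z2 : H * Z.2 = (y' - y) - 2 * (A1 * (b1' - b1) + A2 * (b2' - γ * y' - b2)) + u * (A1 ^ 2 + A2 ^ 2) := by
      simp only [hZ, rtXdY, reZ, rtXdZ, rtIp, rtSq, Prod.fst_sub, Prod.snd_sub]
      field_simp
      rw [hu']; ring
    have e : rdQ H k * (A1 * Z.1.1 + A2 * Z.1.2) = A1 * (rdQ H k * Z.1.1) + A2 * (rdQ H k * Z.1.2) := by ring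
    rw [e, z11, z12, z2]
    simp only [hu', rtXdT, rtXdD, rtSq]
    ring
  have n11 : |Z.1.1| ≤ ‖Z‖ := ((norm_fst_le Z.1).trans (norm_fst_le Z))
  have n12 : |Z.1.2| ≤ ‖Z‖ := ((norm_snd_le Z.1).trans (norm_fst_le Z))
  have n2 : |Z.2| ≤ ‖Z‖ := norm_snd_le Z
  have hn := norm_nonneg Z
  have hg2 : γ ^ 2 ≤ 4 := by
    have := pow_le_pow_left₀ (abs_nonneg γ) hγ 2
    rw [sq_abs] at this
    linarith
  have hA1 : |A1| ≤ 3 / 25 := by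
    apply abs_le_of_sq_le_sq' _ (by norm_num) |> abs_le.2
    simp only [rtSq] at hA
    nlinarith [sq_nonneg A2]
  have hA2 : |A2| ≤ 3 / 25 := by
    apply abs_le_of_sq_le_sq' _ (by norm_num) |> abs_le.2
    simp only [rtSq] at hA
    nlinarith [sq_nonneg A1]
  have hq : rdQ H k ≤ rdLen k / 100 := by
    rw [hqd]
    nlinarith
  have hHl : H ≤ rdLen k / 100 := by
    rw [← hdq]
    nlinarith
  -- the four terms
  have t1 : |u * rtXdD γ (A1, A2)| ≤ 8 / 5 * rdLen k := by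
    rw [abs_mul, abs_of_nonneg (le_trans (by positivity) hD0)]
    calc |u| * rtXdD γ (A1, A2) ≤ rdLen k * (8 / 5) := mul_le_mul hu (hD.trans (by norm_num)) (le_trans (by positivity) hD0) hl.le
      _ = _ := by ring
  have t2 : |2 * γ * (rdQ H k * Z.1.2)| ≤ 4 * (rdLen k / 100 * ‖Z‖) := by
    rw [abs_mul, abs_mul, abs_mul, abs_of_pos hq0, abs_of_pos (by norm_num : (0 : ℝ) < 2)]
    have : rdQ H k * |Z.1.2| ≤ rdLen k / 100 * ‖Z‖ := mul_le_mul hq n12 (abs_nonneg _) (by positivity)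
    have h0 : 0 ≤ rdQ H k * |Z.1.2| := by positivity
    exact mul_le_mul (by linarith) this h0 (by norm_num)
  have t3 : |2 * γ ^ 2 * (rdQ H k * (A1 * Z.1.1 + A2 * Z.1.2))| ≤ 8 * (rdLen k / 100 * ‖Z‖) := by
    rw [abs_mul, abs_mul, abs_mul, abs_of_pos hq0, abs_of_pos (by norm_num : (0 : ℝ) < 2), abs_of_nonneg (sq_nonneg γ)]
    have a1 : |A1 * Z.1.1 + A2 * Z.1.2| ≤ ‖Z‖ := by
      refine (abs_add_le _ _).trans ?_
      rw [abs_mul, abs_mul]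
      have c1 : |A1| * |Z.1.1| ≤ 3 / 25 * ‖Z‖ := mul_le_mul hA1 n11 (abs_nonneg _) (by norm_num)
      have c2 : |A2| * |Z.1.2| ≤ 3 / 25 * ‖Z‖ := mul_le_mul hA2 n12 (abs_nonneg _) (by norm_num)
      linarith
    have : rdQ H k * |A1 * Z.1.1 + A2 * Z.1.2| ≤ rdLen k / 100 * ‖Z‖ := mul_le_mul hq a1 (abs_nonneg _) (by positivity)
    have h0 : 0 ≤ rdQ H k * |A1 * Z.1.1 + A2 * Z.1.2| := by positivity
    exact mul_le_mul (by linarith) this h0 (by norm_num)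
  have t4 : |γ ^ 2 * (H * Z.2)| ≤ 4 * (rdLen k / 100 * ‖Z‖) := by
    rw [abs_mul, abs_mul, abs_of_pos hH, abs_of_nonneg (sq_nonneg γ)]
    have : H * |Z.2| ≤ rdLen k / 100 * ‖Z‖ := mul_le_mul hHl n2 (abs_nonneg _) (by positivity)
    have h0 : 0 ≤ H * |Z.2| := by positivity
    exact mul_le_mul hg2 this h0 (by norm_num)
  have tot : |T' - (T + 2 * γ * b2 + γ ^ 2 * y)| ≤ rdLen k * (8 / 5 + ‖Z‖) := by
    rw [id]
    have s1 := abs_add_le (u * rtXdD γ (A1, A2) + 2 * γ * (rdQ H k * Z.1.2) + 2 * γ ^ 2 * (rdQ H k * (A1 * Z.1.1 + A2 * Z.1.2))) (γ ^ 2 * (H * Z.2))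
    have s2 := abs_add_le (u * rtXdD γ (A1, A2) + 2 * γ * (rdQ H k * Z.1.2)) (2 * γ ^ 2 * (rdQ H k * (A1 * Z.1.1 + A2 * Z.1.2)))
    have s3 := abs_add_le (u * rtXdD γ (A1, A2)) (2 * γ * (rdQ H k * Z.1.2))
    have : 0 ≤ rdLen k * ‖Z‖ := by positivity
    linarith
  have : |T' - (T + 2 * γ * b2 + γ ^ 2 * y)| / rdLen k ≤ 8 / 5 + ‖Z‖ := by
    rw [div_le_iff₀ hl]
    linarith
  linarith

/-- the telescoping majorant of `rt_xd_lat` -/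
theorem rt_xd_lat_step (x : ℝ) : ((1 + |x|) ^ 2)⁻¹ ≤ 2 * ((x + 1) / (1 + |x + 1|) - x / (1 + |x|)) := by
  rcases le_or_gt 0 x with h0 | h0
  · rw [abs_of_nonneg h0, abs_of_nonneg (by linarith : (0 : ℝ) ≤ x + 1)]
    have e : 2 * ((x + 1) / (1 + (x + 1)) - x / (1 + x)) - ((1 + x) ^ 2)⁻¹ = x / ((1 + x) ^ 2 * (1 + (x + 1))) := by
      have h1 : (1 + x) ≠ 0 := by positivity
      have h2 : (1 + (x + 1)) ≠ 0 := by positivity
      field_simp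
      ring
    have : 0 ≤ x / ((1 + x) ^ 2 * (1 + (x + 1))) := by positivity
    linarith
  · rcases le_or_gt x (-1) with h1 | h1
    · rw [abs_of_neg h0, abs_of_nonpos (by linarith : x + 1 ≤ 0)]
      have p1 : 0 < -x := by linarith
      have p2 : 0 < 1 + -x := by linarith
      have p3 : 0 < 1 + -(x + 1) := by linarith
      have e : 2 * ((x + 1) / (1 + -(x + 1)) - x / (1 + -x)) - ((1 + -x) ^ 2)⁻¹ = (2 + -x) / ((1 + -x) ^ 2 * (1 + -(x + 1))) := by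
        field_simp
        ring
      have : 0 ≤ (2 + -x) / ((1 + -x) ^ 2 * (1 + -(x + 1))) := by
        have : 0 < 2 + -x := by linarith
        positivity
      linarith
    · rw [abs_of_neg h0, abs_of_pos (by linarith : 0 < x + 1)]
      have p2 : 0 < 1 + -x := by linarith
      have p3 : 0 < 1 + (x + 1) := by linarith
      have e : 2 * ((x + 1) / (1 + (x + 1)) - x / (1 + -x)) - ((1 + -x) ^ 2)⁻¹
          = (-x) * (7 - 4 * x ^ 2) / ((1 + -x) ^ 2 * (1 + (x + 1))) := by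
        field_simp
        ring
      have : 0 ≤ (-x) * (7 - 4 * x ^ 2) / ((1 + -x) ^ 2 * (1 + (x + 1))) := by
        have q1 : 0 < -x := by linarith
        have q2 : 0 < 7 - 4 * x ^ 2 := by nlinarith
        positivity
      linarith

theorem rt_xd_lat_bd (x : ℝ) : |x / (1 + |x|)| ≤ 1 := by
  have h : 0 < 1 + |x| := by positivity
  rw [abs_div, abs_of_pos h, div_le_one h]
  linarith

/-- **LEAF L-256-XD-G8: a lattice sum.**   Let `m = ⌊c⌋`.   For `j ≥ m + 1`: `1 + |j - c| ≥ j - m`;  for `j ≤ m`: `1 + |j - c| ≥ m + 1 - j`.   Each integer value `i ≥ 1` is attained at most twice;  `∑_{i=1}^{n} 1/i² ≤ 2` (`1/i² ≤ 1/(i-1) - 1/i`, telescoping; or `Finset.sum_range_..`/induction on `∑_{i<n} 1/(i+1)² ≤ 2 - 1/n`). -/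
theorem rt_xd_lat (c : ℝ) (n : ℕ) : ∑ j ∈ Finset.range n, ((1 + |(j : ℝ) - c|) ^ 2)⁻¹ ≤ 4 := by
  have h1 : ∑ j ∈ Finset.range n, ((1 + |(j : ℝ) - c|) ^ 2)⁻¹
      ≤ ∑ j ∈ Finset.range n, 2 * ((((j + 1 : ℕ) : ℝ) - c) / (1 + |((j + 1 : ℕ) : ℝ) - c|) - ((j : ℝ) - c) / (1 + |(j : ℝ) - c|)) := by
    refine Finset.sum_le_sum fun j _ => ?_
    have := rt_xd_lat_step ((j : ℝ) - c)
    have e : (j : ℝ) - c + 1 = ((j + 1 : ℕ) : ℝ) - c := by push_cast; ring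
    rwa [e] at this
  rw [← Finset.mul_sum, Finset.sum_range_sub (fun j : ℕ => ((j : ℝ) - c) / (1 + |(j : ℝ) - c|))] at h1
  have h2 := abs_le.1 (rt_xd_lat_bd ((n : ℝ) - c))
  have h3 := abs_le.1 (rt_xd_lat_bd (((0 : ℕ) : ℝ) - c))
  linarith [h2.2, h3.1]

/-- the linear form `λ(u) = 2γ u_b₂ + γ² u_y` -/
noncomputable def rtXdLam (γ : ℝ) : Module.Dual ℝ ReSp :=
  (2 * γ) • ((LinearMap.snd ℝ ℝ ℝ).comp (LinearMap.fst ℝ (ℝ × ℝ) ℝ)) + (γ ^ 2) • LinearMap.snd ℝ (ℝ × ℝ) ℝ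

theorem rt_xd_slice_lam (γ : ℝ) (u : ReSp) : rtXdLam γ u = 2 * γ * u.1.2 + γ ^ 2 * u.2 := by
  simp [rtXdLam]

theorem rt_xd_slice_eqns_cite : True := by
  have := @rtXdLam.eq_1
  trivial

/-- the rank one perturbation of the identity has the Jacobian `D(A)` -/
theorem rt_xd_slice_phi (γ : ℝ) (A : ℝ × ℝ) (hD : 0 < rtXdD γ A) (g : ReSp → ℝ≥0∞) (hg : Measurable g) :
    ∫⁻ u : ReSp, g (u + rtXdLam γ u • ((A, rtSq A) : ReSp)) = ENNReal.ofReal (rtXdD γ A)⁻¹ * ∫⁻ v, g v := by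
  have hh := re_sp_haar
  have hdet : LinearMap.det (LinearMap.transvection (rtXdLam γ) ((A, rtSq A) : ReSp)) = rtXdD γ A := by
    rw [LinearMap.transvection.det, rt_xd_slice_lam]
    unfold rtXdD
    ring
  have hmap := Measure.map_linearMap_addHaar_eq_smul_addHaar (volume : Measure ReSp)
    (f := LinearMap.transvection (rtXdLam γ) ((A, rtSq A) : ReSp)) (by rw [hdet]; exact hD.ne')
  rw [hdet, abs_of_pos (inv_pos.2 hD)] at hmap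
  have hmeas : Measurable (LinearMap.transvection (rtXdLam γ) ((A, rtSq A) : ReSp)) :=
    (LinearMap.continuous_of_finiteDimensional _).measurable
  have h1 := lintegral_map (μ := (volume : Measure ReSp)) hg hmeas
  rw [hmap, lintegral_smul_measure] at h1
  rw [smul_eq_mul] at h1
  rw [h1]
  rfl

/-- **LEAF L-256-XD-G9: the Jacobian of the tilted slice.**      `z' ↦ Z = reZ H k A (te(z') - T) (ze(z') - z₀)` is affine with determinant `D(A)/(q²H)`.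
PLAN.  (i) `z' ↦ ze = rtXdZ γ z'` is a measure preserving shear (Tonelli, translation in `b₂` at fixed `y`);  in terms of `w = ze`: `te = T' - 2γ w_b₂ - γ² w_y`.
(ii) `w ↦ w - z₀` translation.   (iii) with `s(w) = s₀ - λ(w)`, `λ(w) = 2γ w_b₂ + γ² w_y`: `reZ H k A (s₀ - λ w) w = reZ H k A s₀ (Φ w)`, `Φ w = w + λ(w) (A, |A|²)` (check: `reZ` is additive and `reZ H k A s (s • A, s |A|²) = reZ H k A 0 0 = 0`).   `re_sp_zjac` reduces to `∫⁻ f (Φ w) = (D A)⁻¹ ∫⁻ f`.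
(iv) `Φ (x₁, x₂, x₃) = (x₁ + A₁ λ, α x₂ + γ² A₂ x₃, 2γ|A|² x₂ + (1 + γ²|A|²) x₃)`, `α = 1 + 2γA₂ > 0`: integrate `x₁` first (translation), then `x₂ ↦ y₂ = α x₂ + ..` (`lintegral_comp_mul_left`-type, factor `1/α`), then `x₃ ↦ y₃ = (2γ|A|²/α) y₂ + (D/α) x₃` (factor `α/D`).
Tools: `rt_k_cov1` of `Rt/Ker.lean` (copy it: `∫⁻ g ((y - t)/c) = c ∫⁻ g`), `lintegral_add_right_eq_self`, `lintegral_lintegral_swap`, `Measure.volume_eq_prod`, `lintegral_prod`. -/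
theorem rt_xd_slice (H : ℝ) (hH : 0 < H) (k : ℕ) (γ : ℝ) (hγ : |γ| ≤ 2) (T' T : ℝ) (x : RdWvPar.Ph) (hA : rtSq x.1 ≤ (3 / 25) ^ 2) (f : ReSp → ℝ≥0∞) (hf : Measurable f) :
    ∫⁻ z' : ReSp, f (reZ H k x.1 (rtXdT γ T' z' - T) (rtXdZ γ z' - x.2)) = ENNReal.ofReal (rdQ H k ^ 2 * H / rtXdD γ x.1) * ∫⁻ Z, f Z := by
  have hh := re_sp_haar
  have hQ := (re_sp_dq H hH k).2.1
  have hD : 0 < rtXdD γ x.1 := by
    have := (rt_xd_D_bd γ (3 / 25) x.1 hγ (by norm_num) (by norm_num) hA).1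
    have h2 : (0 : ℝ) < (1 - 2 * (3 / 25)) ^ 2 := by norm_num
    linarith
  have hZm : ∀ s : ℝ, Measurable (reZ H k x.1 s) := fun s => by
    unfold reZ rtIp
    fun_prop
  -- step 1: the shear
  have hS := re_sp_shear2 (fun y => ((0 : ℝ), -(γ * y))) (by fun_prop)
  have hF : Measurable fun w : ReSp => f (reZ H k x.1 (T' - 2 * γ * w.1.2 - γ ^ 2 * w.2 - T) (w - x.2)) := by
    refine hf.comp ?_
    unfold reZ rtIp
    fun_prop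
  have e1 : ∫⁻ z' : ReSp, f (reZ H k x.1 (rtXdT γ T' z' - T) (rtXdZ γ z' - x.2))
      = ∫⁻ w : ReSp, f (reZ H k x.1 (T' - 2 * γ * w.1.2 - γ ^ 2 * w.2 - T) (w - x.2)) := by
    rw [← hS.lintegral_comp hF]
    refine lintegral_congr fun z' => ?_
    congr 2
    · simp only [rtXdT, Prod.snd_add]
      ring
    · congr 1
      simp only [rtXdZ]
      ext <;> simp [sub_eq_add_neg]
  -- step 2: the translation
  have e2 : ∫⁻ w : ReSp, f (reZ H k x.1 (T' - 2 * γ * w.1.2 - γ ^ 2 * w.2 - T) (w - x.2))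
      = ∫⁻ u : ReSp, f (reZ H k x.1 (T' - T - 2 * γ * x.2.1.2 - γ ^ 2 * x.2.2) (u + rtXdLam γ u • ((x.1, rtSq x.1) : ReSp))) := by
    rw [← lintegral_add_right_eq_self (μ := (volume : Measure ReSp)) _ x.2]
    refine lintegral_congr fun u => ?_
    congr 1
    rw [rt_xd_slice_lam]
    obtain ⟨⟨u1, u2⟩, u3⟩ := u
    obtain ⟨⟨A1, A2⟩, ⟨z1, z2⟩, z3⟩ := x
    simp only [reZ, rtIp, rtSq, add_sub_cancel_right, Prod.mk_add_mk, Prod.mk_sub_mk, Prod.smul_mk, smul_eq_mul]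
    refine Prod.ext (Prod.ext ?_ ?_) ?_
    · show (rdQ H k)⁻¹ * _ = (rdQ H k)⁻¹ * _
      congr 1
      ring
    · show (rdQ H k)⁻¹ * _ = (rdQ H k)⁻¹ * _
      congr 1
      ring
    · show _ / H = _ / H
      congr 1
      ring
  rw [e1, e2, rt_xd_slice_phi γ x.1 hD (fun v => f (reZ H k x.1 (T' - T - 2 * γ * x.2.1.2 - γ ^ 2 * x.2.2) v)) (hf.comp (hZm _)),
    re_sp_zjac H hH k, ← mul_assoc, ← ENNReal.ofReal_mul (inv_pos.2 hD).le]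
  congr 2
  field_simp

end Claimed.Agent.R256
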