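-- KEEP
import Claimed.Agent.R256.Rt.XdGeo

/-!
# Row 256, folder Rt, block I1, unit XD (dual boost arrow), file 3: EXACT TRANSPORT, FIELD IDENTITY, KERNEL DOMINATION            (unit architect helper290; prefix `rt_xd_`)            CONTRACT
Route: header of `Rt/XdGeo.lean`.   Every `sorry` is a leaf `L-256-XD-*` (name in the docstring).   Statements FROZEN; auxiliary lemmas directly above your theorem, prefix `rt_xd_`; edit only your block.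
EXIT of this file:   `rt_xd_dom`:   `‖∫ pk(T',k,b',x') · E G‖ₑ ≤ ∫⁻ C rtXdM(x', x) ‖secRow p T k b G x‖ₑ d(rw k)`   for every pair of times `T', T`.
`G : Mo → ℂ` is an honest function: measurable, integrable, with EVERYWHERE support in the plateau of `b` and in the cone `|ξ/2ρ| ≤ 1/10`.
-/

set_option autoImplicit false

namespace Claimed.Agent.R256

open MeasureTheory
open scoped ENNReal

/-- **the exact transport** of a state by the dual boost: `(E G)(κ q) = G q / Q(q)` on the safe cone, `0` elsewhere -/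
noncomputable def rtXdE (γ : ℝ) (G : RdWvPar.Mo → ℂ) (q' : RdWvPar.Mo) : ℂ :=
  open Classical in
  if 0 < q'.2 ∧ rtXdK (-γ) q' ∈ rtXdC then ((rtXdQ (-γ) q' : ℝ) : ℂ) * G (rtXdK (-γ) q') else 0

/-- the hypotheses on the state -/
structure RtXdG (p : RdWvPar) (b : ℕ) (G : RdWvPar.Mo → ℂ) : Prop where
  meas : Measurable G
  int : Integrable G
  plat : ∀ q, G q ≠ 0 → p.H * q.2 ∈ rdPlat b
  cone : ∀ q, G q ≠ 0 → 0 < q.2 ∧ rtSq q.1 ≤ (2 * (1 / 10) * q.2) ^ 2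

theorem rt_xd_fld_eqns_cite : True := by
  have := @rtXdE.eq_1
  trivial

/-! ## 1. The exact transport -/

/-- **LEAF L-256-XD-E1.**  `Measurable.ite` (the condition is a measurable set: `rt_xd_K_meas`, `measurableSet_lt`, `measurableSet_le`), `rt_xd_K_meas`. -/
theorem rt_xd_E_meas (γ : ℝ) (G : RdWvPar.Mo → ℂ) (hG : Measurable G) : Measurable (rtXdE γ G) := by
  obtain ⟨hK, hQ⟩ := rt_xd_K_meas (-γ)
  have hC : MeasurableSet rtXdC := by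
    unfold rtXdC
    have h1 : Measurable fun q : RdWvPar.Mo => rtSq q.1 := by
      unfold rtSq
      fun_prop
    exact (measurableSet_lt measurable_const measurable_snd).inter (measurableSet_le h1 (by fun_prop))
  have hS : MeasurableSet {q' : RdWvPar.Mo | 0 < q'.2 ∧ rtXdK (-γ) q' ∈ rtXdC} :=
    (measurableSet_lt measurable_const measurable_snd).inter (hK hC)
  unfold rtXdE
  exact Measurable.ite hS ((Complex.measurable_ofReal.comp hQ).mul (hG.comp hK)) measurable_const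

/-- **LEAF L-256-XD-E2: the value at `κ q`.**   For `0 < q.2`, `Q q > 0`: `(κ q).2 = q.2 Q > 0` (`rt_xd_K_rho`), `κ_{-γ} κ q = q` (`rt_xd_K_inv`), `Q_{-γ}(κ q) Q(q) = 1` (`rt_xd_Q_inv`).   If `Q q = 0` both sides vanish (`Q ≥ 0` always: `Q = (1 + γA₂)² + γ²A₁²`, `rt_xd_Q_D`). -/
theorem rt_xd_E_K (γ : ℝ) (G : RdWvPar.Mo → ℂ) (q : RdWvPar.Mo) (hq : 0 < q.2) :
    ((rtXdQ γ q : ℝ) : ℂ) * rtXdE γ G (rtXdK γ q) = open Classical in if q ∈ rtXdC ∧ rtXdQ γ q ≠ 0 then G q else 0 := by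
  by_cases hQ : rtXdQ γ q = 0
  · rw [hQ, if_neg (fun h => h.2 rfl)]
    simp
  · have hQ0 : 0 < rtXdQ γ q := lt_of_le_of_ne (rt_xd_Q_nonneg γ q) (Ne.symm hQ)
    have h1 : 0 < (rtXdK γ q).2 := by
      rw [rt_xd_K_rho γ q hq.ne']
      positivity
    have h2 := rt_xd_K_inv γ q hq.ne' hQ
    have h3 := rt_xd_Q_inv γ q hq.ne' hQ
    unfold rtXdE
    rw [h2]
    by_cases hC : q ∈ rtXdC
    · rw [if_pos ⟨h1, hC⟩, if_pos ⟨hC, hQ⟩, ← mul_assoc, ← Complex.ofReal_mul, mul_comm (rtXdQ γ q), h3]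
      simp
    · rw [if_neg (fun h => hC h.2), if_neg (fun h => hC h.1), mul_zero]

/-- **LEAF L-256-XD-E3: `E` preserves the `L¹` norm.**   `rtXdE γ G` vanishes off `{0 < q'.2}`: `∫⁻ ‖E G‖ₑ = ∫⁻_{0 < q'.2}` (`setLIntegral_eq_of..`/`lintegral_indicator`);  `rt_xd_cov` with `f = ‖E G ·‖ₑ`;  `‖E G (κ q)‖ₑ ofReal (Q q) = ‖Q q * E G (κ q)‖ₑ ≤ ‖G q‖ₑ` (`rt_xd_E_K`). -/
theorem rt_xd_E_int (γ : ℝ) (G : RdWvPar.Mo → ℂ) (hm : Measurable G) (hG : Integrable G) : Integrable (rtXdE γ G) := by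
  have hE := rt_xd_E_meas γ G hm
  refine ⟨hE.aestronglyMeasurable, ?_⟩
  rw [hasFiniteIntegral_iff_enorm]
  have hS : MeasurableSet {q : RdWvPar.Mo | 0 < q.2} := measurableSet_lt measurable_const measurable_snd
  have e1 : ∫⁻ q', ‖rtXdE γ G q'‖ₑ = ∫⁻ q' in {q : RdWvPar.Mo | 0 < q.2}, ‖rtXdE γ G q'‖ₑ := by
    rw [← lintegral_indicator hS]
    refine lintegral_congr fun q' => ?_
    by_cases h : q' ∈ {q : RdWvPar.Mo | 0 < q.2}
    · rw [Set.indicator_of_mem h]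
    · rw [Set.indicator_of_notMem h]
      have : rtXdE γ G q' = 0 := by
        unfold rtXdE
        rw [if_neg (fun h' => h h'.1)]
      rw [this, enorm_zero]
  rw [e1, rt_xd_cov γ (fun q' => ‖rtXdE γ G q'‖ₑ) hE.enorm]
  refine lt_of_le_of_lt ?_ hG.hasFiniteIntegral
  refine le_trans (setLIntegral_mono' hS fun q hq => ?_) (setLIntegral_le_lintegral _ _)
  have h1 : ‖rtXdE γ G (rtXdK γ q)‖ₑ * ENNReal.ofReal (rtXdQ γ q) = ‖((rtXdQ γ q : ℝ) : ℂ) * rtXdE γ G (rtXdK γ q)‖ₑ := by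
    rw [enorm_mul, mul_comm]
    congr 1
    rw [← ofReal_norm, Complex.norm_real, Real.norm_of_nonneg (rt_xd_Q_nonneg γ q)]
  rw [h1, rt_xd_E_K γ G q hq]
  split_ifs
  · exact le_rfl
  · simp

/-- **LEAF L-256-XD-E4: THE FIELD IDENTITY.**
PLAN.  The integrand of the LHS vanishes off `{0 < q'.2}` (`setIntegral_eq_integral_of_forall_compl_eq_zero`).   `rt_xd_cov_int γ` with `g q' = c₃ e^{i(⟨q', z'⟩ - T' reOm q')} E G q'` (measurable: `re_sc_fld_meas`, `rt_xd_E_meas`).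
For `0 < q.2`: `Q q * (c₃ e^{iφ(κ q)} E G (κ q)) = c₃ e^{iφ(κ q)} G q` (`rt_xd_E_K`; `G q = 0` unless `q ∈ rtXdC`; on `rtXdC`, `|γ| ≤ 2`: `Q ≥ (3/5)² > 0` by `rt_xd_Q_D`, `rt_xd_D_bd` with `a = 1/5`).
Phase: `rePair q' z' - T' reOm q' = rtXPh q' ⟨T', z'.1, z'.2⟩`, `⟨T', z'.1, z'.2⟩ = rtCfDb γ ⟨te, ze.1, ze.2⟩` (unfold, `ring`), `rt_xd_phase`.   Back to the full integral (`G = 0` off `{0 < q.2}`). -/
theorem rt_xd_fld (γ : ℝ) (hγ : |γ| ≤ 2) (G : RdWvPar.Mo → ℂ) (hm : Measurable G) (hc : ∀ q, G q ≠ 0 → q ∈ rtXdC) (T' : ℝ) (z' : ReSp) :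
    reFld T' (rtXdE γ G) z' = reFld (rtXdT γ T' z') G (rtXdZ γ z') := by
  have hE := rt_xd_E_meas γ G hm
  unfold reFld
  have e1 : ∫ q', (reC3 : ℂ) * Complex.exp (Complex.I * ((rePair q' z' - T' * reOm q' : ℝ) : ℂ)) * rtXdE γ G q'
      = ∫ q' in {q : RdWvPar.Mo | 0 < q.2}, (reC3 : ℂ) * Complex.exp (Complex.I * ((rePair q' z' - T' * reOm q' : ℝ) : ℂ)) * rtXdE γ G q' := by
    symm
    refine setIntegral_eq_integral_of_forall_compl_eq_zero fun q' h => ?_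
    have : rtXdE γ G q' = 0 := by
      unfold rtXdE
      rw [if_neg (fun h' => h h'.1)]
    rw [this, mul_zero]
  have e2 : ∫ q, (reC3 : ℂ) * Complex.exp (Complex.I * ((rePair q (rtXdZ γ z') - rtXdT γ T' z' * reOm q : ℝ) : ℂ)) * G q
      = ∫ q in {q : RdWvPar.Mo | 0 < q.2}, (reC3 : ℂ) * Complex.exp (Complex.I * ((rePair q (rtXdZ γ z') - rtXdT γ T' z' * reOm q : ℝ) : ℂ)) * G q := by
    symm
    refine setIntegral_eq_integral_of_forall_compl_eq_zero fun q h => ?_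
    have : G q = 0 := by
      by_contra h0
      exact h (hc q h0).1
    rw [this, mul_zero]
  have hS : MeasurableSet {q : RdWvPar.Mo | 0 < q.2} := measurableSet_lt measurable_const measurable_snd
  rw [e1, e2, rt_xd_cov_int γ (fun q' => (reC3 : ℂ) * Complex.exp (Complex.I * ((rePair q' z' - T' * reOm q' : ℝ) : ℂ)) * rtXdE γ G q') ((re_sc_fld_meas T' z').mul hE)]
  refine setIntegral_congr_fun hS fun q hq => ?_
  have hq' : 0 < q.2 := hq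
  show ((rtXdQ γ q : ℝ) : ℂ) * ((reC3 : ℂ) * Complex.exp (Complex.I * ((rePair (rtXdK γ q) z' - T' * reOm (rtXdK γ q) : ℝ) : ℂ)) * rtXdE γ G (rtXdK γ q))
    = (reC3 : ℂ) * Complex.exp (Complex.I * ((rePair q (rtXdZ γ z') - rtXdT γ T' z' * reOm q : ℝ) : ℂ)) * G q
  have e3 : ((rtXdQ γ q : ℝ) : ℂ) * ((reC3 : ℂ) * Complex.exp (Complex.I * ((rePair (rtXdK γ q) z' - T' * reOm (rtXdK γ q) : ℝ) : ℂ)) * rtXdE γ G (rtXdK γ q))
      = (reC3 : ℂ) * Complex.exp (Complex.I * ((rePair (rtXdK γ q) z' - T' * reOm (rtXdK γ q) : ℝ) : ℂ)) * (((rtXdQ γ q : ℝ) : ℂ) * rtXdE γ G (rtXdK γ q)) := by ring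
  rw [e3, rt_xd_E_K γ G q hq']
  by_cases hG0 : G q = 0
  · rw [hG0]
    simp
  · have hC := hc q hG0
    have hQ : rtXdQ γ q ≠ 0 := by
      rw [rt_xd_Q_D γ q hq'.ne']
      have hA : rtSq ((2 * q.2)⁻¹ • q.1) ≤ (1 / 5 : ℝ) ^ 2 := by
        have h2 := hC.2
        have e : rtSq ((2 * q.2)⁻¹ • q.1) = rtSq q.1 / (2 * q.2) ^ 2 := by
          simp only [rtSq, Prod.smul_fst, Prod.smul_snd, smul_eq_mul]
          field_simp
        rw [e, div_le_iff₀ (by positivity)]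
        calc rtSq q.1 ≤ (2 * (1 / 5) * q.2) ^ 2 := h2
          _ = (1 / 5 : ℝ) ^ 2 * (2 * q.2) ^ 2 := by ring
      have := (rt_xd_D_bd γ (1 / 5) _ hγ (by norm_num) (by norm_num) hA).1
      have h3 : (0 : ℝ) < (1 - 2 * (1 / 5)) ^ 2 := by norm_num
      linarith
    rw [if_pos ⟨hC, hQ⟩]
    have hph := rt_xd_phase γ q ⟨rtXdT γ T' z', (rtXdZ γ z').1, (rtXdZ γ z').2⟩ hq'.ne' hQ
    have e4 : rtCfDb γ ⟨rtXdT γ T' z', (rtXdZ γ z').1, (rtXdZ γ z').2⟩ = ⟨T', z'.1, z'.2⟩ := by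
      ext <;> simp only [rtCfDb, rtXdT, rtXdZ] <;> ring
    rw [e4] at hph
    have e5 : rePair (rtXdK γ q) z' - T' * reOm (rtXdK γ q) = rePair q (rtXdZ γ z') - rtXdT γ T' z' * reOm q := by
      have a1 : rePair (rtXdK γ q) z' - T' * reOm (rtXdK γ q) = rtXPh (rtXdK γ q) ⟨T', z'.1, z'.2⟩ := by
        simp only [rePair, reOm, rtXPh]
        ring
      have a2 : rePair q (rtXdZ γ z') - rtXdT γ T' z' * reOm q = rtXPh q ⟨rtXdT γ T' z', (rtXdZ γ z').1, (rtXdZ γ z').2⟩ := by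
        simp only [rePair, reOm, rtXPh]
        ring
      rw [a1, a2, hph]
    rw [e5]

theorem rt_xd_loc_sq (c : ℝ) (v : ℝ × ℝ) : rtSq (c • v) = c ^ 2 * rtSq v := by
  simp only [rtSq, Prod.smul_fst, Prod.smul_snd, smul_eq_mul]
  ring

/-- **LEAF L-256-XD-E5: EXACT ANGULAR LOCALISATION.**
PLAN.  If the `if` of `rtXdE` fails, both sides are `0`.   Else `q := κ_{-γ} q' ∈ rtXdC`, `0 < q'.2`;  `secG .. q = secM .. * G q`: if `G q = 0` both sides vanish.   Else `|A(q)| ≤ 1/10` (`hG.cone`; `rtSq ((2ρ)⁻¹ • ξ) = rtSq ξ/(2ρ)²`).   If `pk = 0` done.   Else `rd_psi_supp`: `rtSq (A(q') - A') < 2d²`.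
`q.2 = q'.2 Q_{-γ}(q') > 0` gives `Q_{-γ}(q') ≠ 0`, `κ_γ q = q'` (`rt_xd_K_inv (-γ)`, `neg_neg`), `A(q') = κ_A(A(q))` (`rt_xd_K_ang`; `Q_γ(q) ≠ 0` from `rt_xd_Q_inv (-γ)`).   `rt_xd_S_mem` + `re_sc_M_one`: `secM = 1`. -/
theorem rt_xd_loc (p : RdWvPar) (k b b' : ℕ) (γ : ℝ) (hγ : |γ| ≤ 2) (hd : rdD p.H k ≤ 1 / 100) (G : RdWvPar.Mo → ℂ) (hG : RtXdG p b G) (T' : ℝ) (x' : RdWvPar.Ph) (q' : RdWvPar.Mo) :
    p.pk T' k b' x' q' * rtXdE γ G q' = p.pk T' k b' x' q' * rtXdE γ (secG p.H k (rtXdS p.H k γ x'.1) G) q' := by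
  classical
  have hd0 : 0 < rdD p.H k := Real.sqrt_pos.2 (div_pos p.H_pos (rdLen_pos k))
  unfold rtXdE
  by_cases hc : 0 < q'.2 ∧ rtXdK (-γ) q' ∈ rtXdC
  · rw [if_pos hc, if_pos hc]
    obtain ⟨q, hq⟩ : ∃ q, q = rtXdK (-γ) q' := ⟨_, rfl⟩
    rw [← hq]
    by_cases hG0 : G q = 0
    · unfold secG
      simp only [hG0, mul_zero]
    by_cases hpk : p.pk T' k b' x' q' = 0
    · rw [hpk, zero_mul, zero_mul]
    obtain ⟨hq2, hcone⟩ := hG.cone q hG0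
    have hq'2 : q'.2 ≠ 0 := hc.1.ne'
    have hrho : q.2 = q'.2 * rtXdQ (-γ) q' := by rw [hq]; exact rt_xd_K_rho (-γ) q' hq'2
    have hQ' : rtXdQ (-γ) q' ≠ 0 := by
      intro h0
      rw [h0, mul_zero] at hrho
      exact hq2.ne' hrho
    have hinv : rtXdK γ q = q' := by
      have := rt_xd_K_inv (-γ) q' hq'2 hQ'
      rw [neg_neg, ← hq] at this
      exact this
    have hQ : rtXdQ γ q ≠ 0 := by
      have := rt_xd_Q_inv (-γ) q' hq'2 hQ'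
      rw [neg_neg, ← hq] at this
      intro h0
      rw [h0, zero_mul] at this
      exact zero_ne_one this
    have hang := rt_xd_K_ang γ q hq2.ne' hQ
    rw [hinv] at hang
    -- the angle of the state
    have ha : rtSq ((2 * q.2)⁻¹ • q.1) ≤ (1 / 10) ^ 2 := by
      rw [rt_xd_loc_sq, inv_pow, inv_mul_le_iff₀ (by positivity)]
      calc rtSq q.1 ≤ (2 * (1 / 10) * q.2) ^ 2 := hcone
        _ = (2 * q.2) ^ 2 * (1 / 10) ^ 2 := by ring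
    -- the window
    have hpsi : rdPsi ((rdD p.H k)⁻¹ • ((2 * q'.2)⁻¹ • q'.1 - x'.1)) ≠ 0 := by
      intro h0
      apply hpk
      unfold RdWvPar.pk
      rw [h0, mul_zero, Complex.ofReal_zero, zero_mul]
    have h1 : rtSq (rtXdA γ ((2 * q.2)⁻¹ • q.1) - x'.1) < 2 * rdD p.H k ^ 2 := by
      have h2 := rd_psi_supp hpsi
      rw [rt_xd_loc_sq, hang, inv_pow, inv_mul_lt_iff₀ (by positivity)] at h2
      linarith
    have hM : secM p.H k (rtXdS p.H k γ x'.1) ((2 * q.2)⁻¹ • q.1) = 1 :=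
      re_sc_M_one p.H p.H_pos k _ _ fun A hA => rt_xd_S_mem p.H k γ hγ hd0 hd x'.1 _ A ha h1 hA
    unfold secG
    rw [hM, Complex.ofReal_one, one_mul]
  · rw [if_neg hc, if_neg hc]

/-! ## 2. Two bounds with explicit majorants -/

/-- **LEAF L-256-XD-D1: the rows are dominated by the field at the same time.**   `re_sp_F1` with `t = T` (`sub_self`);  `enorm_integral_le_lintegral_enorm`, `enorm_mul`;  `re_sc_kb β N` at `s = 0` (`abs_zero`, `zero_div`, `add_zero`, `one_pow`);  `‖·‖ₑ = ofReal ‖·‖` (`ofReal_norm`). -/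
theorem rt_xd_rows (β N : ℕ) : ∃ C : ℝ, 0 ≤ C ∧ ∀ (p : RdWvPar) (T : ℝ) (k : ℕ) (F : RdWvPar.Mo → ℂ), Integrable F → ∀ x : RdWvPar.Ph,
    ‖∫ q, p.pk T k β x q * F q‖ₑ ≤ ∫⁻ w : ReSp, ENNReal.ofReal (C * (rdQ p.H k ^ 2 * p.H)⁻¹ * (1 + ‖reZ p.H k x.1 0 (x.2 - w)‖) ^ (-(N : ℝ))) * ‖reFld T F w‖ₑ := by
  obtain ⟨C, hC, hK⟩ := re_sc_kb β N
  refine ⟨C, hC, fun p T k F hF x => ?_⟩
  have h1 := re_sp_F1 p T T k β F hF x.1 x.2
  have e : (x.1, x.2) = x := rfl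
  rw [e, sub_self] at h1
  rw [h1]
  refine (enorm_integral_le_lintegral_enorm _).trans ?_
  refine lintegral_mono fun w => ?_
  show ‖reK p.H k β x.1 0 (x.2 - w) * reFld T F w‖ₑ ≤ _
  rw [enorm_mul]
  refine mul_le_mul_left ?_ _
  rw [← ofReal_norm]
  refine ENNReal.ofReal_le_ofReal ?_
  have h2 := hK p.H p.H_pos k x.1 0 (x.2 - w)
  rw [abs_zero, zero_div, add_zero, one_pow, mul_one] at h2
  exact h2

theorem rt_xd_reZ_cont (H : ℝ) (k : ℕ) : Continuous fun P : ((ℝ × ℝ) × ℝ) × ReSp => reZ H k P.1.1 P.1.2 P.2 := by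
  unfold reZ rtIp rtSq
  fun_prop

theorem rt_xd_wt_cont {α : Type} [TopologicalSpace α] (f : α → ReSp) (hf : Continuous f) (r : ℝ) : Continuous fun x => (1 + ‖f x‖) ^ r := by
  refine Continuous.rpow_const (by fun_prop) fun x => Or.inl ?_
  have : 0 ≤ ‖f x‖ := norm_nonneg _
  linarith

theorem rt_xd_row_meas (p : RdWvPar) (T : ℝ) (k β : ℕ) (G : RdWvPar.Mo → ℂ) (hG : Integrable G) : Measurable fun x : RdWvPar.Ph => ‖secRow p T k β G x‖ₑ := by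
  have h1 : Continuous (secRow p T k β G) := re_sp_row_cont p T k β G hG
  exact h1.measurable.enorm

/-- **LEAF L-256-XD-D2: the field of a piece is dominated by its root rows.**   `re_sc_F2S`;  `enorm_mul`, `enorm_integral_le_lintegral_enorm` twice (`setLIntegral`);  `re_sc_kb β N`;  `lintegral_prod` backwards on `(volume.restrict S).prod volume = volume.restrict {x | x.1 ∈ S}` (`re_sc_wen_restr`);
`p.rw k = ofReal (ℓ/H) • volume`, `ℓ/H = (d²)⁻¹` (`re_sp_dq`), `lintegral_smul_measure`, `Measure.restrict_smul`.   Measurability: the majorant is continuous in `x`, `re_sp_row_cont`. -/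
theorem rt_xd_piece (β N : ℕ) : ∃ C : ℝ, 0 ≤ C ∧ ∀ (p : RdWvPar) (T t : ℝ) (k : ℕ) (G : RdWvPar.Mo → ℂ), Integrable G → (∀ q, G q ≠ 0 → p.H * q.2 ∈ rdPlat β) →
    ∀ (S : Set (ℝ × ℝ)), MeasurableSet S → ∀ z : ReSp,
    ‖reFld t (secG p.H k S G) z‖ₑ ≤ ∫⁻ x in {x : RdWvPar.Ph | x.1 ∈ S},
      ENNReal.ofReal (C * (1 + |t - T| / rdLen k) ^ N * (rdQ p.H k ^ 2 * p.H)⁻¹ * (1 + ‖reZ p.H k x.1 (t - T) (z - x.2)‖) ^ (-(N : ℝ))) * ‖secRow p T k β G x‖ₑ ∂(p.rw k) := by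
  obtain ⟨C, hC, hK⟩ := re_sc_kb β N
  refine ⟨C, hC, fun p T t k G hG hpl S hS z => ?_⟩
  have hH := p.H_pos
  obtain ⟨hd, hq, -, -, hd2, -⟩ := re_sp_dq p.H hH k
  have hl := rdLen_pos k
  rw [re_sc_F2S p T t k β G hG (Filter.Eventually.of_forall hpl) S hS z]
  obtain ⟨F, hF⟩ : ∃ F : RdWvPar.Ph → ℝ≥0∞, F = fun x => ENNReal.ofReal (C * (1 + |t - T| / rdLen k) ^ N * (rdQ p.H k ^ 2 * p.H)⁻¹ * (1 + ‖reZ p.H k x.1 (t - T) (z - x.2)‖) ^ (-(N : ℝ))) * ‖secRow p T k β G x‖ₑ := ⟨_, rfl⟩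
  have hFm : Measurable F := by
    rw [hF]
    refine Measurable.mul ?_ (rt_xd_row_meas p T k β G hG)
    refine ENNReal.measurable_ofReal.comp ?_
    refine Continuous.measurable ?_
    refine continuous_const.mul ?_
    refine rt_xd_wt_cont _ ?_ _
    exact (rt_xd_reZ_cont p.H k).comp (by fun_prop : Continuous fun x : RdWvPar.Ph => (((x.1, t - T) : (ℝ × ℝ) × ℝ), z - x.2))
  have hFx : ∀ x, F x = ENNReal.ofReal (C * (1 + |t - T| / rdLen k) ^ N * (rdQ p.H k ^ 2 * p.H)⁻¹ * (1 + ‖reZ p.H k x.1 (t - T) (z - x.2)‖) ^ (-(N : ℝ))) * ‖secRow p T k β G x‖ₑ := by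
    intro x
    rw [hF]
  simp only [← hFx]
  have hdi : (0 : ℝ) ≤ (rdD p.H k ^ 2)⁻¹ := by positivity
  calc ‖(((rdD p.H k ^ 2)⁻¹ : ℝ) : ℂ) * ∫ A' in S, ∫ z' : ReSp, reK p.H k β A' (t - T) (z - z') * secRow p T k β G (A', z')‖ₑ
      = ENNReal.ofReal ((rdD p.H k ^ 2)⁻¹) * ‖∫ A' in S, ∫ z' : ReSp, reK p.H k β A' (t - T) (z - z') * secRow p T k β G (A', z')‖ₑ := by
        rw [enorm_mul]
        congr 1
        rw [← ofReal_norm, Complex.norm_real, Real.norm_of_nonneg hdi]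
    _ ≤ ENNReal.ofReal ((rdD p.H k ^ 2)⁻¹) * ∫⁻ A' in S, ∫⁻ z' : ReSp, F (A', z') := by
        refine mul_le_mul_right ?_ _
        refine (enorm_integral_le_lintegral_enorm _).trans ?_
        refine lintegral_mono fun A' => ?_
        refine (enorm_integral_le_lintegral_enorm _).trans ?_
        refine lintegral_mono fun z' => ?_
        rw [enorm_mul, hFx]
        refine mul_le_mul_left ?_ _
        rw [← ofReal_norm]
        exact ENNReal.ofReal_le_ofReal (hK p.H hH k A' (t - T) (z - z'))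
    _ = ENNReal.ofReal ((rdD p.H k ^ 2)⁻¹) * ∫⁻ x in {x : RdWvPar.Ph | x.1 ∈ S}, F x := by
        rw [← re_sc_wen_restr S, lintegral_prod _ hFm.aemeasurable]
    _ = ∫⁻ x in {x : RdWvPar.Ph | x.1 ∈ S}, F x ∂(p.rw k) := by
        unfold RdWvPar.rw
        rw [Measure.restrict_smul, lintegral_smul_measure, smul_eq_mul]
        congr 2
        rw [hd2]
        field_simp

theorem rt_xd_maj_pow (N : ℕ) {b : ℝ} (hb : 0 < b) : b ^ (-((2 * N + 4 : ℕ) : ℝ)) * (b ^ N * b ^ N) = b ^ (-4 : ℝ) := by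
  have h4 : b ^ (-4 : ℝ) = (b ^ 4)⁻¹ := by
    rw [Real.rpow_neg hb.le]
    congr 1
    exact_mod_cast Real.rpow_natCast b 4
  rw [h4, Real.rpow_neg hb.le, Real.rpow_natCast]
  have h5 : b ^ (2 * N + 4) = b ^ N * b ^ N * b ^ 4 := by ring
  rw [h5]
  field_simp

theorem rt_xd_maj_pt (N : ℕ) (H : ℝ) (hH : 0 < H) (k : ℕ) (γ : ℝ) (hγ : |γ| ≤ 2) (hd : rdD H k ≤ 1 / 100) (T' T : ℝ) (x' x : RdWvPar.Ph) (hx : x.1 ∈ rtXdS H k γ x'.1) (v : ReSp) :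
    (rdQ H k ^ 2 * H)⁻¹ * (1 + ‖reZ H k x'.1 0 v‖) ^ (-((2 * N + 4 : ℕ) : ℝ)) *
        ((1 + |rtXdT γ T' (x'.2 - v) - T| / rdLen k) ^ N * (rdQ H k ^ 2 * H)⁻¹ * (1 + ‖reZ H k x.1 (rtXdT γ T' (x'.2 - v) - T) (rtXdZ γ (x'.2 - v) - x.2)‖) ^ (-(N : ℝ)))
      ≤ 28 ^ N * rtXdM H k γ N T' T x' x * ((rdQ H k ^ 2 * H)⁻¹ * (1 + ‖reZ H k x'.1 0 v‖) ^ (-4 : ℝ)) := by
  obtain ⟨-, hq, -, -, -, -⟩ := re_sp_dq H hH k
  have hl := rdLen_pos k
  obtain ⟨-, h2, h3⟩ := rt_xd_lin H k γ x.1 0 0 T' x'.2 v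
  obtain ⟨h1, -, -⟩ := rt_xd_lin H k γ x.1 (rtXdT γ T' x'.2 - T) (rtXdT γ 0 v) T' (rtXdZ γ x'.2 - x.2) (rtXdZ γ v)
  obtain ⟨hc1, hc2⟩ := rt_xd_core H hH k γ hγ hd x'.1 x.1 hx v
  have e1 : rtXdT γ T' (x'.2 - v) - T = (rtXdT γ T' x'.2 - T) - rtXdT γ 0 v := by
    rw [h2]
    ring
  have e2 : rtXdZ γ (x'.2 - v) - x.2 = (rtXdZ γ x'.2 - x.2) - rtXdZ γ v := by
    rw [h3]
    abel
  rw [e1, e2, h1]
  have eM : rtXdM H k γ N T' T x' x = (1 + |rtXdT γ T' x'.2 - T| / rdLen k) ^ N * (rdQ H k ^ 2 * H)⁻¹ * (1 + ‖reZ H k x.1 (rtXdT γ T' x'.2 - T) (rtXdZ γ x'.2 - x.2)‖) ^ (-(N : ℝ)) := by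
    unfold rtXdM rtXdY
    rw [if_pos hx]
  rw [eM]
  obtain ⟨n, hn⟩ : ∃ n, n = ‖reZ H k x'.1 0 v‖ := ⟨_, rfl⟩
  obtain ⟨a, ha⟩ : ∃ a, a = reZ H k x.1 (rtXdT γ T' x'.2 - T) (rtXdZ γ x'.2 - x.2) := ⟨_, rfl⟩
  obtain ⟨c, hc⟩ : ∃ c, c = reZ H k x.1 (rtXdT γ 0 v) (rtXdZ γ v) := ⟨_, rfl⟩
  obtain ⟨u, hu⟩ : ∃ u, u = rtXdT γ T' x'.2 - T := ⟨_, rfl⟩
  obtain ⟨δ, hδ⟩ : ∃ δ, δ = rtXdT γ 0 v := ⟨_, rfl⟩
  obtain ⟨P, hP⟩ : ∃ P, P = (rdQ H k ^ 2 * H)⁻¹ := ⟨_, rfl⟩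
  rw [← hn, ← ha, ← hc, ← hu, ← hδ, ← hP]
  rw [← hn, ← hc] at hc1
  rw [← hn, ← hδ] at hc2
  have hn0 : 0 ≤ n := by
    rw [hn]
    exact norm_nonneg _
  have hP0 : 0 < P := by
    rw [hP]
    positivity
  have hb : 0 < 1 + n := by linarith
  have hW : (1 + ‖a - c‖) ^ (-(N : ℝ)) ≤ 28 ^ N * (1 + n) ^ N * (1 + ‖a‖) ^ (-(N : ℝ)) := by
    refine (rt_xd_peetre N a c).trans ?_
    refine mul_le_mul_of_nonneg_right ?_ (Real.rpow_nonneg (by positivity) _)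
    rw [← mul_pow]
    refine pow_le_pow_left₀ (by positivity) ?_ N
    linarith
  have hX : (1 + |u - δ| / rdLen k) ^ N ≤ (1 + |u| / rdLen k) ^ N * (1 + n) ^ N := by
    rw [← mul_pow]
    refine pow_le_pow_left₀ (by positivity) ?_ N
    have h5 : |u - δ| ≤ |u| + |δ| := abs_sub u δ
    have h6 : |u - δ| / rdLen k ≤ |u| / rdLen k + n := by
      rw [div_le_iff₀ hl, add_mul, div_mul_cancel₀ _ hl.ne']
      linarith
    have h7 : 0 ≤ |u| / rdLen k * n := by positivity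
    nlinarith
  have hA0 : 0 ≤ (1 + ‖a‖) ^ (-(N : ℝ)) := Real.rpow_nonneg (by positivity) _
  have hB0 : 0 ≤ (1 + n) ^ (-((2 * N + 4 : ℕ) : ℝ)) := Real.rpow_nonneg hb.le _
  have hU0 : 0 ≤ (1 + |u| / rdLen k) ^ N := by positivity
  calc P * (1 + n) ^ (-((2 * N + 4 : ℕ) : ℝ)) * ((1 + |u - δ| / rdLen k) ^ N * P * (1 + ‖a - c‖) ^ (-(N : ℝ)))
      ≤ P * (1 + n) ^ (-((2 * N + 4 : ℕ) : ℝ)) * (((1 + |u| / rdLen k) ^ N * (1 + n) ^ N) * P * (28 ^ N * (1 + n) ^ N * (1 + ‖a‖) ^ (-(N : ℝ)))) := by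
        refine mul_le_mul_of_nonneg_left ?_ (mul_nonneg hP0.le hB0)
        refine mul_le_mul (mul_le_mul_of_nonneg_right hX hP0.le) hW (Real.rpow_nonneg (by positivity) _) (by positivity)
    _ = 28 ^ N * ((1 + |u| / rdLen k) ^ N * P * (1 + ‖a‖) ^ (-(N : ℝ))) * (P * ((1 + n) ^ (-((2 * N + 4 : ℕ) : ℝ)) * ((1 + n) ^ N * (1 + n) ^ N))) := by ring
    _ = 28 ^ N * ((1 + |u| / rdLen k) ^ N * P * (1 + ‖a‖) ^ (-(N : ℝ))) * (P * (1 + n) ^ (-4 : ℝ)) := by rw [rt_xd_maj_pow N hb]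

/-- **LEAF L-256-XD-D3: the convolution of the two majorants along the tilted slice.**      `C = 28^N C_wt`, `C_wt` of `re_sp_wt_int`.
PLAN.  Substitute `w = x'.2 - v` (`lintegral_sub_left_eq_self`).   `n = ‖reZ H k A' 0 v‖`, `u = te - T`, `a = rtXdY .. x' x`.   `rt_xd_lin`: `rtXdT γ T' (x'.2 - v) - T = u - δt`, `rtXdZ γ (x'.2 - v) - x.2 = (ze - x.2) - δz`, `reZ H k A (u - δt) ((ze - x.2) - δz) = a - reZ H k A δt δz`.
`rt_xd_core`: `‖reZ H k A δt δz‖ ≤ 28 n`, `|δt| ≤ ℓ n`.   `rt_xd_peetre`: `(1 + ‖a - c‖)^{-N} ≤ (1 + 28n)^N (1+‖a‖)^{-N} ≤ 28^N (1+n)^N (1+‖a‖)^{-N}`;   `1 + |u - δt|/ℓ ≤ (1 + |u|/ℓ)(1 + n)`.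
So the integrand is `≤ 28^N (1+|u|/ℓ)^N (q²H)⁻¹ (1+‖a‖)^{-N} · (q²H)⁻¹ (1+n)^{-4}`;   `re_sp_zjac` (`s = 0`), `re_sp_wt_int`. -/
theorem rt_xd_maj (N : ℕ) : ∃ C : ℝ, 0 ≤ C ∧ ∀ (H : ℝ), 0 < H → ∀ (k : ℕ) (γ : ℝ), |γ| ≤ 2 → rdD H k ≤ 1 / 100 → ∀ (T' T : ℝ) (x' x : RdWvPar.Ph), x.1 ∈ rtXdS H k γ x'.1 →
    ∫⁻ w : ReSp, ENNReal.ofReal ((rdQ H k ^ 2 * H)⁻¹ * (1 + ‖reZ H k x'.1 0 (x'.2 - w)‖) ^ (-((2 * N + 4 : ℕ) : ℝ))) *
        ENNReal.ofReal ((1 + |rtXdT γ T' w - T| / rdLen k) ^ N * (rdQ H k ^ 2 * H)⁻¹ * (1 + ‖reZ H k x.1 (rtXdT γ T' w - T) (rtXdZ γ w - x.2)‖) ^ (-(N : ℝ)))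
      ≤ ENNReal.ofReal (C * rtXdM H k γ N T' T x' x) := by
  obtain ⟨Cw, hCw, hwt⟩ := re_sp_wt_int
  refine ⟨28 ^ N * Cw, by positivity, fun H hH k γ hγ hd T' T x' x hx => ?_⟩
  obtain ⟨-, hq, -, -, -, -⟩ := re_sp_dq H hH k
  have hM0 : 0 ≤ rtXdM H k γ N T' T x' x := by
    unfold rtXdM
    rw [if_pos hx]
    have := rdLen_pos k
    have h1 : 0 ≤ (1 + ‖rtXdY H k γ T' T x' x‖) ^ (-(N : ℝ)) := Real.rpow_nonneg (by positivity) _
    positivity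
  have hP0 : 0 < (rdQ H k ^ 2 * H)⁻¹ := by positivity
  have := re_sp_haar
  have hsw : ∀ Φ : ReSp → ℝ≥0∞, ∫⁻ w, Φ w = ∫⁻ v, Φ (x'.2 - v) := fun Φ => (lintegral_sub_left_eq_self (μ := (volume : Measure ReSp)) Φ x'.2).symm
  rw [hsw]
  have hsub : ∀ v : ReSp, x'.2 - (x'.2 - v) = v := fun v => by abel
  simp only [hsub]
  calc ∫⁻ v : ReSp, ENNReal.ofReal ((rdQ H k ^ 2 * H)⁻¹ * (1 + ‖reZ H k x'.1 0 v‖) ^ (-((2 * N + 4 : ℕ) : ℝ))) *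
        ENNReal.ofReal ((1 + |rtXdT γ T' (x'.2 - v) - T| / rdLen k) ^ N * (rdQ H k ^ 2 * H)⁻¹ * (1 + ‖reZ H k x.1 (rtXdT γ T' (x'.2 - v) - T) (rtXdZ γ (x'.2 - v) - x.2)‖) ^ (-(N : ℝ)))
      ≤ ∫⁻ v : ReSp, ENNReal.ofReal (28 ^ N * rtXdM H k γ N T' T x' x) * ENNReal.ofReal ((rdQ H k ^ 2 * H)⁻¹ * (1 + ‖reZ H k x'.1 0 v‖) ^ (-4 : ℝ)) := by
        refine lintegral_mono fun v => ?_
        rw [← ENNReal.ofReal_mul (mul_nonneg hP0.le (Real.rpow_nonneg (by positivity) _)), ← ENNReal.ofReal_mul (by positivity)]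
        exact ENNReal.ofReal_le_ofReal (rt_xd_maj_pt N H hH k γ hγ hd T' T x' x hx v)
    _ = ENNReal.ofReal (28 ^ N * rtXdM H k γ N T' T x' x) * ∫⁻ v : ReSp, ENNReal.ofReal ((rdQ H k ^ 2 * H)⁻¹ * (1 + ‖reZ H k x'.1 0 v‖) ^ (-4 : ℝ)) :=
        lintegral_const_mul' _ _ ENNReal.ofReal_ne_top
    _ = ENNReal.ofReal (28 ^ N * rtXdM H k γ N T' T x' x) * (ENNReal.ofReal (rdQ H k ^ 2 * H) * ∫⁻ Z : ReSp, ENNReal.ofReal ((rdQ H k ^ 2 * H)⁻¹ * (1 + ‖Z‖) ^ (-4 : ℝ))) := by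
        rw [re_sp_zjac H hH k x'.1 0 (fun Z => ENNReal.ofReal ((rdQ H k ^ 2 * H)⁻¹ * (1 + ‖Z‖) ^ (-4 : ℝ)))]
    _ = ENNReal.ofReal (28 ^ N * rtXdM H k γ N T' T x' x) * (ENNReal.ofReal (rdQ H k ^ 2 * H) * (ENNReal.ofReal ((rdQ H k ^ 2 * H)⁻¹) * ∫⁻ Z : ReSp, ENNReal.ofReal ((1 + ‖Z‖) ^ (-4 : ℝ)))) := by
        congr 2
        rw [← lintegral_const_mul' _ _ ENNReal.ofReal_ne_top]
        refine lintegral_congr fun Z => ?_
        rw [ENNReal.ofReal_mul hP0.le]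
    _ ≤ ENNReal.ofReal (28 ^ N * rtXdM H k γ N T' T x' x) * (ENNReal.ofReal (rdQ H k ^ 2 * H) * (ENNReal.ofReal ((rdQ H k ^ 2 * H)⁻¹) * ENNReal.ofReal Cw)) := by
        gcongr
    _ = ENNReal.ofReal (28 ^ N * Cw * rtXdM H k γ N T' T x' x) := by
        rw [← ENNReal.ofReal_mul hP0.le, ← ENNReal.ofReal_mul (by positivity), ← ENNReal.ofReal_mul (by positivity)]
        congr 1
        field_simp

/-! ## 3. The kernel domination -/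

theorem rt_xd_M_nonneg (H : ℝ) (hH : 0 < H) (k : ℕ) (γ : ℝ) (N : ℕ) (T' T : ℝ) (x' x : RdWvPar.Ph) : 0 ≤ rtXdM H k γ N T' T x' x := by
  unfold rtXdM
  split_ifs
  · have := rdLen_pos k
    have h1 : 0 ≤ (1 + ‖rtXdY H k γ T' T x' x‖) ^ (-(N : ℝ)) := Real.rpow_nonneg (by positivity) _
    positivity
  · exact le_rfl

theorem rt_xd_dom_ca (H : ℝ) (k : ℕ) (A' : ℝ × ℝ) (z0 : ReSp) (r : ℝ) : Continuous fun w : ReSp => (1 + ‖reZ H k A' 0 (z0 - w)‖) ^ r :=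
  rt_xd_wt_cont _ ((rt_xd_reZ_cont H k).comp (by fun_prop : Continuous fun w : ReSp => (((A', 0) : (ℝ × ℝ) × ℝ), z0 - w))) r

theorem rt_xd_dom_cb (H : ℝ) (k : ℕ) (γ T' T : ℝ) (N : ℕ) : Continuous fun P : ReSp × RdWvPar.Ph =>
    (1 + |rtXdT γ T' P.1 - T| / rdLen k) ^ N * (rdQ H k ^ 2 * H)⁻¹ * (1 + ‖reZ H k P.2.1 (rtXdT γ T' P.1 - T) (rtXdZ γ P.1 - P.2.2)‖) ^ (-(N : ℝ)) := by
  have hT : Continuous fun w : ReSp => rtXdT γ T' w := by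
    unfold rtXdT
    fun_prop
  have hZ : Continuous fun w : ReSp => rtXdZ γ w := by
    unfold rtXdZ
    fun_prop
  have h1 : Continuous fun P : ReSp × RdWvPar.Ph => rtXdT γ T' P.1 - T := (hT.comp continuous_fst).sub continuous_const
  have h2 : Continuous fun P : ReSp × RdWvPar.Ph => rtXdZ γ P.1 - P.2.2 := (hZ.comp continuous_fst).sub (by fun_prop)
  have h3 : Continuous fun P : ReSp × RdWvPar.Ph => reZ H k P.2.1 (rtXdT γ T' P.1 - T) (rtXdZ γ P.1 - P.2.2) :=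
    (rt_xd_reZ_cont H k).comp (((by fun_prop : Continuous fun P : ReSp × RdWvPar.Ph => P.2.1).prodMk h1).prodMk h2)
  refine Continuous.mul (Continuous.mul ?_ continuous_const) (rt_xd_wt_cont _ h3 _)
  exact ((continuous_const.add (h1.abs.div_const _))).pow N

theorem rt_xd_dom_in (C1 C2 C3 M : ℝ) (h1 : 0 ≤ C1) (h2 : 0 ≤ C2) (a c : ReSp → ℝ) (r : ℝ≥0∞) (hr : r ≠ ⊤)
    (h : ∫⁻ w : ReSp, ENNReal.ofReal (a w) * ENNReal.ofReal (c w) ≤ ENNReal.ofReal (C3 * M)) :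
    ∫⁻ w : ReSp, ENNReal.ofReal (C1 * a w) * (ENNReal.ofReal (C2 * c w) * r) ≤ ENNReal.ofReal (C1 * C2 * (C3 * M)) * r := by
  have e : ∀ w, ENNReal.ofReal (C1 * a w) * (ENNReal.ofReal (C2 * c w) * r) = (ENNReal.ofReal C1 * ENNReal.ofReal C2) * (ENNReal.ofReal (a w) * ENNReal.ofReal (c w)) * r := by
    intro w
    rw [ENNReal.ofReal_mul h1, ENNReal.ofReal_mul h2]
    ring
  simp only [e]
  rw [lintegral_mul_const' _ _ hr, lintegral_const_mul' _ _ (ENNReal.mul_ne_top ENNReal.ofReal_ne_top ENNReal.ofReal_ne_top)]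
  refine mul_le_mul_left ?_ _
  rw [ENNReal.ofReal_mul (mul_nonneg h1 h2), ENNReal.ofReal_mul h1]
  exact mul_le_mul_right h _

/-- **LEAF L-256-XD-D4 (glue): KERNEL DOMINATION.**      `C = ∑_{b, b' ≤ bm} C₁(b') C₂(b) C₃`.
PLAN.  `S = rtXdS p.H k γ x'.1` (`rt_xd_S_meas`), `G_S = secG p.H k S G` (measurable: `re_sc_M_meas`; integrable: `re_sc_G`; support `⊆` support of `G`).   `integral_congr` with `rt_xd_loc`.   `rt_xd_rows b' (2N+4)` with `F = rtXdE γ G_S` (`rt_xd_E_int`).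
`rt_xd_fld` for `G_S` (cone `1/10 ⊆ rtXdC`).   `rt_xd_piece b N` at `t = rtXdT γ T' w`, `z = rtXdZ γ w`.   Tonelli (`lintegral_lintegral_swap`; pull the factor into the inner integral: `lintegral_const_mul`): all majorants are continuous in `(w, x)`, `re_sp_row_cont`.
For `x.1 ∈ S`: `rt_xd_maj`;  the restriction to `{x | x.1 ∈ S}` is absorbed by `rtXdM = 0` off it (`setLIntegral_le_lintegral`/`lintegral_indicator`). -/
theorem rt_xd_dom (bm N : ℕ) : ∃ C : ℝ, 0 ≤ C ∧ ∀ (p : RdWvPar) (k b b' : ℕ) (γ : ℝ), b ≤ bm → b' ≤ bm → |γ| ≤ 2 → rdD p.H k ≤ 1 / 100 → ∀ (G : RdWvPar.Mo → ℂ), RtXdG p b G →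
    ∀ (T' T : ℝ) (x' : RdWvPar.Ph),
    ‖∫ q', p.pk T' k b' x' q' * rtXdE γ G q'‖ₑ ≤ ∫⁻ x, ENNReal.ofReal (C * rtXdM p.H k γ N T' T x' x) * ‖secRow p T k b G x‖ₑ ∂(p.rw k) := by
  choose C1 hC1 H1 using fun β => rt_xd_rows β (2 * N + 4)
  choose C2 hC2 H2 using fun β => rt_xd_piece β N
  obtain ⟨C3, hC3, H3⟩ := rt_xd_maj N
  have hs1 : 0 ≤ ∑ β ∈ Finset.range (bm + 1), C1 β := Finset.sum_nonneg fun β _ => hC1 β
  have hs2 : 0 ≤ ∑ β ∈ Finset.range (bm + 1), C2 β := Finset.sum_nonneg fun β _ => hC2 β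
  refine ⟨(∑ β ∈ Finset.range (bm + 1), C1 β) * (∑ β ∈ Finset.range (bm + 1), C2 β) * C3, by positivity, ?_⟩
  intro p k b b' γ hb hb' hγ hd G hG T' T x'
  have hH := p.H_pos
  have hc1 : C1 b' ≤ ∑ β ∈ Finset.range (bm + 1), C1 β :=
    Finset.single_le_sum (f := C1) (fun β _ => hC1 β) (Finset.mem_range.2 (by omega))
  have hc2 : C2 b ≤ ∑ β ∈ Finset.range (bm + 1), C2 β :=
    Finset.single_le_sum (f := C2) (fun β _ => hC2 β) (Finset.mem_range.2 (by omega))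
  have hS : MeasurableSet (rtXdS p.H k γ x'.1) := (rt_xd_S_meas p.H k γ).2 x'.1
  have hSx : MeasurableSet {x : RdWvPar.Ph | x.1 ∈ rtXdS p.H k γ x'.1} := measurable_fst hS
  obtain ⟨hGi, hGn, -⟩ := re_sc_G p.H hH k G hG.int
  have hGSi := hGi _ hS
  have hGSm : Measurable (secG p.H k (rtXdS p.H k γ x'.1) G) := by
    unfold secG
    exact (Complex.measurable_ofReal.comp (re_sc_M_meas p.H hH k _ hS)).mul hG.meas
  have hGSs : ∀ q, secG p.H k (rtXdS p.H k γ x'.1) G q ≠ 0 → G q ≠ 0 := by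
    intro q hq h0
    apply hq
    unfold secG
    rw [h0, mul_zero]
  have hGSc : ∀ q, secG p.H k (rtXdS p.H k γ x'.1) G q ≠ 0 → q ∈ rtXdC := by
    intro q hq
    obtain ⟨h1, h2⟩ := hG.cone q (hGSs q hq)
    refine ⟨h1, h2.trans ?_⟩
    refine pow_le_pow_left₀ (by positivity) ?_ 2
    nlinarith
  have hEi := rt_xd_E_int γ _ hGSm hGSi
  have hsf : SFinite (p.rw k) := by
    unfold RdWvPar.rw
    infer_instance
  have e1 : ∫ q', p.pk T' k b' x' q' * rtXdE γ G q' = ∫ q', p.pk T' k b' x' q' * rtXdE γ (secG p.H k (rtXdS p.H k γ x'.1) G) q' :=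
    integral_congr_ae (Filter.Eventually.of_forall fun q' => rt_xd_loc p k b b' γ hγ hd G hG T' x' q')
  rw [e1]
  obtain ⟨a, ha⟩ : ∃ a : ReSp → ℝ, a = fun w => (rdQ p.H k ^ 2 * p.H)⁻¹ * (1 + ‖reZ p.H k x'.1 0 (x'.2 - w)‖) ^ (-((2 * N + 4 : ℕ) : ℝ)) := ⟨_, rfl⟩
  obtain ⟨c, hc⟩ : ∃ c : ReSp → RdWvPar.Ph → ℝ, c = fun w x => (1 + |rtXdT γ T' w - T| / rdLen k) ^ N * (rdQ p.H k ^ 2 * p.H)⁻¹ * (1 + ‖reZ p.H k x.1 (rtXdT γ T' w - T) (rtXdZ γ w - x.2)‖) ^ (-(N : ℝ)) := ⟨_, rfl⟩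
  have ham : Measurable a := by
    rw [ha]
    exact (continuous_const.mul (rt_xd_dom_ca p.H k x'.1 x'.2 _)).measurable
  have hcm : Measurable fun P : ReSp × RdWvPar.Ph => c P.1 P.2 := by
    rw [hc]
    exact (rt_xd_dom_cb p.H k γ T' T N).measurable
  have hRm := rt_xd_row_meas p T k b G hG.int
  calc ‖∫ q', p.pk T' k b' x' q' * rtXdE γ (secG p.H k (rtXdS p.H k γ x'.1) G) q'‖ₑ
      ≤ ∫⁻ w : ReSp, ENNReal.ofReal (C1 b' * a w) * ‖reFld T' (rtXdE γ (secG p.H k (rtXdS p.H k γ x'.1) G)) w‖ₑ := by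
        refine (H1 b' p T' k _ hEi x').trans (le_of_eq ?_)
        refine lintegral_congr fun w => ?_
        rw [ha, mul_assoc]
    _ ≤ ∫⁻ w : ReSp, ENNReal.ofReal (C1 b' * a w) * ∫⁻ x in {x : RdWvPar.Ph | x.1 ∈ rtXdS p.H k γ x'.1}, ENNReal.ofReal (C2 b * c w x) * ‖secRow p T k b G x‖ₑ ∂(p.rw k) := by
        refine lintegral_mono fun w => mul_le_mul_right ?_ _
        rw [rt_xd_fld γ hγ _ hGSm hGSc T' w]
        refine (H2 b p T (rtXdT γ T' w) k G hG.int hG.plat _ hS (rtXdZ γ w)).trans (le_of_eq ?_)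
        refine lintegral_congr fun x => ?_
        rw [hc]
        congr 2
        ring
    _ = ∫⁻ w : ReSp, ∫⁻ x in {x : RdWvPar.Ph | x.1 ∈ rtXdS p.H k γ x'.1}, ENNReal.ofReal (C1 b' * a w) * (ENNReal.ofReal (C2 b * c w x) * ‖secRow p T k b G x‖ₑ) ∂(p.rw k) := by
        refine lintegral_congr fun w => ?_
        rw [lintegral_const_mul' _ _ ENNReal.ofReal_ne_top]
    _ = ∫⁻ x in {x : RdWvPar.Ph | x.1 ∈ rtXdS p.H k γ x'.1}, (∫⁻ w : ReSp, ENNReal.ofReal (C1 b' * a w) * (ENNReal.ofReal (C2 b * c w x) * ‖secRow p T k b G x‖ₑ)) ∂(p.rw k) := by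
        refine lintegral_lintegral_swap ?_
        refine Measurable.aemeasurable ?_
        refine Measurable.mul ?_ (Measurable.mul ?_ (hRm.comp measurable_snd))
        · exact ENNReal.measurable_ofReal.comp ((ham.comp measurable_fst).const_mul _)
        · exact ENNReal.measurable_ofReal.comp (hcm.const_mul _)
    _ ≤ ∫⁻ x in {x : RdWvPar.Ph | x.1 ∈ rtXdS p.H k γ x'.1}, ENNReal.ofReal (C1 b' * C2 b * (C3 * rtXdM p.H k γ N T' T x' x)) * ‖secRow p T k b G x‖ₑ ∂(p.rw k) := by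
        refine setLIntegral_mono' hSx fun x hx => ?_
        refine rt_xd_dom_in (C1 b') (C2 b) C3 _ (hC1 b') (hC2 b) a (fun w => c w x) _ enorm_ne_top ?_
        have h3 := H3 p.H hH k γ hγ hd T' T x' x hx
        rw [ha, hc]
        exact h3
    _ ≤ ∫⁻ x, ENNReal.ofReal (C1 b' * C2 b * (C3 * rtXdM p.H k γ N T' T x' x)) * ‖secRow p T k b G x‖ₑ ∂(p.rw k) := setLIntegral_le_lintegral _ _
    _ ≤ ∫⁻ x, ENNReal.ofReal ((∑ β ∈ Finset.range (bm + 1), C1 β) * (∑ β ∈ Finset.range (bm + 1), C2 β) * C3 * rtXdM p.H k γ N T' T x' x) * ‖secRow p T k b G x‖ₑ ∂(p.rw k) := by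
        refine lintegral_mono fun x => mul_le_mul_left ?_ _
        refine ENNReal.ofReal_le_ofReal ?_
        have hM := rt_xd_M_nonneg p.H hH k γ N T' T x' x
        rw [mul_assoc ((∑ β ∈ Finset.range (bm + 1), C1 β) * (∑ β ∈ Finset.range (bm + 1), C2 β))]
        refine mul_le_mul_of_nonneg_right ?_ (mul_nonneg hC3 hM)
        exact mul_le_mul hc1 hc2 (hC2 b) hs1

end Claimed.Agent.R256
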