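-- KEEP
import Claimed.Agent.R256.Rt.XdFld

/-!
# Row 256, folder Rt, block I1, unit XD (dual boost arrow), file 5: THE OPERATOR `rtXdOp γ`            (unit architects helper290, helper122; prefix `rt_xd_`)            CONTRACT
EXITS (consumers: `Rt/XoContract.lean` through `Rt/XdContract.lean`): `rt_xd_op_spec, _le, _norm, _inv, _cone, _band`.      `rtXdF γ = rtXdE γ` (definitional): the exact transport `(T G)(κ q) = G q/Q(q)` on the safe cone `𝒦 = rtXdC`.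
Everything follows from `rt_xd_cov` (`dq' = Q dq`) and `rt_xd_E_K` (`Q(q) · (E G)(κ q) = 1_𝒦(q) G q`).   Every `sorry` is a leaf `L-256-XD-O*`.   Statements FROZEN; auxiliary lemmas directly above your theorem; edit only your block.
-/

set_option autoImplicit false

namespace Claimed.Agent.R256

open MeasureTheory
open scoped ENNReal

theorem rt_xd_F_eq (γ : ℝ) (G : RdWvPar.Mo → ℂ) : rtXdF γ G = rtXdE γ G := rfl

/-- the angle of a point of the cone `a` -/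
theorem rt_xd_o_ang (a : ℝ) (q : RdWvPar.Mo) (h2 : 0 < q.2) (h : rtSq q.1 ≤ (2 * a * q.2) ^ 2) : rtSq ((2 * q.2)⁻¹ • q.1) ≤ a ^ 2 := by
  rw [rt_xd_loc_sq, inv_pow, inv_mul_le_iff₀ (by positivity)]
  calc rtSq q.1 ≤ (2 * a * q.2) ^ 2 := h
    _ = (2 * q.2) ^ 2 * a ^ 2 := by ring

/-- bounds of `Q` on the cone `a ≤ 1/4` -/
theorem rt_xd_o_Q (γ a : ℝ) (hγ : |γ| ≤ 2) (h0 : 0 ≤ a) (ha : a ≤ 1 / 4) (q : RdWvPar.Mo) (h2 : 0 < q.2) (h : rtSq q.1 ≤ (2 * a * q.2) ^ 2) :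
    (1 - 2 * a) ^ 2 ≤ rtXdQ γ q ∧ rtXdQ γ q ≤ (1 + 2 * a) ^ 2 := by
  rw [rt_xd_Q_D γ q h2.ne']
  exact rt_xd_D_bd γ a _ hγ h0 ha (rt_xd_o_ang a q h2 h)

/-- **LEAF L-256-XD-O1.**  `rt_xd_Q_D`, `rt_xd_D_bd` with `a = 1/5` (`rtSq ((2ρ)⁻¹ • ξ) = rtSq ξ/(2ρ)² ≤ (1/5)²`). -/
theorem rt_xd_Q_bd (γ : ℝ) (hγ : |γ| ≤ 2) (q : RdWvPar.Mo) (hq : q ∈ rtXdC) : 9 / 25 ≤ rtXdQ γ q ∧ rtXdQ γ q ≤ 49 / 25 := by
  obtain ⟨h1, h2⟩ := rt_xd_o_Q γ (1 / 5) hγ (by norm_num) (by norm_num) q hq.1 hq.2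
  constructor
  · calc (9 / 25 : ℝ) = (1 - 2 * (1 / 5)) ^ 2 := by norm_num
      _ ≤ _ := h1
  · calc rtXdQ γ q ≤ (1 + 2 * (1 / 5)) ^ 2 := h2
      _ = 49 / 25 := by norm_num

/-- **LEAF L-256-XD-O1: null sets.**
PLAN.  `N ⊇ {q | G q ≠ G' q}` measurable and null (`toMeasurable`/`ae_iff`, `exists_measurable_superset_of_null`).   `{q' | E G q' ≠ E G' q'} ⊆ B := {q' | 0 < q'.2 ∧ κ_{-γ} q' ∈ N}`.   `volume B = ∫⁻_{0 < q'.2} 1_N(κ_{-γ} q')` `=` (`rt_xd_cov γ`) `∫⁻_{0 < q.2} 1_N(κ_{-γ} κ q) ofReal (Q q)`;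
where `Q q ≠ 0`: `κ_{-γ} κ q = q` (`rt_xd_K_inv`), so the integrand is `≤ 1_N(q) ofReal (Q q)`, which vanishes a.e. (`lintegral_eq_zero_iff`/`setLIntegral_measure_zero`). -/
theorem rt_xd_F_congr (γ : ℝ) (G G' : RdWvPar.Mo → ℂ) (h : G =ᵐ[volume] G') : rtXdF γ G =ᵐ[volume] rtXdF γ G' := by
  classical
  obtain ⟨hK, -⟩ := rt_xd_K_meas (-γ)
  obtain ⟨-, hQ⟩ := rt_xd_K_meas γ
  have h0 : volume {q | ¬ G q = G' q} = 0 := ae_iff.1 h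
  obtain ⟨N, hsub, hNm, hN0⟩ := exists_measurable_superset_of_null h0
  have hS : MeasurableSet {q : RdWvPar.Mo | 0 < q.2} := measurableSet_lt measurable_const measurable_snd
  have hB : volume (rtXdK (-γ) ⁻¹' N ∩ {q' : RdWvPar.Mo | 0 < q'.2}) = 0 := by
    rw [← Measure.restrict_apply (hK hNm), ← lintegral_indicator_one (hK hNm),
      rt_xd_cov γ ((rtXdK (-γ) ⁻¹' N).indicator 1) (measurable_one.indicator (hK hNm))]
    refine le_antisymm ?_ zero_le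
    calc ∫⁻ q in {q : RdWvPar.Mo | 0 < q.2}, (rtXdK (-γ) ⁻¹' N).indicator 1 (rtXdK γ q) * ENNReal.ofReal (rtXdQ γ q)
        ≤ ∫⁻ q in {q : RdWvPar.Mo | 0 < q.2}, N.indicator (fun q => ENNReal.ofReal (rtXdQ γ q)) q := by
          refine setLIntegral_mono' hS fun q hq => ?_
          have hq' : 0 < q.2 := hq
          by_cases hQ0 : rtXdQ γ q = 0
          · rw [hQ0, ENNReal.ofReal_zero, mul_zero]
            exact zero_le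
          · have hinv := rt_xd_K_inv γ q hq'.ne' hQ0
            by_cases hN : q ∈ N
            · rw [Set.indicator_of_mem hN (fun q => ENNReal.ofReal (rtXdQ γ q))]
              have : rtXdK γ q ∈ rtXdK (-γ) ⁻¹' N := by
                show rtXdK (-γ) (rtXdK γ q) ∈ N
                rw [hinv]; exact hN
              rw [Set.indicator_of_mem this (1 : RdWvPar.Mo → ℝ≥0∞), Pi.one_apply, one_mul]
            · have : rtXdK γ q ∉ rtXdK (-γ) ⁻¹' N := by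
                show ¬ rtXdK (-γ) (rtXdK γ q) ∈ N
                rw [hinv]; exact hN
              rw [Set.indicator_of_notMem this (1 : RdWvPar.Mo → ℝ≥0∞), zero_mul]
              exact zero_le
      _ ≤ ∫⁻ q, N.indicator (fun q => ENNReal.ofReal (rtXdQ γ q)) q := setLIntegral_le_lintegral _ _
      _ = ∫⁻ q in N, ENNReal.ofReal (rtXdQ γ q) := lintegral_indicator hNm _
      _ = 0 := setLIntegral_measure_zero _ _ hN0
  rw [Filter.EventuallyEq, ae_iff]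
  refine measure_mono_null ?_ hB
  intro q' hq'
  by_contra hcon
  apply hq'
  unfold rtXdF
  by_cases hc : 0 < q'.2 ∧ rtXdK (-γ) q' ∈ rtXdC
  · rw [if_pos hc, if_pos hc]
    have : G (rtXdK (-γ) q') = G' (rtXdK (-γ) q') := by
      by_contra hne
      exact hcon ⟨hsub hne, hc.1⟩
    rw [this]
  · rw [if_neg hc, if_neg hc]

theorem rt_xd_aux_C_meas : MeasurableSet rtXdC := by
  unfold rtXdC
  have h1 : Measurable fun q : RdWvPar.Mo => rtSq q.1 := by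
    unfold rtSq
    fun_prop
  exact (measurableSet_lt measurable_const measurable_snd).inter (measurableSet_le h1 (by fun_prop))

/-- **LEAF L-256-XD-O2: the `L²` norm.**   `E G = 0` off `{0 < q'.2}`;  `rt_xd_cov γ` with `f = ‖E G ·‖ₑ²`;  for `0 < q.2`: `‖E G (κ q)‖ₑ² ofReal (Q q) = 1_𝒦(q) ‖G q‖ₑ² ofReal (Q q)⁻¹` (`rt_xd_E_K`: on `𝒦`, `Q > 0` and `E G (κ q) = G q/Q`; off `𝒦`: `Q · E G (κ q) = 0`, so either factor vanishes). -/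
theorem rt_xd_F_l2 (γ : ℝ) (hγ : |γ| ≤ 2) (G : RdWvPar.Mo → ℂ) (hG : Measurable G) :
    ∫⁻ q', ‖rtXdF γ G q'‖ₑ ^ 2 = ∫⁻ q in rtXdC, ‖G q‖ₑ ^ 2 * ENNReal.ofReal (rtXdQ γ q)⁻¹ := by
  have hS : MeasurableSet {q : RdWvPar.Mo | 0 < q.2} := measurableSet_lt measurable_const measurable_snd
  have hm : Measurable fun q' => ‖rtXdF γ G q'‖ₑ ^ 2 := ((rt_xd_E_meas γ G hG).enorm).pow_const 2
  have e1 : (fun q' => ‖rtXdF γ G q'‖ₑ ^ 2) = {q : RdWvPar.Mo | 0 < q.2}.indicator (fun q' => ‖rtXdF γ G q'‖ₑ ^ 2) := by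
    funext q'
    by_cases h : 0 < q'.2
    · rw [Set.indicator_of_mem (show q' ∈ {q : RdWvPar.Mo | 0 < q.2} from h)]
    · rw [Set.indicator_of_notMem (show q' ∉ {q : RdWvPar.Mo | 0 < q.2} from h)]
      unfold rtXdF
      rw [if_neg (fun hh => h hh.1)]
      simp
  rw [e1, lintegral_indicator hS, rt_xd_cov γ _ hm]
  have e2 : ∀ q ∈ {q : RdWvPar.Mo | 0 < q.2}, ‖rtXdF γ G (rtXdK γ q)‖ₑ ^ 2 * ENNReal.ofReal (rtXdQ γ q)
      = rtXdC.indicator (fun q => ‖G q‖ₑ ^ 2 * ENNReal.ofReal (rtXdQ γ q)⁻¹) q := by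
    intro q hq
    have hK := rt_xd_E_K γ G q hq
    by_cases hC : q ∈ rtXdC
    · have hQ : 0 < rtXdQ γ q := lt_of_lt_of_le (by norm_num) (rt_xd_Q_bd γ hγ q hC).1
      rw [if_pos ⟨hC, hQ.ne'⟩] at hK
      rw [Set.indicator_of_mem hC, ← hK, rt_xd_F_eq, enorm_mul, mul_pow, mul_comm (‖((rtXdQ γ q : ℝ) : ℂ)‖ₑ ^ 2), mul_assoc]
      congr 1
      have hn : ‖((rtXdQ γ q : ℝ) : ℂ)‖ₑ = ENNReal.ofReal (rtXdQ γ q) := by
        rw [← ofReal_norm, Complex.norm_real, Real.norm_eq_abs, abs_of_pos hQ]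
      rw [hn, ← ENNReal.ofReal_pow hQ.le, ← ENNReal.ofReal_mul (by positivity)]
      congr 1
      field_simp
    · rw [if_neg (fun hh => hC hh.1)] at hK
      rw [Set.indicator_of_notMem hC]
      rcases mul_eq_zero.1 hK with h0 | h0
      · have : rtXdQ γ q = 0 := by exact_mod_cast h0
        rw [this]
        simp
      · rw [rt_xd_F_eq, h0]
        simp
  rw [setLIntegral_congr_fun hS e2, setLIntegral_indicator rt_xd_aux_C_meas]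
  congr 2
  ext q
  constructor
  · exact fun h => h.1
  · exact fun h => ⟨h, h.1⟩

theorem rt_xd_aux_add (γ : ℝ) (g g' : RdWvPar.Mo → ℂ) : rtXdF γ (g + g') = rtXdF γ g + rtXdF γ g' := by
  funext q
  simp only [rtXdF, Pi.add_apply]
  split_ifs
  · ring
  · simp

theorem rt_xd_aux_smul (γ : ℝ) (c : ℂ) (g : RdWvPar.Mo → ℂ) : rtXdF γ (c • g) = c • rtXdF γ g := by
  funext q
  simp only [rtXdF, Pi.smul_apply, smul_eq_mul]
  split_ifs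
  · ring
  · simp

theorem rt_xd_aux_bound (γ : ℝ) (hγ : |γ| ≤ 2) (G : RdWvPar.Mo → ℂ) (hG : Measurable G) :
    ∫⁻ q', ‖rtXdF γ G q'‖ₑ ^ 2 ≤ ENNReal.ofReal (25 / 9) * ∫⁻ q, ‖G q‖ₑ ^ 2 := by
  rw [rt_xd_F_l2 γ hγ G hG]
  have hm : Measurable fun q => ‖G q‖ₑ ^ 2 := hG.enorm.pow_const 2
  calc ∫⁻ q in rtXdC, ‖G q‖ₑ ^ 2 * ENNReal.ofReal (rtXdQ γ q)⁻¹ ≤ ∫⁻ q in rtXdC, ENNReal.ofReal (25 / 9) * ‖G q‖ₑ ^ 2 := by
        refine setLIntegral_mono' rt_xd_aux_C_meas fun q hq => ?_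
        rw [mul_comm]
        gcongr
        have h1 := (rt_xd_Q_bd γ hγ q hq).1
        rw [inv_le_comm₀ (by linarith) (by norm_num)]
        norm_num
        linarith
    _ ≤ ∫⁻ q, ENNReal.ofReal (25 / 9) * ‖G q‖ₑ ^ 2 := setLIntegral_le_lintegral _ _
    _ = ENNReal.ofReal (25 / 9) * ∫⁻ q, ‖G q‖ₑ ^ 2 := lintegral_const_mul _ hm

theorem rt_xd_aux_nsq {α : Type} [MeasurableSpace α] {μ : Measure α} (F : Lp ℂ 2 μ) :
    ∫⁻ x, ‖(F : α → ℂ) x‖ₑ ^ 2 ∂μ = ENNReal.ofReal (‖F‖ ^ 2) := by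
  have hn : ‖F‖ ^ 2 = ∫ x, ‖(F : α → ℂ) x‖ ^ 2 ∂μ := by
    have h0 : 0 ≤ ∫ x, ‖(F : α → ℂ) x‖ ^ (2 : ℝ) ∂μ := integral_nonneg fun x => by positivity
    have h1 := (Lp.memLp F).eLpNorm_eq_integral_rpow_norm (by norm_num) (by norm_num)
    rw [Lp.norm_def, h1, ENNReal.toReal_ofReal (by positivity), ← Real.rpow_natCast, ← Real.rpow_mul (by simpa using h0)]
    simp
  rw [rt_w1_lint_sq (Lp.memLp F), hn]

/-- **LEAF L-256-XD-O3: existence of the operator.**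
PLAN.  For `G : RtKc` take the measurable representative (`(Lp.stronglyMeasurable G).measurable`).   `MemLp (rtXdF γ G) 2`: `rt_xd_E_meas`, `rt_xd_F_l2`, `(Q)⁻¹ ≤ 25/9` (`rt_xd_Q_bd`): `∫⁻ ‖T G‖ₑ² ≤ (25/9) ∫⁻ ‖G‖ₑ²`.   `L G := MemLp.toLp`.   Additivity and homogeneity: `Lp.coeFn_add`, `Lp.coeFn_smul` + `rt_xd_F_congr` + the pointwise linearity of `rtXdF γ` in `G` (`split_ifs`, `ring`).
`LinearMap.mkContinuous` with the bound `5/3`.   (Model: the construction of `RdWvPar.an` in `Rt/Wv1.lean`.) -/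
theorem rt_xd_op_ex (γ : ℝ) (hγ : |γ| ≤ 2) : ∃ L : RtKc →L[ℂ] RtKc, ∀ G : RtKc, (L G : RdWvPar.Mo → ℂ) =ᵐ[volume] rtXdF γ (G : RdWvPar.Mo → ℂ) := by
  have hGm : ∀ G : RtKc, Measurable (G : RdWvPar.Mo → ℂ) := fun G => (Lp.stronglyMeasurable G).measurable
  have hb : ∀ G : RtKc, ∫⁻ q', ‖rtXdF γ (G : RdWvPar.Mo → ℂ) q'‖ₑ ^ 2 ≤ ENNReal.ofReal (25 / 9 * ‖G‖ ^ 2) := by
    intro G
    refine (rt_xd_aux_bound γ hγ _ (hGm G)).trans (le_of_eq ?_)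
    rw [rt_xd_aux_nsq, ← ENNReal.ofReal_mul (by norm_num)]
  have hmem : ∀ G : RtKc, MemLp (rtXdF γ (G : RdWvPar.Mo → ℂ)) 2 volume := by
    intro G
    refine ⟨(rt_xd_E_meas γ _ (hGm G)).aestronglyMeasurable, ?_⟩
    rw [eLpNorm_lt_top_iff_lintegral_rpow_enorm_lt_top (by norm_num) (by norm_num)]
    have : ∀ q', ‖rtXdF γ (G : RdWvPar.Mo → ℂ) q'‖ₑ ^ (2 : ℝ≥0∞).toReal = ‖rtXdF γ (G : RdWvPar.Mo → ℂ) q'‖ₑ ^ 2 := by
      intro q'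
      simp
    simp_rw [this]
    exact lt_of_le_of_lt (hb G) ENNReal.ofReal_lt_top
  let L0 : RtKc →ₗ[ℂ] RtKc :=
    { toFun := fun G => (hmem G).toLp _
      map_add' := by
        intro G G'
        rw [← MemLp.toLp_add]
        refine MemLp.toLp_congr _ _ ?_
        rw [← rt_xd_aux_add]
        exact rt_xd_F_congr γ _ _ (Lp.coeFn_add G G')
      map_smul' := by
        intro c G
        simp only [RingHom.id_apply]
        rw [← MemLp.toLp_const_smul]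
        refine MemLp.toLp_congr _ _ ?_
        rw [← rt_xd_aux_smul]
        exact rt_xd_F_congr γ _ _ (Lp.coeFn_smul c G) }
  refine ⟨L0.mkContinuous (5 / 3) (fun G => ?_), fun G => (hmem G).coeFn_toLp⟩
  have h1 : ENNReal.ofReal (‖L0 G‖ ^ 2) ≤ ENNReal.ofReal (25 / 9 * ‖G‖ ^ 2) := by
    rw [← rt_xd_aux_nsq]
    refine le_trans (le_of_eq ?_) (hb G)
    refine lintegral_congr_ae ?_
    filter_upwards [(hmem G).coeFn_toLp] with q hq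
    show ‖((hmem G).toLp _ : RdWvPar.Mo → ℂ) q‖ₑ ^ 2 = _
    rw [hq]
  rw [ENNReal.ofReal_le_ofReal_iff (by positivity)] at h1
  refine abs_le_of_sq_le_sq' ?_ (by positivity) |>.2
  calc ‖L0 G‖ ^ 2 ≤ 25 / 9 * ‖G‖ ^ 2 := h1
    _ = (5 / 3 * ‖G‖) ^ 2 := by ring

/-- EXIT: the operator is the formula -/
theorem rt_xd_op_spec (γ : ℝ) (hγ : |γ| ≤ 2) (G : RtKc) : (rtXdOp γ G : RdWvPar.Mo → ℂ) =ᵐ[volume] rtXdF γ (G : RdWvPar.Mo → ℂ) := by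
  have h := rt_xd_op_ex γ hγ
  unfold rtXdOp
  rw [dif_pos h]
  exact h.choose_spec G

theorem rt_xd_o4_C_meas : MeasurableSet rtXdC := by
  unfold rtXdC
  have h1 : Measurable fun q : RdWvPar.Mo => rtSq q.1 := by
    unfold rtSq
    fun_prop
  exact (measurableSet_lt measurable_const measurable_snd).inter (measurableSet_le h1 (by fun_prop))

theorem rt_xd_o4_norm (F : RtKc) : ∫⁻ x, ‖(F : RdWvPar.Mo → ℂ) x‖ₑ ^ 2 = ENNReal.ofReal (‖F‖ ^ 2) := by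
  have h0 : 0 ≤ ∫ x, ‖(F : RdWvPar.Mo → ℂ) x‖ ^ (2 : ℝ) := integral_nonneg fun x => by positivity
  have h1 := (Lp.memLp F).eLpNorm_eq_integral_rpow_norm (by norm_num) (by norm_num)
  have h2 : ‖F‖ ^ 2 = ∫ x, ‖(F : RdWvPar.Mo → ℂ) x‖ ^ 2 := by
    rw [Lp.norm_def, h1, ENNReal.toReal_ofReal (by positivity), ← Real.rpow_natCast, ← Real.rpow_mul (by simpa using h0)]
    simp
  rw [rt_w1_lint_sq (Lp.memLp F), h2]

theorem rt_xd_o4_l2 (γ : ℝ) (hγ : |γ| ≤ 2) (G : RtKc) :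
    ENNReal.ofReal (‖rtXdOp γ G‖ ^ 2) = ∫⁻ q in rtXdC, ‖(G : RdWvPar.Mo → ℂ) q‖ₑ ^ 2 * ENNReal.ofReal (rtXdQ γ q)⁻¹ := by
  rw [← rt_xd_o4_norm, ← rt_xd_F_l2 γ hγ _ (Lp.stronglyMeasurable G).measurable]
  refine lintegral_congr_ae ?_
  filter_upwards [rt_xd_op_spec γ hγ G] with q hq
  rw [hq]

/-- **LEAF L-256-XD-O4.**  EXIT.   `‖F‖² = (∫⁻ ‖F‖ₑ²).toReal` (`rt_xk_aux_norm`-type: `rt_w1_lint_sq`, `rt_k_norm_sq`; copy), `rt_xd_op_spec` (`lintegral_congr_ae`), `rt_xd_F_l2`, `rt_xd_Q_bd`: `‖T G‖² ≤ (25/9) ‖G‖²`. -/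
theorem rt_xd_op_le (γ : ℝ) (hγ : |γ| ≤ 2) (G : RtKc) : ‖rtXdOp γ G‖ ≤ 2 * ‖G‖ := by
  have h1 : ENNReal.ofReal (‖rtXdOp γ G‖ ^ 2) ≤ ENNReal.ofReal (25 / 9 * ‖G‖ ^ 2) := by
    rw [rt_xd_o4_l2 γ hγ G, ENNReal.ofReal_mul (by norm_num), ← rt_xd_o4_norm G, ← lintegral_const_mul' _ _ ENNReal.ofReal_ne_top]
    refine (setLIntegral_mono' rt_xd_o4_C_meas fun q hq => ?_).trans (setLIntegral_le_lintegral _ _)
    rw [mul_comm]
    gcongr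
    obtain ⟨ha, -⟩ := rt_xd_Q_bd γ hγ q hq
    rw [inv_le_comm₀ (by linarith) (by norm_num)]
    norm_num
    exact ha
  have h2 : ‖rtXdOp γ G‖ ^ 2 ≤ 25 / 9 * ‖G‖ ^ 2 := (ENNReal.ofReal_le_ofReal_iff (by positivity)).1 h1
  have h3 : ‖rtXdOp γ G‖ ^ 2 ≤ (2 * ‖G‖) ^ 2 := by nlinarith [sq_nonneg ‖G‖]
  exact (pow_le_pow_iff_left₀ (norm_nonneg _) (by positivity) (by norm_num)).1 h3

/-- **LEAF L-256-XD-O4.**  EXIT.   `G = 0` a.e. off `𝒦`, `(Q)⁻¹ ≥ 25/49`: `‖G‖² ≤ (49/25) ‖T G‖²`. -/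
theorem rt_xd_op_norm (γ : ℝ) (hγ : |γ| ≤ 2) (G : RtKc) (hG : RtCone (1 / 5) G) : ‖G‖ ≤ 2 * ‖rtXdOp γ G‖ := by
  have h1 : ENNReal.ofReal (‖G‖ ^ 2) ≤ ENNReal.ofReal (49 / 25 * ‖rtXdOp γ G‖ ^ 2) := by
    rw [ENNReal.ofReal_mul (by norm_num), rt_xd_o4_l2 γ hγ G, ← rt_xd_o4_norm G, ← lintegral_const_mul' _ _ ENNReal.ofReal_ne_top]
    have e : ∫⁻ x, ‖(G : RdWvPar.Mo → ℂ) x‖ₑ ^ 2 = ∫⁻ x in rtXdC, ‖(G : RdWvPar.Mo → ℂ) x‖ₑ ^ 2 := by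
      rw [← lintegral_indicator rt_xd_o4_C_meas]
      refine lintegral_congr_ae ?_
      filter_upwards [hG] with q hq
      by_cases hm : q ∈ rtXdC
      · rw [Set.indicator_of_mem hm]
      · rw [Set.indicator_of_notMem hm]
        have : (G : RdWvPar.Mo → ℂ) q = 0 := by
          by_contra h0
          exact hm (hq h0)
        simp [this]
    rw [e]
    refine setLIntegral_mono' rt_xd_o4_C_meas fun q hq => ?_
    obtain ⟨ha, hb⟩ := rt_xd_Q_bd γ hγ q hq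
    have hQ : 0 < rtXdQ γ q := by linarith
    have h5 : (1 : ℝ≥0∞) ≤ ENNReal.ofReal (49 / 25) * ENNReal.ofReal (rtXdQ γ q)⁻¹ := by
      rw [← ENNReal.ofReal_mul (by norm_num), ← ENNReal.ofReal_one]
      refine ENNReal.ofReal_le_ofReal ?_
      rw [← div_eq_mul_inv, le_div_iff₀ hQ]
      linarith
    calc ‖(G : RdWvPar.Mo → ℂ) q‖ₑ ^ 2 = ‖(G : RdWvPar.Mo → ℂ) q‖ₑ ^ 2 * 1 := (mul_one _).symm
      _ ≤ ‖(G : RdWvPar.Mo → ℂ) q‖ₑ ^ 2 * (ENNReal.ofReal (49 / 25) * ENNReal.ofReal (rtXdQ γ q)⁻¹) := by gcongr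
      _ = _ := by ring
  have h2 : ‖G‖ ^ 2 ≤ 49 / 25 * ‖rtXdOp γ G‖ ^ 2 := (ENNReal.ofReal_le_ofReal_iff (by positivity)).1 h1
  have h3 : ‖G‖ ^ 2 ≤ (2 * ‖rtXdOp γ G‖) ^ 2 := by nlinarith [sq_nonneg ‖rtXdOp γ G‖]
  exact (pow_le_pow_iff_left₀ (norm_nonneg _) (by positivity) (by norm_num)).1 h3

/-- the image of a point of the cone `a ≤ 1/10` -/
theorem rt_xd_o_fwd (γ a : ℝ) (hγ : |γ| ≤ 2) (h0 : 0 ≤ a) (ha : a ≤ 1 / 10) (q : RdWvPar.Mo) (h2 : 0 < q.2) (hc : rtSq q.1 ≤ (2 * a * q.2) ^ 2) :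
    16 / 25 ≤ rtXdQ γ q ∧ rtXdQ γ q ≤ 36 / 25 ∧ 0 < (rtXdK γ q).2 ∧ rtSq (rtXdK γ q).1 ≤ (2 * (2 * a) * (rtXdK γ q).2) ^ 2 := by
  obtain ⟨b1, b2⟩ := rt_xd_o_Q γ a hγ h0 (by linarith) q h2 hc
  have c1 : 16 / 25 ≤ rtXdQ γ q := by nlinarith
  have c2 : rtXdQ γ q ≤ 36 / 25 := by nlinarith
  refine ⟨c1, c2, ?_, ?_⟩
  · rw [rt_xd_K_rho γ q h2.ne']
    exact mul_pos h2 (by linarith)
  · rw [rt_xd_K_rho γ q h2.ne', rt_xd_K_sq γ q h2.ne']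
    obtain ⟨Q, hQ⟩ : ∃ Q, Q = rtXdQ γ q := ⟨_, rfl⟩
    rw [← hQ] at c1 c2 ⊢
    have hp : 0 ≤ (2 * a * q.2) ^ 2 := sq_nonneg _
    calc rtSq q.1 * Q ≤ (2 * a * q.2) ^ 2 * Q := mul_le_mul_of_nonneg_right hc (by linarith)
      _ ≤ (2 * a * q.2) ^ 2 * (4 * Q ^ 2) := by
          refine mul_le_mul_of_nonneg_left ?_ hp
          nlinarith
      _ = (2 * (2 * a) * (q.2 * Q)) ^ 2 := by ring

/-- **LEAF L-256-XD-O5: pointwise form of the exits `cone`, `band`, `inv`.**   `G₀` with EVERYWHERE support in the cone `a ≤ 1/10`.   If `E G₀ q' ≠ 0`: `q := κ_{-γ} q' ∈ 𝒦`, `G₀ q ≠ 0`, `q' = κ_γ q` (as in `rt_xd_loc`), `A(q') = κ_A(A(q))` (`rt_xd_K_ang`), `rtSq (κ_A A) = rtSq A/D ≤ a²/(1-2a)² ≤ (2a)²` (`rt_xd_two`, `rt_xd_D_bd`);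
`q'.2 = q.2 Q(q)`, `Q ∈ [(4/5)², (6/5)²] ⊆ [1/2, 2]`.   Inverse: `E_{-γ} (E_γ G₀) q = G₀ q` for ALL `q` (case `G₀ q ≠ 0`: `q` in the cone `1/10`, `κ q` in the cone `1/5`, `rt_xd_E_K`-type computation, `Q_γ(q) Q_{-γ}(κ q) = 1`; case `G₀ q = 0`: if the outer `if` holds and the inner value is nonzero then `κ_{-γ} κ_γ q = q` gives `G₀ q ≠ 0`). -/
theorem rt_xd_pt (γ a : ℝ) (hγ : |γ| ≤ 2) (h0 : 0 ≤ a) (ha : a ≤ 1 / 10) (G₀ : RdWvPar.Mo → ℂ) (hc : ∀ q, G₀ q ≠ 0 → 0 < q.2 ∧ rtSq q.1 ≤ (2 * a * q.2) ^ 2) :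
    (∀ q', rtXdF γ G₀ q' ≠ 0 → 0 < q'.2 ∧ rtSq q'.1 ≤ (2 * (2 * a) * q'.2) ^ 2 ∧ G₀ (rtXdK (-γ) q') ≠ 0 ∧ (rtXdK (-γ) q').2 / 2 ≤ q'.2 ∧ q'.2 ≤ 2 * (rtXdK (-γ) q').2) ∧
      ∀ q, rtXdF (-γ) (rtXdF γ G₀) q = G₀ q := by
  classical
  constructor
  · intro q' hq'
    have hif : 0 < q'.2 ∧ rtXdK (-γ) q' ∈ rtXdC := by
      by_contra hn
      apply hq'
      unfold rtXdF
      rw [if_neg hn]
    have hval : rtXdF γ G₀ q' = ((rtXdQ (-γ) q' : ℝ) : ℂ) * G₀ (rtXdK (-γ) q') := by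
      unfold rtXdF
      rw [if_pos hif]
    rw [hval] at hq'
    have hG : G₀ (rtXdK (-γ) q') ≠ 0 := right_ne_zero_of_mul hq'
    have hQ' : rtXdQ (-γ) q' ≠ 0 := by
      intro h
      apply left_ne_zero_of_mul hq'
      rw [h, Complex.ofReal_zero]
    obtain ⟨q, hq⟩ : ∃ q, q = rtXdK (-γ) q' := ⟨_, rfl⟩
    rw [← hq] at hG ⊢
    obtain ⟨hq2, hcone⟩ := hc q hG
    have hinv : rtXdK γ q = q' := by
      have := rt_xd_K_inv (-γ) q' hif.1.ne' hQ'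
      rw [neg_neg, ← hq] at this
      exact this
    obtain ⟨c1, c2, c3, c4⟩ := rt_xd_o_fwd γ a hγ h0 ha q hq2 hcone
    have hrho := rt_xd_K_rho γ q hq2.ne'
    rw [hinv] at c3 c4 hrho
    refine ⟨c3, c4, hG, ?_, ?_⟩
    · rw [hrho]; nlinarith
    · rw [hrho]; nlinarith
  · intro q
    have e : rtXdF (-γ) (rtXdF γ G₀) q
        = if 0 < q.2 ∧ rtXdK γ q ∈ rtXdC then ((rtXdQ γ q : ℝ) : ℂ) * rtXdE γ G₀ (rtXdK γ q) else 0 := by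
      show (if 0 < q.2 ∧ rtXdK (- -γ) q ∈ rtXdC then ((rtXdQ (- -γ) q : ℝ) : ℂ) * rtXdF γ G₀ (rtXdK (- -γ) q) else 0) = _
      rw [neg_neg]
      rfl
    rw [e]
    by_cases hG : G₀ q = 0
    · rw [hG]
      by_cases h1 : 0 < q.2 ∧ rtXdK γ q ∈ rtXdC
      · rw [if_pos h1, rt_xd_E_K γ G₀ q h1.1, hG]
        simp
      · rw [if_neg h1]
    · obtain ⟨hq2, hcone⟩ := hc q hG
      obtain ⟨c1, c2, c3, c4⟩ := rt_xd_o_fwd γ a hγ h0 ha q hq2 hcone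
      have hC' : rtXdK γ q ∈ rtXdC := by
        refine ⟨c3, c4.trans ?_⟩
        refine pow_le_pow_left₀ (by positivity) ?_ 2
        nlinarith
      have hC : q ∈ rtXdC := by
        refine ⟨hq2, hcone.trans ?_⟩
        refine pow_le_pow_left₀ (by positivity) ?_ 2
        nlinarith
      rw [if_pos ⟨hq2, hC'⟩, rt_xd_E_K γ G₀ q hq2, if_pos ⟨hC, by linarith⟩]

/-- truncation of a state to a set that carries it -/
theorem rt_xd_o6_ind (G : RtKc) (S : Set RdWvPar.Mo) (h : ∀ᵐ q ∂(volume : Measure RdWvPar.Mo), (G : RdWvPar.Mo → ℂ) q ≠ 0 → q ∈ S) :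
    (G : RdWvPar.Mo → ℂ) =ᵐ[volume] S.indicator (G : RdWvPar.Mo → ℂ) := by
  classical
  filter_upwards [h] with q hq
  by_cases hm : q ∈ S
  · rw [Set.indicator_of_mem hm]
  · rw [Set.indicator_of_notMem hm]
    by_contra h0
    exact hm (hq h0)

theorem rt_xd_o6_supp (G : RdWvPar.Mo → ℂ) (S : Set RdWvPar.Mo) (q : RdWvPar.Mo) (h : S.indicator G q ≠ 0) : q ∈ S := by
  classical
  by_contra hm
  exact h (Set.indicator_of_notMem hm _)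

/-- **LEAF L-256-XD-O6.**  EXIT: group law on the cone `1/10`.   `G₀ = {cone}.indicator G =ᵐ G`;  `rt_xd_op_spec` twice, `rt_xd_F_congr` twice, `rt_xd_pt`;  `Lp.ext`. -/
theorem rt_xd_op_inv (γ : ℝ) (hγ : |γ| ≤ 2) (G : RtKc) (hG : RtCone (1 / 10) G) : rtXdOp (-γ) (rtXdOp γ G) = G := by
  set S : Set RdWvPar.Mo := {q | 0 < q.2 ∧ rtSq q.1 ≤ (2 * (1 / 10) * q.2) ^ 2} with hS
  have e0 := rt_xd_o6_ind G S hG
  have hp := (rt_xd_pt γ (1 / 10) hγ (by norm_num) le_rfl (S.indicator (G : RdWvPar.Mo → ℂ)) fun q hq => rt_xd_o6_supp _ S q hq).2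
  have hγ' : |(-γ)| ≤ 2 := by rwa [abs_neg]
  refine Lp.ext ?_
  have e1 := rt_xd_op_spec (-γ) hγ' (rtXdOp γ G)
  have e2 := rt_xd_F_congr (-γ) _ _ (rt_xd_op_spec γ hγ G)
  have e3 := rt_xd_F_congr (-γ) _ _ (rt_xd_F_congr γ _ _ e0)
  filter_upwards [e0, e1, e2, e3] with q h0 h1 h2 h3
  rw [h1, h2, h3, hp, ← h0]

/-- **LEAF L-256-XD-O6.**  EXIT.   `G₀` as above, `rt_xd_op_spec`, `rt_xd_F_congr`, `rt_xd_pt`. -/
theorem rt_xd_op_cone (γ : ℝ) (hγ : |γ| ≤ 2) {a : ℝ} (h0 : 0 ≤ a) (ha : a ≤ 1 / 10) (G : RtKc) (hG : RtCone a G) : RtCone (2 * a) (rtXdOp γ G) := by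
  set S : Set RdWvPar.Mo := {q | 0 < q.2 ∧ rtSq q.1 ≤ (2 * a * q.2) ^ 2} with hS
  have e0 := rt_xd_o6_ind G S hG
  have hp := (rt_xd_pt γ a hγ h0 ha (S.indicator (G : RdWvPar.Mo → ℂ)) fun q hq => rt_xd_o6_supp _ S q hq).1
  have e1 := rt_xd_op_spec γ hγ G
  have e2 := rt_xd_F_congr γ _ _ e0
  unfold RtCone
  filter_upwards [e1, e2] with q h1 h2 hq
  rw [h1, h2] at hq
  exact ⟨(hp q hq).1, (hp q hq).2.1⟩

/-- **LEAF L-256-XD-O6.**  EXIT.   `G₀ = {cone ∩ plateau}.indicator G`;  `H q'.2 ∈ [H q.2/2, 2 H q.2] ⊆ rdPlat (b+1)`. -/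
theorem rt_xd_op_band (p : RdWvPar) (γ : ℝ) (hγ : |γ| ≤ 2) (b : ℕ) (G : RtKc) (hc : RtCone (1 / 10) G) (hG : p.Spec b G) : p.Spec (b + 1) (rtXdOp γ G) := by
  set S : Set RdWvPar.Mo := {q | (0 < q.2 ∧ rtSq q.1 ≤ (2 * (1 / 10) * q.2) ^ 2) ∧ p.H * q.2 ∈ rdPlat b} with hS
  have hGS : ∀ᵐ q ∂(volume : Measure RdWvPar.Mo), (G : RdWvPar.Mo → ℂ) q ≠ 0 → q ∈ S := by
    filter_upwards [hc, hG] with q h1 h2 hq
    exact ⟨h1 hq, h2 hq⟩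
  have e0 := rt_xd_o6_ind G S hGS
  have hp := (rt_xd_pt γ (1 / 10) hγ (by norm_num) le_rfl (S.indicator (G : RdWvPar.Mo → ℂ)) fun q hq => (rt_xd_o6_supp _ S q hq).1).1
  have e1 := rt_xd_op_spec γ hγ G
  have e2 := rt_xd_F_congr γ _ _ e0
  unfold RdWvPar.Spec
  filter_upwards [e1, e2] with q h1 h2 hq
  rw [h1, h2] at hq
  obtain ⟨-, -, h3, h4, h5⟩ := hp q hq
  have h6 : p.H * (rtXdK (-γ) q).2 ∈ rdPlat b := (rt_xd_o6_supp _ S _ h3).2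
  have hH := p.H_pos
  unfold rdPlat at h6 ⊢
  obtain ⟨h7, h8⟩ := h6
  constructor
  · have : ((2 : ℝ)⁻¹) ^ (b + 1 + 4) = ((2 : ℝ)⁻¹) ^ (b + 4) / 2 := by
      rw [show b + 1 + 4 = (b + 4) + 1 by ring, pow_succ]
      ring
    rw [this]
    have h9 : p.H * ((rtXdK (-γ) q).2 / 2) ≤ p.H * q.2 := mul_le_mul_of_nonneg_left h4 hH.le
    linarith
  · have : (2 : ℝ) ^ (b + 1 + 4) = 2 * 2 ^ (b + 4) := by
      rw [show b + 1 + 4 = (b + 4) + 1 by ring, pow_succ]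
      ring
    rw [this]
    have h9 : p.H * q.2 ≤ p.H * (2 * (rtXdK (-γ) q).2) := mul_le_mul_of_nonneg_left h5 hH.le
    linarith

end Claimed.Agent.R256
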