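-- KEEP
import Claimed.Agent.R256.Rt.XdGeo
import Claimed.Agent.R256.Rt.XkContract

/-!
# Row 256, folder Rt, block I1, unit XD (dual boost arrow), file 4: THE LATTICE KERNEL AND ITS SCHUR SUMS            (unit architect helper290; prefix `rt_xd_`)            CONTRACT
Route: header of `Rt/XdGeo.lean`.   Every `sorry` is a leaf `L-256-XD-*` (name in the docstring).   Statements FROZEN; auxiliary lemmas directly above your theorem, prefix `rt_xd_`; edit only your block.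
SOURCE point `z = (j', x')` (new rows, time `T' = rtTm k j'`), TARGET point `z' = (j, x)` (old rows, time `T = rtTm k j`).   `te = rtXdT γ T' x'.2` = old time of the new event; the target index is SELECTED: `j = rtXdJ k γ z`, so `|te - T| ≤ ℓ` on the region.
`rtXdL` = `1[j = J(z)] 1[|te - T| ≤ ℓ] 1[A ∈ S(A')] (q²H)⁻¹ (1 + ‖Y‖)^{-N}`, `Y = rtXdY ..`.      `∫ · d(rtVm p k) = ∑_{j < 2^k} ∫ · d(rw k)` (`rt_xk_lint`), `rw k = (ℓ/H) vol = d⁻² vol`.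
-/

set_option autoImplicit false

namespace Claimed.Agent.R256

open MeasureTheory
open scoped ENNReal

/-- the old time of the event of a source point -/
noncomputable def rtXdTe (k : ℕ) (γ : ℝ) (z : RtZ) : ℝ := rtXdT γ (rtTm k z.1) z.2.2

/-- the selected target index -/
noncomputable def rtXdJ (k : ℕ) (γ : ℝ) (z : RtZ) : ℕ := min ⌊(rtXdTe k γ z + 1 / 4) * 2 ^ k⌋₊ (2 ^ k - 1)

/-- the normalised displacement between a source point and a target point -/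
noncomputable def rtXdYl (H : ℝ) (k : ℕ) (γ : ℝ) (z z' : RtZ) : ReSp := rtXdY H k γ (rtTm k z.1) (rtTm k z'.1) z.2 z'.2

/-- the lattice kernel of order `N` -/
noncomputable def rtXdL (H : ℝ) (k : ℕ) (γ : ℝ) (N : ℕ) (z z' : RtZ) : ℝ :=
  open Classical in
  if z'.1 = rtXdJ k γ z ∧ |rtXdTe k γ z - rtTm k z'.1| ≤ rdLen k ∧ z'.2.1 ∈ rtXdS H k γ z.2.1 then
    (rdQ H k ^ 2 * H)⁻¹ * (1 + ‖rtXdYl H k γ z z'‖) ^ (-(N : ℝ))
  else 0

/-- its near part -/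
noncomputable def rtXdLn (H : ℝ) (k : ℕ) (γ : ℝ) (N : ℕ) (Λ : ℝ) (z z' : RtZ) : ℝ :=
  open Classical in if ‖rtXdYl H k γ z z'‖ ≤ Λ / 2 then rtXdL H k γ N z z' else 0

/-- its far part -/
noncomputable def rtXdLf (H : ℝ) (k : ℕ) (γ : ℝ) (N : ℕ) (Λ : ℝ) (z z' : RtZ) : ℝ :=
  open Classical in if ‖rtXdYl H k γ z z'‖ ≤ Λ / 2 then 0 else rtXdL H k γ N z z'

theorem rt_xd_sum_eqns_cite : True := by
  have := @rtXdTe.eq_1
  have := @rtXdJ.eq_1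
  have := @rtXdYl.eq_1
  have := @rtXdL.eq_1
  have := @rtXdLn.eq_1
  have := @rtXdLf.eq_1
  trivial

/-! ## 1. Selection, charts -/

/-- **LEAF L-256-XD-S1: the old time in the language of charts.**   unfold `rtZt, RtCh.tm, RtCh.dn, rtChDb, rtCfT0, rtCfQ, rtZr, rtRay, RdWvPar.co, RtRow.flow, rtXdTe, rtXdT, rtSq`;  `simp`, `ring`. -/
theorem rt_xd_zt (k : ℕ) (γ : ℝ) (z : RtZ) : rtZt (rtChDb (-γ)) k z = rtXdTe k γ z := by
  simp only [rtZt, RtCh.tm, RtCh.dn, rtChDb, rtCfT0, rtCfQ, rtZr, rtRay, RdWvPar.co, RtRow.flow, rtXdTe, rtXdT, rtSq]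
  simp
  ring

/-- **LEAF L-256-XD-S1: the selection.**   `s = (te + 1/4) 2^k ∈ [-1, 2^k]`, `rtTm k j = j/2^k - 1/4`, `ℓ = 2^-k`.   `s < 0`: `⌊s⌋₊ = 0`, `|s - 0| ≤ 1`.   `0 ≤ s < 2^k`: `⌊s⌋₊ ≤ 2^k - 1`, `|s - ⌊s⌋₊| ≤ 1` (`Nat.floor_le`, `Nat.lt_floor_add_one`).   `s = 2^k`: `j = 2^k - 1`. -/
theorem rt_xd_sel (k : ℕ) (γ : ℝ) (z : RtZ) (h1 : -(1 / 4) - rdLen k ≤ rtXdTe k γ z) (h2 : rtXdTe k γ z ≤ 3 / 4) :
    rtXdJ k γ z < 2 ^ k ∧ |rtXdTe k γ z - rtTm k (rtXdJ k γ z)| ≤ rdLen k := by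
  have hp : (0 : ℝ) < 2 ^ k := by positivity
  have hpn : 0 < 2 ^ k := by positivity
  refine ⟨lt_of_le_of_lt (min_le_right _ _) (Nat.sub_lt hpn one_pos), ?_⟩
  obtain ⟨s, hs⟩ : ∃ s, s = (rtXdTe k γ z + 1 / 4) * 2 ^ k := ⟨_, rfl⟩
  have hlen : rdLen k = 1 / 2 ^ k := by unfold rdLen; rw [inv_pow, one_div]
  have hs1 : -1 ≤ s := by
    rw [hs]
    have : -(1 / 2 ^ k) ≤ rtXdTe k γ z + 1 / 4 := by rw [hlen] at h1; linarith
    calc (-1 : ℝ) = -(1 / 2 ^ k) * 2 ^ k := by field_simp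
      _ ≤ _ := mul_le_mul_of_nonneg_right this hp.le
  have hs2 : s ≤ 2 ^ k := by
    rw [hs]
    calc (rtXdTe k γ z + 1 / 4) * 2 ^ k ≤ 1 * 2 ^ k := mul_le_mul_of_nonneg_right (by linarith) hp.le
      _ = 2 ^ k := one_mul _
  have key : |s - (rtXdJ k γ z : ℝ)| ≤ 1 := by
    have hJ : rtXdJ k γ z = min ⌊s⌋₊ (2 ^ k - 1) := by rw [hs]; rfl
    rw [hJ]
    rcases lt_or_ge s 0 with h0 | h0
    · rw [Nat.floor_of_nonpos h0.le]
      simp only [Nat.zero_min, Nat.cast_zero, sub_zero]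
      rw [abs_le]; constructor <;> linarith
    · have f1 := Nat.floor_le h0
      have f2 := Nat.lt_floor_add_one s
      rcases le_or_gt ⌊s⌋₊ (2 ^ k - 1) with hc | hc
      · rw [min_eq_left hc, abs_le]; constructor <;> linarith
      · rw [min_eq_right hc.le]
        have h5 : (2 ^ k : ℕ) ≤ ⌊s⌋₊ := by omega
        have h3 : ((2 ^ k : ℕ) : ℝ) ≤ (⌊s⌋₊ : ℝ) := by exact_mod_cast h5
        have h4 : ((2 ^ k - 1 : ℕ) : ℝ) = 2 ^ k - 1 := by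
          rw [Nat.cast_sub hpn]; simp
        rw [h4, abs_le]
        push_cast at h3
        constructor <;> linarith
  have e : rtXdTe k γ z - rtTm k (rtXdJ k γ z) = (s - (rtXdJ k γ z : ℝ)) / 2 ^ k := by
    rw [hs]; unfold rtTm tmL; field_simp; ring
  rw [e, abs_div, abs_of_pos hp, hlen]
  exact div_le_div_of_nonneg_right key hp.le

/-- the image row of a source point, flowed to the old time of its event -/
theorem rt_xd_as_row (k : ℕ) (γ : ℝ) (z : RtZ) (hQ : rtXdD (-γ) z.2.1 ≠ 0) :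
    ((rtChDb (-γ)).row (rtZr k z)).flow (rtXdTe k γ z) = ⟨rtXdA (-γ) z.2.1, (rtXdZ γ z.2.2).1, (rtXdZ γ z.2.2).2⟩ := by
  obtain ⟨j, ⟨a1, a2⟩, ⟨b1, b2⟩, y⟩ := z
  have hQ' : rtCfQ (-γ) (rtZr k (j, (a1, a2), (b1, b2), y)) ≠ 0 := hQ
  have key := rt_cf_row_db (-γ) (rtZr k (j, (a1, a2), (b1, b2), y)) (rtTm k j) hQ'
  have hte : rtCfT0 (-γ) (rtZr k (j, (a1, a2), (b1, b2), y)) + rtTm k j * rtCfQ (-γ) (rtZr k (j, (a1, a2), (b1, b2), y)) = rtXdTe k γ (j, (a1, a2), (b1, b2), y) := by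
    simp only [rtCfT0, rtCfQ, rtZr, rtRay, RdWvPar.co, RtRow.flow, rtXdTe, rtXdT, rtSq, Prod.snd_add, Prod.smul_snd, smul_eq_mul]
    ring
  rw [hte] at key
  have kb := congrArg RtEv.b key
  have ky := congrArg RtEv.y key
  have e1 : ((rtChDb (-γ)).row (rtZr k (j, (a1, a2), (b1, b2), y))) = rtCfRowDb (-γ) (rtZr k (j, (a1, a2), (b1, b2), y)) := rfl
  rw [e1]
  ext
  · rfl
  · rfl
  · have := congrArg Prod.fst kb
    simp only [RtRow.ev] at this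
    simp only [RtRow.flow]
    rw [← this]
    simp only [rtCfDb, rtZr, rtRay, RdWvPar.co, RtRow.flow, rtXdZ, Prod.fst_add, Prod.smul_fst, smul_eq_mul]
    ring
  · have := congrArg Prod.snd kb
    simp only [RtRow.ev] at this
    simp only [RtRow.flow]
    rw [← this]
    simp only [rtCfDb, rtZr, rtRay, RdWvPar.co, RtRow.flow, rtXdZ, Prod.snd_add, Prod.smul_snd, smul_eq_mul, rtSq]
    ring
  · simp only [RtRow.ev] at ky
    simp only [RtRow.flow]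
    rw [← ky]
    simp only [rtCfDb, rtZr, rtRay, RdWvPar.co, RtRow.flow, rtXdZ, rtSq]
    ring

/-- the angle clause -/
theorem rt_xd_as_ang (H : ℝ) (k : ℕ) (γ : ℝ) (hγ : |γ| ≤ 2) (hd0 : 0 < rdD H k) (hd : rdD H k ≤ 1 / 100) (A' A : ℝ × ℝ) (hA : A ∈ rtXdS H k γ A') :
    rtXdD (-γ) A' ≠ 0 ∧ rtSq (rtXdA (-γ) A' - A) ≤ 81 * rdD H k ^ 2 := by
  obtain ⟨hA1, hA2⟩ := hA
  obtain ⟨d, hdd⟩ : ∃ d, d = rdD H k := ⟨_, rfl⟩
  rw [← hdd] at hd0 hd hA2 ⊢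
  have hγ' : |-γ| ≤ 2 := by rwa [abs_neg]
  obtain ⟨hDlo, hDhi⟩ := rt_xd_D_bd γ (3 / 25) A hγ (by norm_num) (by norm_num) hA1
  have hDpos : 0 < rtXdD γ A := lt_of_lt_of_le (by norm_num) hDlo
  obtain ⟨-, t2, t3, t4⟩ := rt_xd_two γ A A hDpos.ne' hDpos.ne'
  obtain ⟨K, hK⟩ : ∃ K, K = rtXdA γ A := ⟨_, rfl⟩
  rw [← hK] at hA2 t2 t3 t4
  have hSK0 : 0 ≤ rtSq K := by unfold rtSq; positivity
  have hSK : rtSq K ≤ (3 / 19) ^ 2 := by nlinarith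
  have hd2 : d ^ 2 ≤ 1 / 10000 := by nlinarith
  have hSA' : rtSq A' ≤ (1 / 5) ^ 2 := by
    simp only [rtSq, Prod.fst_sub, Prod.snd_sub] at hA2 hSK ⊢
    nlinarith [sq_nonneg (K.1 / 2 + 2 * (K.1 - A'.1)), sq_nonneg (K.2 / 2 + 2 * (K.2 - A'.2))]
  obtain ⟨hD'lo, -⟩ := rt_xd_D_bd (-γ) (1 / 5) A' hγ' (by norm_num) (by norm_num) hSA'
  have hD'pos : 0 < rtXdD (-γ) A' := lt_of_lt_of_le (by norm_num) hD'lo
  have hDK : 5 / 8 ≤ rtXdD (-γ) K := by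
    have h1 : rtXdD γ A ≤ 8 / 5 := hDhi.trans (by norm_num)
    by_contra hc
    rw [not_le] at hc
    have hpos : 0 < rtXdD (-γ) K := by
      by_contra hn
      rw [not_lt] at hn
      nlinarith
    nlinarith
  have hDKpos : 0 < rtXdD (-γ) K := lt_of_lt_of_le (by norm_num) hDK
  have e := (rt_xd_two (-γ) A' K hD'pos.ne' hDKpos.ne').1
  rw [t4] at e
  refine ⟨hD'pos.ne', ?_⟩
  have hnn : 0 ≤ rtSq (rtXdA (-γ) A' - A) := by unfold rtSq; positivity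
  have hprod : (9 / 40 : ℝ) ≤ rtXdD (-γ) A' * rtXdD (-γ) K := by
    calc (9 / 40 : ℝ) = (1 - 2 * (1 / 5)) ^ 2 * (5 / 8) := by norm_num
      _ ≤ rtXdD (-γ) A' * rtXdD (-γ) K := mul_le_mul hD'lo hDK (by norm_num) hD'pos.le
  have hsym : rtSq (A' - K) = rtSq (K - A') := by
    simp only [rtSq, Prod.fst_sub, Prod.snd_sub]
    ring
  have h3 : 9 / 40 * rtSq (rtXdA (-γ) A' - A) ≤ 16 * d ^ 2 := by
    calc 9 / 40 * rtSq (rtXdA (-γ) A' - A) ≤ rtXdD (-γ) A' * rtXdD (-γ) K * rtSq (rtXdA (-γ) A' - A) := mul_le_mul_of_nonneg_right hprod hnn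
      _ = rtSq (A' - K) := e.symm
      _ = rtSq (K - A') := hsym
      _ ≤ 16 * d ^ 2 := hA2
  nlinarith [sq_nonneg d]

/-- **LEAF L-256-XD-S2: near points are associated.**
PLAN.  `Ψ = rtChDb (-γ)`, `p' = rtZr k z = ⟨A', b' - T'A', y' - T'|A'|²⟩`, `te = rtZt Ψ k z` (`rt_xd_zt`).   `√(rtSq A') ≤ √(rtSq (κA)) + 4d ≤ 3/19 + 1/25 ≤ 1/5` (`rt_xd_two`: `rtSq (κA) = rtSq A/D(A)`), so `rtCfQ (-γ) p' = rtXdD (-γ) A' ≥ (3/5)² ≠ 0` (`rt_xd_D_bd`, `a = 1/5`).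
`rt_cf_row_db (-γ) p' T'`: `rtCfDb (-γ) (p'.ev T') = (rtCfRowDb (-γ) p').ev te`;  `p'.ev T' = ⟨T', b', y'⟩`;  so `((Ψ.row p').flow te) = ⟨rtXdA (-γ) A', ze.1, ze.2⟩`, `ze = rtXdZ γ x'.2`.
ANGLE: `A = rtXdA (-γ) (rtXdA γ A)` (`rt_xd_two`), two-point identity for `-γ`: `rtSq (κ⁻A' - A) = rtSq (A' - κA)/(D₋(A') D₋(κA)) ≤ 16 d²/((3/5)²·(5/8)) ≤ 81 d² ≤ (Λ d)²`   (`D₋(κA) = 1/D(A) ≥ 5/8`).
POSITION: `Y = reZ H k A u (ze - x.2) = ((ze.1 - b - uA)/q, (ze.2 - y - 2A·(ze.1 - b) + u|A|²)/H)`, `‖Y‖ ≤ Λ/2` (sup norm): `rtSq (ze.1 - b - uA) ≤ 2 (Λ q/2)² ≤ (Λ q)²`;  the third clause of `RtNear` is `H |Y.2|` (`ring`). -/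
theorem rt_xd_as (H : ℝ) (hH : 0 < H) (k : ℕ) (γ Λ : ℝ) (hγ : |γ| ≤ 2) (hd : rdD H k ≤ 1 / 100) (hΛ : 9 ≤ Λ) (z z' : RtZ) (h : rtXdLn H k γ 0 Λ z z' ≠ 0) :
    RtAs (rtChDb (-γ)) k H k Λ z z' := by
  obtain ⟨hd0, hq0, -, -, -, -⟩ := re_sp_dq H hH k
  have hl0 : 0 < rdLen k := rdLen_pos k
  unfold rtXdLn at h
  split_ifs at h with hY
  · unfold rtXdL at h
    split_ifs at h with hc
    · obtain ⟨-, hT, hS⟩ := hc
      obtain ⟨hQ, hang⟩ := rt_xd_as_ang H k γ hγ hd0 hd z.2.1 z'.2.1 hS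
      rw [rt_as_iff, rt_xd_zt, rt_xd_as_row k γ z hQ]
      obtain ⟨c1, c2, c3⟩ := rt_xd_coord (rtXdYl H k γ z z')
      have c1' := c1.trans hY
      have c2' := c2.trans hY
      have c3' := c3.trans hY
      obtain ⟨u, hu⟩ : ∃ u, u = rtXdTe k γ z - rtTm k z'.1 := ⟨_, rfl⟩
      obtain ⟨ze, hze⟩ : ∃ ze, ze = rtXdZ γ z.2.2 := ⟨_, rfl⟩
      have hYl : rtXdYl H k γ z z' = reZ H k z'.2.1 u (ze - z'.2.2) := by rw [hu, hze]; rfl
      rw [hYl] at c1' c2' c3'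
      rw [← hu, ← hze]
      rw [← hu] at hT
      obtain ⟨j, ⟨a1, a2⟩, ⟨b1, b2⟩, y⟩ := z'
      obtain ⟨⟨e1, e2⟩, e3⟩ := ze
      simp only [reZ, rtIp, rtSq, Prod.smul_mk, smul_eq_mul, Prod.mk_sub_mk] at c1' c2' c3'
      rw [abs_mul, abs_inv, abs_of_pos hq0, inv_mul_le_iff₀ hq0] at c1' c2'
      rw [abs_div, abs_of_pos hH, div_le_iff₀ hH] at c3'
      refine ⟨?_, ?_, ?_, ?_⟩
      · calc |u| ≤ rdLen k := hT
          _ ≤ Λ * rdLen k := by nlinarith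
      · simp only [RdWvPar.co, RtRow.flow]
        refine hang.trans ?_
        rw [mul_pow]
        have : (81 : ℝ) ≤ Λ ^ 2 := by nlinarith
        exact mul_le_mul_of_nonneg_right this (sq_nonneg _)
      · simp only [RdWvPar.co, RtRow.flow, rtSq, Prod.mk_add_mk, Prod.smul_mk, smul_eq_mul, Prod.mk_sub_mk]
        have s1 := sq_le_sq' (by linarith [(abs_le.1 c1').1]) (abs_le.1 c1').2
        have s2 := sq_le_sq' (by linarith [(abs_le.1 c2').1]) (abs_le.1 c2').2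
        have e1' : e1 - (b1 + u * a1) = e1 - b1 - u * a1 := by ring
        have e2' : e2 - (b2 + u * a2) = e2 - b2 - u * a2 := by ring
        rw [e1', e2']
        nlinarith [sq_nonneg (Λ * rdQ H k)]
      · simp only [RdWvPar.co, RtRow.flow, rtSq, rtIp, Prod.mk_add_mk, Prod.smul_mk, smul_eq_mul, Prod.mk_sub_mk]
        have e : e3 - (y + u * (a1 ^ 2 + a2 ^ 2)) - 2 * (a1 * (e1 - (b1 + u * a1)) + a2 * (e2 - (b2 + u * a2))) = e3 - y - 2 * (a1 * (e1 - b1) + a2 * (e2 - b2)) + u * (a1 ^ 2 + a2 ^ 2) := by ring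
        rw [e]
        refine c3'.trans ?_
        nlinarith
    · exact absurd rfl h
  · exact absurd rfl h

/-! ## 2. Measurability, gain -/

/-- **LEAF L-256-XD-S3.**  `measurable_from_prod_countable`-type reduction in the two integer variables (`ℕ × Ph` with `ℕ` discrete: a function on `(ℕ × Ph) × (ℕ × Ph)` is measurable iff it is for fixed `(j', j)`: compose with the measurable equivalence, or `Measurable.ite` directly: `{z'.1 = rtXdJ k γ z}` is measurable since `rtXdJ` is (`Nat.measurable_floor`, `measurable_from_prod_countable_right` for `rtTm k z.1`) and `ℕ` has measurable equality);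
`rtXdYl` is measurable (continuous for fixed indices), `rt_xd_S_meas`. -/
theorem rt_xd_L_meas (H : ℝ) (k : ℕ) (γ : ℝ) (N : ℕ) (Λ : ℝ) :
    Measurable (fun P : RtZ × RtZ => rtXdL H k γ N P.1 P.2) ∧ Measurable (fun P : RtZ × RtZ => rtXdLn H k γ N Λ P.1 P.2) ∧ Measurable (fun P : RtZ × RtZ => rtXdLf H k γ N Λ P.1 P.2) := by
  have hTm : Measurable (fun z : RtZ => rtTm k z.1) := (Measurable.of_discrete (f := rtTm k)).comp measurable_fst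
  have hTe : Measurable (rtXdTe k γ) := by
    have e : rtXdTe k γ = fun z : RtZ => rtTm k z.1 - 2 * γ * z.2.2.1.2 + γ ^ 2 * z.2.2.2 := rfl
    rw [e]
    exact (hTm.sub (by fun_prop)).add (by fun_prop)
  have hJ : Measurable (rtXdJ k γ) := by
    unfold rtXdJ
    exact (Nat.measurable_floor.comp ((hTe.add_const _).mul_const _)).min measurable_const
  have hreZ : Measurable (fun x : (ℝ × ℝ) × ℝ × ReSp => reZ H k x.1 x.2.1 x.2.2) := by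
    unfold reZ rtIp rtSq
    fun_prop
  have hZ : Measurable (rtXdZ γ) := by
    unfold rtXdZ
    fun_prop
  have hs : Measurable (fun P : RtZ × RtZ => rtXdTe k γ P.1 - rtTm k P.2.1) :=
    (hTe.comp measurable_fst).sub (hTm.comp measurable_snd)
  have hp1 : Measurable (fun P : RtZ × RtZ => P.2.2.1) := by fun_prop
  have hp2 : Measurable (fun P : RtZ × RtZ => P.1.2.2) := by fun_prop
  have hp3 : Measurable (fun P : RtZ × RtZ => P.2.2.2) := by fun_prop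
  have hY : Measurable (fun P : RtZ × RtZ => rtXdYl H k γ P.1 P.2) :=
    hreZ.comp (hp1.prodMk (hs.prodMk ((hZ.comp hp2).sub hp3)))
  have hset : MeasurableSet {P : RtZ × RtZ | P.2.1 = rtXdJ k γ P.1 ∧ |rtXdTe k γ P.1 - rtTm k P.2.1| ≤ rdLen k ∧ P.2.2.1 ∈ rtXdS H k γ P.1.2.1} := by
    have s1 : MeasurableSet {P : RtZ × RtZ | P.2.1 = rtXdJ k γ P.1} :=
      measurableSet_eq_fun (by fun_prop) (hJ.comp measurable_fst)
    have s2 : MeasurableSet {P : RtZ × RtZ | |rtXdTe k γ P.1 - rtTm k P.2.1| ≤ rdLen k} :=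
      measurableSet_le (measurable_norm.comp hs) measurable_const
    have s3 : MeasurableSet {P : RtZ × RtZ | P.2.2.1 ∈ rtXdS H k γ P.1.2.1} :=
      (rt_xd_S_meas H k γ).1.preimage (f := fun P : RtZ × RtZ => (P.1.2.1, P.2.2.1)) (by fun_prop)
    exact s1.inter (s2.inter s3)
  have hL : Measurable (fun P : RtZ × RtZ => rtXdL H k γ N P.1 P.2) := by
    unfold rtXdL
    refine Measurable.ite hset ?_ measurable_const
    exact measurable_const.mul ((measurable_const.add hY.norm).pow_const _)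
  have hnear : MeasurableSet {P : RtZ × RtZ | ‖rtXdYl H k γ P.1 P.2‖ ≤ Λ / 2} := measurableSet_le hY.norm measurable_const
  refine ⟨hL, ?_, ?_⟩
  · unfold rtXdLn
    exact Measurable.ite hnear hL measurable_const
  · unfold rtXdLf
    exact Measurable.ite hnear measurable_const hL

/-- **LEAF L-256-XD-S4: elementary properties.**   `0 ≤ L`;  `L = Ln + Lf`;  `Ln ≤ L`;  monotone in the order;  gain of the far part: `Λ/2 < ‖Y‖` gives `(1+‖Y‖)^{-(N+M)} ≤ (Λ/2)^{-N} (1+‖Y‖)^{-M}`;  `Ln N ≠ 0 ↔ Ln 0 ≠ 0`. -/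
theorem rt_xd_L_el (H : ℝ) (hH : 0 < H) (k : ℕ) (γ : ℝ) (N M : ℕ) (Λ : ℝ) (hΛ : 2 ≤ Λ) (z z' : RtZ) :
    0 ≤ rtXdL H k γ N z z' ∧ rtXdL H k γ N z z' = rtXdLn H k γ N Λ z z' + rtXdLf H k γ N Λ z z' ∧ 0 ≤ rtXdLn H k γ N Λ z z' ∧ 0 ≤ rtXdLf H k γ N Λ z z' ∧
      rtXdLn H k γ (N + M) Λ z z' ≤ rtXdL H k γ M z z' ∧ rtXdLf H k γ (N + M) Λ z z' ≤ (Λ / 2) ^ (-(N : ℝ)) * rtXdL H k γ M z z' ∧
      (rtXdLn H k γ N Λ z z' ≠ 0 → rtXdLn H k γ 0 Λ z z' ≠ 0) := by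
  obtain ⟨c, hc⟩ : ∃ c, c = (rdQ H k ^ 2 * H)⁻¹ := ⟨_, rfl⟩
  obtain ⟨y, hy⟩ : ∃ y, y = ‖rtXdYl H k γ z z'‖ := ⟨_, rfl⟩
  have hc0 : 0 ≤ c := by rw [hc]; positivity
  have hy0 : 0 ≤ y := hy ▸ norm_nonneg _
  have h1y : 1 ≤ 1 + y := by linarith
  have hpow : ∀ n : ℕ, 0 < (1 + y) ^ (-(n : ℝ)) := fun n => Real.rpow_pos_of_pos (by linarith) _
  have hL0 : ∀ n : ℕ, 0 ≤ rtXdL H k γ n z z' := by
    intro n
    unfold rtXdL
    rw [← hc, ← hy]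
    split_ifs
    · exact mul_nonneg hc0 (hpow n).le
    · exact le_rfl
  have hmono : rtXdL H k γ (N + M) z z' ≤ rtXdL H k γ M z z' := by
    unfold rtXdL
    rw [← hc, ← hy]
    split_ifs
    · refine mul_le_mul_of_nonneg_left (Real.rpow_le_rpow_of_exponent_le h1y ?_) hc0
      push_cast
      have : (0 : ℝ) ≤ N := Nat.cast_nonneg _
      linarith
    · exact le_rfl
  have hΛ0 : 0 < (Λ / 2) ^ (-(N : ℝ)) := Real.rpow_pos_of_pos (by linarith) _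
  refine ⟨hL0 N, ?_, ?_, ?_, ?_, ?_, ?_⟩
  · unfold rtXdLn rtXdLf
    split_ifs <;> simp
  · unfold rtXdLn
    split_ifs
    · exact hL0 N
    · exact le_rfl
  · unfold rtXdLf
    split_ifs
    · exact le_rfl
    · exact hL0 N
  · unfold rtXdLn
    split_ifs
    · exact hmono
    · exact hL0 M
  · unfold rtXdLf
    split_ifs with h
    · exact mul_nonneg hΛ0.le (hL0 M)
    · rw [← hy] at h
      push Not at h
      unfold rtXdL
      rw [← hc, ← hy]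
      split_ifs
      · have e : (1 + y) ^ (-((N + M : ℕ) : ℝ)) = (1 + y) ^ (-(N : ℝ)) * (1 + y) ^ (-(M : ℝ)) := by
          rw [← Real.rpow_add (by linarith)]
          congr 1
          push_cast
          ring
        rw [e]
        have h2 : (1 + y) ^ (-(N : ℝ)) ≤ (Λ / 2) ^ (-(N : ℝ)) :=
          Real.rpow_le_rpow_of_nonpos (by linarith) (by linarith) (by simp)
        calc c * ((1 + y) ^ (-(N : ℝ)) * (1 + y) ^ (-(M : ℝ))) = (1 + y) ^ (-(N : ℝ)) * (c * (1 + y) ^ (-(M : ℝ))) := by ring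
          _ ≤ (Λ / 2) ^ (-(N : ℝ)) * (c * (1 + y) ^ (-(M : ℝ))) :=
            mul_le_mul_of_nonneg_right h2 (mul_nonneg hc0 (hpow M).le)
      · simp
  · unfold rtXdLn
    split_ifs with h
    · unfold rtXdL
      rw [← hc, ← hy]
      split_ifs
      · intro h3
        have hc1 : c ≠ 0 := left_ne_zero_of_mul h3
        simpa using hc1
      · intro h3; exact absurd rfl h3
    · intro h3; exact absurd rfl h3

/-! ## 3. Schur sums -/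

/-- the normalised weight integrates to at most `C_wt` after the affine change of variables -/
theorem rt_xd_sum_wt (C : ℝ) (hC : ∫⁻ Z : ReSp, ENNReal.ofReal ((1 + ‖Z‖) ^ (-4 : ℝ)) ≤ ENNReal.ofReal C) (H : ℝ) (hH : 0 < H) (k : ℕ) :
    ENNReal.ofReal (rdQ H k ^ 2 * H) * ∫⁻ Z : ReSp, ENNReal.ofReal ((rdQ H k ^ 2 * H)⁻¹ * (1 + ‖Z‖) ^ (-((4 : ℕ) : ℝ))) ≤ ENNReal.ofReal C := by
  have hQ := (re_sp_dq H hH k).2.1
  have hpos : 0 < rdQ H k ^ 2 * H := by positivity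
  have e1 : ∀ Z : ReSp, ENNReal.ofReal ((rdQ H k ^ 2 * H)⁻¹ * (1 + ‖Z‖) ^ (-((4 : ℕ) : ℝ)))
      = ENNReal.ofReal ((rdQ H k ^ 2 * H)⁻¹) * ENNReal.ofReal ((1 + ‖Z‖) ^ (-4 : ℝ)) := fun Z => by
    rw [ENNReal.ofReal_mul (by positivity)]
    norm_num
  simp_rw [e1]
  rw [lintegral_const_mul' _ _ ENNReal.ofReal_ne_top, ← mul_assoc, ← ENNReal.ofReal_mul hpos.le, mul_inv_cancel₀ hpos.ne', ENNReal.ofReal_one, one_mul]
  exact hC

/-- **LEAF L-256-XD-S5: the sum over the targets.**      `C = 700 C_wt`.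
PLAN.  `rt_xk_lint` (`rt_xd_L_meas` composed with `z' ↦ (z, z')`);  the terms `j ≠ rtXdJ k γ z` vanish: at most one term (`Finset.sum_eq_single_of_mem` or `Finset.sum_le_..`: bound `∑ ≤` the single term, if `J ∉ range` the sum is `0`).
For `j = J`: `rw k = ofReal (ℓ/H) • volume`, `volume` on `Ph = (ℝ×ℝ) × ReSp` is the product: `lintegral_prod`;  for fixed `A ∈ S(A')`: `∫⁻ z₀, ofReal ((q²H)⁻¹ (1 + ‖reZ H k A u (ze - z₀)‖)^{-4}) = ∫⁻ (1+‖Z‖)^{-4} ≤ C_wt` (`lintegral_sub_left_eq_self`, `re_sp_zjac`, `re_sp_wt_int`);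
`∫⁻_{A ∈ S} 1 = volume S ≤ 700 d²` (`rt_xd_S_vol`), `(ℓ/H) d² = 1` (`re_sp_dq`). -/
theorem rt_xd_sum_t : ∃ C : ℝ, 0 ≤ C ∧ ∀ (p : RdWvPar) (k : ℕ) (γ : ℝ), |γ| ≤ 2 → ∀ z : RtZ, ∫⁻ z', ENNReal.ofReal (rtXdL p.H k γ 4 z z') ∂(rtVm p k) ≤ ENNReal.ofReal C := by
  obtain ⟨Cw, hCw0, hCw⟩ := re_sp_wt_int
  refine ⟨700 * Cw, by positivity, fun p k γ hγ z => ?_⟩
  have hH := p.H_pos
  obtain ⟨hd0, hQ, -, -, hd2, -⟩ := re_sp_dq p.H hH k
  have hl := rdLen_pos k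
  have := re_sp_haar
  have hm : Measurable fun z' : RtZ => ENNReal.ofReal (rtXdL p.H k γ 4 z z') :=
    ((rt_xd_L_meas p.H k γ 4 0).1.comp (measurable_const.prodMk measurable_id)).ennreal_ofReal
  rw [rt_xk_lint p k _ hm]
  -- one term
  have hterm : ∀ j : ℕ, ∫⁻ x, ENNReal.ofReal (rtXdL p.H k γ 4 z (j, x)) ∂(p.rw k) ≤ if j = rtXdJ k γ z then ENNReal.ofReal (700 * Cw) else 0 := by
    intro j
    by_cases hj : j = rtXdJ k γ z
    · rw [if_pos hj]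
      have hmj : Measurable fun x : RdWvPar.Ph => ENNReal.ofReal (rtXdL p.H k γ 4 z (j, x)) :=
        hm.comp (measurable_const.prodMk measurable_id)
      unfold RdWvPar.rw
      rw [lintegral_smul_measure, Measure.volume_eq_prod, lintegral_prod _ hmj.aemeasurable]
      have hin : ∀ A : ℝ × ℝ, ∫⁻ w : ReSp, ENNReal.ofReal (rtXdL p.H k γ 4 z (j, (A, w)))
          ≤ (rtXdS p.H k γ z.2.1).indicator (fun _ => ENNReal.ofReal Cw) A := by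
        intro A
        by_cases hA : A ∈ rtXdS p.H k γ z.2.1
        · rw [Set.indicator_of_mem hA]
          calc ∫⁻ w : ReSp, ENNReal.ofReal (rtXdL p.H k γ 4 z (j, (A, w)))
              ≤ ∫⁻ w : ReSp, (fun Z : ReSp => ENNReal.ofReal ((rdQ p.H k ^ 2 * p.H)⁻¹ * (1 + ‖Z‖) ^ (-((4 : ℕ) : ℝ))))
                  (reZ p.H k A (rtXdTe k γ z - rtTm k j) (rtXdZ γ z.2.2 - w)) := by
                refine lintegral_mono fun w => ENNReal.ofReal_le_ofReal ?_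
                unfold rtXdL
                split_ifs with hc
                · exact le_rfl
                · positivity
            _ = ∫⁻ w : ReSp, (fun Z : ReSp => ENNReal.ofReal ((rdQ p.H k ^ 2 * p.H)⁻¹ * (1 + ‖Z‖) ^ (-((4 : ℕ) : ℝ))))
                  (reZ p.H k A (rtXdTe k γ z - rtTm k j) w) :=
                lintegral_sub_left_eq_self (fun w : ReSp => (fun Z : ReSp => ENNReal.ofReal ((rdQ p.H k ^ 2 * p.H)⁻¹ * (1 + ‖Z‖) ^ (-((4 : ℕ) : ℝ))))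
                  (reZ p.H k A (rtXdTe k γ z - rtTm k j) w)) (rtXdZ γ z.2.2)
            _ = ENNReal.ofReal (rdQ p.H k ^ 2 * p.H) * ∫⁻ Z : ReSp, ENNReal.ofReal ((rdQ p.H k ^ 2 * p.H)⁻¹ * (1 + ‖Z‖) ^ (-((4 : ℕ) : ℝ))) :=
                re_sp_zjac p.H hH k A (rtXdTe k γ z - rtTm k j) (fun Z : ReSp => ENNReal.ofReal ((rdQ p.H k ^ 2 * p.H)⁻¹ * (1 + ‖Z‖) ^ (-((4 : ℕ) : ℝ))))
            _ ≤ ENNReal.ofReal Cw := rt_xd_sum_wt Cw hCw p.H hH k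
        · rw [Set.indicator_of_notMem hA]
          refine le_of_eq ?_
          have : ∀ w : ReSp, ENNReal.ofReal (rtXdL p.H k γ 4 z (j, (A, w))) = 0 := fun w => by
            unfold rtXdL
            rw [if_neg (fun hc => hA hc.2.2), ENNReal.ofReal_zero]
          simp_rw [this]
          exact lintegral_zero
      calc ENNReal.ofReal (rdLen k / p.H) • ∫⁻ A : ℝ × ℝ, ∫⁻ w : ReSp, ENNReal.ofReal (rtXdL p.H k γ 4 z (j, (A, w)))
          ≤ ENNReal.ofReal (rdLen k / p.H) • ∫⁻ A : ℝ × ℝ, (rtXdS p.H k γ z.2.1).indicator (fun _ => ENNReal.ofReal Cw) A := by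
            rw [smul_eq_mul, smul_eq_mul]
            exact mul_le_mul_right (lintegral_mono hin) _
        _ = ENNReal.ofReal (rdLen k / p.H) * (ENNReal.ofReal Cw * volume (rtXdS p.H k γ z.2.1)) := by
            rw [smul_eq_mul, lintegral_indicator_const ((rt_xd_S_meas p.H k γ).2 _)]
        _ ≤ ENNReal.ofReal (rdLen k / p.H) * (ENNReal.ofReal Cw * ENNReal.ofReal (700 * rdD p.H k ^ 2)) :=
            mul_le_mul_right (mul_le_mul_right ((rt_xd_S_vol p.H k γ hγ hd0).1 _) _) _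
        _ = ENNReal.ofReal (700 * Cw) := by
            rw [← ENNReal.ofReal_mul hCw0, ← ENNReal.ofReal_mul (by positivity), hd2]
            congr 1
            field_simp
    · rw [if_neg hj]
      refine le_of_eq ?_
      have : ∀ x : RdWvPar.Ph, ENNReal.ofReal (rtXdL p.H k γ 4 z (j, x)) = 0 := fun x => by
        unfold rtXdL
        rw [if_neg (fun hc => hj hc.1), ENNReal.ofReal_zero]
      simp_rw [this]
      exact lintegral_zero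
  calc ∑ j ∈ Finset.range (2 ^ k), ∫⁻ x, ENNReal.ofReal (rtXdL p.H k γ 4 z (j, x)) ∂(p.rw k)
      ≤ ∑ j ∈ Finset.range (2 ^ k), if j = rtXdJ k γ z then ENNReal.ofReal (700 * Cw) else 0 := Finset.sum_le_sum fun j _ => hterm j
    _ ≤ ENNReal.ofReal (700 * Cw) := by
        rw [Finset.sum_ite_eq']
        split_ifs
        · exact le_rfl
        · exact bot_le

theorem rt_xd_sum_s_num (y t : ℝ) (hy : 0 ≤ y) (ht : 0 ≤ t) (h : 1 + t ≤ 3 * (1 + y)) :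
    (1 + y) ^ (-((6 : ℕ) : ℝ)) ≤ 9 * ((1 + t) ^ 2)⁻¹ * (1 + y) ^ (-4 : ℝ) := by
  have h1 : (0 : ℝ) < 1 + y := by linarith
  have h2 : (0 : ℝ) < 1 + t := by linarith
  have e : (1 + y) ^ (-((6 : ℕ) : ℝ)) = ((1 + y) ^ 2)⁻¹ * (1 + y) ^ (-4 : ℝ) := by
    rw [show (-((6 : ℕ) : ℝ)) = (-((2 : ℕ) : ℝ)) + (-4 : ℝ) by norm_num, Real.rpow_add h1, Real.rpow_neg h1.le, Real.rpow_natCast]
  rw [e]
  refine mul_le_mul_of_nonneg_right ?_ (Real.rpow_nonneg h1.le _)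
  rw [← div_eq_mul_inv, le_div_iff₀ (by positivity), inv_mul_eq_div, div_le_iff₀ (by positivity)]
  nlinarith

theorem rt_xd_sum_s_one (Cw : ℝ) (hCw0 : 0 ≤ Cw) (hCw : ∫⁻ Z : ReSp, ENNReal.ofReal ((1 + ‖Z‖) ^ (-4 : ℝ)) ≤ ENNReal.ofReal Cw)
    (p : RdWvPar) (k : ℕ) (γ : ℝ) (hγ : |γ| ≤ 2) (hd : rdD p.H k ≤ 1 / 100) (j : ℕ) (x : RdWvPar.Ph) (hA : rtSq x.1 ≤ (3 / 25) ^ 2) (j' : ℕ) :
    ∫⁻ x', ENNReal.ofReal (rtXdL p.H k γ 6 (j', x') (j, x)) ∂(p.rw k)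
      ≤ ENNReal.ofReal (1152 * Cw * ((1 + |(j' : ℝ) - (rtTm k j + 2 * γ * x.2.1.2 + γ ^ 2 * x.2.2 + 1 / 4) * 2 ^ k|) ^ 2)⁻¹) := by
  have hH := p.H_pos
  obtain ⟨hd0, hq0, hdq, hq2, hd2, hqd⟩ := re_sp_dq p.H hH k
  have hl := rdLen_pos k
  obtain ⟨t, ht⟩ : ∃ t : ℝ, t = |rtTm k j' - (rtTm k j + 2 * γ * x.2.1.2 + γ ^ 2 * x.2.2)| / rdLen k := ⟨_, rfl⟩
  have ht0 : 0 ≤ t := by rw [ht]; positivity
  have htc : |(j' : ℝ) - (rtTm k j + 2 * γ * x.2.1.2 + γ ^ 2 * x.2.2 + 1 / 4) * 2 ^ k| = t := by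
    rw [ht, ← abs_of_pos hl, ← abs_div]
    congr 1
    have h2 : (2 : ℝ) ^ k ≠ 0 := by positivity
    unfold rdLen
    rw [show rtTm k j' = (j' : ℝ) / 2 ^ k - 1 / 4 from rfl, inv_pow]
    field_simp
    ring
  rw [htc]
  obtain ⟨cc, hcc⟩ : ∃ cc : ℝ, cc = 9 * ((1 + t) ^ 2)⁻¹ * (rdQ p.H k ^ 2 * p.H)⁻¹ := ⟨_, rfl⟩
  have hcc0 : 0 ≤ cc := by rw [hcc]; positivity
  -- the pointwise bound
  have hpt : ∀ x' : RdWvPar.Ph, ENNReal.ofReal (rtXdL p.H k γ 6 (j', x') (j, x))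
      ≤ ({A' : ℝ × ℝ | x.1 ∈ rtXdS p.H k γ A'}.indicator (fun _ => (1 : ℝ≥0∞)) x'.1)
        * ENNReal.ofReal (cc * (1 + ‖reZ p.H k x.1 (rtXdT γ (rtTm k j') x'.2 - rtTm k j) (rtXdZ γ x'.2 - x.2)‖) ^ (-4 : ℝ)) := by
    intro x'
    unfold rtXdL
    split_ifs with hc
    · obtain ⟨-, hu, hS⟩ := hc
      have hS' : x'.1 ∈ {A' : ℝ × ℝ | x.1 ∈ rtXdS p.H k γ A'} := hS
      rw [Set.indicator_of_mem hS', one_mul]
      refine ENNReal.ofReal_le_ofReal ?_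
      have h1 := rt_xd_time p.H hH k γ hγ hd (rtTm k j') (rtTm k j) x' x hA hu
      rw [← ht] at h1
      have h2 := rt_xd_sum_s_num ‖rtXdY p.H k γ (rtTm k j') (rtTm k j) x' x‖ t (norm_nonneg _) ht0 h1
      have h3 : (0 : ℝ) ≤ (rdQ p.H k ^ 2 * p.H)⁻¹ := by positivity
      calc (rdQ p.H k ^ 2 * p.H)⁻¹ * (1 + ‖rtXdYl p.H k γ (j', x') (j, x)‖) ^ (-((6 : ℕ) : ℝ))
          ≤ (rdQ p.H k ^ 2 * p.H)⁻¹ * (9 * ((1 + t) ^ 2)⁻¹ * (1 + ‖rtXdY p.H k γ (rtTm k j') (rtTm k j) x' x‖) ^ (-4 : ℝ)) :=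
            mul_le_mul_of_nonneg_left h2 h3
        _ = cc * (1 + ‖reZ p.H k x.1 (rtXdT γ (rtTm k j') x'.2 - rtTm k j) (rtXdZ γ x'.2 - x.2)‖) ^ (-4 : ℝ) := by
            rw [hcc]
            unfold rtXdY
            ring
    · rw [ENNReal.ofReal_zero]
      exact zero_le
  have hSm : MeasurableSet {A' : ℝ × ℝ | x.1 ∈ rtXdS p.H k γ A'} :=
    (rt_xd_S_meas p.H k γ).1.preimage (measurable_id.prodMk measurable_const)
  have hfm : Measurable (fun Z : ReSp => ENNReal.ofReal (cc * (1 + ‖Z‖) ^ (-4 : ℝ))) := by fun_prop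
  have hD := (rt_xd_D_bd γ (3 / 25) x.1 hγ (by norm_num) (by norm_num) hA).1
  have hD0 : 0 < rtXdD γ x.1 := lt_of_lt_of_le (by norm_num) hD
  have hslice := rt_xd_slice p.H hH k γ hγ (rtTm k j') (rtTm k j) x hA (fun Z : ReSp => ENNReal.ofReal (cc * (1 + ‖Z‖) ^ (-4 : ℝ))) hfm
  have hZ : ∫⁻ Z : ReSp, ENNReal.ofReal (cc * (1 + ‖Z‖) ^ (-4 : ℝ)) ≤ ENNReal.ofReal cc * ENNReal.ofReal Cw := by
    simp_rw [ENNReal.ofReal_mul hcc0]
    rw [lintegral_const_mul' _ _ ENNReal.ofReal_ne_top]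
    gcongr
  have hvol := (rt_xd_S_vol p.H k γ hγ hd0).2 x.1
  calc ∫⁻ x', ENNReal.ofReal (rtXdL p.H k γ 6 (j', x') (j, x)) ∂(p.rw k)
      ≤ ∫⁻ x' : RdWvPar.Ph, ({A' : ℝ × ℝ | x.1 ∈ rtXdS p.H k γ A'}.indicator (fun _ => (1 : ℝ≥0∞)) x'.1)
        * ENNReal.ofReal (cc * (1 + ‖reZ p.H k x.1 (rtXdT γ (rtTm k j') x'.2 - rtTm k j) (rtXdZ γ x'.2 - x.2)‖) ^ (-4 : ℝ)) ∂(p.rw k) :=
        lintegral_mono hpt
    _ = ENNReal.ofReal (rdLen k / p.H) * (volume {A' : ℝ × ℝ | x.1 ∈ rtXdS p.H k γ A'}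
          * (ENNReal.ofReal (rdQ p.H k ^ 2 * p.H / rtXdD γ x.1) * ∫⁻ Z : ReSp, ENNReal.ofReal (cc * (1 + ‖Z‖) ^ (-4 : ℝ)))) := by
        have hprod := lintegral_prod_mul (μ := (volume : Measure (ℝ × ℝ))) (ν := (volume : Measure ReSp))
          (f := {A' : ℝ × ℝ | x.1 ∈ rtXdS p.H k γ A'}.indicator (fun _ => (1 : ℝ≥0∞)))
          (g := fun z' : ReSp => ENNReal.ofReal (cc * (1 + ‖reZ p.H k x.1 (rtXdT γ (rtTm k j') z' - rtTm k j) (rtXdZ γ z' - x.2)‖) ^ (-4 : ℝ)))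
          (measurable_const.indicator hSm).aemeasurable (by
            refine Measurable.aemeasurable ?_
            unfold reZ rtXdT rtXdZ rtIp rtSq
            fun_prop)
        unfold RdWvPar.rw
        rw [lintegral_smul_measure, smul_eq_mul, Measure.volume_eq_prod]
        congr 1
        refine hprod.trans ?_
        rw [lintegral_indicator_const hSm, one_mul, hslice]
    _ ≤ ENNReal.ofReal (rdLen k / p.H) * (ENNReal.ofReal (64 * rdD p.H k ^ 2)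
          * (ENNReal.ofReal (rdQ p.H k ^ 2 * p.H / rtXdD γ x.1) * (ENNReal.ofReal cc * ENNReal.ofReal Cw))) := by
        gcongr
    _ = ENNReal.ofReal (rdLen k / p.H * (64 * rdD p.H k ^ 2 * (rdQ p.H k ^ 2 * p.H / rtXdD γ x.1 * (cc * Cw)))) := by
        rw [← ENNReal.ofReal_mul hcc0, ← ENNReal.ofReal_mul (by positivity), ← ENNReal.ofReal_mul (by positivity), ← ENNReal.ofReal_mul (by positivity)]
    _ ≤ ENNReal.ofReal (1152 * Cw * ((1 + t) ^ 2)⁻¹) := by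
        refine ENNReal.ofReal_le_ofReal ?_
        have e : rdLen k / p.H * (64 * rdD p.H k ^ 2 * (rdQ p.H k ^ 2 * p.H / rtXdD γ x.1 * (cc * Cw)))
            = 576 * Cw * ((1 + t) ^ 2)⁻¹ * (rtXdD γ x.1)⁻¹ := by
          rw [hcc, hd2]
          field_simp
          ring
        rw [e]
        have h2 : (rtXdD γ x.1)⁻¹ ≤ 2 := by
          rw [inv_le_comm₀ hD0 (by norm_num)]
          refine le_trans ?_ hD
          norm_num
        have h3 : 0 ≤ 576 * Cw * ((1 + t) ^ 2)⁻¹ := by positivity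
        calc 576 * Cw * ((1 + t) ^ 2)⁻¹ * (rtXdD γ x.1)⁻¹ ≤ 576 * Cw * ((1 + t) ^ 2)⁻¹ * 2 := mul_le_mul_of_nonneg_left h2 h3
          _ = 1152 * Cw * ((1 + t) ^ 2)⁻¹ := by ring

/-- **LEAF L-256-XD-S6: the sum over the sources.**      `C = 64 · 9 · 2 · 4 · C_wt`.
PLAN.  `z' = (j, x)`, `T = rtTm k j`, `A = x.1`.   If `rtSq A > (3/25)²` the kernel vanishes.   `rt_xk_lint`: `∑_{j' < 2^k} ∫⁻ x' d(rw k)`.   Fix `j'`, `T' = rtTm k j'`.   Drop `1[j = J]`.   On `{|te - T| ≤ ℓ}`: `rt_xd_time`: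
`(1+‖Y‖)^{-6} ≤ 9 (1 + |T' - τ|/ℓ)^{-2} (1+‖Y‖)^{-4}`, `τ = T + 2γ b₂ + γ² y`.   `lintegral_prod` in `x' = (A', z')`: for fixed `A'`: `rt_xd_slice` with `f Z = ofReal ((q²H)⁻¹ (1+‖Z‖)^{-4})`: `= (D A)⁻¹ ∫⁻ (1+‖Z‖)^{-4} ≤ 2 C_wt` (`D A ≥ (19/25)² ≥ 1/2`: `rt_xd_D_bd`);
`volume {A' | A ∈ S(A')} ≤ 64 d²` (`rt_xd_S_vol`), `(ℓ/H) d² = 1`.   `|T' - τ|/ℓ = |j' - c|`, `c = (τ + 1/4) 2^k`;  `rt_xd_lat`;  `ENNReal.ofReal_sum_of_nonneg`. -/
theorem rt_xd_sum_s : ∃ C : ℝ, 0 ≤ C ∧ ∀ (p : RdWvPar) (k : ℕ) (γ : ℝ), |γ| ≤ 2 → rdD p.H k ≤ 1 / 100 → ∀ z' : RtZ, ∫⁻ z, ENNReal.ofReal (rtXdL p.H k γ 6 z z') ∂(rtVm p k) ≤ ENNReal.ofReal C := by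
  obtain ⟨Cw, hCw0, hCw⟩ := re_sp_wt_int
  refine ⟨4608 * Cw, by positivity, ?_⟩
  intro p k γ hγ hd z'
  obtain ⟨j, x⟩ := z'
  by_cases hA : rtSq x.1 ≤ (3 / 25) ^ 2
  · have hm : Measurable (fun z : RtZ => ENNReal.ofReal (rtXdL p.H k γ 6 z (j, x))) :=
      ((rt_xd_L_meas p.H k γ 6 0).1.comp (measurable_id.prodMk measurable_const)).ennreal_ofReal
    rw [rt_xk_lint p k _ hm]
    refine (Finset.sum_le_sum fun j' _ => rt_xd_sum_s_one Cw hCw0 hCw p k γ hγ hd j x hA j').trans ?_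
    rw [← ENNReal.ofReal_sum_of_nonneg (fun j' _ => by positivity)]
    refine ENNReal.ofReal_le_ofReal ?_
    rw [← Finset.mul_sum]
    have := rt_xd_lat ((rtTm k j + 2 * γ * x.2.1.2 + γ ^ 2 * x.2.2 + 1 / 4) * 2 ^ k) (2 ^ k)
    nlinarith
  · have h0 : ∀ z : RtZ, ENNReal.ofReal (rtXdL p.H k γ 6 z (j, x)) = 0 := by
      intro z
      unfold rtXdL
      rw [if_neg (fun hc => hA hc.2.2.1), ENNReal.ofReal_zero]
    simp_rw [h0]
    rw [lintegral_zero]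
    exact zero_le

end Claimed.Agent.R256
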