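-- KEEP
import Claimed.Agent.R256.Rt.XdOp
import Claimed.Agent.R256.Rt.XdSum

/-!
# Row 256, folder Rt, block I1, unit XD (dual boost arrow), file 6: THE ARROW            (unit architect helper290; prefix `rt_xd_`)            CONTRACT
**EXIT:**   `rt_xd_arrow`   (consumer: `Rt/XoContract.lean` through `Rt/XdContract.lean`).      Route: header of `Rt/XdGeo.lean`.   Every `sorry` is a leaf `L-256-XD-M*`.   Statements FROZEN; auxiliary lemmas directly above your theorem; edit only your block.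
-/

set_option autoImplicit false

namespace Claimed.Agent.R256

open MeasureTheory
open scoped ENNReal

/-! ## 1. Views -/

/-- **LEAF L-256-XD-M1.**  `rtVm` is a product of s-finite measures (`rt_k_rw_sf`; `Measure.count.restrict` on `ℕ` is σ-finite: `inferInstance` after `unfold rtVm`). -/
theorem rt_xd_v_sf (p : RdWvPar) (k : ℕ) : SFinite (rtVm p k) := by
  have := rt_k_rw_sf p k
  unfold rtVm
  infer_instance

/-- **LEAF L-256-XD-M1: a.e. on a view = a.e. on each time slice.**   The bad set is contained in `(⋃_{j<2^k} {j} ×ˢ B_j) ∪ (Ici (2^k) ×ˢ univ)`, `B_j` null;  `Measure.prod_prod`, `measure_iUnion_null`, `Measure.restrict_apply`.   (Or, for a measurable superset: `Measure.ae_prod_iff_ae_ae` as in `rt_xk_add`.) -/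
theorem rt_xd_v_ae (p : RdWvPar) (k : ℕ) (P : RtZ → Prop) (h : ∀ j < 2 ^ k, ∀ᵐ x ∂(p.rw k), P (j, x)) : ∀ᵐ z ∂(rtVm p k), P z := by
  have := rt_k_rw_sf p k
  rw [ae_iff]
  refine measure_mono_null (t := (⋃ j ∈ Finset.range (2 ^ k), ({j} : Set ℕ) ×ˢ {x | ¬ P (j, x)}) ∪ (Set.Ici (2 ^ k)) ×ˢ Set.univ) ?_ ?_
  · rintro ⟨j, x⟩ hz
    by_cases hj : j < 2 ^ k
    · left
      simp only [Set.mem_iUnion]
      exact ⟨j, Finset.mem_range.2 hj, rfl, hz⟩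
    · right
      exact ⟨not_lt.1 hj, trivial⟩
  · rw [measure_union_null_iff]
    constructor
    · refine (measure_biUnion_null_iff (Finset.countable_toSet (Finset.range (2 ^ k)))).2 fun j hj => ?_
      unfold rtVm
      rw [Measure.prod_prod, ae_iff.1 (h j (Finset.mem_range.1 hj)), mul_zero]
    · unfold rtVm
      have e : Set.Ici (2 ^ k) ∩ Set.Iio (2 ^ k) = (∅ : Set ℕ) := by
        ext j
        simp
      rw [Measure.prod_prod, Measure.restrict_apply measurableSet_Ici, e, measure_empty, zero_mul]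

/-- **LEAF L-256-XD-M1.**  `measurable_from_prod_countable_right`, `(Lp.stronglyMeasurable _).measurable.enorm` (as `rt_xk_aux_meas`). -/
theorem rt_xd_v_meas (p : RdWvPar) (k b : ℕ) (v : RtKc) : Measurable fun z : RtZ => ‖(p.an (rtTm k z.1) k b v : RdWvPar.Ph → ℂ) z.2‖ₑ := by
  refine measurable_from_prod_countable_right fun j => ?_
  exact (Lp.stronglyMeasurable (p.an (rtTm k j) k b v)).measurable.enorm

/-! ## 2. Representatives -/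

/-- **LEAF L-256-XD-M2: a good representative of the state.**   `Sg = {q | p.H * q.2 ∈ rdPlat b ∧ 0 < q.2 ∧ rtSq q.1 ≤ (2 * (1/10) * q.2)²}` (measurable), `G = Sg.indicator w`;  `G =ᵐ w` (`hs`, `hc`: off `Sg`, `w = 0` a.e.);  measurable (`(Lp.stronglyMeasurable w).measurable.indicator`);
integrable: `re_sp_L1 p b 0 (1/10) w hs _` (`rtSq ((2ρ)⁻¹ • ξ - 0) = rtSq ξ/(2ρ)²`) + `Integrable.congr`. -/
theorem rt_xd_rep (p : RdWvPar) (b : ℕ) (w : RtKc) (hs : p.Spec b w) (hc : RtCone (1 / 10) w) : ∃ G : RdWvPar.Mo → ℂ, RtXdG p b G ∧ G =ᵐ[volume] (w : RdWvPar.Mo → ℂ) := by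
  classical
  obtain ⟨Sg, hSg⟩ : ∃ Sg : Set RdWvPar.Mo, Sg = {q | p.H * q.2 ∈ rdPlat b ∧ 0 < q.2 ∧ rtSq q.1 ≤ (2 * (1 / 10) * q.2) ^ 2} := ⟨_, rfl⟩
  have hmS : MeasurableSet Sg := by
    rw [hSg]
    have h1 : MeasurableSet {q : RdWvPar.Mo | p.H * q.2 ∈ rdPlat b} := by
      have : Measurable fun q : RdWvPar.Mo => p.H * q.2 := measurable_snd.const_mul _
      exact this measurableSet_Icc
    have h2 : MeasurableSet {q : RdWvPar.Mo | 0 < q.2} := measurableSet_lt measurable_const measurable_snd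
    have h3 : MeasurableSet {q : RdWvPar.Mo | rtSq q.1 ≤ (2 * (1 / 10) * q.2) ^ 2} := by
      refine measurableSet_le ?_ ((measurable_snd.const_mul _).pow_const 2)
      unfold rtSq
      exact (measurable_fst.fst.pow_const 2).add (measurable_fst.snd.pow_const 2)
    exact h1.inter (h2.inter h3)
  have hwm : Measurable (w : RdWvPar.Mo → ℂ) := (Lp.stronglyMeasurable w).measurable
  have hae : Sg.indicator (w : RdWvPar.Mo → ℂ) =ᵐ[volume] (w : RdWvPar.Mo → ℂ) := by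
    filter_upwards [hs, hc] with q a1 a2
    by_cases hq : q ∈ Sg
    · rw [Set.indicator_of_mem hq]
    · rw [Set.indicator_of_notMem hq]
      by_contra hne
      have hne' : (w : RdWvPar.Mo → ℂ) q ≠ 0 := fun h => hne h.symm
      apply hq
      rw [hSg]
      exact ⟨a1 hne', a2 hne'⟩
  have hint : Integrable (w : RdWvPar.Mo → ℂ) := by
    refine re_sp_L1 p b 0 (1 / 10) w hs ?_
    filter_upwards [hc] with q a2 hne
    obtain ⟨h0, h1⟩ := a2 hne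
    have e : rtSq ((2 * q.2)⁻¹ • q.1 - 0) = rtSq q.1 / (2 * q.2) ^ 2 := by
      unfold rtSq
      simp only [sub_zero, Prod.smul_fst, Prod.smul_snd, smul_eq_mul]
      field_simp
    rw [e, div_le_iff₀ (by positivity)]
    calc rtSq q.1 ≤ (2 * (1 / 10) * q.2) ^ 2 := h1
      _ = (1 / 10) ^ 2 * (2 * q.2) ^ 2 := by ring
  refine ⟨Sg.indicator (w : RdWvPar.Mo → ℂ), ⟨hwm.indicator hmS, hint.congr hae.symm, fun q hq => ?_, fun q hq => ?_⟩, hae⟩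
  · have : q ∈ Sg := Set.mem_of_indicator_ne_zero hq
    rw [hSg] at this
    exact this.1
  · have : q ∈ Sg := Set.mem_of_indicator_ne_zero hq
    rw [hSg] at this
    exact this.2

/-- **LEAF L-256-XD-M3: the rows of the two states.**   `re_sp_an_spec`;  `p.row T k β v x = ∫ q, pk * v q`, `integral_congr_ae` (for EVERY `x`) with `rt_xd_op_spec`, `rt_xd_F_congr`, `rt_xd_F_eq`. -/
theorem rt_xd_rows_ae (p : RdWvPar) (k b b' : ℕ) (γ : ℝ) (hγ : |γ| ≤ 2) (w : RtKc) (G : RdWvPar.Mo → ℂ) (h : G =ᵐ[volume] (w : RdWvPar.Mo → ℂ)) (T : ℝ) :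
    ((p.an T k b' (rtXdOp γ w) : RdWvPar.Ph → ℂ) =ᵐ[p.rw k] fun x' => ∫ q', p.pk T k b' x' q' * rtXdE γ G q') ∧
      ((p.an T k b w : RdWvPar.Ph → ℂ) =ᵐ[p.rw k] secRow p T k b G) := by
  constructor
  · refine (re_sp_an_spec p T k b' (rtXdOp γ w)).trans (Filter.Eventually.of_forall fun x' => ?_)
    unfold RdWvPar.row
    refine integral_congr_ae ?_
    have h1 := rt_xd_op_spec γ hγ w
    have h2 := rt_xd_F_congr γ G (w : RdWvPar.Mo → ℂ) h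
    filter_upwards [h1, h2] with q a1 a2
    rw [a1, ← a2, rt_xd_F_eq]
  · refine (re_sp_an_spec p T k b w).trans (Filter.Eventually.of_forall fun x => ?_)
    unfold RdWvPar.row secRow
    refine integral_congr_ae ?_
    filter_upwards [h] with q a1
    rw [a1]

/-! ## 3. The domination on the lattice -/

/-- the majorant at the selected time is dominated by the lattice kernel -/
theorem rt_xd_hdom_M (H : ℝ) (hH : 0 < H) (k : ℕ) (γ : ℝ) (N : ℕ) (j' : ℕ) (x' x : RdWvPar.Ph)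
    (hte : |rtXdTe k γ (j', x') - rtTm k (rtXdJ k γ (j', x'))| ≤ rdLen k) :
    rtXdM H k γ N (rtTm k j') (rtTm k (rtXdJ k γ (j', x'))) x' x ≤ 2 ^ N * rtXdL H k γ N (j', x') (rtXdJ k γ (j', x'), x) := by
  have hl : 0 < rdLen k := by unfold rdLen; positivity
  unfold rtXdM rtXdL
  by_cases hS : x.1 ∈ rtXdS H k γ x'.1
  · rw [if_pos hS, if_pos ⟨rfl, hte, hS⟩]
    have h1 : (1 + |rtXdT γ (rtTm k j') x'.2 - rtTm k (rtXdJ k γ (j', x'))| / rdLen k) ^ N ≤ 2 ^ N := by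
      apply pow_le_pow_left₀ (by positivity)
      have : |rtXdT γ (rtTm k j') x'.2 - rtTm k (rtXdJ k γ (j', x'))| / rdLen k ≤ 1 := by
        rw [div_le_one hl]; exact hte
      linarith
    have h2 : 0 ≤ (rdQ H k ^ 2 * H)⁻¹ * (1 + ‖rtXdY H k γ (rtTm k j') (rtTm k (rtXdJ k γ (j', x'))) x' x‖) ^ (-(N : ℝ)) := by
      positivity
    calc (1 + |rtXdT γ (rtTm k j') x'.2 - rtTm k (rtXdJ k γ (j', x'))| / rdLen k) ^ N * (rdQ H k ^ 2 * H)⁻¹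
          * (1 + ‖rtXdY H k γ (rtTm k j') (rtTm k (rtXdJ k γ (j', x'))) x' x‖) ^ (-(N : ℝ))
        = (1 + |rtXdT γ (rtTm k j') x'.2 - rtTm k (rtXdJ k γ (j', x'))| / rdLen k) ^ N * ((rdQ H k ^ 2 * H)⁻¹
          * (1 + ‖rtXdY H k γ (rtTm k j') (rtTm k (rtXdJ k γ (j', x'))) x' x‖) ^ (-(N : ℝ))) := by ring
      _ ≤ 2 ^ N * ((rdQ H k ^ 2 * H)⁻¹
          * (1 + ‖rtXdY H k γ (rtTm k j') (rtTm k (rtXdJ k γ (j', x'))) x' x‖) ^ (-(N : ℝ))) :=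
          mul_le_mul_of_nonneg_right h1 h2
  · rw [if_neg hS, if_neg (fun h => hS h.2.2)]
    simp

theorem rt_xd_hdom_sec (f : RtZ × RtZ → ℝ) (hf : Measurable f) (z : RtZ) : Measurable fun z' : RtZ => f (z, z') :=
  hf.comp measurable_prodMk_left

/-- measurability of the integrand of the domination -/
theorem rt_xd_hdom_meas (p : RdWvPar) (k b : ℕ) (γ : ℝ) (N : ℕ) (Λ C : ℝ) (w : RtKc) (z : RtZ) :
    Measurable fun z' : RtZ => (ENNReal.ofReal (C * rtXdLn p.H k γ N Λ z z') + ENNReal.ofReal (C * rtXdLf p.H k γ N Λ z z'))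
      * ‖(p.an (rtTm k z'.1) k b w : RdWvPar.Ph → ℂ) z'.2‖ₑ := by
  have n2 : Measurable fun z' : RtZ => rtXdLn p.H k γ N Λ z z' := rt_xd_hdom_sec _ (rt_xd_L_meas p.H k γ N Λ).2.1 z
  have n3 : Measurable fun z' : RtZ => rtXdLf p.H k γ N Λ z z' := rt_xd_hdom_sec _ (rt_xd_L_meas p.H k γ N Λ).2.2 z
  have a2 : Measurable fun z' : RtZ => ENNReal.ofReal (C * rtXdLn p.H k γ N Λ z z') := (n2.const_mul C).ennreal_ofReal
  have a3 : Measurable fun z' : RtZ => ENNReal.ofReal (C * rtXdLf p.H k γ N Λ z z') := (n3.const_mul C).ennreal_ofReal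
  have a4 := rt_xd_v_meas p k b w
  exact Measurable.mul (Measurable.add a2 a3) a4

/-- **LEAF L-256-XD-M4 (glue): kernel domination on the views.**      `C = 2^N C_dom`, `C_dom` of `rt_xd_dom bm N`.
PLAN.  `G` from `rt_xd_rep`.   `rt_xd_v_ae`: fix `j' < 2^k`; for a.e. `x'` (`rt_xd_rows_ae` at `T' = rtTm k j'`) and `z = (j', x')` in the region: `J = rtXdJ k γ z < 2^k`, `|te - rtTm k J| ≤ ℓ` (`rt_xd_sel`).
`rt_xd_dom` at `(T', T) = (rtTm k j', rtTm k J)`:   `U z ≤ ∫⁻ x, ofReal (C_dom rtXdM ..) ‖secRow p T k b G x‖ₑ d(rw k)`;   `rtXdM .. x' x ≤ 2^N rtXdL p.H k γ N z (J, x)` (unfold both; `(1 + |u|/ℓ)^N ≤ 2^N`).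
RHS: `rt_xk_lint` (measurability: `rt_xd_L_meas`, `rt_xd_v_meas`), keep only the term `j = J` (`Finset.single_le_sum`), `Ln + Lf = L` (`rt_xd_L_el`, `ENNReal.ofReal_add`), replace `W (J, ·)` by `‖secRow ..‖ₑ` a.e. (`rt_xd_rows_ae`, `lintegral_congr_ae`). -/
theorem rt_xd_hdom (bm N : ℕ) : ∃ C : ℝ, 0 ≤ C ∧ ∀ (p : RdWvPar) (k b b' : ℕ) (γ Λ : ℝ) (w : RtKc), b ≤ bm → b' ≤ bm → |γ| ≤ 2 → 2 ≤ Λ → rdD p.H k ≤ 1 / 100 → p.Spec b w → RtCone (1 / 10) w →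
    ∀ᵐ z ∂(rtVm p k), z ∈ {z : RtZ | -(1 / 4) - rdLen k ≤ rtXdTe k γ z ∧ rtXdTe k γ z ≤ 3 / 4} →
      ‖(p.an (rtTm k z.1) k b' (rtXdOp γ w) : RdWvPar.Ph → ℂ) z.2‖ₑ
        ≤ ∫⁻ z', (ENNReal.ofReal (C * rtXdLn p.H k γ N Λ z z') + ENNReal.ofReal (C * rtXdLf p.H k γ N Λ z z')) * ‖(p.an (rtTm k z'.1) k b w : RdWvPar.Ph → ℂ) z'.2‖ₑ ∂(rtVm p k) := by
  obtain ⟨Cd, hCd0, hdom⟩ := rt_xd_dom bm N
  refine ⟨2 ^ N * Cd, by positivity, ?_⟩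
  intro p k b b' γ Λ w hb hb' hγ hΛ hd hs hc
  obtain ⟨G, hG, hGw⟩ := rt_xd_rep p b w hs hc
  apply rt_xd_v_ae p k
  intro j' hj'
  have hr1 := (rt_xd_rows_ae p k b b' γ hγ w G hGw (rtTm k j')).1
  filter_upwards [hr1] with x' hx' hz
  obtain ⟨hJ, hte⟩ := rt_xd_sel k γ (j', x') hz.1 hz.2
  have h1 := hdom p k b b' γ hb hb' hγ hd G hG (rtTm k j') (rtTm k (rtXdJ k γ (j', x'))) x'
  show ‖(p.an (rtTm k j') k b' (rtXdOp γ w) : RdWvPar.Ph → ℂ) x'‖ₑ ≤ _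
  rw [hx']
  refine h1.trans ?_
  rw [rt_xk_lint p k _ (rt_xd_hdom_meas p k b γ N Λ (2 ^ N * Cd) w (j', x'))]
  refine le_trans ?_ (Finset.single_le_sum
    (f := fun j => ∫⁻ x, (ENNReal.ofReal (2 ^ N * Cd * rtXdLn p.H k γ N Λ (j', x') (j, x))
      + ENNReal.ofReal (2 ^ N * Cd * rtXdLf p.H k γ N Λ (j', x') (j, x)))
      * ‖(p.an (rtTm k j) k b w : RdWvPar.Ph → ℂ) x‖ₑ ∂(p.rw k))
    (fun _ _ => zero_le) (Finset.mem_range.2 hJ))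
  have hr2 := (rt_xd_rows_ae p k b b' γ hγ w G hGw (rtTm k (rtXdJ k γ (j', x')))).2
  apply lintegral_mono_ae
  filter_upwards [hr2] with x hx
  rw [hx]
  refine mul_le_mul_left ?_ _
  obtain ⟨-, e1, e2, e3, -⟩ := rt_xd_L_el p.H p.H_pos k γ N 0 Λ hΛ (j', x') (rtXdJ k γ (j', x'), x)
  rw [← ENNReal.ofReal_add (by positivity) (by positivity), ← mul_add, ← e1]
  apply ENNReal.ofReal_le_ofReal
  calc Cd * rtXdM p.H k γ N (rtTm k j') (rtTm k (rtXdJ k γ (j', x'))) x' x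
      ≤ Cd * (2 ^ N * rtXdL p.H k γ N (j', x') (rtXdJ k γ (j', x'), x)) :=
        mul_le_mul_of_nonneg_left (rt_xd_hdom_M p.H p.H_pos k γ N j' x' x hte) hCd0
    _ = 2 ^ N * Cd * rtXdL p.H k γ N (j', x') (rtXdJ k γ (j', x'), x) := by ring

/-! ## 4. The arrow -/

/-- the numbers of the arrow -/
theorem rt_xd_arrow_num (N : ℕ) {C₁ Ct Cs Λ C E : ℝ} (h1 : 0 ≤ C₁) (ht : 0 ≤ Ct) (hs : 0 ≤ Cs) (hE : 0 ≤ E)
    (hC : 2 ^ (2 * N + 3) * (C₁ + 1) ^ 2 * (Ct + 1) * (Cs + 1) ≤ C) (hΛ : 2 ≤ Λ) :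
    2 * (C₁ * Ct) * ((C₁ + 1) * (Cs + 1)) ≤ C ∧
      2 * (C₁ * (Λ / 2) ^ (-((N + 2 : ℕ) : ℝ)) * Ct) * (C₁ * (Λ / 2) ^ (-(N : ℝ)) * Cs) * E ≤ C * Λ ^ (-(N : ℝ)) * E := by
  have hΛ0 : 0 < Λ := by linarith
  have hΛ1 : 1 ≤ Λ := by linarith
  have hB : 0 ≤ (C₁ + 1) ^ 2 * (Ct + 1) * (Cs + 1) := by positivity
  have a1 : C₁ * Ct * ((C₁ + 1) * (Cs + 1)) ≤ (C₁ + 1) ^ 2 * (Ct + 1) * (Cs + 1) := by
    have b1 : C₁ * Ct ≤ (C₁ + 1) * (Ct + 1) := mul_le_mul (by linarith) (by linarith) ht (by linarith)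
    calc C₁ * Ct * ((C₁ + 1) * (Cs + 1)) ≤ (C₁ + 1) * (Ct + 1) * ((C₁ + 1) * (Cs + 1)) :=
          mul_le_mul_of_nonneg_right b1 (by positivity)
      _ = (C₁ + 1) ^ 2 * (Ct + 1) * (Cs + 1) := by ring
  have a2 : C₁ * Ct * (C₁ * Cs) ≤ (C₁ + 1) ^ 2 * (Ct + 1) * (Cs + 1) := by
    refine le_trans ?_ a1
    exact mul_le_mul_of_nonneg_left (mul_le_mul (by linarith) (by linarith) hs (by linarith)) (by positivity)
  have hp : (2 : ℝ) ≤ 2 ^ (2 * N + 3) := by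
    calc (2 : ℝ) = 2 ^ 1 := by norm_num
      _ ≤ 2 ^ (2 * N + 3) := pow_le_pow_right₀ (by norm_num) (by omega)
  constructor
  · calc 2 * (C₁ * Ct) * ((C₁ + 1) * (Cs + 1)) = 2 * (C₁ * Ct * ((C₁ + 1) * (Cs + 1))) := by ring
      _ ≤ 2 ^ (2 * N + 3) * ((C₁ + 1) ^ 2 * (Ct + 1) * (Cs + 1)) := mul_le_mul hp a1 (by positivity) (by positivity)
      _ = 2 ^ (2 * N + 3) * (C₁ + 1) ^ 2 * (Ct + 1) * (Cs + 1) := by ring
      _ ≤ C := hC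
  · have e1 : (Λ / 2) ^ (-((N + 2 : ℕ) : ℝ)) * (Λ / 2) ^ (-(N : ℝ)) ≤ 2 ^ (2 * N + 2) * Λ ^ (-(N : ℝ)) := by
      rw [← Real.rpow_add (by positivity)]
      have e2 : (-((N + 2 : ℕ) : ℝ) + -(N : ℝ)) = -((2 * N + 2 : ℕ) : ℝ) := by push_cast; ring
      rw [e2, Real.div_rpow hΛ0.le (by norm_num), Real.rpow_neg (by norm_num : (0 : ℝ) ≤ 2), Real.rpow_natCast, div_inv_eq_mul, mul_comm]
      refine mul_le_mul_of_nonneg_left ?_ (by positivity)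
      apply Real.rpow_le_rpow_of_exponent_le hΛ1
      push_cast
      have : (0 : ℝ) ≤ N := Nat.cast_nonneg _
      linarith
    have hΛN : 0 < Λ ^ (-(N : ℝ)) := Real.rpow_pos_of_pos hΛ0 _
    refine mul_le_mul_of_nonneg_right ?_ hE
    calc 2 * (C₁ * (Λ / 2) ^ (-((N + 2 : ℕ) : ℝ)) * Ct) * (C₁ * (Λ / 2) ^ (-(N : ℝ)) * Cs)
        = 2 * (C₁ * Ct * (C₁ * Cs)) * ((Λ / 2) ^ (-((N + 2 : ℕ) : ℝ)) * (Λ / 2) ^ (-(N : ℝ))) := by ring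
      _ ≤ 2 * ((C₁ + 1) ^ 2 * (Ct + 1) * (Cs + 1)) * (2 ^ (2 * N + 2) * Λ ^ (-(N : ℝ))) := by
          apply mul_le_mul _ e1 (by positivity) (by positivity)
          linarith
      _ = 2 ^ (2 * N + 3) * (C₁ + 1) ^ 2 * (Ct + 1) * (Cs + 1) * Λ ^ (-(N : ℝ)) := by ring
      _ ≤ C * Λ ^ (-(N : ℝ)) := mul_le_mul_of_nonneg_right hC hΛN.le

theorem rt_xd_arrow_of2 {a b : ℝ} (ha : 0 ≤ a) : 2 * ENNReal.ofReal a * ENNReal.ofReal b = ENNReal.ofReal (2 * a * b) := by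
  rw [show (2 : ℝ≥0∞) = ENNReal.ofReal 2 by simp, ← ENNReal.ofReal_mul (by norm_num), ← ENNReal.ofReal_mul (by positivity)]

theorem rt_xd_arrow_of3 {a b c : ℝ} (ha : 0 ≤ a) (hb : 0 ≤ b) :
    2 * ENNReal.ofReal a * ENNReal.ofReal b * ENNReal.ofReal c = ENNReal.ofReal (2 * a * b * c) := by
  rw [rt_xd_arrow_of2 ha, ← ENNReal.ofReal_mul (by positivity)]

/-- a Schur sum of a kernel dominated by `c L` -/
theorem rt_xd_arrow_schur {α : Type} [MeasurableSpace α] (μ : Measure α) (f g : α → ℝ) (C₁ c S : ℝ) (h1 : 0 ≤ C₁) (hc : 0 ≤ c)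
    (hfg : ∀ x, f x ≤ c * g x) (hg : ∫⁻ x, ENNReal.ofReal (g x) ∂μ ≤ ENNReal.ofReal S) :
    ∫⁻ x, ENNReal.ofReal (C₁ * f x) ∂μ ≤ ENNReal.ofReal (C₁ * c * S) := by
  calc ∫⁻ x, ENNReal.ofReal (C₁ * f x) ∂μ ≤ ∫⁻ x, ENNReal.ofReal (C₁ * c) * ENNReal.ofReal (g x) ∂μ := by
        refine lintegral_mono fun x => ?_
        rw [← ENNReal.ofReal_mul (by positivity)]
        apply ENNReal.ofReal_le_ofReal
        calc C₁ * f x ≤ C₁ * (c * g x) := mul_le_mul_of_nonneg_left (hfg x) h1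
          _ = C₁ * c * g x := by ring
    _ = ENNReal.ofReal (C₁ * c) * ∫⁻ x, ENNReal.ofReal (g x) ∂μ := lintegral_const_mul' _ _ ENNReal.ofReal_ne_top
    _ ≤ ENNReal.ofReal (C₁ * c) * ENNReal.ofReal S := mul_le_mul_right hg _
    _ = ENNReal.ofReal (C₁ * c * S) := (ENNReal.ofReal_mul (by positivity)).symm

/-- **LEAF L-256-XD-M5 (glue) = EXIT: the dual boost arrow.**   Source = the view of `T_γ w` (any generation `b'`), target = the view of `w` (generation of its spectrum); chart from source to target coordinates `DB_{-γ}`.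
PLAN.  `C₁` from `rt_xd_hdom bm (N + 6)`, `C_t` from `rt_xd_sum_t`, `C_s` from `rt_xd_sum_s`.   `C = max 9 (2^(2N+3) (C₁+1)² (C_t+1) (C_s+1))`.
`rt_xa_ker` (instances `rt_xd_v_sf`) with `U, W` = the two amplitudes (`rt_xd_v_meas`), `Mn z z' = ofReal (C₁ Ln (N+6))`, `Mf = ofReal (C₁ Lf (N+6))` (`rt_xd_L_meas`),
`S₁ = ofReal (C₁ C_t)`, `S₂ = ofReal ((C₁+1)(C_s+1))` (`≠ 0, ⊤`), `τ₁ = ofReal (C₁ (Λ/2)^{-(N+2)} C_t)`, `τ₂ = ofReal (C₁ (Λ/2)^{-N} C_s)`:   `rt_xd_L_el` with `(N+2, 4)` resp. `(N, 6)`, `lintegral_mono`, `lintegral_const_mul`, `rt_xd_sum_t`, `rt_xd_sum_s`.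
`fun z => U z ^ 2 = rtVd ..` by `rfl`.   `rt_xa_mono`: relation: `Mn z z' ≠ 0 → Ln (N+6) ≠ 0 → Ln 0 ≠ 0` (`rt_xd_L_el`) `→ RtAs` (`rt_xd_as`, `9 ≤ Λ`);  region: `rt_xd_zt`;  `2 S₁ S₂ ≤ ofReal C`;
`2 τ₁ τ₂ ∫ W² ≤ ofReal (C Λ^{-N} 2^k ‖w‖²)`: `rt_xk_total`, `(Λ/2)^{-(2N+2)} = 2^(2N+2) Λ^{-(2N+2)} ≤ 2^(2N+2) Λ^{-N}`. -/
theorem rt_xd_arrow (bm N : ℕ) : ∃ C : ℝ, 1 ≤ C ∧ ∀ (p : RdWvPar) (k b b' : ℕ) (γ Λ : ℝ) (w : RtKc), b ≤ bm → b' ≤ bm → |γ| ≤ 2 → C ≤ Λ →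
    rdD p.H k ≤ 1 / 100 → p.Spec b w → RtCone (1 / 10) w →
    RtXf (rtVm p k) (rtVd p k b' (rtXdOp γ w)) (rtVm p k) (rtVd p k b w) (RtAs (rtChDb (-γ)) k p.H k Λ)
      {z | -(1 / 4) - rdLen k ≤ rtZt (rtChDb (-γ)) k z ∧ rtZt (rtChDb (-γ)) k z ≤ 3 / 4}
      (ENNReal.ofReal C) (ENNReal.ofReal (C * Λ ^ (-(N : ℝ)) * 2 ^ k * ‖w‖ ^ 2)) := by
  obtain ⟨C₁, hC₁, hdom⟩ := rt_xd_hdom bm (N + 6)
  obtain ⟨Ct, hCt, hst⟩ := rt_xd_sum_t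
  obtain ⟨Cs, hCs, hss⟩ := rt_xd_sum_s
  have hK1 : 0 ≤ 2 * (C₁ * Ct) * (C₁ * Cs + 1) := by positivity
  have hK2 : 0 ≤ 2 ^ (N + 1) * ((C₁ * Ct) * (C₁ * Cs)) := by positivity
  refine ⟨9 + 2 * (C₁ * Ct) * (C₁ * Cs + 1) + 2 ^ (N + 1) * ((C₁ * Ct) * (C₁ * Cs)), by linarith, ?_⟩
  intro p k b b' γ Λ w hb hb' hγ hΛC hd hw hcone
  have := rt_xd_v_sf p k
  have hΛ9 : 9 ≤ Λ := by linarith
  have hΛ2 : 2 ≤ Λ := by linarith
  have hΛ0 : 0 < Λ := by linarith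
  have hΛh : 1 ≤ Λ / 2 := by linarith
  set a₁ : ℝ := (Λ / 2) ^ (-((N + 2 : ℕ) : ℝ)) with ha₁
  set a₂ : ℝ := (Λ / 2) ^ (-(N : ℝ)) with ha₂
  have ha₁0 : 0 ≤ a₁ := (Real.rpow_pos_of_pos (by linarith) _).le
  have ha₂0 : 0 ≤ a₂ := (Real.rpow_pos_of_pos (by linarith) _).le
  have ha₁1 : a₁ ≤ 1 := Real.rpow_le_one_of_one_le_of_nonpos hΛh (neg_nonpos.2 (Nat.cast_nonneg _))
  have ha₂e : a₂ = 2 ^ N * Λ ^ (-(N : ℝ)) := by
    rw [ha₂, Real.div_rpow hΛ0.le (by norm_num), Real.rpow_neg (by norm_num : (0 : ℝ) ≤ 2), Real.rpow_natCast, div_inv_eq_mul, mul_comm]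
  have hLm := rt_xd_L_meas p.H k γ (N + 6) Λ
  have el4 : ∀ z z', rtXdLn p.H k γ (N + 6) Λ z z' ≤ rtXdL p.H k γ 4 z z' ∧ rtXdLf p.H k γ (N + 6) Λ z z' ≤ a₁ * rtXdL p.H k γ 4 z z' := fun z z' =>
    ⟨(rt_xd_L_el p.H p.H_pos k γ (N + 2) 4 Λ hΛ2 z z').2.2.2.2.1, (rt_xd_L_el p.H p.H_pos k γ (N + 2) 4 Λ hΛ2 z z').2.2.2.2.2.1⟩
  have el6 : ∀ z z', rtXdLn p.H k γ (N + 6) Λ z z' ≤ rtXdL p.H k γ 6 z z' ∧ rtXdLf p.H k γ (N + 6) Λ z z' ≤ a₂ * rtXdL p.H k γ 6 z z' := fun z z' =>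
    ⟨(rt_xd_L_el p.H p.H_pos k γ N 6 Λ hΛ2 z z').2.2.2.2.1, (rt_xd_L_el p.H p.H_pos k γ N 6 Λ hΛ2 z z').2.2.2.2.2.1⟩
  have bd : ∀ (A x y : ℝ), 0 ≤ A → x ≤ A * y → ENNReal.ofReal (C₁ * x) ≤ ENNReal.ofReal (C₁ * A) * ENNReal.ofReal y := by
    intro A x y hA hxy
    rw [← ENNReal.ofReal_mul (by positivity)]
    refine ENNReal.ofReal_le_ofReal ?_
    calc C₁ * x ≤ C₁ * (A * y) := by gcongr
      _ = C₁ * A * y := by ring
  have key := rt_xa_ker (ζ := rtVm p k) (ζ' := rtVm p k)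
    (fun z : RtZ => ‖(p.an (rtTm k z.1) k b' (rtXdOp γ w) : RdWvPar.Ph → ℂ) z.2‖ₑ)
    (fun z' : RtZ => ‖(p.an (rtTm k z'.1) k b w : RdWvPar.Ph → ℂ) z'.2‖ₑ)
    (rt_xd_v_meas p k b w).aemeasurable
    (fun z z' => ENNReal.ofReal (C₁ * rtXdLn p.H k γ (N + 6) Λ z z')) (fun z z' => ENNReal.ofReal (C₁ * rtXdLf p.H k γ (N + 6) Λ z z'))
    (hLm.2.1.const_mul C₁).ennreal_ofReal (hLm.2.2.const_mul C₁).ennreal_ofReal
    {z : RtZ | -(1 / 4) - rdLen k ≤ rtXdTe k γ z ∧ rtXdTe k γ z ≤ 3 / 4}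
    (hdom p k b b' γ Λ w hb hb' hγ hΛ2 hd hw hcone)
    (ENNReal.ofReal (C₁ * Ct)) (ENNReal.ofReal (C₁ * Cs + 1)) (ENNReal.ofReal (C₁ * a₁ * Ct)) (ENNReal.ofReal (C₁ * a₂ * Cs))
    ENNReal.ofReal_ne_top (by
      rw [Ne, ENNReal.ofReal_eq_zero, not_le]
      positivity)
    (fun z => by
      calc ∫⁻ z', ENNReal.ofReal (C₁ * rtXdLn p.H k γ (N + 6) Λ z z') ∂(rtVm p k)
          ≤ ∫⁻ z', ENNReal.ofReal (C₁ * 1) * ENNReal.ofReal (rtXdL p.H k γ 4 z z') ∂(rtVm p k) :=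
            lintegral_mono fun z' => bd 1 _ _ zero_le_one (by rw [one_mul]; exact (el4 z z').1)
        _ = ENNReal.ofReal (C₁ * 1) * ∫⁻ z', ENNReal.ofReal (rtXdL p.H k γ 4 z z') ∂(rtVm p k) := lintegral_const_mul' _ _ ENNReal.ofReal_ne_top
        _ ≤ ENNReal.ofReal (C₁ * 1) * ENNReal.ofReal Ct := mul_le_mul_right (hst p k γ hγ z) _
        _ = ENNReal.ofReal (C₁ * Ct) := by rw [mul_one, ENNReal.ofReal_mul hC₁])
    (fun z' => by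
      calc ∫⁻ z, ENNReal.ofReal (C₁ * rtXdLn p.H k γ (N + 6) Λ z z') ∂(rtVm p k)
          ≤ ∫⁻ z, ENNReal.ofReal (C₁ * 1) * ENNReal.ofReal (rtXdL p.H k γ 6 z z') ∂(rtVm p k) :=
            lintegral_mono fun z => bd 1 _ _ zero_le_one (by rw [one_mul]; exact (el6 z z').1)
        _ = ENNReal.ofReal (C₁ * 1) * ∫⁻ z, ENNReal.ofReal (rtXdL p.H k γ 6 z z') ∂(rtVm p k) := lintegral_const_mul' _ _ ENNReal.ofReal_ne_top
        _ ≤ ENNReal.ofReal (C₁ * 1) * ENNReal.ofReal Cs := mul_le_mul_right (hss p k γ hγ hd z') _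
        _ = ENNReal.ofReal (C₁ * Cs) := by rw [mul_one, ENNReal.ofReal_mul hC₁]
        _ ≤ ENNReal.ofReal (C₁ * Cs + 1) := ENNReal.ofReal_le_ofReal (by linarith))
    (fun z => by
      calc ∫⁻ z', ENNReal.ofReal (C₁ * rtXdLf p.H k γ (N + 6) Λ z z') ∂(rtVm p k)
          ≤ ∫⁻ z', ENNReal.ofReal (C₁ * a₁) * ENNReal.ofReal (rtXdL p.H k γ 4 z z') ∂(rtVm p k) :=
            lintegral_mono fun z' => bd a₁ _ _ ha₁0 (el4 z z').2
        _ = ENNReal.ofReal (C₁ * a₁) * ∫⁻ z', ENNReal.ofReal (rtXdL p.H k γ 4 z z') ∂(rtVm p k) := lintegral_const_mul' _ _ ENNReal.ofReal_ne_top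
        _ ≤ ENNReal.ofReal (C₁ * a₁) * ENNReal.ofReal Ct := mul_le_mul_right (hst p k γ hγ z) _
        _ = ENNReal.ofReal (C₁ * a₁ * Ct) := (ENNReal.ofReal_mul (by positivity)).symm)
    (fun z' => by
      calc ∫⁻ z, ENNReal.ofReal (C₁ * rtXdLf p.H k γ (N + 6) Λ z z') ∂(rtVm p k)
          ≤ ∫⁻ z, ENNReal.ofReal (C₁ * a₂) * ENNReal.ofReal (rtXdL p.H k γ 6 z z') ∂(rtVm p k) :=
            lintegral_mono fun z => bd a₂ _ _ ha₂0 (el6 z z').2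
        _ = ENNReal.ofReal (C₁ * a₂) * ∫⁻ z, ENNReal.ofReal (rtXdL p.H k γ 6 z z') ∂(rtVm p k) := lintegral_const_mul' _ _ ENNReal.ofReal_ne_top
        _ ≤ ENNReal.ofReal (C₁ * a₂) * ENNReal.ofReal Cs := mul_le_mul_right (hss p k γ hγ hd z') _
        _ = ENNReal.ofReal (C₁ * a₂ * Cs) := (ENNReal.ofReal_mul (by positivity)).symm)
  refine rt_xa_mono key ?_ ?_ ?_ ?_
  · intro z _ z' hzz
    have hne : rtXdLn p.H k γ (N + 6) Λ z z' ≠ 0 := by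
      intro h0
      exact hzz (by simp [h0])
    exact rt_xd_as p.H p.H_pos k γ Λ hγ hd hΛ9 z z' ((rt_xd_L_el p.H p.H_pos k γ (N + 6) 0 Λ hΛ2 z z').2.2.2.2.2.2 hne)
  · intro z hz
    have hz' : -(1 / 4) - rdLen k ≤ rtZt (rtChDb (-γ)) k z ∧ rtZt (rtChDb (-γ)) k z ≤ 3 / 4 := hz
    rw [rt_xd_zt] at hz'
    exact hz'
  · have e : 2 * ENNReal.ofReal (C₁ * Ct) * ENNReal.ofReal (C₁ * Cs + 1) = ENNReal.ofReal (2 * (C₁ * Ct) * (C₁ * Cs + 1)) := by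
      rw [ENNReal.ofReal_mul (p := 2 * (C₁ * Ct)) (by positivity), ENNReal.ofReal_mul (p := 2) (by norm_num), ENNReal.ofReal_ofNat]
    rw [e]
    exact ENNReal.ofReal_le_ofReal (by linarith)
  · have htot := rt_xk_total p k b w
    calc 2 * ENNReal.ofReal (C₁ * a₁ * Ct) * ENNReal.ofReal (C₁ * a₂ * Cs) * ∫⁻ z', ‖(p.an (rtTm k z'.1) k b w : RdWvPar.Ph → ℂ) z'.2‖ₑ ^ 2 ∂(rtVm p k)
        ≤ 2 * ENNReal.ofReal (C₁ * a₁ * Ct) * ENNReal.ofReal (C₁ * a₂ * Cs) * ENNReal.ofReal (2 ^ k * ‖w‖ ^ 2) := mul_le_mul_right htot _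
      _ = ENNReal.ofReal (2 * (C₁ * a₁ * Ct) * (C₁ * a₂ * Cs) * (2 ^ k * ‖w‖ ^ 2)) := by
          rw [ENNReal.ofReal_mul (p := 2 * (C₁ * a₁ * Ct) * (C₁ * a₂ * Cs)) (by positivity), ENNReal.ofReal_mul (p := 2 * (C₁ * a₁ * Ct)) (by positivity),
            ENNReal.ofReal_mul (p := 2) (by norm_num), ENNReal.ofReal_ofNat]
      _ ≤ _ := by
          refine ENNReal.ofReal_le_ofReal ?_
          have hE : 0 ≤ (2 : ℝ) ^ k * ‖w‖ ^ 2 := by positivity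
          have hK : 0 ≤ (C₁ * Ct) * (C₁ * Cs) := by positivity
          have hL0 : 0 ≤ Λ ^ (-(N : ℝ)) := (Real.rpow_pos_of_pos hΛ0 _).le
          calc 2 * (C₁ * a₁ * Ct) * (C₁ * a₂ * Cs) * (2 ^ k * ‖w‖ ^ 2) = 2 * ((C₁ * Ct) * (C₁ * Cs)) * a₂ * a₁ * (2 ^ k * ‖w‖ ^ 2) := by ring
            _ ≤ 2 * ((C₁ * Ct) * (C₁ * Cs)) * a₂ * 1 * (2 ^ k * ‖w‖ ^ 2) := by gcongr
            _ = (2 ^ (N + 1) * ((C₁ * Ct) * (C₁ * Cs))) * Λ ^ (-(N : ℝ)) * (2 ^ k * ‖w‖ ^ 2) := by rw [ha₂e]; ring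
            _ ≤ (9 + 2 * (C₁ * Ct) * (C₁ * Cs + 1) + 2 ^ (N + 1) * ((C₁ * Ct) * (C₁ * Cs))) * Λ ^ (-(N : ℝ)) * (2 ^ k * ‖w‖ ^ 2) := by
                gcongr
                linarith
            _ = _ := by ring

end Claimed.Agent.R256
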