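import Claimed.Agent.R256.Rt.Chart
import Claimed.Agent.R256.Rt.Geo

/-!
# Row 256, folder Rt, block I1, unit XG (GEOMETRY OF ASSOCIATIONS), file 1 : THE CALCULUS OF `RtNear` AND THE MOVE LEMMA      (unit architect helper136; block architect helper76; consumer: unit XN, helper68; prefix `rt_xg_`)

Paper free, no measure, no operator: real numbers only.   On top of `Rt/Chart.lean` (two-ray invariant `rtK`, exact charts) and `Rt/Geo.lean` (`RtNear`).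
* `RtNr M l d p p'` = `RtNear` at the scales of a packet of length `l` and aperture `d`: `(d, q, H) = (d, l d, l d²)`      (`rt_xg_scales` in `Rt/XgComp.lean`: these ARE `rdD H k, rdQ H k, H` for `l = rdLen k`).
* GROUPOID: `rt_xg_nr_mono`, `rt_xg_nr_symm` (`3 M²`), `rt_xg_nr_trans` (`M₁ + M₂ + 2 M₁ M₂`), `rt_xg_nr_shift` (both rays flowed by `|t' - t| ≤ T l`: `(1 + T) M²`).
* `rt_xg_K_le` : near rows ⟹ the two-ray invariant is `≤ ((T+2) M l d)²` at times within `T l`.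
* `rt_xg_nr_of_K` : FOUR values of the invariant (two times on each ray, separated by `θ l`, within `T l` of the reference time) ⟹ near, constant `6 T M²/θ²`      (bilinear interpolation; no solving for hitting times).
* `RtCh.Lc Φ p t₁ τ₁ l σ T θ Mc` : local regularity of a chart on the ray `p`: at the two old times `t₁, t₁ + σ` the conformal factor is `≥ 1/Mc`, the two new times are within `T l` of `τ₁` and `θ l`-separated.
* **`rt_xg_move`** : an exact chart moves near rows (reference time `t₁`) to near rows (reference time `τ₁`), SAME scales, constant `6 T (3 Mc M)²/θ²`.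
-/

set_option autoImplicit false

namespace Claimed.Agent.R256

/-- `RtNear` at the scales `(d, l d, l d²)` -/
def RtNr (M l d : ℝ) (p p' : RtRow) : Prop := RtNear M d (l * d) (l * d ^ 2) p p'

/-- local regularity of the chart `Φ` on the ray `p` at the old times `t₁`, `t₁ + σ`, seen from the new time `τ₁` (lengths in units of `l`) -/
structure RtCh.Lc (Φ : RtCh) (p : RtRow) (t₁ τ₁ l σ T θ Mc : ℝ) : Prop where
  den0 : Mc⁻¹ ≤ |Φ.den (p.ev t₁)|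
  den1 : Mc⁻¹ ≤ |Φ.den (p.ev (t₁ + σ))|
  tm0 : |Φ.tm p t₁ - τ₁| ≤ T * l
  tm1 : |Φ.tm p (t₁ + σ) - τ₁| ≤ T * l
  sep : θ * l ≤ |Φ.tm p t₁ - Φ.tm p (t₁ + σ)|

theorem rt_xg_nr_eqns_cite : True := by
  have := @RtNr.eq_1
  trivial

/-! ## 0. Flows -/

theorem rt_xg_flow_flow (p : RtRow) (s t : ℝ) : (p.flow s).flow t = p.flow (s + t) := by
  ext <;> simp only [RtRow.flow, Prod.fst_add, Prod.snd_add, Prod.smul_fst, Prod.smul_snd, smul_eq_mul] <;> ring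

theorem rt_xg_flow_zero (p : RtRow) : p.flow 0 = p := by
  ext <;> simp [RtRow.flow]

theorem rt_xg_K_flow (p p₀ : RtRow) (τ s s₀ : ℝ) : rtK (p.flow τ) s (p₀.flow τ) s₀ = rtK p (τ + s) p₀ (τ + s₀) := by
  simp only [rtK, RtEv.q, RtEv.sub, RtRow.ev, RtRow.flow, rtQ, rtSq, Prod.fst_add, Prod.snd_add, Prod.fst_sub, Prod.snd_sub,
    Prod.smul_fst, Prod.smul_snd, smul_eq_mul]
  ring

/-! ## 1. The groupoid of near rows -/

/-- LEAF `L-256-RT-XG-N1` -/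
theorem rt_xg_nr_mono {M M' l d : ℝ} {p p' : RtRow} (h0 : 0 ≤ M) (hM : M ≤ M') (hl : 0 ≤ l) (hd : 0 ≤ d) (h : RtNr M l d p p') : RtNr M' l d p p' := by
  obtain ⟨a, b, c⟩ := h
  have hld : 0 ≤ l * d := mul_nonneg hl hd
  have hld2 : 0 ≤ l * d ^ 2 := mul_nonneg hl (pow_nonneg hd 2)
  refine ⟨a.trans ?_, b.trans ?_, c.trans ?_⟩
  · exact pow_le_pow_left₀ (mul_nonneg h0 hd) (mul_le_mul_of_nonneg_right hM hd) 2
  · exact pow_le_pow_left₀ (mul_nonneg h0 hld) (mul_le_mul_of_nonneg_right hM hld) 2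
  · exact mul_le_mul_of_nonneg_right hM hld2

/-- LEAF `L-256-RT-XG-N2`.   `y - y' - 2A'·(b - b') = -(y' - y - 2A·(b' - b)) + 2 (A' - A)·(b' - b)`, `rtIp_abs_le`. -/
theorem rt_xg_nr_symm {M l d : ℝ} {p p' : RtRow} (hM : 1 ≤ M) (hl : 0 ≤ l) (hd : 0 ≤ d) (h : RtNr M l d p p') : RtNr (3 * M ^ 2) l d p' p := by
  obtain ⟨hA, hb, hy⟩ := h
  have hM0 : 0 ≤ M := le_trans zero_le_one hM
  have hMM : M ≤ 3 * M ^ 2 := by nlinarith
  have sA : rtSq (p.A - p'.A) = rtSq (p'.A - p.A) := by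
    simp only [rtSq, Prod.fst_sub, Prod.snd_sub]; ring
  have sb : rtSq (p.b - p'.b) = rtSq (p'.b - p.b) := by
    simp only [rtSq, Prod.fst_sub, Prod.snd_sub]; ring
  have hld : 0 ≤ l * d := mul_nonneg hl hd
  have hip := rtIp_abs_le (mul_nonneg hM0 hd) (mul_nonneg hM0 hld) hA hb
  refine ⟨?_, ?_, ?_⟩
  · rw [sA]
    exact hA.trans (pow_le_pow_left₀ (mul_nonneg hM0 hd) (mul_le_mul_of_nonneg_right hMM hd) 2)
  · rw [sb]
    exact hb.trans (pow_le_pow_left₀ (mul_nonneg hM0 hld) (mul_le_mul_of_nonneg_right hMM hld) 2)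
  · have e : p.y - p'.y - 2 * rtIp p'.A (p.b - p'.b) = -(p'.y - p.y - 2 * rtIp p.A (p'.b - p.b)) + 2 * rtIp (p'.A - p.A) (p'.b - p.b) := by
      simp only [rtIp, Prod.fst_sub, Prod.snd_sub]; ring
    rw [e]
    have hH : 0 ≤ l * d ^ 2 := mul_nonneg hl (by positivity)
    calc |-(p'.y - p.y - 2 * rtIp p.A (p'.b - p.b)) + 2 * rtIp (p'.A - p.A) (p'.b - p.b)|
        ≤ |p'.y - p.y - 2 * rtIp p.A (p'.b - p.b)| + 2 * |rtIp (p'.A - p.A) (p'.b - p.b)| := by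
          refine (abs_add_le _ _).trans ?_
          rw [abs_neg, abs_mul, abs_two]
      _ ≤ M * (l * d ^ 2) + 2 * (M * d * (M * (l * d))) := by linarith
      _ = (M + 2 * M ^ 2) * (l * d ^ 2) := by ring
      _ ≤ 3 * M ^ 2 * (l * d ^ 2) := by
          refine mul_le_mul_of_nonneg_right ?_ hH
          nlinarith

/-- LEAF `L-256-RT-XG-N3`.   `rt_g2_sq_add` (triangle inequality);   `y'' - y - 2A·(b'' - b) = [y'' - y' - 2A'·(b'' - b')] + [y' - y - 2A·(b' - b)] + 2 (A' - A)·(b'' - b')`. -/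
theorem rt_xg_nr_trans {M₁ M₂ l d : ℝ} {p p' p'' : RtRow} (h1 : 0 ≤ M₁) (h2 : 0 ≤ M₂) (hl : 0 ≤ l) (hd : 0 ≤ d) (a : RtNr M₁ l d p p') (b : RtNr M₂ l d p' p'') :
    RtNr (M₁ + M₂ + 2 * M₁ * M₂) l d p p'' := by
  obtain ⟨a1, a2, a3⟩ := a
  obtain ⟨b1, b2, b3⟩ := b
  have hq : 0 ≤ l * d := mul_nonneg hl hd
  have hH : 0 ≤ l * d ^ 2 := mul_nonneg hl (sq_nonneg d)
  have hMM : 0 ≤ 2 * M₁ * M₂ := by positivity
  refine ⟨?_, ?_, ?_⟩
  · have e : p''.A - p.A = (p''.A - p'.A) + (p'.A - p.A) := by abel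
    rw [e]
    refine (rt_g2_sq_add (mul_nonneg h2 hd) (mul_nonneg h1 hd) b1 a1).trans ?_
    refine pow_le_pow_left₀ (by positivity) ?_ 2
    nlinarith [mul_nonneg hMM hd]
  · have e : p''.b - p.b = (p''.b - p'.b) + (p'.b - p.b) := by abel
    rw [e]
    refine (rt_g2_sq_add (mul_nonneg h2 hq) (mul_nonneg h1 hq) b2 a2).trans ?_
    refine pow_le_pow_left₀ (by positivity) ?_ 2
    nlinarith [mul_nonneg hMM hq]
  · have e : p''.y - p.y - 2 * rtIp p.A (p''.b - p.b)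
        = (p''.y - p'.y - 2 * rtIp p'.A (p''.b - p'.b)) + (p'.y - p.y - 2 * rtIp p.A (p'.b - p.b)) + 2 * rtIp (p'.A - p.A) (p''.b - p'.b) := by
      simp only [rtIp, Prod.fst_sub, Prod.snd_sub]
      ring
    have h3 := rtIp_abs_le (mul_nonneg h1 hd) (mul_nonneg h2 hq) a1 b2
    rw [e]
    calc _ ≤ |p''.y - p'.y - 2 * rtIp p'.A (p''.b - p'.b)| + |p'.y - p.y - 2 * rtIp p.A (p'.b - p.b)| + |2 * rtIp (p'.A - p.A) (p''.b - p'.b)| :=
          abs_add_three _ _ _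
      _ ≤ M₂ * (l * d ^ 2) + M₁ * (l * d ^ 2) + 2 * (M₁ * d * (M₂ * (l * d))) := by
          rw [abs_mul, abs_two]
          linarith
      _ = (M₁ + M₂ + 2 * M₁ * M₂) * (l * d ^ 2) := by ring

/-- LEAF `L-256-RT-XG-N4`.   With `s = t' - t`, `Δ = p' - p` at the time `t`: `ΔA` is constant, `Δb ↦ Δb + s ΔA`, `Δy - 2A·Δb ↦ Δy - 2A·Δb + s |ΔA|²`. -/
theorem rt_xg_nr_shift {M T l d t t' : ℝ} {p p' : RtRow} (hM : 1 ≤ M) (hT : 0 ≤ T) (hl : 0 ≤ l) (hd : 0 ≤ d) (h : RtNr M l d (p.flow t) (p'.flow t)) (ht : |t' - t| ≤ T * l) :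
    RtNr ((1 + T) * M ^ 2) l d (p.flow t') (p'.flow t') := by
  obtain ⟨hA, hb, hy⟩ := h
  have hM0 : 0 ≤ M := le_trans zero_le_one hM
  have hMM : M ≤ (1 + T) * M ^ 2 := by nlinarith [mul_nonneg hT (sq_nonneg M)]
  have hld : 0 ≤ l * d := mul_nonneg hl hd
  have hH : 0 ≤ l * d ^ 2 := mul_nonneg hl (sq_nonneg d)
  have hA' : rtSq (p'.A - p.A) ≤ (M * d) ^ 2 := hA
  have hTl : 0 ≤ T * l := mul_nonneg hT hl
  refine ⟨?_, ?_, ?_⟩
  · exact hA'.trans (pow_le_pow_left₀ (mul_nonneg hM0 hd) (mul_le_mul_of_nonneg_right hMM hd) 2)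
  · have e : (p'.flow t').b - (p.flow t').b = ((p'.flow t).b - (p.flow t).b) + (t' - t) • (p'.A - p.A) := by
      ext <;> simp only [RtRow.flow, Prod.fst_add, Prod.snd_add, Prod.fst_sub, Prod.snd_sub, Prod.smul_fst, Prod.smul_snd, smul_eq_mul] <;> ring
    have e2 : rtSq ((t' - t) • (p'.A - p.A)) ≤ (T * l * (M * d)) ^ 2 := by
      have e3 : rtSq ((t' - t) • (p'.A - p.A)) = |t' - t| ^ 2 * rtSq (p'.A - p.A) := by
        rw [sq_abs]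
        simp only [rtSq, Prod.smul_fst, Prod.smul_snd, smul_eq_mul]
        ring
      rw [e3, mul_pow]
      exact mul_le_mul (pow_le_pow_left₀ (abs_nonneg _) ht 2) hA' (rtSq_nonneg _) (by positivity)
    rw [e]
    refine (rt_g2_sq_add (mul_nonneg hM0 hld) (mul_nonneg hTl (mul_nonneg hM0 hd)) hb e2).trans ?_
    refine pow_le_pow_left₀ (by positivity) ?_ 2
    have e4 : M * (l * d) + T * l * (M * d) = (1 + T) * M * (l * d) := by ring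
    rw [e4]
    refine mul_le_mul_of_nonneg_right ?_ hld
    nlinarith [mul_nonneg hT hM0]
  · have e : (p'.flow t').y - (p.flow t').y - 2 * rtIp (p.flow t').A ((p'.flow t').b - (p.flow t').b)
        = ((p'.flow t).y - (p.flow t).y - 2 * rtIp (p.flow t).A ((p'.flow t).b - (p.flow t).b)) + (t' - t) * rtSq (p'.A - p.A) := by
      simp only [RtRow.flow, rtIp, rtSq, Prod.fst_add, Prod.snd_add, Prod.fst_sub, Prod.snd_sub, Prod.smul_fst, Prod.smul_snd, smul_eq_mul]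
      ring
    rw [e]
    have a1 : |(t' - t) * rtSq (p'.A - p.A)| ≤ T * l * (M * d) ^ 2 := by
      rw [abs_mul, abs_of_nonneg (rtSq_nonneg _)]
      exact mul_le_mul ht hA' (rtSq_nonneg _) hTl
    calc _ ≤ |(p'.flow t).y - (p.flow t).y - 2 * rtIp (p.flow t).A ((p'.flow t).b - (p.flow t).b)| + |(t' - t) * rtSq (p'.A - p.A)| := abs_add_le _ _
      _ ≤ M * (l * d ^ 2) + T * l * (M * d) ^ 2 := add_le_add hy a1
      _ = (M + T * M ^ 2) * (l * d ^ 2) := by ring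
      _ ≤ (1 + T) * M ^ 2 * (l * d ^ 2) := by
          refine mul_le_mul_of_nonneg_right ?_ hH
          nlinarith

/-! ## 2. The two-ray invariant at the scales `(l, d)` -/

/-- LEAF `L-256-RT-XG-K1`.   `rt_xg_K_flow`, `rt_ch_K_eq`: `K = -|Δb|² + (s - s₀) Y - 2 s ΔA·Δb - s s₀ |ΔA|²`; clone of `rt_ch_K_le`. -/
theorem rt_xg_K_le {M T l d t₁ s s₀ : ℝ} {p p₀ : RtRow} (hM : 1 ≤ M) (hT : 0 ≤ T) (hl : 0 ≤ l) (hd : 0 ≤ d) (h : RtNr M l d (p₀.flow t₁) (p.flow t₁))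
    (hs : |s| ≤ T * l) (hs₀ : |s₀| ≤ T * l) : |rtK p (t₁ + s) p₀ (t₁ + s₀)| ≤ ((T + 2) * M * (l * d)) ^ 2 := by
  obtain ⟨h3, h1, h2⟩ := h
  have hM0 : 0 ≤ M := le_trans zero_le_one hM
  have hld : 0 ≤ l * d := mul_nonneg hl hd
  have hTl : 0 ≤ T * l := mul_nonneg hT hl
  rw [← rt_xg_K_flow, rt_ch_K_eq]
  obtain ⟨P, hP⟩ : ∃ P, P = p.flow t₁ := ⟨_, rfl⟩
  obtain ⟨P₀, hP₀⟩ : ∃ P₀, P₀ = p₀.flow t₁ := ⟨_, rfl⟩
  rw [← hP, ← hP₀] at h1 h2 h3 ⊢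
  obtain ⟨E, hE⟩ : ∃ E, E = (M * (l * d)) ^ 2 := ⟨_, rfl⟩
  have hE0 : 0 ≤ E := by rw [hE]; positivity
  have h4 : |rtIp (P.A - P₀.A) (P.b - P₀.b)| ≤ (M * d) * (M * (l * d)) := rtIp_abs_le (mul_nonneg hM0 hd) (mul_nonneg hM0 hld) h3 h1
  have a1 : |rtSq (P.b - P₀.b)| ≤ E := by rw [abs_of_nonneg (rtSq_nonneg _), hE]; exact h1
  have a2 : |(s - s₀) * (P.y - P₀.y - 2 * rtIp P₀.A (P.b - P₀.b))| ≤ (2 * T) * E := by
    rw [abs_mul]
    have b1 : |s - s₀| ≤ 2 * (T * l) := by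
      calc |s - s₀| ≤ |s| + |s₀| := abs_sub _ _
        _ ≤ 2 * (T * l) := by linarith
    calc |s - s₀| * |P.y - P₀.y - 2 * rtIp P₀.A (P.b - P₀.b)| ≤ 2 * (T * l) * (M * (l * d ^ 2)) :=
          mul_le_mul b1 h2 (abs_nonneg _) (by positivity)
      _ = 2 * T * (M * (l * d) ^ 2) := by ring
      _ ≤ 2 * T * E := by
          refine mul_le_mul_of_nonneg_left ?_ (by positivity)
          have hMM : M ≤ M ^ 2 := by nlinarith [mul_nonneg hM0 (sub_nonneg.2 hM)]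
          have e5 : E = M ^ 2 * (l * d) ^ 2 := by rw [hE]; ring
          rw [e5]
          exact mul_le_mul_of_nonneg_right hMM (sq_nonneg _)
  have a3 : |2 * s * rtIp (P.A - P₀.A) (P.b - P₀.b)| ≤ (2 * T) * E := by
    rw [abs_mul, abs_mul, abs_of_pos (by norm_num : (0 : ℝ) < 2)]
    calc 2 * |s| * |rtIp (P.A - P₀.A) (P.b - P₀.b)| ≤ 2 * (T * l) * ((M * d) * (M * (l * d))) :=
          mul_le_mul (by linarith) h4 (abs_nonneg _) (by positivity)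
      _ = 2 * T * E := by rw [hE]; ring
  have a4 : |s * s₀ * rtSq (P.A - P₀.A)| ≤ (T * T) * E := by
    rw [abs_mul, abs_mul, abs_of_nonneg (rtSq_nonneg _)]
    calc |s| * |s₀| * rtSq (P.A - P₀.A) ≤ (T * l) * (T * l) * (M * d) ^ 2 :=
          mul_le_mul (mul_le_mul hs hs₀ (abs_nonneg _) hTl) h3 (rtSq_nonneg _) (by positivity)
      _ = T * T * E := by rw [hE]; ring
  have e : ((T + 2) * M * (l * d)) ^ 2 = E + 2 * T * E + 2 * T * E + T * T * E + 3 * E := by rw [hE]; ring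
  rw [e]
  have := abs_le.1 a1
  have := abs_le.1 a2
  have := abs_le.1 a3
  have := abs_le.1 a4
  rw [abs_le]
  constructor <;> linarith

theorem rt_xg_aux_k2_int {a B Y G E T θ l sa sb ua ub : ℝ} (ha : 0 ≤ a) (hE : 0 ≤ E) (hT : 1 ≤ T) (hθ : 0 < θ) (hθ1 : θ ≤ 1) (hl : 0 < l)
    (hsa : |sa| ≤ T * l) (hua : |ua| ≤ T * l) (hs : θ * l ≤ |sa - sb|) (hu : θ * l ≤ |ua - ub|)
    (kaa : |-B + (sa - ua) * Y - 2 * sa * G - sa * ua * a| ≤ E) (kab : |-B + (sa - ub) * Y - 2 * sa * G - sa * ub * a| ≤ E)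
    (kba : |-B + (sb - ua) * Y - 2 * sb * G - sb * ua * a| ≤ E) (kbb : |-B + (sb - ub) * Y - 2 * sb * G - sb * ub * a| ≤ E) :
    a * (θ * l) ^ 2 ≤ 4 * E ∧ |Y| * (θ ^ 2 * l) ≤ 6 * T * E ∧ |B| * θ ^ 2 ≤ 9 * T ^ 2 * E := by
  have hθl : 0 < θ * l := mul_pos hθ hl
  have hT0 : 0 < T := by linarith
  obtain ⟨kaa1, kaa2⟩ := abs_le.1 kaa
  obtain ⟨kab1, kab2⟩ := abs_le.1 kab
  obtain ⟨kba1, kba2⟩ := abs_le.1 kba
  obtain ⟨kbb1, kbb2⟩ := abs_le.1 kbb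
  -- step 1
  have s1 : |a * ((sa - sb) * (ua - ub))| ≤ 4 * E := by
    have e : a * ((sa - sb) * (ua - ub)) = -(-B + (sa - ua) * Y - 2 * sa * G - sa * ua * a) + (-B + (sa - ub) * Y - 2 * sa * G - sa * ub * a)
        + (-B + (sb - ua) * Y - 2 * sb * G - sb * ua * a) - (-B + (sb - ub) * Y - 2 * sb * G - sb * ub * a) := by ring
    rw [e, abs_le]
    constructor <;> linarith
  have r1 : a * (θ * l) ^ 2 ≤ 4 * E := by
    refine le_trans ?_ s1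
    rw [abs_mul, abs_mul, abs_of_nonneg ha, sq]
    exact mul_le_mul_of_nonneg_left (mul_le_mul hs hu hθl.le (abs_nonneg _)) ha
  -- step 2
  have s2 : |(Y + a * sa) * (ua - ub)| ≤ 2 * E := by
    have e : (Y + a * sa) * (ua - ub) = -(-B + (sa - ua) * Y - 2 * sa * G - sa * ua * a) + (-B + (sa - ub) * Y - 2 * sa * G - sa * ub * a) := by ring
    rw [e, abs_le]
    constructor <;> linarith
  have s2' : |Y + a * sa| * (θ * l) ≤ 2 * E := by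
    refine le_trans ?_ s2
    rw [abs_mul]
    exact mul_le_mul_of_nonneg_left hu (abs_nonneg _)
  have t2 : |Y| ≤ |Y + a * sa| + a * (T * l) := by
    have e : Y = (Y + a * sa) - a * sa := by ring
    calc |Y| = |(Y + a * sa) - a * sa| := by rw [← e]
      _ ≤ |Y + a * sa| + |a * sa| := abs_sub _ _
      _ ≤ _ := by
        rw [abs_mul, abs_of_nonneg ha]
        have := mul_le_mul_of_nonneg_left hsa ha
        linarith
  have r2 : |Y| * (θ ^ 2 * l) ≤ 6 * T * E := by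
    have hpos : 0 ≤ θ ^ 2 * l := by positivity
    calc |Y| * (θ ^ 2 * l) ≤ (|Y + a * sa| + a * (T * l)) * (θ ^ 2 * l) := mul_le_mul_of_nonneg_right t2 hpos
      _ = θ * (|Y + a * sa| * (θ * l)) + T * (a * (θ * l) ^ 2) := by ring
      _ ≤ θ * (2 * E) + T * (4 * E) := add_le_add (mul_le_mul_of_nonneg_left s2' hθ.le) (mul_le_mul_of_nonneg_left r1 hT0.le)
      _ ≤ T * (2 * E) + T * (4 * E) := by
        have : θ * (2 * E) ≤ T * (2 * E) := mul_le_mul_of_nonneg_right (by linarith) (by linarith)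
        linarith
      _ = _ := by ring
  -- step 3
  have s3 : |(Y - 2 * G - a * ua) * (sa - sb)| ≤ 2 * E := by
    have e : (Y - 2 * G - a * ua) * (sa - sb) = (-B + (sa - ua) * Y - 2 * sa * G - sa * ua * a) - (-B + (sb - ua) * Y - 2 * sb * G - sb * ua * a) := by ring
    rw [e, abs_le]
    constructor <;> linarith
  have s3' : |Y - 2 * G - a * ua| * (θ * l) ≤ 2 * E := by
    refine le_trans ?_ s3
    rw [abs_mul]
    exact mul_le_mul_of_nonneg_left hs (abs_nonneg _)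
  have t3 : |B| ≤ E + (T * l) * |Y - 2 * G - a * ua| + (T * l) * |Y| := by
    have e : B = -(-B + (sa - ua) * Y - 2 * sa * G - sa * ua * a) + sa * (Y - 2 * G - a * ua) - ua * Y := by ring
    have h1 : |sa * (Y - 2 * G - a * ua)| ≤ (T * l) * |Y - 2 * G - a * ua| := by
      rw [abs_mul]
      exact mul_le_mul_of_nonneg_right hsa (abs_nonneg _)
    have h2 : |ua * Y| ≤ (T * l) * |Y| := by
      rw [abs_mul]
      exact mul_le_mul_of_nonneg_right hua (abs_nonneg _)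
    calc |B| = |-(-B + (sa - ua) * Y - 2 * sa * G - sa * ua * a) + sa * (Y - 2 * G - a * ua) - ua * Y| := by rw [← e]
      _ ≤ |-(-B + (sa - ua) * Y - 2 * sa * G - sa * ua * a) + sa * (Y - 2 * G - a * ua)| + |ua * Y| := abs_sub _ _
      _ ≤ |-(-B + (sa - ua) * Y - 2 * sa * G - sa * ua * a)| + |sa * (Y - 2 * G - a * ua)| + |ua * Y| := by
        have := abs_add_le (-(-B + (sa - ua) * Y - 2 * sa * G - sa * ua * a)) (sa * (Y - 2 * G - a * ua))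
        linarith
      _ ≤ _ := by
        rw [abs_neg]
        linarith
  have r3 : |B| * θ ^ 2 ≤ 9 * T ^ 2 * E := by
    have hT1 : 1 ≤ T ^ 2 := one_le_pow₀ hT
    have hθ2 : θ ^ 2 ≤ 1 := pow_le_one₀ hθ.le hθ1
    calc |B| * θ ^ 2 ≤ (E + (T * l) * |Y - 2 * G - a * ua| + (T * l) * |Y|) * θ ^ 2 := mul_le_mul_of_nonneg_right t3 (by positivity)
      _ = E * θ ^ 2 + T * θ * (|Y - 2 * G - a * ua| * (θ * l)) + T * (|Y| * (θ ^ 2 * l)) := by ring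
      _ ≤ E * 1 + T * θ * (2 * E) + T * (6 * T * E) :=
        add_le_add (add_le_add (mul_le_mul_of_nonneg_left hθ2 hE) (mul_le_mul_of_nonneg_left s3' (by positivity))) (mul_le_mul_of_nonneg_left r2 hT0.le)
      _ ≤ T ^ 2 * E + 2 * T ^ 2 * E + 6 * T ^ 2 * E := by
        have h1 : E * 1 ≤ T ^ 2 * E := by
          rw [mul_comm]
          exact mul_le_mul_of_nonneg_right hT1 hE
        have h2 : T * θ * (2 * E) ≤ 2 * T ^ 2 * E := by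
          have h4 : T * θ ≤ T * T := mul_le_mul_of_nonneg_left (hθ1.trans hT) hT0.le
          have h5 := mul_le_mul_of_nonneg_right h4 (by linarith : 0 ≤ 2 * E)
          calc T * θ * (2 * E) ≤ T * T * (2 * E) := h5
            _ = _ := by ring
        have h3 : T * (6 * T * E) = 6 * T ^ 2 * E := by ring
        linarith
      _ = _ := by ring
  exact ⟨r1, r2, r3⟩

/-- LEAF `L-256-RT-XG-K2`.   **bilinear interpolation.**   `K(s, u) = c₀₀ + c₁₀ s + c₀₁ u + c₁₁ s u`, `c₀₀ = -|Δb|²`, `c₀₁ = -Y`, `c₁₁ = -|ΔA|²` (`rt_xg_K_flow`, `rt_ch_K_eq`), `E = (M l d)²`: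
`|c₁₁| (θ l)² ≤ 4E`;   `|c₀₁ + c₁₁ sa| θ l ≤ 2E`, so `|Y| ≤ (E/l)(2/θ + 4T/θ²)`;   `|c₁₀ + c₁₁ ua| θ l ≤ 2E`, so `|c₀₀| ≤ E (1 + 2T/θ + 6T²/θ²) ≤ 9 T² E/θ²`. -/
theorem rt_xg_nr_of_K {M T θ l d τ sa sb ua ub : ℝ} {p p₀ : RtRow} (hM : 1 ≤ M) (hT : 1 ≤ T) (hθ : 0 < θ) (hθ1 : θ ≤ 1) (hl : 0 < l) (hd : 0 ≤ d)
    (hsa : |sa| ≤ T * l) (hsb : |sb| ≤ T * l) (hua : |ua| ≤ T * l) (hub : |ub| ≤ T * l) (hs : θ * l ≤ |sa - sb|) (hu : θ * l ≤ |ua - ub|)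
    (kaa : |rtK p (τ + sa) p₀ (τ + ua)| ≤ (M * (l * d)) ^ 2) (kab : |rtK p (τ + sa) p₀ (τ + ub)| ≤ (M * (l * d)) ^ 2)
    (kba : |rtK p (τ + sb) p₀ (τ + ua)| ≤ (M * (l * d)) ^ 2) (kbb : |rtK p (τ + sb) p₀ (τ + ub)| ≤ (M * (l * d)) ^ 2) :
    RtNr (6 * T * M ^ 2 / θ ^ 2) l d (p₀.flow τ) (p.flow τ) := by
  rw [← rt_xg_K_flow, rt_ch_K_eq] at kaa kab kba kbb
  obtain ⟨r1, r2, r3⟩ := rt_xg_aux_k2_int (rtSq_nonneg _) (by positivity) hT hθ hθ1 hl hsa hua hs hu kaa kab kba kbb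
  rw [abs_of_nonneg (rtSq_nonneg _)] at r3
  obtain ⟨w, hw⟩ : ∃ w : ℝ, w = θ⁻¹ := ⟨_, rfl⟩
  have hwθ : w * θ = 1 := by rw [hw]; exact inv_mul_cancel₀ hθ.ne'
  have hw1 : 1 ≤ w := by rw [hw]; exact (one_le_inv₀ hθ).2 hθ1
  have hMc : 6 * T * M ^ 2 / θ ^ 2 = 6 * T * M ^ 2 * w ^ 2 := by rw [hw, inv_pow]; rfl
  have hZ : 1 ≤ w * M := one_le_mul_of_one_le_of_one_le hw1 hM
  have hZ2 : 1 ≤ (w * M) ^ 2 := one_le_pow₀ hZ
  have hT2 : 1 ≤ T ^ 2 := one_le_pow₀ hT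
  have hE : 0 ≤ (M * (l * d)) ^ 2 := by positivity
  unfold RtNr RtNear
  rw [hMc]
  refine ⟨?_, ?_, ?_⟩
  · refine le_of_mul_le_mul_right (r1.trans ?_) (by positivity : 0 < (θ * l) ^ 2)
    have e : (6 * T * M ^ 2 * w ^ 2 * d) ^ 2 * (θ * l) ^ 2 = 36 * (T ^ 2 * (w * M) ^ 2) * (M * (l * d)) ^ 2 * (w * θ) ^ 2 := by ring
    rw [e, hwθ]
    have : 1 ≤ T ^ 2 * (w * M) ^ 2 := one_le_mul_of_one_le_of_one_le hT2 hZ2
    nlinarith
  · refine le_of_mul_le_mul_right (r3.trans ?_) (by positivity : 0 < θ ^ 2)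
    have e : (6 * T * M ^ 2 * w ^ 2 * (l * d)) ^ 2 * θ ^ 2 = 36 * (T ^ 2 * (M * (l * d)) ^ 2) * (w * M) ^ 2 * (w * θ) ^ 2 := by ring
    rw [e, hwθ]
    have : 0 ≤ T ^ 2 * (M * (l * d)) ^ 2 := by positivity
    nlinarith
  · refine le_of_mul_le_mul_right (r2.trans (le_of_eq ?_)) (by positivity : 0 < θ ^ 2 * l)
    have e : 6 * T * M ^ 2 * w ^ 2 * (l * d ^ 2) * (θ ^ 2 * l) = 6 * T * (M * (l * d)) ^ 2 * (w * θ) ^ 2 := by ring
    rw [e, hwθ]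
    ring

/-! ## 3. The move lemma -/

/-- **an exact chart moves near rows to near rows at the same scales** -/
theorem rt_xg_move {Φ : RtCh} {S : Set RtRow} (h : Φ.Ex S) {p p₀ : RtRow} (hp : p ∈ S) (hp₀ : p₀ ∈ S) {t₁ τ₁ l d σ T θ Mc M : ℝ} (hl : 0 < l) (hd : 0 ≤ d)
    (hσ : |σ| ≤ l) (hT : 1 ≤ T) (hθ : 0 < θ) (hθ1 : θ ≤ 1) (hMc : 1 ≤ Mc) (hM : 1 ≤ M)
    (hL : Φ.Lc p t₁ τ₁ l σ T θ Mc) (hL₀ : Φ.Lc p₀ t₁ τ₁ l σ T θ Mc) (hn : RtNr M l d (p₀.flow t₁) (p.flow t₁)) :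
    RtNr (6 * T * (Mc * (3 * M)) ^ 2 / θ ^ 2) l d ((Φ.row p₀).flow τ₁) ((Φ.row p).flow τ₁) := by
  have hMc0 : 0 < Mc := by linarith
  have key : ∀ s s₀ : ℝ, |s| ≤ l → |s₀| ≤ l → Mc⁻¹ ≤ |Φ.den (p.ev (t₁ + s))| → Mc⁻¹ ≤ |Φ.den (p₀.ev (t₁ + s₀))| →
      |rtK (Φ.row p) (Φ.tm p (t₁ + s)) (Φ.row p₀) (Φ.tm p₀ (t₁ + s₀))| ≤ (Mc * (3 * M) * (l * d)) ^ 2 := by
    intro s s₀ hs hs₀ hd1 hd2
    rw [rt_ch_K h hp hp₀ (rt_ch_hit_ne hMc0 hd1) (rt_ch_hit_ne hMc0 hd2), abs_div, abs_mul]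
    have hK := rt_xg_K_le (T := 1) (s := s) (s₀ := s₀) hM zero_le_one hl.le hd hn (by rwa [one_mul]) (by rwa [one_mul])
    have hpos : 0 < |Φ.den (p.ev (t₁ + s))| * |Φ.den (p₀.ev (t₁ + s₀))| :=
      mul_pos (lt_of_lt_of_le (inv_pos.2 hMc0) hd1) (lt_of_lt_of_le (inv_pos.2 hMc0) hd2)
    rw [div_le_iff₀ hpos]
    have h2 : Mc⁻¹ * Mc⁻¹ ≤ |Φ.den (p.ev (t₁ + s))| * |Φ.den (p₀.ev (t₁ + s₀))| := mul_le_mul hd1 hd2 (inv_pos.2 hMc0).le (abs_nonneg _)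
    calc |rtK p (t₁ + s) p₀ (t₁ + s₀)| ≤ ((1 + 2) * M * (l * d)) ^ 2 := hK
      _ = (Mc * (3 * M) * (l * d)) ^ 2 * (Mc⁻¹ * Mc⁻¹) := by
        field_simp
        ring
      _ ≤ _ := mul_le_mul_of_nonneg_left h2 (by positivity)
  have z0 : |(0 : ℝ)| ≤ l := by rw [abs_zero]; exact hl.le
  have d0 : Mc⁻¹ ≤ |Φ.den (p.ev (t₁ + 0))| := by rw [add_zero]; exact hL.den0
  have d0' : Mc⁻¹ ≤ |Φ.den (p₀.ev (t₁ + 0))| := by rw [add_zero]; exact hL₀.den0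
  have kaa := key 0 0 z0 z0 d0 d0'
  have kab := key 0 σ z0 hσ d0 hL₀.den1
  have kba := key σ 0 hσ z0 hL.den1 d0'
  have kbb := key σ σ hσ hσ hL.den1 hL₀.den1
  rw [add_zero] at kaa kab kba
  have hM' : 1 ≤ Mc * (3 * M) := one_le_mul_of_one_le_of_one_le hMc (by linarith)
  refine rt_xg_nr_of_K (sa := Φ.tm p t₁ - τ₁) (sb := Φ.tm p (t₁ + σ) - τ₁) (ua := Φ.tm p₀ t₁ - τ₁) (ub := Φ.tm p₀ (t₁ + σ) - τ₁)
    hM' hT hθ hθ1 hl hd hL.tm0 hL.tm1 hL₀.tm0 hL₀.tm1 ?_ ?_ ?_ ?_ ?_ ?_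
  · have e : Φ.tm p t₁ - τ₁ - (Φ.tm p (t₁ + σ) - τ₁) = Φ.tm p t₁ - Φ.tm p (t₁ + σ) := by ring
    rw [e]
    exact hL.sep
  · have e : Φ.tm p₀ t₁ - τ₁ - (Φ.tm p₀ (t₁ + σ) - τ₁) = Φ.tm p₀ t₁ - Φ.tm p₀ (t₁ + σ) := by ring
    rw [e]
    exact hL₀.sep
  · rw [add_sub_cancel, add_sub_cancel]
    exact kaa
  · rw [add_sub_cancel, add_sub_cancel]
    exact kab
  · rw [add_sub_cancel, add_sub_cancel]
    exact kba
  · rw [add_sub_cancel, add_sub_cancel]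
    exact kbb

end Claimed.Agent.R256
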