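import Claimed.Agent.R256.Rt.XnDefs
import Claimed.Agent.R256.Rt.XgNear

/-!
# Row 256, folder Rt, block I1, unit XG (GEOMETRY OF ASSOCIATIONS), file 2 : THE STEP LEMMAS      (unit architect helper136; consumer: unit XN, helper68; prefix `rt_xg_`)

Paper free, real numbers only.   Shapes of `Rt/XnDefs.lean` (`RtAsP` = association with a tracked ray `P` at the tracked time `t`).      NOTATION: `l = rdLen k`, `d = rdD H k`, `p' = rtRay T' x'`.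
* `rt_xg_scales`, `rt_xg_asp_iff` : `RtAsP H k Λ P t T' x' ↔ |t - T'| ≤ Λ l ∧ RtNr Λ l d (p'.flow t) (P.flow t)`.
* **`rt_xg_ps`** (generic, PROVED from `rt_xg_move`, `_shift`, `_trans`): `RtAsP .. Λ₁ P t T' x'` & `RtAsR E .. Λ₂ T' x' T'' x''` & local regularity of `E` on `P` and `p'` ⟹ `RtAsP .. Λ (E.row P) (E.tm P t) T'' x''`.
* EXITS (S):   `rt_xg_ps_db` (`|γ| ≤ 2`, `|A_P| ≤ 1/10`, `Λ₁ d ≤ 1/10`: `10⁶ Λ₁⁴ Λ₂²`),   `rt_xg_ps_ln` (`|c| ≤ 1`, `|t|, |T'| ≤ 7/8`: `10¹² Λ₁⁴ Λ₂²`),   `rt_xg_ps_tr` (`Tr 0`: `10 Λ₁² Λ₂²`),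
               `rt_xg_ps_chg` (relation of `rt_xk_chg`, depth `k → k₂ ≤ k + 2`: `10⁴ Λ₁² Λ₂⁴`).
-/

set_option autoImplicit false

namespace Claimed.Agent.R256

/-! ## 0. Scales, ray form -/

/-- LEAF `L-256-RT-XG-S0`.   (`Real.sqrt` algebra; same as `re_sp_dq` of `Re/SpaKer.lean`, which is NOT imported here) -/
theorem rt_xg_scales (H : ℝ) (hH : 0 < H) (k : ℕ) : 0 < rdD H k ∧ rdQ H k = rdLen k * rdD H k ∧ H = rdLen k * rdD H k ^ 2 := by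
  have hl := rdLen_pos k
  have h0 : 0 < H / rdLen k := div_pos hH hl
  have hd : 0 < rdD H k := Real.sqrt_pos.2 h0
  have h2 : rdD H k ^ 2 = H / rdLen k := Real.sq_sqrt h0.le
  have h3 : H = rdLen k * rdD H k ^ 2 := by
    rw [h2]
    field_simp
  refine ⟨hd, ?_, h3⟩
  unfold rdQ
  rw [Real.sqrt_eq_iff_mul_self_eq (mul_pos hH hl).le (mul_pos hl hd).le]
  nlinarith

/-- LEAF `L-256-RT-XG-S0`.   `rdLen k ≤ 1`;   depth `k ≤ k₂ ≤ k + 2`: `l/4 ≤ l₂ ≤ l`, `d ≤ d₂`, `q ≤ 2 q₂`      (`rdLen (k + j) = rdLen k / 2^j`; `Real.sqrt_le_sqrt`; `q² = H l ≤ 4 H l₂ = (2 q₂)²`) -/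
theorem rt_xg_depth (H : ℝ) (hH : 0 < H) (k k₂ : ℕ) (h1 : k ≤ k₂) (h2 : k₂ ≤ k + 2) :
    rdLen k ≤ 1 ∧ rdLen k ≤ 4 * rdLen k₂ ∧ rdLen k₂ ≤ rdLen k ∧ rdD H k ≤ rdD H k₂ ∧ rdQ H k ≤ 2 * rdQ H k₂ := by
  have hl := rdLen_pos k
  have hl2 := rdLen_pos k₂
  have a1 : rdLen k ≤ 1 := by
    unfold rdLen
    exact pow_le_one₀ (by norm_num) (by norm_num)
  have a3 : rdLen k₂ ≤ rdLen k := by
    unfold rdLen
    exact pow_le_pow_of_le_one (by norm_num) (by norm_num) h1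
  have a2 : rdLen k ≤ 4 * rdLen k₂ := by
    have b1 : rdLen (k + 2) ≤ rdLen k₂ := by
      unfold rdLen
      exact pow_le_pow_of_le_one (by norm_num) (by norm_num) h2
    have b2 : rdLen (k + 2) = rdLen k / 4 := by
      unfold rdLen
      rw [pow_add]
      norm_num
      ring
    linarith
  refine ⟨a1, a2, a3, ?_, ?_⟩
  · unfold rdD
    exact Real.sqrt_le_sqrt (div_le_div_of_nonneg_left hH.le hl2 a3)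
  · unfold rdQ
    rw [Real.sqrt_le_left (by positivity)]
    rw [mul_pow, Real.sq_sqrt (mul_pos hH hl2).le]
    nlinarith

/-- the ray form of `RtAsP` -/
theorem rt_xg_asp_iff (H : ℝ) (hH : 0 < H) (k : ℕ) (Λ : ℝ) (P : RtRow) (t T' : ℝ) (x' : RdWvPar.Ph) :
    RtAsP H k Λ P t T' x' ↔ |t - T'| ≤ Λ * rdLen k ∧ RtNr Λ (rdLen k) (rdD H k) ((rtRay T' x').flow t) (P.flow t) := by
  obtain ⟨-, h2, h3⟩ := rt_xg_scales H hH k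
  unfold RtAsP RtNr
  rw [rt_xn_ray_flow, ← h2, ← h3]

/-! ## 1. The generic step -/

/-- **the generic step** -/
theorem rt_xg_ps {E : RtCh} {S : Set RtRow} (hEx : E.Ex S) {H : ℝ} {k : ℕ} {Λ₁ Λ₂ Λ σ T θ Mc T₂ : ℝ} {P : RtRow} {t T' T'' : ℝ} {x' x'' : RdWvPar.Ph} (hH : 0 < H)
    (hΛ₁ : 1 ≤ Λ₁) (hΛ₂ : 1 ≤ Λ₂) (hσ : |σ| ≤ rdLen k) (hT : 1 ≤ T) (hθ : 0 < θ) (hθ1 : θ ≤ 1) (hMc : 1 ≤ Mc) (hT₂ : 0 ≤ T₂)
    (h1 : P ∈ S) (h2 : rtRay T' x' ∈ S)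
    (hL1 : E.Lc P t (E.tm P t) (rdLen k) σ T θ Mc) (hL2 : E.Lc (rtRay T' x') t (E.tm P t) (rdLen k) σ T θ Mc)
    (hte : |E.tm P t - E.tm (rtRay T' x') T'| ≤ T₂ * rdLen k)
    (a : RtAsP H k Λ₁ P t T' x') (b : RtAsR E H k Λ₂ T' x' T'' x'')
    (hΛa : T₂ + Λ₂ ≤ Λ)
    (hΛb : (1 + T₂) * Λ₂ ^ 2 + 6 * T * (Mc * (3 * Λ₁)) ^ 2 / θ ^ 2 + 2 * ((1 + T₂) * Λ₂ ^ 2) * (6 * T * (Mc * (3 * Λ₁)) ^ 2 / θ ^ 2) ≤ Λ) :
    RtAsP H k Λ (E.row P) (E.tm P t) T'' x'' := by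
  have hl := rdLen_pos k
  have hd := (rt_xg_scales H hH k).1.le
  rw [rt_xg_asp_iff H hH] at a ⊢
  rw [rt_xn_asr_iff, rt_xg_asp_iff H hH] at b
  obtain ⟨-, a2⟩ := a
  obtain ⟨b1, b2⟩ := b
  have m := rt_xg_move hEx h1 h2 hl hd hσ hT hθ hθ1 hMc hΛ₁ hL1 hL2 a2
  have s := rt_xg_nr_shift hΛ₂ hT₂ hl.le hd b2 hte
  have n1 : 0 ≤ (1 + T₂) * Λ₂ ^ 2 := by positivity
  have n2 : 0 ≤ 6 * T * (Mc * (3 * Λ₁)) ^ 2 / θ ^ 2 := by positivity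
  have tr := rt_xg_nr_trans n1 n2 hl.le hd s m
  refine ⟨?_, rt_xg_nr_mono (by positivity) hΛb hl.le hd tr⟩
  have e : E.tm P t - T'' = (E.tm P t - E.tm (rtRay T' x') T') + (E.tm (rtRay T' x') T' - T'') := by ring
  rw [e]
  refine (abs_add_le _ _).trans ?_
  calc _ ≤ T₂ * rdLen k + Λ₂ * rdLen k := add_le_add hte b1
    _ = (T₂ + Λ₂) * rdLen k := by ring
    _ ≤ _ := mul_le_mul_of_nonneg_right hΛa hl.le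

/-! ## 2. The dual boost -/

/-- LEAF `L-256-RT-XG-D1`.   the new time is the time of the boosted event      (unfold `rtChDb, RtCh.tm, RtCh.dn, rtCfT0, rtCfQ, RtRow.flow`; `ring`) -/
theorem rt_xg_db_tm (c : ℝ) (P : RtRow) (t : ℝ) :
    (rtChDb c).tm P t = rtCfT0 c P + t * rtCfQ c P ∧ (rtChDb c).tm P t = t + 2 * c * (P.flow t).b.2 + c ^ 2 * (P.flow t).y ∧ (rtChDb c).dn P t = 1 ∧ ∀ x, (rtChDb c).den x = 1 := by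
  have hdn : (rtChDb c).dn P t = 1 := by
    simp [rtChDb, RtCh.dn]
  have h1 : (rtChDb c).tm P t = rtCfT0 c P + t * rtCfQ c P := by
    unfold RtCh.tm
    rw [hdn, div_one]
    rfl
  refine ⟨h1, ?_, hdn, fun _ => rfl⟩
  rw [h1]
  simp only [rtCfT0, rtCfQ, RtRow.flow, Prod.snd_add, Prod.smul_snd, smul_eq_mul]
  ring

/-- LEAF `L-256-RT-XG-D1`.   `Q = (1 + c A₂)² + c² A₁²`, `|A₂| ≤ 1/5` -/
theorem rt_xg_db_Q {c : ℝ} {P : RtRow} (hc : |c| ≤ 2) (hA : rtSq P.A ≤ (1 / 5) ^ 2) : 9 / 25 ≤ rtCfQ c P ∧ rtCfQ c P ≤ 49 / 25 := by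
  have h2 : |P.A.2| ≤ 1 / 5 := by
    unfold rtSq at hA
    exact abs_le_of_sq_le_sq (by nlinarith [sq_nonneg P.A.1]) (by norm_num)
  have h3 : |c * P.A.2| ≤ 2 * (1 / 5) := by
    rw [abs_mul]
    exact mul_le_mul hc h2 (abs_nonneg _) (by norm_num)
  have h4 := abs_le.1 h3
  have h5 : c ^ 2 ≤ 4 := by
    have := abs_le.1 hc
    nlinarith
  have h6 := rtSq_nonneg P.A
  unfold rtCfQ
  constructor
  · have e : 1 + 2 * c * P.A.2 + c ^ 2 * rtSq P.A = (1 + c * P.A.2) ^ 2 + c ^ 2 * P.A.1 ^ 2 := by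
      unfold rtSq
      ring
    rw [e]
    nlinarith [mul_nonneg (sq_nonneg c) (sq_nonneg P.A.1)]
  · have h7 : c ^ 2 * rtSq P.A ≤ 4 * (1 / 5) ^ 2 := mul_le_mul h5 hA h6 (by norm_num)
    nlinarith

/-- LEAF `L-256-RT-XG-D2`.   second formula of `rt_xg_db_tm`: the difference is `2c Δb₂ + c² Δy`, `|Δb₂| ≤ Λ l d`, `|Δy| ≤ Λ l d² + 2 |A'| Λ l d` (`rtIp_abs_le`): `≤ (4 + 4 + 8/5) Λ l`. -/
theorem rt_xg_db_cmp {c Λ l d t : ℝ} {P p' : RtRow} (hc : |c| ≤ 2) (hΛ : 0 ≤ Λ) (hl : 0 ≤ l) (hd : 0 ≤ d) (hd1 : d ≤ 1) (hA : rtSq p'.A ≤ (1 / 5) ^ 2)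
    (h : RtNr Λ l d (p'.flow t) (P.flow t)) : |(rtChDb c).tm P t - (rtChDb c).tm p' t| ≤ 10 * Λ * l := by
  obtain ⟨-, hb, hy⟩ := h
  rw [(rt_xg_db_tm c P t).2.1, (rt_xg_db_tm c p' t).2.1]
  obtain ⟨Δb, hΔb⟩ : ∃ Δb : ℝ × ℝ, Δb = (P.flow t).b - (p'.flow t).b := ⟨_, rfl⟩
  obtain ⟨Δy, hΔy⟩ : ∃ Δy : ℝ, Δy = (P.flow t).y - (p'.flow t).y := ⟨_, rfl⟩
  have hA' : (p'.flow t).A = p'.A := rfl
  rw [← hΔb] at hb hy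
  rw [← hΔy, hA'] at hy
  have hB0 : 0 ≤ Λ * l := mul_nonneg hΛ hl
  have hq0 : 0 ≤ Λ * (l * d) := by positivity
  have hq1 : Λ * (l * d) ≤ Λ * l := by
    calc Λ * (l * d) = (Λ * l) * d := by ring
      _ ≤ (Λ * l) * 1 := mul_le_mul_of_nonneg_left hd1 hB0
      _ = Λ * l := mul_one _
  have hq2 : Λ * (l * d ^ 2) ≤ Λ * l := by
    have hd2 : d ^ 2 ≤ 1 := pow_le_one₀ hd hd1
    calc Λ * (l * d ^ 2) = (Λ * l) * d ^ 2 := by ring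
      _ ≤ (Λ * l) * 1 := mul_le_mul_of_nonneg_left hd2 hB0
      _ = Λ * l := mul_one _
  have hb2 : |Δb.2| ≤ Λ * (l * d) := by
    refine abs_le_of_sq_le_sq ?_ hq0
    refine le_trans ?_ hb
    unfold rtSq
    nlinarith [sq_nonneg Δb.1]
  have hip : |rtIp p'.A Δb| ≤ 1 / 5 * (Λ * (l * d)) := rtIp_abs_le (by norm_num) hq0 hA hb
  have hyy : |Δy| ≤ 7 / 5 * (Λ * l) := by
    have h1 : |Δy| ≤ |Δy - 2 * rtIp p'.A Δb| + |2 * rtIp p'.A Δb| := by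
      have := abs_add_le (Δy - 2 * rtIp p'.A Δb) (2 * rtIp p'.A Δb)
      rwa [sub_add_cancel] at this
    have h2 : |2 * rtIp p'.A Δb| = 2 * |rtIp p'.A Δb| := by rw [abs_mul]; norm_num
    rw [h2] at h1
    linarith
  have e : t + 2 * c * (P.flow t).b.2 + c ^ 2 * (P.flow t).y - (t + 2 * c * (p'.flow t).b.2 + c ^ 2 * (p'.flow t).y) = 2 * c * Δb.2 + c ^ 2 * Δy := by
    rw [hΔb, hΔy]
    simp only [Prod.snd_sub]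
    ring
  rw [e]
  have hc2 : c ^ 2 ≤ 4 := by
    have := sq_abs c
    nlinarith [abs_nonneg c]
  have k1 : |2 * c * Δb.2| ≤ 4 * (Λ * l) := by
    rw [abs_mul, abs_mul]
    have : |(2 : ℝ)| = 2 := by norm_num
    rw [this]
    calc 2 * |c| * |Δb.2| ≤ 2 * 2 * (Λ * l) := mul_le_mul (by linarith) (hb2.trans hq1) (abs_nonneg _) (by norm_num)
      _ = 4 * (Λ * l) := by ring
  have k2 : |c ^ 2 * Δy| ≤ 4 * (7 / 5 * (Λ * l)) := by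
    rw [abs_mul, abs_of_nonneg (sq_nonneg c)]
    exact mul_le_mul hc2 hyy (abs_nonneg _) (by norm_num)
  calc |2 * c * Δb.2 + c ^ 2 * Δy| ≤ |2 * c * Δb.2| + |c ^ 2 * Δy| := abs_add_le _ _
    _ ≤ 10 * Λ * l := by linarith

/-- LEAF `L-256-RT-XG-D3`.   `σ = l`, `den = 1`, `tm (t + l) - tm t = Q l`. -/
theorem rt_xg_db_lc {c l t τ T : ℝ} {P : RtRow} (hc : |c| ≤ 2) (hl : 0 ≤ l) (hA : rtSq P.A ≤ (1 / 5) ^ 2) (hτ : |(rtChDb c).tm P t - τ| ≤ (T - 2) * l) :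
    (rtChDb c).Lc P t τ l l T (9 / 25) 1 := by
  obtain ⟨hQ1, hQ2⟩ := rt_xg_db_Q hc hA
  have hden : ∀ x, (rtChDb c).den x = 1 := (rt_xg_db_tm c P t).2.2.2
  have e : (rtChDb c).tm P (t + l) = (rtChDb c).tm P t + l * rtCfQ c P := by
    rw [(rt_xg_db_tm c P (t + l)).1, (rt_xg_db_tm c P t).1]
    ring
  have hlQ0 : 0 ≤ l * rtCfQ c P := mul_nonneg hl (by linarith)
  have hlQ1 : l * rtCfQ c P ≤ 2 * l := by nlinarith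
  have hlQ2 : 9 / 25 * l ≤ l * rtCfQ c P := by nlinarith
  refine ⟨?_, ?_, ?_, ?_, ?_⟩
  · rw [hden]; norm_num
  · rw [hden]; norm_num
  · refine hτ.trans ?_
    nlinarith
  · rw [e]
    have h1 : |(rtChDb c).tm P t + l * rtCfQ c P - τ| ≤ |(rtChDb c).tm P t - τ| + |l * rtCfQ c P| := by
      have := abs_add_le ((rtChDb c).tm P t - τ) (l * rtCfQ c P)
      have e2 : (rtChDb c).tm P t - τ + l * rtCfQ c P = (rtChDb c).tm P t + l * rtCfQ c P - τ := by ring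
      rwa [e2] at this
    rw [abs_of_nonneg hlQ0] at h1
    nlinarith
  · rw [e]
    have e3 : (rtChDb c).tm P t - ((rtChDb c).tm P t + l * rtCfQ c P) = -(l * rtCfQ c P) := by ring
    rw [e3, abs_neg, abs_of_nonneg hlQ0]
    exact hlQ2

/-- **EXIT (S), dual boost** -/
theorem rt_xg_ps_db {H : ℝ} {k : ℕ} {γ Λ₁ Λ₂ : ℝ} {P : RtRow} {t T' T'' : ℝ} {x' x'' : RdWvPar.Ph} (hH : 0 < H) (hγ : |γ| ≤ 2) (hΛ₁ : 1 ≤ Λ₁) (hΛ₂ : 1 ≤ Λ₂)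
    (hA : rtSq P.A ≤ (1 / 10) ^ 2) (hd : Λ₁ * rdD H k ≤ 1 / 10)
    (a : RtAsP H k Λ₁ P t T' x') (b : RtAsR (rtChDb γ) H k Λ₂ T' x' T'' x'') :
    RtAsP H k (10 ^ 6 * Λ₁ ^ 4 * Λ₂ ^ 2) ((rtChDb γ).row P) ((rtChDb γ).tm P t) T'' x'' := by
  have hl := rdLen_pos k
  obtain ⟨hd0, -, -⟩ := rt_xg_scales H hH k
  obtain ⟨a1, a2⟩ := (rt_xg_asp_iff H hH k Λ₁ P t T' x').1 a
  have hA' : rtSq (rtRay T' x').A ≤ (1 / 5) ^ 2 := by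
    have h1 : rtSq (P.A - (rtRay T' x').A) ≤ (Λ₁ * rdD H k) ^ 2 := a2.1
    have h2 : rtSq (-(P.A - (rtRay T' x').A)) ≤ (1 / 10) ^ 2 := by
      have e : rtSq (-(P.A - (rtRay T' x').A)) = rtSq (P.A - (rtRay T' x').A) := by
        simp only [rtSq, Prod.fst_neg, Prod.snd_neg]
        ring
      rw [e]
      exact h1.trans (pow_le_pow_left₀ (by positivity) hd 2)
    have h3 := rt_g2_sq_add (by norm_num : (0 : ℝ) ≤ 1 / 10) (by norm_num : (0 : ℝ) ≤ 1 / 10) hA h2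
    have e : P.A + -(P.A - (rtRay T' x').A) = (rtRay T' x').A := by abel
    rw [e] at h3
    exact h3.trans (by norm_num)
  have hAP : rtSq P.A ≤ (1 / 5) ^ 2 := hA.trans (by norm_num)
  have hd1 : rdD H k ≤ 1 := by nlinarith
  have cmp := rt_xg_db_cmp hγ (by linarith) hl.le hd0.le hd1 hA' a2
  have hΛl : 0 ≤ Λ₁ * rdLen k := by positivity
  have hll : rdLen k ≤ Λ₁ * rdLen k := by nlinarith
  have L1 : (rtChDb γ).Lc P t ((rtChDb γ).tm P t) (rdLen k) (rdLen k) (12 * Λ₁) (9 / 25) 1 :=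
    rt_xg_db_lc hγ hl.le hAP (by rw [sub_self, abs_zero]; nlinarith)
  have L2 : (rtChDb γ).Lc (rtRay T' x') t ((rtChDb γ).tm P t) (rdLen k) (rdLen k) (12 * Λ₁) (9 / 25) 1 :=
    rt_xg_db_lc hγ hl.le hA' (by rw [abs_sub_comm]; nlinarith)
  obtain ⟨hQ1, hQ2⟩ := rt_xg_db_Q hγ hA'
  have hte : |(rtChDb γ).tm P t - (rtChDb γ).tm (rtRay T' x') T'| ≤ 12 * Λ₁ * rdLen k := by
    have e : (rtChDb γ).tm P t - (rtChDb γ).tm (rtRay T' x') T'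
        = ((rtChDb γ).tm P t - (rtChDb γ).tm (rtRay T' x') t) + rtCfQ γ (rtRay T' x') * (t - T') := by
      rw [(rt_xg_db_tm γ (rtRay T' x') t).1, (rt_xg_db_tm γ (rtRay T' x') T').1]
      ring
    rw [e]
    refine (abs_add_le _ _).trans ?_
    rw [abs_mul, abs_of_pos (by linarith : 0 < rtCfQ γ (rtRay T' x'))]
    have : rtCfQ γ (rtRay T' x') * |t - T'| ≤ 49 / 25 * (Λ₁ * rdLen k) := mul_le_mul hQ2 a1 (abs_nonneg _) (by norm_num)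
    linarith
  have u1 : Λ₁ ≤ Λ₁ ^ 4 := le_self_pow₀ hΛ₁ (by norm_num)
  have u3 : Λ₁ ^ 3 ≤ Λ₁ ^ 4 := pow_le_pow_right₀ hΛ₁ (by norm_num)
  have v1 : Λ₂ ≤ Λ₂ ^ 2 := le_self_pow₀ hΛ₂ (by norm_num)
  have v0 : 1 ≤ Λ₂ ^ 2 := one_le_pow₀ hΛ₂
  have u0 : 1 ≤ Λ₁ ^ 4 := one_le_pow₀ hΛ₁
  have w : 0 ≤ Λ₁ ^ 4 * Λ₂ ^ 2 := by positivity
  have w1 : Λ₁ ^ 4 ≤ Λ₁ ^ 4 * Λ₂ ^ 2 := by nlinarith
  have w2 : Λ₂ ^ 2 ≤ Λ₁ ^ 4 * Λ₂ ^ 2 := by nlinarith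
  refine rt_xg_ps (rt_ch_db_ex γ) hH hΛ₁ hΛ₂ (by rw [abs_of_pos hl]) (by linarith) (by norm_num) (by norm_num) le_rfl (by positivity)
    ?_ ?_ L1 L2 hte a b ?_ ?_
  · show rtCfQ γ P ≠ 0
    have := (rt_xg_db_Q hγ hAP).1
    intro h0
    rw [h0] at this
    norm_num at this
  · show rtCfQ γ (rtRay T' x') ≠ 0
    intro h0
    rw [h0] at hQ1
    norm_num at hQ1
  · nlinarith
  · have hX : 6 * (12 * Λ₁) * (1 * (3 * Λ₁)) ^ 2 / (9 / 25) ^ 2 = 5000 * Λ₁ ^ 3 := by ring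
    rw [hX]
    have t1 : (1 + 12 * Λ₁) * Λ₂ ^ 2 ≤ 13 * (Λ₁ ^ 4 * Λ₂ ^ 2) := by
      have : 1 + 12 * Λ₁ ≤ 13 * Λ₁ ^ 4 := by linarith
      calc (1 + 12 * Λ₁) * Λ₂ ^ 2 ≤ (13 * Λ₁ ^ 4) * Λ₂ ^ 2 := mul_le_mul_of_nonneg_right this (by positivity)
        _ = _ := by ring
    have t2 : 5000 * Λ₁ ^ 3 ≤ 5000 * (Λ₁ ^ 4 * Λ₂ ^ 2) := by linarith
    have t3 : 2 * ((1 + 12 * Λ₁) * Λ₂ ^ 2) * (5000 * Λ₁ ^ 3) ≤ 130000 * (Λ₁ ^ 4 * Λ₂ ^ 2) := by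
      have h13 : (1 + 12 * Λ₁) * Λ₁ ^ 3 ≤ 13 * Λ₁ ^ 4 := by
        have : Λ₁ * Λ₁ ^ 3 = Λ₁ ^ 4 := by ring
        nlinarith
      calc 2 * ((1 + 12 * Λ₁) * Λ₂ ^ 2) * (5000 * Λ₁ ^ 3) = 10000 * ((1 + 12 * Λ₁) * Λ₁ ^ 3) * Λ₂ ^ 2 := by ring
        _ ≤ 10000 * (13 * Λ₁ ^ 4) * Λ₂ ^ 2 := by gcongr
        _ = _ := by ring
    linarith

/-! ## 3. The lens -/

/-- LEAF `L-256-RT-XG-L1`.   (unfold `rtChLn, rtChCf, rtCfDen, rtCfD0, rtCfD1, rtCfRow, RtEv.pol, RtEv.q, RtRow.ev`; `simp`, `ring`) -/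
theorem rt_xg_ln_fm (c : ℝ) (P : RtRow) (t : ℝ) :
    (rtChLn c).tm P t = t / (1 + c * t) ∧ (rtChLn c).dn P t = 1 + c * t ∧ (rtChLn c).den (P.ev t) = 1 + c * t ∧
      (rtChLn c).row P = ⟨P.A - c • P.b, P.b, P.y - c * rtSq P.b⟩ ∧ rtCfD0 (0, 0) P = 1 := by
  have h0 : rtCfD0 (0, 0) P = 1 := by simp [rtCfD0, rtIp, rtSq]
  have h1 : rtCfD1 (0, 0) c P = c := by simp [rtCfD1, rtIp, rtSq]
  have hdn : (rtChLn c).dn P t = 1 + c * t := by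
    show rtCfD0 (0, 0) P + t * rtCfD1 (0, 0) c P = 1 + c * t
    rw [h0, h1]; ring
  refine ⟨?_, hdn, ?_, ?_, h0⟩
  · show (0 + t * 1) / (rtChLn c).dn P t = t / (1 + c * t)
    rw [hdn]; congr 1; ring
  · show rtCfDen ⟨0, (0, 0), c⟩ (P.ev t) = 1 + c * t
    simp only [rtCfDen, RtEv.pol, RtEv.q, RtRow.ev, rtQ, rtIp, rtSq]
    ring
  · show rtCfRow (0, 0) c P = _
    unfold rtCfRow
    rw [h0, h1]
    ext <;> simp [mul_comm]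

/-- LEAF `L-256-RT-XG-L2`.   `σ = l/16`: `D = 1 + c t ∈ [1/8, 15/8]`, `D' = D + c l/16 ∈ [1/16, 31/16]`, `tm (t + σ) - tm t = σ/(D D')`. -/
theorem rt_xg_ln_lc {c l t : ℝ} (P : RtRow) (hc : |c| ≤ 1) (hl : 0 < l) (hl1 : l ≤ 1) (ht : |t| ≤ 7 / 8) :
    (rtChLn c).Lc P t (t / (1 + c * t)) l (l / 16) 8 (1 / 150) 16 := by
  obtain ⟨f1, -, f3, -, -⟩ := rt_xg_ln_fm c P t
  obtain ⟨g1, -, g3, -, -⟩ := rt_xg_ln_fm c P (t + l / 16)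
  have hct : |c * t| ≤ 7 / 8 := by
    rw [abs_mul]
    calc |c| * |t| ≤ 1 * (7 / 8) := mul_le_mul hc ht (abs_nonneg _) zero_le_one
      _ = 7 / 8 := by ring
  have hcl : |c * (l / 16)| ≤ 1 / 16 := by
    rw [abs_mul, abs_of_pos (by positivity : 0 < l / 16)]
    calc |c| * (l / 16) ≤ 1 * (1 / 16) := mul_le_mul hc (by linarith) (by positivity) zero_le_one
      _ = 1 / 16 := by ring
  obtain ⟨a1, a2⟩ := abs_le.1 hct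
  obtain ⟨b1, b2⟩ := abs_le.1 hcl
  have hD : 1 / 8 ≤ 1 + c * t := by linarith
  have hD2 : 1 + c * t ≤ 15 / 8 := by linarith
  have hD' : 1 / 16 ≤ 1 + c * (t + l / 16) := by
    have : c * (t + l / 16) = c * t + c * (l / 16) := by ring
    linarith
  have hD'2 : 1 + c * (t + l / 16) ≤ 31 / 16 := by
    have : c * (t + l / 16) = c * t + c * (l / 16) := by ring
    linarith
  have hD0 : 0 < 1 + c * t := by linarith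
  have hD'0 : 0 < 1 + c * (t + l / 16) := by linarith
  have hdiff : (t + l / 16) / (1 + c * (t + l / 16)) - t / (1 + c * t) = (l / 16) / ((1 + c * t) * (1 + c * (t + l / 16))) := by
    rw [div_sub_div _ _ hD'0.ne' hD0.ne', div_eq_div_iff (mul_pos hD'0 hD0).ne' (mul_pos hD0 hD'0).ne']
    ring
  have hprod0 : 0 < (1 + c * t) * (1 + c * (t + l / 16)) := mul_pos hD0 hD'0
  have hprod1 : 1 / 128 ≤ (1 + c * t) * (1 + c * (t + l / 16)) := by nlinarith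
  have hprod2 : (1 + c * t) * (1 + c * (t + l / 16)) ≤ 465 / 128 := by nlinarith
  have hq0 : 0 < (l / 16) / ((1 + c * t) * (1 + c * (t + l / 16))) := by positivity
  refine ⟨?_, ?_, ?_, ?_, ?_⟩
  · rw [f3, abs_of_pos hD0]; norm_num; linarith
  · rw [g3, abs_of_pos hD'0]; norm_num; linarith
  · rw [f1, sub_self, abs_zero]; positivity
  · rw [g1, hdiff, abs_of_pos hq0, div_le_iff₀ hprod0]
    nlinarith
  · rw [f1, g1, abs_sub_comm, hdiff, abs_of_pos hq0, le_div_iff₀ hprod0]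
    nlinarith

/-- LEAF `L-256-RT-XG-L2`.   `t/(1+ct) - T'/(1+cT') = (t - T')/((1+ct)(1+cT'))` -/
theorem rt_xg_ln_cmp {c t T' : ℝ} (hc : |c| ≤ 1) (ht : |t| ≤ 7 / 8) (hT' : |T'| ≤ 7 / 8) : |t / (1 + c * t) - T' / (1 + c * T')| ≤ 64 * |t - T'| := by
  have key : ∀ s : ℝ, |s| ≤ 7 / 8 → 1 / 8 ≤ 1 + c * s := by
    intro s hs
    have : |c * s| ≤ 7 / 8 := by
      rw [abs_mul]
      calc |c| * |s| ≤ 1 * (7 / 8) := mul_le_mul hc hs (abs_nonneg _) zero_le_one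
        _ = 7 / 8 := by ring
    linarith [(abs_le.1 this).1]
  have h1 := key t ht
  have h2 := key T' hT'
  have h10 : 0 < 1 + c * t := by linarith
  have h20 : 0 < 1 + c * T' := by linarith
  have hdiff : t / (1 + c * t) - T' / (1 + c * T') = (t - T') / ((1 + c * t) * (1 + c * T')) := by
    rw [div_sub_div _ _ h10.ne' h20.ne']
    congr 1
    ring
  have hp : 0 < (1 + c * t) * (1 + c * T') := mul_pos h10 h20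
  have hp1 : 1 / 64 ≤ (1 + c * t) * (1 + c * T') := by nlinarith
  rw [hdiff, abs_div, abs_of_pos hp, div_le_iff₀ hp]
  nlinarith [abs_nonneg (t - T')]

/-- **EXIT (S), lens** -/
theorem rt_xg_ps_ln {H : ℝ} {k : ℕ} {c Λ₁ Λ₂ : ℝ} {P : RtRow} {t T' T'' : ℝ} {x' x'' : RdWvPar.Ph} (hH : 0 < H) (hc : |c| ≤ 1) (hΛ₁ : 1 ≤ Λ₁) (hΛ₂ : 1 ≤ Λ₂)
    (ht : |t| ≤ 7 / 8) (hT' : |T'| ≤ 7 / 8)
    (a : RtAsP H k Λ₁ P t T' x') (b : RtAsR (rtChLn c) H k Λ₂ T' x' T'' x'') :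
    RtAsP H k (10 ^ 12 * Λ₁ ^ 4 * Λ₂ ^ 2) ((rtChLn c).row P) ((rtChLn c).tm P t) T'' x'' := by
  have hl := rdLen_pos k
  have hl1 : rdLen k ≤ 1 := (rt_xg_depth H hH k k le_rfl (by omega)).1
  obtain ⟨a1, -⟩ := (rt_xg_asp_iff H hH k Λ₁ P t T' x').1 a
  have e1 : (rtChLn c).tm P t = t / (1 + c * t) := (rt_xg_ln_fm c P t).1
  have L1 : (rtChLn c).Lc P t ((rtChLn c).tm P t) (rdLen k) (rdLen k / 16) 8 (1 / 150) 16 := by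
    rw [e1]
    exact rt_xg_ln_lc P hc hl hl1 ht
  have L2 : (rtChLn c).Lc (rtRay T' x') t ((rtChLn c).tm P t) (rdLen k) (rdLen k / 16) 8 (1 / 150) 16 := by
    rw [e1]
    exact rt_xg_ln_lc _ hc hl hl1 ht
  have hte : |(rtChLn c).tm P t - (rtChLn c).tm (rtRay T' x') T'| ≤ 64 * Λ₁ * rdLen k := by
    rw [e1, (rt_xg_ln_fm c (rtRay T' x') T').1]
    refine (rt_xg_ln_cmp hc ht hT').trans ?_
    nlinarith
  have hEx : (rtChLn c).Ex {p | rtCfD0 (0, 0) p ≠ 0} := rt_ch_cf_ex (0, 0) c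
  have u1 : Λ₁ ≤ Λ₁ ^ 4 := le_self_pow₀ hΛ₁ (by norm_num)
  have u2 : Λ₁ ^ 2 ≤ Λ₁ ^ 4 := pow_le_pow_right₀ hΛ₁ (by norm_num)
  have u3 : Λ₁ ^ 3 ≤ Λ₁ ^ 4 := pow_le_pow_right₀ hΛ₁ (by norm_num)
  have v1 : Λ₂ ≤ Λ₂ ^ 2 := le_self_pow₀ hΛ₂ (by norm_num)
  have v0 : 1 ≤ Λ₂ ^ 2 := one_le_pow₀ hΛ₂
  have u0 : 1 ≤ Λ₁ ^ 4 := one_le_pow₀ hΛ₁
  have w : 0 ≤ Λ₁ ^ 4 * Λ₂ ^ 2 := by positivity
  have w1 : Λ₁ ^ 4 ≤ Λ₁ ^ 4 * Λ₂ ^ 2 := by nlinarith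
  have w2 : Λ₂ ^ 2 ≤ Λ₁ ^ 4 * Λ₂ ^ 2 := by nlinarith
  refine rt_xg_ps hEx hH hΛ₁ hΛ₂ (by rw [abs_of_pos (by positivity)]; linarith) (by norm_num) (by norm_num) (by norm_num) (by norm_num)
    (by positivity) ?_ ?_ L1 L2 hte a b ?_ ?_
  · show rtCfD0 (0, 0) P ≠ 0
    rw [(rt_xg_ln_fm c P t).2.2.2.2]
    exact one_ne_zero
  · show rtCfD0 (0, 0) (rtRay T' x') ≠ 0
    rw [(rt_xg_ln_fm c (rtRay T' x') t).2.2.2.2]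
    exact one_ne_zero
  · nlinarith
  · have hX : 6 * 8 * (16 * (3 * Λ₁)) ^ 2 / (1 / 150) ^ 2 = 2488320000 * Λ₁ ^ 2 := by ring
    rw [hX]
    have t1 : (1 + 64 * Λ₁) * Λ₂ ^ 2 ≤ 65 * (Λ₁ ^ 4 * Λ₂ ^ 2) := by
      have : 1 + 64 * Λ₁ ≤ 65 * Λ₁ ^ 4 := by linarith
      calc (1 + 64 * Λ₁) * Λ₂ ^ 2 ≤ (65 * Λ₁ ^ 4) * Λ₂ ^ 2 := mul_le_mul_of_nonneg_right this (by positivity)
        _ = _ := by ring
    have t2 : 2488320000 * Λ₁ ^ 2 ≤ 2488320000 * (Λ₁ ^ 4 * Λ₂ ^ 2) := by linarith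
    have t3 : 2 * ((1 + 64 * Λ₁) * Λ₂ ^ 2) * (2488320000 * Λ₁ ^ 2) ≤ 323481600000 * (Λ₁ ^ 4 * Λ₂ ^ 2) := by
      have h13 : (1 + 64 * Λ₁) * Λ₁ ^ 2 ≤ 65 * Λ₁ ^ 4 := by
        have : Λ₁ * Λ₁ ^ 2 = Λ₁ ^ 3 := by ring
        nlinarith
      calc 2 * ((1 + 64 * Λ₁) * Λ₂ ^ 2) * (2488320000 * Λ₁ ^ 2) = 4976640000 * ((1 + 64 * Λ₁) * Λ₁ ^ 2) * Λ₂ ^ 2 := by ring
        _ ≤ 4976640000 * (65 * Λ₁ ^ 4) * Λ₂ ^ 2 := by gcongr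
        _ = _ := by ring
    linarith

/-! ## 4. The identity chart, the change of depth -/

theorem rt_xg_tr_fm (P : RtRow) (t : ℝ) : (rtChTr 0).tm P t = t ∧ (rtChTr 0).dn P t = 1 ∧ (rtChTr 0).row P = P := by
  refine ⟨by simp [rtChTr, RtCh.tm, RtCh.dn], by simp [rtChTr, RtCh.dn], ?_⟩
  exact rt_xg_flow_zero P

/-- **EXIT (S), identity chart** (relation of `rt_xk_cut`).      LEAF `L-256-RT-XG-T1`.   `rt_xg_asp_iff`, `rt_xn_asr_iff`, `rt_xg_tr_fm`: `b` says `|T' - T''| ≤ Λ₂ l`, `RtNr Λ₂ (p''.flow T') (p'.flow T')`;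
shift to `t` (`|t - T'| ≤ Λ₁ l`: `(1 + Λ₁) Λ₂²`), `rt_xg_nr_trans` with `a`: `2Λ₁Λ₂² + Λ₁ + 4Λ₁²Λ₂² ≤ 7Λ₁²Λ₂²`, `rt_xg_nr_mono`. -/
theorem rt_xg_ps_tr {H : ℝ} {k : ℕ} {Λ₁ Λ₂ : ℝ} {P : RtRow} {t T' T'' : ℝ} {x' x'' : RdWvPar.Ph} (hH : 0 < H) (hΛ₁ : 1 ≤ Λ₁) (hΛ₂ : 1 ≤ Λ₂)
    (a : RtAsP H k Λ₁ P t T' x') (b : RtAsR (rtChTr 0) H k Λ₂ T' x' T'' x'') : RtAsP H k (10 * Λ₁ ^ 2 * Λ₂ ^ 2) P t T'' x'' := by
  obtain ⟨hd, -, -⟩ := rt_xg_scales H hH k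
  have hl := rdLen_pos k
  have h0₁ : 0 ≤ Λ₁ := by linarith
  have h0₂ : 0 ≤ Λ₂ := by linarith
  rw [rt_xn_asr_iff, (rt_xg_tr_fm (rtRay T' x') T').1, (rt_xg_tr_fm (rtRay T' x') T').2.2] at b
  rw [rt_xg_asp_iff H hH] at a b ⊢
  obtain ⟨a1, a2⟩ := a
  obtain ⟨b1, b2⟩ := b
  have hA2 : Λ₁ ≤ Λ₁ ^ 2 := by nlinarith
  have hB2 : Λ₂ ≤ Λ₂ ^ 2 := by nlinarith
  have e1 : Λ₂ ^ 2 ≤ Λ₁ ^ 2 * Λ₂ ^ 2 := le_mul_of_one_le_left (sq_nonneg _) (by linarith)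
  have e2 : Λ₁ * Λ₂ ^ 2 ≤ Λ₁ ^ 2 * Λ₂ ^ 2 := mul_le_mul_of_nonneg_right hA2 (sq_nonneg _)
  have e3 : Λ₁ ≤ Λ₁ * Λ₂ ^ 2 := le_mul_of_one_le_right h0₁ (by linarith)
  have s := rt_xg_nr_shift hΛ₂ h0₁ hl.le hd.le b2 a1
  have tr := rt_xg_nr_trans (by positivity) h0₁ hl.le hd.le s a2
  refine ⟨?_, rt_xg_nr_mono (by positivity) ?_ hl.le hd.le tr⟩
  · have h1 := abs_sub_le t T' T''
    have h2 : (Λ₁ + Λ₂) * rdLen k ≤ 10 * Λ₁ ^ 2 * Λ₂ ^ 2 * rdLen k := mul_le_mul_of_nonneg_right (by linarith) hl.le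
    linarith
  · have e4 : (1 + Λ₁) * Λ₂ ^ 2 + Λ₁ + 2 * ((1 + Λ₁) * Λ₂ ^ 2) * Λ₁ = Λ₂ ^ 2 + 3 * (Λ₁ * Λ₂ ^ 2) + Λ₁ + 2 * (Λ₁ ^ 2 * Λ₂ ^ 2) := by ring
    rw [e4]
    linarith

/-- **EXIT (S), change of depth** (relation of `rt_xk_chg`).      LEAF `L-256-RT-XG-T2`.   `l = rdLen k`, `l₂ = rdLen k₂`, `rt_xg_depth`.   `a` ⟹ `|t - T'| ≤ 4Λ₁ l₂`, `RtNr (2Λ₁) l₂ d₂ (p'.flow t) (P.flow t)`;
`b` ⟹ `RtNr (2Λ₂) l₂ d₂ (p'.flow T'') (p''.flow T'')` (`rt_xn_ray_flow`, `rt_xn_ray_self`), symm `12Λ₂²`, shift to `t` (`|t - T''| ≤ 8Λ₁ l₂`): `(1 + 8Λ₁)(12Λ₂²)² ≤ 1296Λ₁Λ₂⁴`; trans: `≤ 6482 Λ₁²Λ₂⁴`. -/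
theorem rt_xg_ps_chg {H : ℝ} {k k₂ : ℕ} {Λ₁ Λ₂ : ℝ} {P : RtRow} {t T' T'' : ℝ} {x' x'' : RdWvPar.Ph} (hH : 0 < H) (hΛ₁ : 1 ≤ Λ₁) (hΛ₂ : 1 ≤ Λ₂)
    (hk : k ≤ k₂) (hk2 : k₂ ≤ k + 2) (hT : |T'' - T'| ≤ rdLen k)
    (a : RtAsP H k Λ₁ P t T' x') (b : RtNear Λ₂ (rdD H k₂) (rdQ H k) H ((RdWvPar.co 0 x').flow (T'' - T')) (RdWvPar.co 0 x'')) :
    RtAsP H k₂ (10 ^ 4 * Λ₁ ^ 2 * Λ₂ ^ 4) P t T'' x'' := by
  obtain ⟨hd, hq, hHk⟩ := rt_xg_scales H hH k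
  obtain ⟨hd₂, hq₂, hHk₂⟩ := rt_xg_scales H hH k₂
  obtain ⟨-, g2, g3, g4, g5⟩ := rt_xg_depth H hH k k₂ hk hk2
  have hl := rdLen_pos k
  have hl₂ := rdLen_pos k₂
  have h0₁ : 0 ≤ Λ₁ := by linarith
  have h0₂ : 0 ≤ Λ₂ := by linarith
  have hq0 : 0 ≤ rdLen k₂ * rdD H k₂ := mul_nonneg hl₂.le hd₂.le
  have hH0 : 0 ≤ rdLen k₂ * rdD H k₂ ^ 2 := mul_nonneg hl₂.le (sq_nonneg _)
  rw [hq₂] at g5
  rw [rt_xg_asp_iff H hH] at a ⊢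
  obtain ⟨a1, a2, a3, a4⟩ := a
  rw [← rt_xn_ray_flow T' x' T'', ← rt_xn_ray_self T'' x''] at b
  obtain ⟨b1, b2, b3⟩ := b
  have a' : RtNr (2 * Λ₁) (rdLen k₂) (rdD H k₂) ((rtRay T' x').flow t) (P.flow t) := by
    refine ⟨a2.trans (pow_le_pow_left₀ (mul_nonneg h0₁ hd.le) ?_ 2), a3.trans (pow_le_pow_left₀ (mul_nonneg h0₁ (mul_nonneg hl.le hd.le)) ?_ 2), a4.trans ?_⟩
    · have := mul_le_mul_of_nonneg_left g4 h0₁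
      have := mul_nonneg h0₁ hd₂.le
      linarith
    · rw [← hq]
      have := mul_le_mul_of_nonneg_left g5 h0₁
      linarith
    · rw [hHk.symm.trans hHk₂]
      have := mul_nonneg h0₁ hH0
      linarith
  have b' : RtNr (2 * Λ₂) (rdLen k₂) (rdD H k₂) ((rtRay T' x').flow T'') ((rtRay T'' x'').flow T'') := by
    refine ⟨b1.trans (pow_le_pow_left₀ (mul_nonneg h0₂ hd₂.le) ?_ 2), b2.trans (pow_le_pow_left₀ (mul_nonneg h0₂ ?_) ?_ 2), b3.trans ?_⟩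
    · have := mul_nonneg h0₂ hd₂.le
      linarith
    · rw [hq]
      exact mul_nonneg hl.le hd.le
    · have := mul_le_mul_of_nonneg_left g5 h0₂
      linarith
    · have h1 : Λ₂ * H = Λ₂ * (rdLen k₂ * rdD H k₂ ^ 2) := congrArg (Λ₂ * ·) hHk₂
      rw [h1]
      have := mul_nonneg h0₂ hH0
      linarith
  have hB2 : 1 ≤ Λ₂ ^ 2 := by nlinarith
  have hB4 : 1 ≤ Λ₂ ^ 4 := by nlinarith
  have hA2 : Λ₁ ≤ Λ₁ ^ 2 := by nlinarith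
  have ht : |t - T''| ≤ 8 * Λ₁ * rdLen k₂ := by
    have h1 := abs_sub_le t T' T''
    have h2 : |T' - T''| ≤ rdLen k := by rw [abs_sub_comm]; exact hT
    have h3 : rdLen k ≤ Λ₁ * rdLen k := le_mul_of_one_le_left hl.le hΛ₁
    have h4 := mul_le_mul_of_nonneg_left g2 h0₁
    linarith
  have sy := rt_xg_nr_symm (by linarith) hl₂.le hd₂.le b'
  have s := rt_xg_nr_shift (by nlinarith) (by positivity) hl₂.le hd₂.le sy ht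
  have tr := rt_xg_nr_trans (by positivity) (by positivity) hl₂.le hd₂.le s a'
  have e1 : Λ₂ ^ 4 ≤ Λ₁ ^ 2 * Λ₂ ^ 4 := le_mul_of_one_le_left (by positivity) (by linarith)
  have e2 : Λ₁ * Λ₂ ^ 4 ≤ Λ₁ ^ 2 * Λ₂ ^ 4 := mul_le_mul_of_nonneg_right hA2 (by positivity)
  have e3 : Λ₁ ≤ Λ₁ * Λ₂ ^ 4 := le_mul_of_one_le_right h0₁ hB4
  refine ⟨ht.trans (mul_le_mul_of_nonneg_right ?_ hl₂.le), rt_xg_nr_mono (by positivity) ?_ hl₂.le hd₂.le tr⟩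
  · linarith
  · have e4 : (1 + 8 * Λ₁) * (3 * (2 * Λ₂) ^ 2) ^ 2 + 2 * Λ₁ + 2 * ((1 + 8 * Λ₁) * (3 * (2 * Λ₂) ^ 2) ^ 2) * (2 * Λ₁)
        = 144 * Λ₂ ^ 4 + 1728 * (Λ₁ * Λ₂ ^ 4) + 2 * Λ₁ + 4608 * (Λ₁ ^ 2 * Λ₂ ^ 4) := by ring
    rw [e4]
    linarith

/-- monotonicity of `RtAsP` in `Λ` -/
theorem rt_xg_asp_mono {H : ℝ} {k : ℕ} {Λ Λ' : ℝ} {P : RtRow} {t T' : ℝ} {x' : RdWvPar.Ph} (hH : 0 < H) (h0 : 0 ≤ Λ) (hΛ : Λ ≤ Λ') (a : RtAsP H k Λ P t T' x') :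
    RtAsP H k Λ' P t T' x' := by
  rw [rt_xg_asp_iff H hH] at a ⊢
  exact ⟨a.1.trans (mul_le_mul_of_nonneg_right hΛ (rdLen_pos k).le), rt_xg_nr_mono h0 hΛ (rdLen_pos k).le (rt_xg_scales H hH k).1.le a.2⟩

end Claimed.Agent.R256
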