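import Claimed.Agent.R256.Rt.XsContract
import Claimed.Agent.R256.Rt.ChartContract
import Claimed.Agent.R256.Rt.XgNear

/-!
# Row 256, folder Rt, block I1, unit XG : THE GEOMETRY OF THE ASSOCIATIONS      (block architect helper76; unit architect: BP-256-RT-XG; prefix `rt_xg_`)      CONTRACT FILE

No analysis, no measure (except two measurability statements): real algebra and inequalities on rays, on top of `Rt/Conf.lean`, `Rt/Chart.lean` (two-ray invariant `rtK`, `rt_ch_K`, `rt_ch_K_le`, `rt_ch_box_of_K`, `rt_ch_tm_sub`, `rt_ch_comp_tm`, `rt_ch_comp_dn`).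
MODEL PROOF of "boxes of length `δ` go to boxes of length `δ`": `rt_le_ebox`, `rt_le_ebox_time` in `Rt/EndliftContract.lean` (PROVED there for `rtChart`, width `1`; here: widths `d`, charts `DB_γ`, `LENS_c`).
EXITS (frozen; consumer `Rt/XoContract.lean`).      `ℓ = rdLen k`, `d = rdD H k`, `q = rdQ H k = ℓ d`, `H = ℓ d²`.      `RtNear Λ d q H p p'`: `|A'-A| ≤ Λd`, `|b'-b| ≤ Λq`, `|y'-y-2A·(b'-b)| ≤ ΛH`.
* `rtB3 α β υ` boxes of rays (parametrised at time `0`) around the time axis; `rtRg k α β υ t₁ t₂` regions of a lattice view; `rtS3 T₀ α β υ` rows of the time `T₀`.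
* `RtAg Ψ H k' Λ α β υ t₁ t₂ T x z'` = `RtAsR` (source row `x` of the time `T`, ANY clock; target point `z'` of the lattice view of depth `k'`) + `Ψ.dn ≠ 0` at the source event (needed by `rt_ch_comp_tm`)
   + control of the EXACT image: `Ψ.row p ∈ rtB3 α β υ`, `Ψ.tm p T ∈ [t₁, t₂]`.   The boxes and windows follow the exact images, so no margin accumulates.
* TM: the time maps of `DB_γ`, `LENS_c`.      B3: the row maps on boxes.      AG: monotonicity, box of the target row, reset of the box.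
* STEP: COMPOSITION.  `(T, x) ~ z'` through `Ψ₁` (any chart), `z' ~ z''` through `Ψ₂ ∈ {DB_γ, LENS_c, id}`  ⟹  `(T, x) ~ z''` through `Ψ₂ ∘ Ψ₁`, constant `C (Λ₁Λ₂)⁴`   (numerically `3 (Λ₁Λ₂)²` suffices, for all `ℓ ∈ {1, 1/4, .., 2^-k}`).
   PROOF.  `r = Ψ₁.row p`, `te₁ = Ψ₁.tm p T`, `p¹` = ray of `z'`: `p¹` and `r` are `Λ₁`-near at the time `te₁`, `|te₁ - T¹| ≤ min(Λ₁ ℓ, 2)`.   (a) TIME: the events `r.ev te₁`, `p¹.ev T¹` differ by `≲ Λ₁ ℓ` in `t, b, y`, the time component of `Ψ₂.ev` is Lipschitz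
   (`DB`: `t + 2γb₂ + γ²y`; `LENS`: `t/(1+ct)`): `|te₃ - te₂| ≲ Λ₁ ℓ`.   (b) BOX: the new times `te₃ + s ℓ/2` on both image rays are attained at old times within `C Λ₁ ℓ` of `te₁` with `dn` between constants (`rt_ch_tm_sub`);
   `rt_ch_K` + `rt_ch_K_le` + `rt_ch_box_of_K` in the units `(ℓ, d)`: the image rays are `C Λ₁⁴`-near at `te₃`.   (c) nearness at a shifted time: `tilt(t+u) = tilt(t) + u |ΔA|²`, `Δb(t+u) = Δb(t) + u ΔA`;   quasi-triangle inequality: cross term `2 ΔA·Δb ≤ 2 Λ Λ' H`.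
* FAR: a later row of a region is not connected to a root row outside the enlarged box.
* XS: the exact relabelling composes with associations (the normalising chart is an exact symmetry of `RtNear`: `d' = d/r`, `q' = q/(l r)`, `H' = H/(l r²)`).
-/

set_option autoImplicit false

namespace Claimed.Agent.R256

open MeasureTheory

/-- a box of rays around the time axis -/
def rtB3 (α β υ : ℝ) : Set RtRow := {p | rtSq p.A ≤ α ^ 2 ∧ rtSq p.b ≤ β ^ 2 ∧ |p.y| ≤ υ}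

/-- a region of a lattice view -/
def rtRg (k : ℕ) (α β υ t₁ t₂ : ℝ) : Set RtZ := {z | z.1 < 2 ^ k ∧ rtZr k z ∈ rtB3 α β υ ∧ t₁ ≤ rtTm k z.1 ∧ rtTm k z.1 ≤ t₂}

/-- the rows of the time `T₀` whose ray lies in a box -/
def rtS3 (T₀ α β υ : ℝ) : Set RdWvPar.Ph := {x | rtRay T₀ x ∈ rtB3 α β υ}

/-- association of the source row `x` of the time `T` with the point `z'` of the lattice view of depth `k'`, with control of the exact image -/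
structure RtAg (Ψ : RtCh) (H : ℝ) (k' : ℕ) (Λ α β υ t₁ t₂ T : ℝ) (x : RdWvPar.Ph) (z' : RtZ) : Prop where
  as : RtAsR Ψ H k' Λ T x (rtTm k' z'.1) z'.2
  dn : Ψ.dn (rtRay T x) T ≠ 0
  box : Ψ.row (rtRay T x) ∈ rtB3 α β υ
  lo : t₁ ≤ Ψ.tm (rtRay T x) T
  hi : Ψ.tm (rtRay T x) T ≤ t₂

theorem rt_xg_ct_eqns_cite : True := by
  have := @rtB3.eq_1
  have := @rtRg.eq_1
  have := @rtS3.eq_1
  trivial

/-! ## measurability -/

/-- LEAF `L-256-RT-XG-MS` -/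
theorem rt_xg_s3_meas (T₀ α β υ : ℝ) : MeasurableSet (rtS3 T₀ α β υ) := by
  have e : rtS3 T₀ α β υ = {x : RdWvPar.Ph | x.1.1 ^ 2 + x.1.2 ^ 2 ≤ α ^ 2} ∩
      ({x : RdWvPar.Ph | (x.2.1.1 + -T₀ * x.1.1) ^ 2 + (x.2.1.2 + -T₀ * x.1.2) ^ 2 ≤ β ^ 2} ∩
        {x : RdWvPar.Ph | |x.2.2 + -T₀ * (x.1.1 ^ 2 + x.1.2 ^ 2)| ≤ υ}) := by
    ext x
    rfl
  rw [e]
  have m1 : MeasurableSet {x : RdWvPar.Ph | x.1.1 ^ 2 + x.1.2 ^ 2 ≤ α ^ 2} := measurableSet_le (by fun_prop) measurable_const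
  have m2 : MeasurableSet {x : RdWvPar.Ph | (x.2.1.1 + -T₀ * x.1.1) ^ 2 + (x.2.1.2 + -T₀ * x.1.2) ^ 2 ≤ β ^ 2} :=
    measurableSet_le (by fun_prop) measurable_const
  have m3 : MeasurableSet {x : RdWvPar.Ph | |x.2.2 + -T₀ * (x.1.1 ^ 2 + x.1.2 ^ 2)| ≤ υ} :=
    measurableSet_le (by fun_prop) measurable_const
  exact m1.inter (m2.inter m3)

/-- LEAF `L-256-RT-XG-MS`   (the set is bounded) -/
theorem rt_xg_s3_fin (T₀ α β υ : ℝ) : volume (rtS3 T₀ α β υ) ≠ ⊤ := by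
  have hsub : rtS3 T₀ α β υ ⊆ Set.Icc (((-|α|, -|α|), (-(|β| + |T₀| * |α|), -(|β| + |T₀| * |α|)), -(υ + |T₀| * α ^ 2)) : RdWvPar.Ph)
      ((|α|, |α|), (|β| + |T₀| * |α|, |β| + |T₀| * |α|), υ + |T₀| * α ^ 2) := by
    intro x hx
    obtain ⟨h1, h2, h3⟩ := hx
    have h1' : rtSq x.1 ≤ |α| ^ 2 := by rw [sq_abs]; exact h1
    have h2' : rtSq (x.2.1 + -T₀ • x.1) ≤ |β| ^ 2 := by rw [sq_abs]; exact h2
    have h3' : |x.2.2 + -T₀ * rtSq x.1| ≤ υ := h3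
    have a1 := abs_le.1 (rt_chp_fst (abs_nonneg α) h1')
    have a2 := abs_le.1 (rt_chp_snd (abs_nonneg α) h1')
    have b1 := abs_le.1 (rt_chp_fst (abs_nonneg β) h2')
    have b2 := abs_le.1 (rt_chp_snd (abs_nonneg β) h2')
    simp only [Prod.fst_add, Prod.snd_add, Prod.smul_fst, Prod.smul_snd, smul_eq_mul] at b1 b2
    have c1 : |T₀ * x.1.1| ≤ |T₀| * |α| := by
      rw [abs_mul]; exact mul_le_mul_of_nonneg_left (abs_le.2 a1) (abs_nonneg _)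
    have c2 : |T₀ * x.1.2| ≤ |T₀| * |α| := by
      rw [abs_mul]; exact mul_le_mul_of_nonneg_left (abs_le.2 a2) (abs_nonneg _)
    have c3 : |T₀ * rtSq x.1| ≤ |T₀| * α ^ 2 := by
      rw [abs_mul, abs_of_nonneg (rtSq_nonneg x.1)]; exact mul_le_mul_of_nonneg_left h1 (abs_nonneg _)
    have c1' := abs_le.1 c1
    have c2' := abs_le.1 c2
    have c3' := abs_le.1 c3
    have d3 := abs_le.1 h3'
    refine ⟨⟨⟨a1.1, a2.1⟩, ⟨?_, ?_⟩, ?_⟩, ⟨⟨a1.2, a2.2⟩, ⟨?_, ?_⟩, ?_⟩⟩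
    · show -(|β| + |T₀| * |α|) ≤ x.2.1.1
      linarith [b1.1, c1'.1]
    · show -(|β| + |T₀| * |α|) ≤ x.2.1.2
      linarith [b2.1, c2'.1]
    · show -(υ + |T₀| * α ^ 2) ≤ x.2.2
      linarith [d3.1, c3'.1]
    · show x.2.1.1 ≤ |β| + |T₀| * |α|
      linarith [b1.2, c1'.2]
    · show x.2.1.2 ≤ |β| + |T₀| * |α|
      linarith [b2.2, c2'.2]
    · show x.2.2 ≤ υ + |T₀| * α ^ 2
      linarith [d3.2, c3'.2]
  exact ((measure_mono hsub).trans_lt isCompact_Icc.measure_lt_top).ne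

/-- LEAF `L-256-RT-XG-MS` -/
theorem rt_xg_rg_meas (k : ℕ) (α β υ t₁ t₂ : ℝ) : MeasurableSet (rtRg k α β υ t₁ t₂) := by
  have mT : Measurable fun z : RtZ => rtTm k z.1 := (Measurable.of_discrete (f := fun j : ℕ => rtTm k j)).comp measurable_fst
  have e : rtRg k α β υ t₁ t₂ = {z : RtZ | z.1 < 2 ^ k} ∩ (({z : RtZ | z.2.1.1 ^ 2 + z.2.1.2 ^ 2 ≤ α ^ 2} ∩
      ({z : RtZ | (z.2.2.1.1 + -rtTm k z.1 * z.2.1.1) ^ 2 + (z.2.2.1.2 + -rtTm k z.1 * z.2.1.2) ^ 2 ≤ β ^ 2} ∩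
        {z : RtZ | |z.2.2.2 + -rtTm k z.1 * (z.2.1.1 ^ 2 + z.2.1.2 ^ 2)| ≤ υ})) ∩ ({z : RtZ | t₁ ≤ rtTm k z.1} ∩ {z : RtZ | rtTm k z.1 ≤ t₂})) := by
    ext z
    rfl
  rw [e]
  have m0 : MeasurableSet {z : RtZ | z.1 < 2 ^ k} := measurableSet_lt measurable_fst measurable_const
  have m1 : MeasurableSet {z : RtZ | z.2.1.1 ^ 2 + z.2.1.2 ^ 2 ≤ α ^ 2} := measurableSet_le (by fun_prop) measurable_const
  have m2 : MeasurableSet {z : RtZ | (z.2.2.1.1 + -rtTm k z.1 * z.2.1.1) ^ 2 + (z.2.2.1.2 + -rtTm k z.1 * z.2.1.2) ^ 2 ≤ β ^ 2} :=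
    measurableSet_le (by fun_prop) measurable_const
  have m3 : MeasurableSet {z : RtZ | |z.2.2.2 + -rtTm k z.1 * (z.2.1.1 ^ 2 + z.2.1.2 ^ 2)| ≤ υ} :=
    measurableSet_le (by fun_prop) measurable_const
  have m4 : MeasurableSet {z : RtZ | t₁ ≤ rtTm k z.1} := measurableSet_le measurable_const mT
  have m5 : MeasurableSet {z : RtZ | rtTm k z.1 ≤ t₂} := measurableSet_le mT measurable_const
  exact m0.inter ((m1.inter (m2.inter m3)).inter (m4.inter m5))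

theorem rt_xg_s3_A {T₀ α β υ : ℝ} {x : RdWvPar.Ph} (hx : x ∈ rtS3 T₀ α β υ) : rtSq x.1 ≤ α ^ 2 := hx.1

/-! ## TM, B3 : the elementary charts on boxes -/

/-- LEAF `L-256-RT-XG-TM`.   `te = T + 2γ b₂(T) + γ² y(T)` -/
theorem rt_xg_tm_db {γ α β υ T : ℝ} {p : RtRow} (hγ : |γ| ≤ 1) (hp : p ∈ rtB3 α β υ) (hα : 0 ≤ α) (hβ : 0 ≤ β) (hT : |T| ≤ 1) :
    |(rtChDb γ).tm p T - T| ≤ 2 * |γ| * (β + α) + γ ^ 2 * (υ + α ^ 2) := by
  obtain ⟨h1, h2, h3⟩ := hp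
  have e : (rtChDb γ).tm p T - T = 2 * γ * (p.b.2 + T * p.A.2) + γ ^ 2 * (p.y + T * rtSq p.A) := by
    simp only [rtChDb, RtCh.tm, RtCh.dn, rtCfT0, rtCfQ, mul_zero, add_zero, div_one]
    ring
  rw [e]
  have a2 := rt_chp_snd hα h1
  have b2 := rt_chp_snd hβ h2
  have c1 : |T * p.A.2| ≤ α := by
    rw [abs_mul]
    calc |T| * |p.A.2| ≤ 1 * α := mul_le_mul hT a2 (abs_nonneg _) zero_le_one
      _ = α := one_mul _
  have c2 : |T * rtSq p.A| ≤ α ^ 2 := by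
    rw [abs_mul, abs_of_nonneg (rtSq_nonneg _)]
    calc |T| * rtSq p.A ≤ 1 * α ^ 2 := mul_le_mul hT h1 (rtSq_nonneg _) zero_le_one
      _ = α ^ 2 := one_mul _
  have d1 : |2 * γ * (p.b.2 + T * p.A.2)| ≤ 2 * |γ| * (β + α) := by
    rw [abs_mul, abs_mul, abs_of_pos (by norm_num : (0 : ℝ) < 2)]
    exact mul_le_mul_of_nonneg_left (rt_chp_add b2 c1) (by positivity)
  have d2 : |γ ^ 2 * (p.y + T * rtSq p.A)| ≤ γ ^ 2 * (υ + α ^ 2) := by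
    rw [abs_mul, abs_of_nonneg (sq_nonneg γ)]
    exact mul_le_mul_of_nonneg_left (rt_chp_add h3 c2) (sq_nonneg γ)
  exact rt_chp_add d1 d2

/-- LEAF `L-256-RT-XG-TM` -/
theorem rt_xg_tm_ln (c T : ℝ) (p : RtRow) : (rtChLn c).tm p T = T / (1 + c * T) ∧ (rtChLn c).dn p T = 1 + c * T := by
  have e : (rtChLn c).dn p T = 1 + c * T := by
    simp only [rtChLn, rtChCf, RtCh.dn, rtCfD0, rtCfD1, rtIp, rtSq]
    ring
  refine ⟨?_, e⟩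
  unfold RtCh.tm
  rw [e]
  simp only [rtChLn, rtChCf]
  ring

/-- LEAF `L-256-RT-XG-TM` -/
theorem rt_xg_dn_db (γ T : ℝ) (p : RtRow) : (rtChDb γ).dn p T = 1 := by
  simp [rtChDb, RtCh.dn]

/-- LEAF `L-256-RT-XG-B3` -/
theorem rt_xg_b3_db {γ α β υ : ℝ} {p : RtRow} (hγ : |γ| ≤ 1) (hα0 : 0 ≤ α) (hα : α ≤ 1 / 10) (hβ : 0 ≤ β) (hυ : 0 ≤ υ) (hp : p ∈ rtB3 α β υ) :
    (rtChDb γ).row p ∈ rtB3 (α + 4 * α ^ 2) (β + |γ| * υ + 2 * α * (2 * β + υ)) (υ + 2 * α ^ 2 * (2 * β + υ)) := by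
  obtain ⟨h1, h2, h3⟩ := hp
  have a2 := abs_le.1 (rt_chp_snd hα0 h1)
  have b2 := rt_chp_snd hβ h2
  have g := abs_le.1 hγ
  have hg2 : γ ^ 2 ≤ 1 := by nlinarith [g.1, g.2]
  have hA0 := rtSq_nonneg p.A
  -- the rate
  have hQ : (1 - α) ^ 2 ≤ rtCfQ γ p := by
    have e : rtCfQ γ p = (1 + γ * p.A.2) ^ 2 + γ ^ 2 * p.A.1 ^ 2 := by
      simp only [rtCfQ, rtSq]; ring
    have h4 : |γ * p.A.2| ≤ α := by
      rw [abs_mul]
      calc |γ| * |p.A.2| ≤ 1 * α := mul_le_mul hγ (abs_le.2 a2) (abs_nonneg _) zero_le_one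
        _ = α := one_mul _
    have h5 := abs_le.1 h4
    rw [e]
    nlinarith [mul_nonneg (sq_nonneg γ) (sq_nonneg p.A.1), h5.1, h5.2]
  have hQ0 : 0 < rtCfQ γ p := lt_of_lt_of_le (by nlinarith) hQ
  -- the new velocity
  have eA : rtSq ((rtChDb γ).row p).A = rtSq p.A / rtCfQ γ p := by
    have e1 : rtSq ((rtChDb γ).row p).A = (p.A.1 ^ 2 + (p.A.2 + γ * rtSq p.A) ^ 2) / rtCfQ γ p ^ 2 := by
      simp only [rtChDb, rtCfRowDb, rtSq]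
      field_simp
    have e2 : p.A.1 ^ 2 + (p.A.2 + γ * rtSq p.A) ^ 2 = rtSq p.A * rtCfQ γ p := by
      simp only [rtCfQ, rtSq]; ring
    rw [e1, e2]
    field_simp
  have hA' : rtSq p.A / rtCfQ γ p ≤ (α + 4 * α ^ 2) ^ 2 := by
    rw [div_le_iff₀ hQ0]
    have h6 : α ^ 2 ≤ (α + 4 * α ^ 2) ^ 2 * (1 - α) ^ 2 := by
      have h7 : 1 ≤ (1 + 4 * α) * (1 - α) := by nlinarith
      have h8 : (α + 4 * α ^ 2) ^ 2 * (1 - α) ^ 2 = α ^ 2 * ((1 + 4 * α) * (1 - α)) ^ 2 := by ring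
      rw [h8]
      nlinarith [sq_nonneg α, mul_nonneg (sq_nonneg α) (by nlinarith : (0:ℝ) ≤ ((1 + 4 * α) * (1 - α)) ^ 2 - 1)]
    calc rtSq p.A ≤ α ^ 2 := h1
      _ ≤ (α + 4 * α ^ 2) ^ 2 * (1 - α) ^ 2 := h6
      _ ≤ (α + 4 * α ^ 2) ^ 2 * rtCfQ γ p := mul_le_mul_of_nonneg_left hQ (sq_nonneg _)
  have hA2 : rtSq ((rtChDb γ).row p).A ≤ (2 * α) ^ 2 := by
    rw [eA]
    refine hA'.trans (pow_le_pow_left₀ (by positivity) (by nlinarith) 2)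
  -- the shift of the time
  have hT0 : |rtCfT0 γ p| ≤ 2 * β + υ := by
    unfold rtCfT0
    have t1 : |2 * γ * p.b.2| ≤ 2 * β := by
      rw [abs_mul, abs_mul, abs_of_pos (by norm_num : (0 : ℝ) < 2)]
      nlinarith [abs_nonneg γ, abs_nonneg p.b.2]
    have t2 : |γ ^ 2 * p.y| ≤ υ := by
      rw [abs_mul, abs_of_nonneg (sq_nonneg γ)]
      nlinarith [abs_nonneg p.y]
    exact rt_chp_add t1 t2
  refine ⟨eA ▸ hA', ?_, ?_⟩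
  · have eb : ((rtChDb γ).row p).b = (p.b + ((0 : ℝ), γ * p.y)) - rtCfT0 γ p • ((rtChDb γ).row p).A := by
      simp only [rtChDb, rtCfRowDb]
      ext <;> simp
    rw [eb]
    have s1 : rtSq ((0 : ℝ), γ * p.y) ≤ (|γ| * υ) ^ 2 := by
      simp only [rtSq]
      have : |γ * p.y| ≤ |γ| * υ := by
        rw [abs_mul]; exact mul_le_mul_of_nonneg_left h3 (abs_nonneg _)
      have := sq_le_sq' (by linarith [(abs_le.1 this).1]) (abs_le.1 this).2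
      nlinarith
    have s2 := rt_chp_sq_add hβ (by positivity) h2 s1
    have s3 := rt_chp_sq_smul hT0 hA2
    have s4 := rt_chp_sq_sub (by positivity) (by positivity) s2 s3
    have e5 : β + |γ| * υ + (2 * β + υ) * (2 * α) = β + |γ| * υ + 2 * α * (2 * β + υ) := by ring
    rwa [e5] at s4
  · have ey : ((rtChDb γ).row p).y = p.y - rtCfT0 γ p * (rtSq p.A / rtCfQ γ p) := rfl
    rw [ey]
    have hq : rtSq p.A / rtCfQ γ p ≤ 2 * α ^ 2 := by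
      refine hA'.trans ?_
      have : (α + 4 * α ^ 2) ^ 2 = α ^ 2 * (1 + 4 * α) ^ 2 := by ring
      rw [this]
      have h9 : (1 + 4 * α) ^ 2 ≤ 2 := by nlinarith
      calc α ^ 2 * (1 + 4 * α) ^ 2 ≤ α ^ 2 * 2 := mul_le_mul_of_nonneg_left h9 (sq_nonneg α)
        _ = 2 * α ^ 2 := by ring
    have hq0 : 0 ≤ rtSq p.A / rtCfQ γ p := div_nonneg hA0 hQ0.le
    have s5 : |rtCfT0 γ p * (rtSq p.A / rtCfQ γ p)| ≤ 2 * α ^ 2 * (2 * β + υ) := by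
      rw [abs_mul, abs_of_nonneg hq0]
      calc |rtCfT0 γ p| * (rtSq p.A / rtCfQ γ p) ≤ (2 * β + υ) * (2 * α ^ 2) := mul_le_mul hT0 hq hq0 (by positivity)
        _ = 2 * α ^ 2 * (2 * β + υ) := by ring
    exact rt_chp_sub h3 s5

/-- LEAF `L-256-RT-XG-B3`.   `A' = A - c b`, `b' = b`, `y' = y - c |b|²` -/
theorem rt_xg_b3_ln {c α β υ : ℝ} {p : RtRow} (hc : |c| ≤ 1) (hα0 : 0 ≤ α) (hβ : 0 ≤ β) (hp : p ∈ rtB3 α β υ) :
    (rtChLn c).row p ∈ rtB3 (α + β) β (υ + β ^ 2) := by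
  obtain ⟨h1, h2, h3⟩ := hp
  have eA : ((rtChLn c).row p).A = p.A - c • p.b := by
    simp only [rtChLn, rtChCf, rtCfRow, rtCfD0, rtCfD1, rtIp, rtSq]
    ext <;> simp
  have eb : ((rtChLn c).row p).b = p.b := by
    simp only [rtChLn, rtChCf, rtCfRow, rtCfD0, rtIp, rtSq]
    ext <;> simp
  have ey : ((rtChLn c).row p).y = p.y - c * rtSq p.b := by
    simp only [rtChLn, rtChCf, rtCfRow, rtCfD0, rtIp, rtSq]
    simp
    ring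
  refine ⟨?_, ?_, ?_⟩
  · rw [eA]
    have s1 := rt_chp_sq_smul hc h2
    rw [one_mul] at s1
    exact rt_chp_sq_sub hα0 hβ h1 s1
  · rw [eb]; exact h2
  · rw [ey]
    have s2 : |c * rtSq p.b| ≤ β ^ 2 := by
      rw [abs_mul, abs_of_nonneg (rtSq_nonneg _)]
      calc |c| * rtSq p.b ≤ 1 * β ^ 2 := mul_le_mul hc h2 (rtSq_nonneg _) zero_le_one
        _ = β ^ 2 := one_mul _
    exact rt_chp_sub h3 s2

/-- the common part of the two cases of `rt_xg_b3_near` -/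
theorem rt_xg_b3_near_aux {η α β υ te : ℝ} {p r : RtRow} (hα0 : 0 ≤ α) (hα : α ≤ 1 / 10) (hβ : 0 ≤ β) (hη0 : 0 ≤ η) (hη : η ≤ 1 / 100) (hte : |te| ≤ 2)
    (hr : r ∈ rtB3 α β υ) (hA : rtSq (p.A - r.A) ≤ η ^ 2) (hb : rtSq ((p.b + te • p.A) - (r.b + te • r.A)) ≤ η ^ 2)
    (hy : |(p.y + te * rtSq p.A) - (r.y + te * rtSq r.A)| ≤ η + 2 * (α + η) * η) : p ∈ rtB3 (α + η) (β + 3 * η) (υ + 2 * η) := by
  obtain ⟨h1, h2, h3⟩ := hr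
  have sA : rtSq p.A ≤ (α + η) ^ 2 := by
    have := rt_chp_sq_add hα0 hη0 h1 hA
    rwa [add_sub_cancel] at this
  refine ⟨sA, ?_, ?_⟩
  · have e : p.b = (r.b + ((p.b + te • p.A) - (r.b + te • r.A))) - te • (p.A - r.A) := by
      ext <;> simp <;> ring
    rw [e]
    have s1 := rt_chp_sq_add hβ hη0 h2 hb
    have s2 := rt_chp_sq_smul hte hA
    have s3 := rt_chp_sq_sub (by positivity) (by positivity) s1 s2
    have e5 : β + η + 2 * η = β + 3 * η := by ring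
    rwa [e5] at s3
  · have e : p.y = r.y + ((p.y + te * rtSq p.A) - (r.y + te * rtSq r.A)) - te * rtIp (p.A - r.A) (p.A + r.A) := by
      simp only [rtSq, rtIp, Prod.fst_sub, Prod.snd_sub, Prod.fst_add, Prod.snd_add]
      ring
    have s4 : rtSq (p.A + r.A) ≤ (α + η + α) ^ 2 := rt_chp_sq_add (by positivity) hα0 sA h1
    have s5 := rtIp_abs_le hη0 (by positivity) hA s4
    have s6 : |te * rtIp (p.A - r.A) (p.A + r.A)| ≤ 2 * (η * (α + η + α)) := by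
      rw [abs_mul]
      exact mul_le_mul hte s5 (abs_nonneg _) (by norm_num)
    rw [e]
    have s7 := rt_chp_sub (rt_chp_add h3 hy) s6
    refine s7.trans ?_
    nlinarith

/-- LEAF `L-256-RT-XG-B3`.  a ray which is near a ray of a box, at a time `|te| ≤ 2`, lies in the box + margins -/
theorem rt_xg_b3_near {Λ d q H η α β υ te : ℝ} {p r : RtRow} (hα0 : 0 ≤ α) (hα : α ≤ 1 / 10) (hβ : 0 ≤ β) (hη : η ≤ 1 / 100)
    (hΛ : 0 ≤ Λ) (hd : 0 ≤ d) (hq : 0 ≤ q) (hH : 0 ≤ H) (h1 : Λ * d ≤ η) (h2 : Λ * q ≤ η) (h3 : Λ * H ≤ η) (hte : |te| ≤ 2) (hr : r ∈ rtB3 α β υ)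
    (hn : RtNear Λ d q H (p.flow te) (r.flow te) ∨ RtNear Λ d q H (r.flow te) (p.flow te)) : p ∈ rtB3 (α + η) (β + 3 * η) (υ + 2 * η) := by
  have hη0 : 0 ≤ η := (mul_nonneg hΛ hd).trans h1
  have k1 : (Λ * d) ^ 2 ≤ η ^ 2 := pow_le_pow_left₀ (mul_nonneg hΛ hd) h1 2
  have k2 : (Λ * q) ^ 2 ≤ η ^ 2 := pow_le_pow_left₀ (mul_nonneg hΛ hq) h2 2
  have sw : ∀ u v : ℝ × ℝ, rtSq (u - v) = rtSq (v - u) := fun u v => by
    simp only [rtSq, Prod.fst_sub, Prod.snd_sub]; ring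
  rcases hn with ⟨n1, n2, n3⟩ | ⟨n1, n2, n3⟩
  · have hA : rtSq (p.A - r.A) ≤ η ^ 2 := by rw [sw]; exact n1.trans k1
    have hb : rtSq ((p.b + te • p.A) - (r.b + te • r.A)) ≤ η ^ 2 := by rw [sw]; exact n2.trans k2
    have sA : rtSq p.A ≤ (α + η) ^ 2 := by
      have := rt_chp_sq_add hα0 hη0 hr.1 hA
      rwa [add_sub_cancel] at this
    have n3' : |(r.y + te * rtSq r.A) - (p.y + te * rtSq p.A) - 2 * rtIp p.A ((r.b + te • r.A) - (p.b + te • p.A))| ≤ Λ * H := n3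
    have hb' : rtSq ((r.b + te • r.A) - (p.b + te • p.A)) ≤ η ^ 2 := n2.trans k2
    have s5 := rtIp_abs_le (by positivity) hη0 sA hb'
    refine rt_xg_b3_near_aux hα0 hα hβ hη0 hη hte hr hA hb ?_
    have a1 := abs_le.1 n3'
    have a2 := abs_le.1 s5
    rw [abs_le]
    constructor <;> nlinarith [a1.1, a1.2, a2.1, a2.2]
  · have hA : rtSq (p.A - r.A) ≤ η ^ 2 := n1.trans k1
    have hb : rtSq ((p.b + te • p.A) - (r.b + te • r.A)) ≤ η ^ 2 := n2.trans k2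
    have n3' : |(p.y + te * rtSq p.A) - (r.y + te * rtSq r.A) - 2 * rtIp r.A ((p.b + te • p.A) - (r.b + te • r.A))| ≤ Λ * H := n3
    have s5 := rtIp_abs_le hα0 hη0 hr.1 hb
    refine rt_xg_b3_near_aux hα0 hα hβ hη0 hη hte hr hA hb ?_
    have a1 := abs_le.1 n3'
    have a2 := abs_le.1 s5
    rw [abs_le]
    constructor <;> nlinarith [a1.1, a1.2, a2.1, a2.2]

/-! ## AG : associations with control of the exact image -/

theorem rt_xg_ag_near_mono {Λ Λ' d q H : ℝ} {p p' : RtRow} (h0 : 0 ≤ Λ) (hΛ : Λ ≤ Λ') (hd : 0 ≤ d) (hq : 0 ≤ q) (hH : 0 ≤ H)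
    (h : RtNear Λ d q H p p') : RtNear Λ' d q H p p' := by
  obtain ⟨h1, h2, h3⟩ := h
  refine ⟨h1.trans ?_, h2.trans ?_, h3.trans ?_⟩
  · exact pow_le_pow_left₀ (mul_nonneg h0 hd) (mul_le_mul_of_nonneg_right hΛ hd) 2
  · exact pow_le_pow_left₀ (mul_nonneg h0 hq) (mul_le_mul_of_nonneg_right hΛ hq) 2
  · exact mul_le_mul_of_nonneg_right hΛ hH

theorem rt_xg_ag_b3_mono {α β υ α' β' υ' : ℝ} {p : RtRow} (hα0 : 0 ≤ α) (hα : α ≤ α') (hβ0 : 0 ≤ β) (hβ : β ≤ β') (hυ : υ ≤ υ')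
    (h : p ∈ rtB3 α β υ) : p ∈ rtB3 α' β' υ' :=
  ⟨h.1.trans (pow_le_pow_left₀ hα0 hα 2), h.2.1.trans (pow_le_pow_left₀ hβ0 hβ 2), h.2.2.trans hυ⟩

/-- the units: `0 < d, q`;   `q ≤ d`;   `H ≤ d` when `d ≤ 1` -/
theorem rt_xg_ag_units {H : ℝ} (hH : 0 < H) (k : ℕ) : 0 < rdD H k ∧ 0 < rdQ H k ∧ rdQ H k ≤ rdD H k ∧ (rdD H k ≤ 1 → H ≤ rdD H k) := by
  have hl0 : 0 < rdLen k := rdLen_pos k
  have hl1 : rdLen k ≤ 1 := by
    unfold rdLen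
    exact pow_le_one₀ (by norm_num) (by norm_num)
  have h1 : 0 < H / rdLen k := div_pos hH hl0
  have h2 : 0 < H * rdLen k := mul_pos hH hl0
  have hd0 : 0 < rdD H k := Real.sqrt_pos.2 h1
  have hd2 : rdD H k ^ 2 = H / rdLen k := Real.sq_sqrt h1.le
  have hHd : H ≤ H / rdLen k := by
    rw [le_div_iff₀ hl0]
    nlinarith
  refine ⟨hd0, Real.sqrt_pos.2 h2, Real.sqrt_le_sqrt ?_, fun hd => ?_⟩
  · refine le_trans ?_ hHd
    nlinarith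
  · nlinarith

theorem rt_xg_ag_flow (k : ℕ) (z : RtZ) (te : ℝ) : (rtZr k z).flow te = (RdWvPar.co 0 z.2).flow (te - rtTm k z.1) := by
  unfold rtZr rtRay RdWvPar.co RtRow.flow
  ext <;> simp <;> ring

/-- LEAF `L-256-RT-XG-AG`.  monotonicity -/
theorem rt_xg_mono {Ψ : RtCh} {H : ℝ} {k' : ℕ} {Λ α β υ t₁ t₂ Λ' α' β' υ' t₁' t₂' T : ℝ} {x : RdWvPar.Ph} {z' : RtZ} (hH : 0 < H) (h0 : 0 ≤ Λ) (hΛ : Λ ≤ Λ')
    (hα0 : 0 ≤ α) (hα : α ≤ α') (hβ0 : 0 ≤ β) (hβ : β ≤ β') (hυ : υ ≤ υ') (h₁ : t₁' ≤ t₁) (h₂ : t₂ ≤ t₂') (h : RtAg Ψ H k' Λ α β υ t₁ t₂ T x z') :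
    RtAg Ψ H k' Λ' α' β' υ' t₁' t₂' T x z' := by
  exact
  { as := ⟨h.as.1.trans (mul_le_mul_of_nonneg_right hΛ (rdLen_pos k').le),
      rt_xg_ag_near_mono h0 hΛ (rt_xg_ag_units hH k').1.le (rt_xg_ag_units hH k').2.1.le hH.le h.as.2⟩
    dn := h.dn
    box := rt_xg_ag_b3_mono hα0 hα hβ0 hβ hυ h.box
    lo := h₁.trans h.lo
    hi := h.hi.trans h₂ }

/-- the hypotheses of `rt_xg_b3_near` from an association -/
theorem rt_xg_ag_pre {Ψ : RtCh} {H : ℝ} {k' : ℕ} {Λ α β υ t₁ t₂ T η : ℝ} {x : RdWvPar.Ph} {z' : RtZ} (hH : 0 < H)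
    (hη : η ≤ 1 / 100) (hΛ : 1 ≤ Λ) (hd : Λ * rdD H k' ≤ η) (h₁ : -2 ≤ t₁) (h₂ : t₂ ≤ 2) (h : RtAg Ψ H k' Λ α β υ t₁ t₂ T x z') :
    Λ * rdQ H k' ≤ η ∧ Λ * H ≤ η ∧ |Ψ.tm (rtRay T x) T| ≤ 2 ∧
      RtNear Λ (rdD H k') (rdQ H k') H ((rtZr k' z').flow (Ψ.tm (rtRay T x) T)) ((Ψ.row (rtRay T x)).flow (Ψ.tm (rtRay T x) T)) := by
  obtain ⟨hd0, hq0, hqd, hHd⟩ := rt_xg_ag_units hH k'
  have hd1 : rdD H k' ≤ 1 := by nlinarith
  have hΛ0 : 0 ≤ Λ := by linarith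
  refine ⟨(mul_le_mul_of_nonneg_left hqd hΛ0).trans hd, (mul_le_mul_of_nonneg_left (hHd hd1) hΛ0).trans hd, ?_, ?_⟩
  · rw [abs_le]
    exact ⟨h₁.trans h.lo, h.hi.trans h₂⟩
  · rw [rt_xg_ag_flow]
    exact h.as.2

/-- LEAF `L-256-RT-XG-AG`.  the target row lies in the box + margins, its time in the window + `Λ ℓ`      (`rt_xg_b3_near`; `(co 0 x').flow (te - T') = (rtZr k' z').flow te`; `Λ q, Λ H ≤ Λ d` as `d ≤ 1`, `ℓ ≤ 1`) -/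
theorem rt_xg_tgt {Ψ : RtCh} {H : ℝ} {k' : ℕ} {Λ α β υ t₁ t₂ T η : ℝ} {x : RdWvPar.Ph} {z' : RtZ} (hH : 0 < H) (hα0 : 0 ≤ α) (hα : α ≤ 1 / 10) (hβ : 0 ≤ β)
    (hη : η ≤ 1 / 100) (hΛ : 1 ≤ Λ) (hd : Λ * rdD H k' ≤ η) (h₁ : -2 ≤ t₁) (h₂ : t₂ ≤ 2) (h : RtAg Ψ H k' Λ α β υ t₁ t₂ T x z') :
    rtZr k' z' ∈ rtB3 (α + η) (β + 3 * η) (υ + 2 * η) ∧ t₁ - Λ * rdLen k' ≤ rtTm k' z'.1 ∧ rtTm k' z'.1 ≤ t₂ + Λ * rdLen k' := by
  obtain ⟨hq, hHH, hte, hn⟩ := rt_xg_ag_pre hH hη hΛ hd h₁ h₂ h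
  obtain ⟨hd0, hq0, -, -⟩ := rt_xg_ag_units hH k'
  have ht := abs_le.1 h.as.1
  have hlo := h.lo
  have hhi := h.hi
  refine ⟨rt_xg_b3_near hα0 hα hβ hη (by linarith) hd0.le hq0.le hH.le hd hq hHH hte h.box (Or.inl hn), by linarith [ht.2], by linarith [ht.1]⟩

/-- LEAF `L-256-RT-XG-AG`.  RESET: the box of the exact image from a box of the target row -/
theorem rt_xg_reset {Ψ : RtCh} {H : ℝ} {k' : ℕ} {Λ α β υ t₁ t₂ T η α' β' υ' : ℝ} {x : RdWvPar.Ph} {z' : RtZ} (hH : 0 < H) (hα0 : 0 ≤ α') (hα : α' ≤ 1 / 10) (hβ : 0 ≤ β')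
    (hη : η ≤ 1 / 100) (hΛ : 1 ≤ Λ) (hd : Λ * rdD H k' ≤ η) (h₁ : -2 ≤ t₁) (h₂ : t₂ ≤ 2) (h : RtAg Ψ H k' Λ α β υ t₁ t₂ T x z')
    (hz : rtZr k' z' ∈ rtB3 α' β' υ') : RtAg Ψ H k' Λ (α' + η) (β' + 3 * η) (υ' + 2 * η) t₁ t₂ T x z' := by
  obtain ⟨hq, hHH, hte, hn⟩ := rt_xg_ag_pre hH hη hΛ hd h₁ h₂ h
  obtain ⟨hd0, hq0, -, -⟩ := rt_xg_ag_units hH k'
  exact
  { as := h.as
    dn := h.dn
    box := rt_xg_b3_near hα0 hα hβ hη (by linarith) hd0.le hq0.le hH.le hd hq hHH hte hz (Or.inr hn)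
    lo := h.lo
    hi := h.hi }

/-- LEAF `L-256-RT-XG-AG`.  the identity chart on the right -/
theorem rt_xg_comp_tr0 (Ψ : RtCh) : Ψ.comp (rtChTr 0) = Ψ := by
  have hf : ∀ p : RtRow, p.flow 0 = p := by
    intro p
    unfold RtRow.flow
    ext <;> simp
  cases Ψ
  simp [RtCh.comp, rtChTr, hf]

/-! ## STEP : composition -/

/-- the scales of a packet -/
theorem rt_xg_sc {H : ℝ} (hH : 0 < H) (k : ℕ) :
    0 < rdLen k ∧ rdLen k ≤ 1 ∧ 0 < rdD H k ∧ rdQ H k = rdLen k * rdD H k ∧ H = rdLen k * rdD H k ^ 2 := by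
  have hl := rdLen_pos k
  have hl1 : rdLen k ≤ 1 := by
    unfold rdLen
    exact pow_le_one₀ (by norm_num) (by norm_num)
  have h : 0 < H / rdLen k := div_pos hH hl
  have hd : 0 < rdD H k := Real.sqrt_pos.2 h
  have hd2 : rdD H k ^ 2 = H / rdLen k := Real.sq_sqrt h.le
  have e2 : H = rdLen k * rdD H k ^ 2 := by
    rw [hd2]
    field_simp
  refine ⟨hl, hl1, hd, ?_, e2⟩
  have e3 : H * rdLen k = (rdLen k * rdD H k) ^ 2 := by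
    rw [mul_pow, hd2]
    field_simp
  unfold rdQ
  rw [e3]
  exact Real.sqrt_sq (by positivity)

theorem rt_xg_co_flow (T' te : ℝ) (x' : RdWvPar.Ph) : (RdWvPar.co 0 x').flow (te - T') = (rtRay T' x').flow te := by
  show (RdWvPar.co 0 x').flow (te - T') = ((RdWvPar.co 0 x').flow (-T')).flow te
  rw [rt_xg_flow_flow]
  congr 1
  ring

/-- `RtNear` with three free widths -/
theorem rt_xg_n1_of {M d q H : ℝ} {p p' : RtRow} (h : RtNear M d q H p p') : RtNear 1 (M * d) (M * q) (M * H) p p' := by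
  obtain ⟨a, b, c⟩ := h
  exact ⟨by rwa [one_mul], by rwa [one_mul], by rwa [one_mul]⟩

theorem rt_xg_n1_to {M d q H a b c : ℝ} {p p' : RtRow} (ha0 : 0 ≤ a) (hb0 : 0 ≤ b) (ha : a ≤ M * d) (hb : b ≤ M * q) (hc : c ≤ M * H)
    (h : RtNear 1 a b c p p') : RtNear M d q H p p' := by
  obtain ⟨x, y, z⟩ := h
  rw [one_mul] at x y z
  exact ⟨x.trans (pow_le_pow_left₀ ha0 ha 2), y.trans (pow_le_pow_left₀ hb0 hb 2), z.trans hc⟩

theorem rt_xg_n1_symm {a b c : ℝ} {p p' : RtRow} (ha : 0 ≤ a) (hb : 0 ≤ b) (h : RtNear 1 a b c p p') : RtNear 1 a b (c + 2 * (a * b)) p' p := by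
  obtain ⟨hA, hB, hy⟩ := h
  rw [one_mul] at hA hB hy
  have sA : rtSq (p.A - p'.A) = rtSq (p'.A - p.A) := by
    simp only [rtSq, Prod.fst_sub, Prod.snd_sub]; ring
  have sb : rtSq (p.b - p'.b) = rtSq (p'.b - p.b) := by
    simp only [rtSq, Prod.fst_sub, Prod.snd_sub]; ring
  have hip := rtIp_abs_le ha hb hA hB
  refine ⟨by rw [one_mul, sA]; exact hA, by rw [one_mul, sb]; exact hB, ?_⟩
  have e : p.y - p'.y - 2 * rtIp p'.A (p.b - p'.b) = -(p'.y - p.y - 2 * rtIp p.A (p'.b - p.b)) + 2 * rtIp (p'.A - p.A) (p'.b - p.b) := by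
    simp only [rtIp, Prod.fst_sub, Prod.snd_sub]; ring
  rw [e, one_mul]
  calc |-(p'.y - p.y - 2 * rtIp p.A (p'.b - p.b)) + 2 * rtIp (p'.A - p.A) (p'.b - p.b)|
      ≤ |p'.y - p.y - 2 * rtIp p.A (p'.b - p.b)| + 2 * |rtIp (p'.A - p.A) (p'.b - p.b)| := by
        refine (abs_add_le _ _).trans ?_
        rw [abs_neg, abs_mul, abs_two]
    _ ≤ c + 2 * (a * b) := by linarith

theorem rt_xg_n1_shift {a b c t t' σ : ℝ} {p p' : RtRow} (ha : 0 ≤ a) (hb : 0 ≤ b) (h : RtNear 1 a b c (p.flow t) (p'.flow t)) (ht : |t' - t| ≤ σ) :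
    RtNear 1 a (b + σ * a) (c + σ * a ^ 2) (p.flow t') (p'.flow t') := by
  obtain ⟨hA, hB, hy⟩ := h
  rw [one_mul] at hA hB hy
  have hσ : 0 ≤ σ := (abs_nonneg _).trans ht
  have hA' : rtSq (p'.A - p.A) ≤ a ^ 2 := hA
  refine ⟨by rw [one_mul]; exact hA, ?_, ?_⟩
  · rw [one_mul]
    have e : (p'.flow t').b - (p.flow t').b = ((p'.flow t).b - (p.flow t).b) + (t' - t) • (p'.A - p.A) := by
      ext <;> simp only [RtRow.flow, Prod.fst_add, Prod.snd_add, Prod.fst_sub, Prod.snd_sub, Prod.smul_fst, Prod.smul_snd, smul_eq_mul] <;> ring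
    rw [e]
    refine rt_g2_sq_add hb (mul_nonneg hσ ha) hB ?_
    have e2 : rtSq ((t' - t) • (p'.A - p.A)) = (t' - t) ^ 2 * rtSq (p'.A - p.A) := by
      simp only [rtSq, Prod.smul_fst, Prod.smul_snd, smul_eq_mul]; ring
    rw [e2, mul_pow]
    exact mul_le_mul (sq_le_sq' (by linarith [(abs_le.1 ht).1]) (abs_le.1 ht).2) hA' (rtSq_nonneg _) (by positivity)
  · rw [one_mul]
    have e : (p'.flow t').y - (p.flow t').y - 2 * rtIp (p.flow t').A ((p'.flow t').b - (p.flow t').b)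
        = ((p'.flow t).y - (p.flow t).y - 2 * rtIp (p.flow t).A ((p'.flow t).b - (p.flow t).b)) + (t' - t) * rtSq (p'.A - p.A) := by
      simp only [RtRow.flow, rtIp, rtSq, Prod.fst_add, Prod.snd_add, Prod.fst_sub, Prod.snd_sub, Prod.smul_fst, Prod.smul_snd, smul_eq_mul]
      ring
    rw [e]
    refine (abs_add_le _ _).trans (add_le_add hy ?_)
    rw [abs_mul, abs_of_nonneg (rtSq_nonneg _)]
    exact mul_le_mul ht hA' (rtSq_nonneg _) hσ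

theorem rt_xg_n1_trans {a b c a' b' c' : ℝ} {p p' p'' : RtRow} (ha : 0 ≤ a) (hb : 0 ≤ b) (ha' : 0 ≤ a') (hb' : 0 ≤ b')
    (h : RtNear 1 a b c p p') (h' : RtNear 1 a' b' c' p' p'') : RtNear 1 (a + a') (b + b') (c + c' + 2 * (a * b')) p p'' := by
  obtain ⟨a1, a2, a3⟩ := h
  obtain ⟨b1, b2, b3⟩ := h'
  rw [one_mul] at a1 a2 a3 b1 b2 b3
  refine ⟨?_, ?_, ?_⟩
  · have e : p''.A - p.A = (p'.A - p.A) + (p''.A - p'.A) := by abel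
    rw [e, one_mul]
    exact rt_g2_sq_add ha ha' a1 b1
  · have e : p''.b - p.b = (p'.b - p.b) + (p''.b - p'.b) := by abel
    rw [e, one_mul]
    exact rt_g2_sq_add hb hb' a2 b2
  · have e : p''.y - p.y - 2 * rtIp p.A (p''.b - p.b)
        = (p'.y - p.y - 2 * rtIp p.A (p'.b - p.b)) + (p''.y - p'.y - 2 * rtIp p'.A (p''.b - p'.b)) + 2 * rtIp (p'.A - p.A) (p''.b - p'.b) := by
      simp only [rtIp, Prod.fst_sub, Prod.snd_sub]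
      ring
    have h3 := rtIp_abs_le ha hb' a1 b2
    rw [e, one_mul]
    calc _ ≤ |p'.y - p.y - 2 * rtIp p.A (p'.b - p.b)| + |p''.y - p'.y - 2 * rtIp p'.A (p''.b - p'.b)| + |2 * rtIp (p'.A - p.A) (p''.b - p'.b)| :=
          abs_add_three _ _ _
      _ ≤ c + c' + 2 * (a * b') := by
          rw [abs_mul, abs_two]
          linarith

/-- an association in terms of the rays -/
theorem rt_xg_as_iff (Ψ : RtCh) (H : ℝ) (k' : ℕ) (Λ T : ℝ) (x : RdWvPar.Ph) (T' : ℝ) (x' : RdWvPar.Ph) :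
    RtAsR Ψ H k' Λ T x T' x' ↔ |Ψ.tm (rtRay T x) T - T'| ≤ Λ * rdLen k' ∧
      RtNear Λ (rdD H k') (rdQ H k') H ((rtRay T' x').flow (Ψ.tm (rtRay T x) T)) ((Ψ.row (rtRay T x)).flow (Ψ.tm (rtRay T x) T)) := by
  unfold RtAsR
  rw [rt_xg_co_flow]

theorem rt_xg_tr0_tm (p : RtRow) (t : ℝ) : (rtChTr 0).tm p t = t := by
  simp [rtChTr, RtCh.tm, RtCh.dn]

theorem rt_xg_tr0_row (p : RtRow) : (rtChTr 0).row p = p := rt_xg_flow_zero p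

/-! ### the dual boost -/

theorem rt_xg_dbc_tm (γ : ℝ) (p : RtRow) (t : ℝ) : (rtChDb γ).tm p t = t + 2 * γ * (p.flow t).b.2 + γ ^ 2 * (p.flow t).y := by
  simp only [rtChDb, RtCh.tm, RtCh.dn, rtCfT0, rtCfQ, RtRow.flow, mul_zero, add_zero, div_one, Prod.snd_add, Prod.smul_snd, smul_eq_mul]
  ring

theorem rt_xg_db_tm_sub (γ : ℝ) (p : RtRow) (t s : ℝ) : (rtChDb γ).tm p t - (rtChDb γ).tm p s = (t - s) * rtCfQ γ p := by
  simp only [rtChDb, RtCh.tm, RtCh.dn, mul_zero, add_zero, div_one]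
  ring

theorem rt_xg_dbc_Q {γ : ℝ} {p : RtRow} (hγ : |γ| ≤ 1) (hp : rtSq p.A ≤ (1 / 5 : ℝ) ^ 2) : 3 / 5 ≤ rtCfQ γ p ∧ rtCfQ γ p ≤ 36 / 25 := by
  have h2 := rt_g1_abs_snd (by norm_num) hp
  have h3 : |γ * p.A.2| ≤ 1 / 5 := by
    rw [abs_mul]
    calc |γ| * |p.A.2| ≤ 1 * (1 / 5) := mul_le_mul hγ h2 (abs_nonneg _) zero_le_one
      _ = 1 / 5 := one_mul _
  have h4 : γ ^ 2 ≤ 1 := (sq_le_one_iff_abs_le_one γ).2 hγ
  have h5 : 0 ≤ γ ^ 2 * rtSq p.A := mul_nonneg (sq_nonneg _) (rtSq_nonneg _)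
  have h6 : γ ^ 2 * rtSq p.A ≤ 1 * (1 / 5 : ℝ) ^ 2 := mul_le_mul h4 hp (rtSq_nonneg _) zero_le_one
  obtain ⟨h7, h8⟩ := abs_le.1 h3
  unfold rtCfQ
  constructor <;> nlinarith

theorem rt_xg_sq_of_sub {u v : ℝ × ℝ} {a b : ℝ} (ha : 0 ≤ a) (hb : 0 ≤ b) (hu : rtSq u ≤ a ^ 2) (hv : rtSq (u - v) ≤ b ^ 2) : rtSq v ≤ (a + b) ^ 2 := by
  have e : v = u + (v - u) := by abel
  have s : rtSq (v - u) = rtSq (u - v) := by
    simp only [rtSq, Prod.fst_sub, Prod.snd_sub]; ring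
  rw [e]
  exact rt_g2_sq_add ha hb hu (by rw [s]; exact hv)

theorem rt_xg_db_core {γ Λ₁ l d te₁ : ℝ} {r p₁ : RtRow} (hγ : |γ| ≤ 1) (h1 : 1 ≤ Λ₁) (hl : 0 < l) (hd : 0 ≤ d) (hd1 : Λ₁ * d ≤ 1 / 10)
    (hr : rtSq r.A ≤ (1 / 10 : ℝ) ^ 2) (hn : RtNr Λ₁ l d (p₁.flow te₁) (r.flow te₁)) :
    |(rtChDb γ).tm p₁ te₁ - (rtChDb γ).tm r te₁| ≤ Λ₁ * l ∧ rtSq p₁.A ≤ (1 / 5 : ℝ) ^ 2 ∧
      RtNr (648 * Λ₁ ^ 3) l d (((rtChDb γ).row p₁).flow ((rtChDb γ).tm r te₁)) (((rtChDb γ).row r).flow ((rtChDb γ).tm r te₁)) := by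
  have p1 : 0 ≤ Λ₁ := by linarith
  obtain ⟨nA, nb, ny⟩ := id hn
  have nA' : rtSq (r.A - p₁.A) ≤ (Λ₁ * d) ^ 2 := nA
  have hA1 : rtSq p₁.A ≤ (1 / 5 : ℝ) ^ 2 := by
    refine (rt_xg_sq_of_sub (by norm_num) (by positivity) hr nA').trans ?_
    exact pow_le_pow_left₀ (by positivity) (by linarith) 2
  have hA1' : rtSq (p₁.flow te₁).A ≤ (1 / 5 : ℝ) ^ 2 := hA1
  have hdle : d ≤ 1 / 10 := by nlinarith
  have hb2 := rt_g1_abs_snd (by positivity) nb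
  have hip := rtIp_abs_le (by norm_num) (by positivity) hA1' nb
  have hγ2 : γ ^ 2 ≤ 1 := (sq_le_one_iff_abs_le_one γ).2 hγ
  have ht0 : |(rtChDb γ).tm p₁ te₁ - (rtChDb γ).tm r te₁| ≤ Λ₁ * l := by
    rw [rt_xg_dbc_tm, rt_xg_dbc_tm]
    obtain ⟨B, hB⟩ : ∃ B, B = ((r.flow te₁).b - (p₁.flow te₁).b).2 := ⟨_, rfl⟩
    obtain ⟨Y, hY⟩ : ∃ Y, Y = (r.flow te₁).y - (p₁.flow te₁).y - 2 * rtIp (p₁.flow te₁).A ((r.flow te₁).b - (p₁.flow te₁).b) := ⟨_, rfl⟩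
    obtain ⟨I, hI⟩ : ∃ I, I = rtIp (p₁.flow te₁).A ((r.flow te₁).b - (p₁.flow te₁).b) := ⟨_, rfl⟩
    rw [← hB] at hb2
    rw [← hY] at ny
    rw [← hI] at hip hY
    have e : te₁ + 2 * γ * (p₁.flow te₁).b.2 + γ ^ 2 * (p₁.flow te₁).y - (te₁ + 2 * γ * (r.flow te₁).b.2 + γ ^ 2 * (r.flow te₁).y)
        = -(2 * (γ * B)) - γ ^ 2 * (Y + 2 * I) := by
      rw [hB, hY, Prod.snd_sub]; ring
    rw [e]
    have b1 : |γ * B| ≤ Λ₁ * (l * d) := by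
      rw [abs_mul]
      calc |γ| * |B| ≤ 1 * (Λ₁ * (l * d)) := mul_le_mul hγ hb2 (abs_nonneg _) zero_le_one
        _ = _ := one_mul _
    have b2 : |γ ^ 2 * (Y + 2 * I)| ≤ Λ₁ * (l * d ^ 2) + 2 * (1 / 5 * (Λ₁ * (l * d))) := by
      rw [abs_mul, abs_of_nonneg (sq_nonneg γ)]
      have : |Y + 2 * I| ≤ Λ₁ * (l * d ^ 2) + 2 * (1 / 5 * (Λ₁ * (l * d))) := by
        refine (abs_add_le _ _).trans ?_
        rw [abs_mul, abs_two]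
        linarith
      calc γ ^ 2 * |Y + 2 * I| ≤ 1 * (Λ₁ * (l * d ^ 2) + 2 * (1 / 5 * (Λ₁ * (l * d)))) := mul_le_mul hγ2 this (abs_nonneg _) zero_le_one
        _ = _ := one_mul _
    have b3 : |-(2 * (γ * B)) - γ ^ 2 * (Y + 2 * I)| ≤ 2 * |γ * B| + |γ ^ 2 * (Y + 2 * I)| := by
      refine (abs_sub _ _).trans ?_
      rw [abs_neg, abs_mul, abs_two]
    refine b3.trans ?_
    have hLl : 0 ≤ Λ₁ * l := by positivity
    have : 2 * (Λ₁ * (l * d)) + (Λ₁ * (l * d ^ 2) + 2 * (1 / 5 * (Λ₁ * (l * d)))) = (Λ₁ * l) * (12 / 5 * d + d ^ 2) := by ring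
    calc 2 * |γ * B| + |γ ^ 2 * (Y + 2 * I)| ≤ (Λ₁ * l) * (12 / 5 * d + d ^ 2) := by rw [← this]; linarith
      _ ≤ (Λ₁ * l) * 1 := mul_le_mul_of_nonneg_left (by nlinarith) hLl
      _ = Λ₁ * l := mul_one _
  refine ⟨ht0, hA1, ?_⟩
  have hrA5 : rtSq r.A ≤ (1 / 5 : ℝ) ^ 2 := hr.trans (by norm_num)
  obtain ⟨q1, q2⟩ := rt_xg_dbc_Q hγ hrA5
  obtain ⟨q3, q4⟩ := rt_xg_dbc_Q hγ hA1
  have hLl : l ≤ Λ₁ * l := by nlinarith
  have Lr : (rtChDb γ).Lc r te₁ ((rtChDb γ).tm r te₁) l l (3 * Λ₁) (1 / 2) 1 := by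
    refine ⟨by simp [rtChDb], by simp [rtChDb], ?_, ?_, ?_⟩
    · rw [sub_self, abs_zero]; positivity
    · rw [rt_xg_db_tm_sub, add_sub_cancel_left, abs_of_nonneg (by positivity)]
      nlinarith
    · rw [rt_xg_db_tm_sub, sub_add_cancel_left, neg_mul, abs_neg, abs_of_nonneg (by positivity)]
      nlinarith
  have Lp : (rtChDb γ).Lc p₁ te₁ ((rtChDb γ).tm r te₁) l l (3 * Λ₁) (1 / 2) 1 := by
    refine ⟨by simp [rtChDb], by simp [rtChDb], ?_, ?_, ?_⟩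
    · refine ht0.trans ?_
      nlinarith
    · have e : (rtChDb γ).tm p₁ (te₁ + l) - (rtChDb γ).tm r te₁
          = ((rtChDb γ).tm p₁ (te₁ + l) - (rtChDb γ).tm p₁ te₁) + ((rtChDb γ).tm p₁ te₁ - (rtChDb γ).tm r te₁) := by ring
      rw [e]
      refine (abs_add_le _ _).trans ?_
      rw [rt_xg_db_tm_sub, add_sub_cancel_left, abs_of_nonneg (by positivity)]
      nlinarith
    · rw [rt_xg_db_tm_sub, sub_add_cancel_left, neg_mul, abs_neg, abs_of_nonneg (by positivity)]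
      nlinarith
  have hS : ∀ p : RtRow, 3 / 5 ≤ rtCfQ γ p → p ∈ {p | rtCfQ γ p ≠ 0} := by
    intro p hp
    show rtCfQ γ p ≠ 0
    linarith
  have m := rt_xg_move (rt_ch_db_ex γ) (hS r q1) (hS p₁ q3) hl hd (by rw [abs_of_pos hl]) (by linarith) (by norm_num) (by norm_num) le_rfl h1 Lr Lp hn
  have ec : 6 * (3 * Λ₁) * (1 * (3 * Λ₁)) ^ 2 / (1 / 2) ^ 2 = 648 * Λ₁ ^ 3 := by ring
  rw [ec] at m
  exact m

theorem rt_xg_nr_iff {H : ℝ} (hH : 0 < H) (k : ℕ) (M : ℝ) (p p' : RtRow) :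
    RtNear M (rdD H k) (rdQ H k) H p p' ↔ RtNr M (rdLen k) (rdD H k) p p' := by
  obtain ⟨-, -, -, e1, e2⟩ := rt_xg_sc hH k
  unfold RtNr
  rw [← e1, ← e2]

/-- powers of `Λ₁, Λ₂ ≥ 1` below `(Λ₁ Λ₂)⁴` -/
theorem rt_xg_pw {a b : ℝ} (ha : 1 ≤ a) (hb : 1 ≤ b) {i j : ℕ} (hi : i ≤ 4) (hj : j ≤ 4) : a ^ i * b ^ j ≤ (a * b) ^ 4 := by
  rw [mul_pow]
  exact mul_le_mul (pow_le_pow_right₀ ha hi) (pow_le_pow_right₀ hb hj) (by positivity) (by positivity)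

/-- the end of a composition step: shift the second association to the exact time, then chain -/
theorem rt_xg_chain {H : ℝ} (hH : 0 < H) (k : ℕ) {Λ₁ Λ₂ N S C te₂ te₃ T₂ : ℝ} {p₂ s₁ s : RtRow} (h1 : 1 ≤ Λ₁) (h2 : 1 ≤ Λ₂) (hN : 0 ≤ N) (hS : 0 ≤ S)
    (b1 : |te₂ - T₂| ≤ Λ₂ * rdLen k) (b2 : RtNear Λ₂ (rdD H k) (rdQ H k) H (p₂.flow te₂) (s₁.flow te₂))
    (d32 : |te₃ - te₂| ≤ S * Λ₁ * rdLen k) (c3 : RtNr (N * Λ₁ ^ 3) (rdLen k) (rdD H k) (s₁.flow te₃) (s.flow te₃))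
    (hC : 2 + 3 * S + N + 2 * N ≤ C) :
    |te₃ - T₂| ≤ C * (Λ₁ * Λ₂) ^ 4 * rdLen k ∧ RtNear (C * (Λ₁ * Λ₂) ^ 4) (rdD H k) (rdQ H k) H (p₂.flow te₃) (s.flow te₃) := by
  obtain ⟨hl, hl1, hd, eq, eH⟩ := rt_xg_sc hH k
  obtain ⟨l, hl'⟩ : ∃ l, l = rdLen k := ⟨_, rfl⟩
  obtain ⟨d, hd'⟩ : ∃ d, d = rdD H k := ⟨_, rfl⟩
  have c3' : RtNear (N * Λ₁ ^ 3) d (l * d) (l * d ^ 2) (s₁.flow te₃) (s.flow te₃) := by rw [hl', hd']; exact c3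
  rw [eq, ← hl', ← hd'] at b2 ⊢
  rw [← hl'] at b1 d32 hl hl1
  rw [← hd'] at hd
  have eH' : H = l * d ^ 2 := by rw [hl', hd']; exact eH
  have p1 : 0 ≤ Λ₁ := by linarith
  have p2 : 0 ≤ Λ₂ := by linarith
  obtain ⟨X, hX⟩ : ∃ X, X = (Λ₁ * Λ₂) ^ 4 := ⟨_, rfl⟩
  have x10 : Λ₁ ≤ X := by have := rt_xg_pw h1 h2 (i := 1) (j := 0) (by norm_num) (by norm_num); rw [hX]; simpa using this
  have x01 : Λ₂ ≤ X := by have := rt_xg_pw h1 h2 (i := 0) (j := 1) (by norm_num) (by norm_num); rw [hX]; simpa using this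
  have x11 : Λ₁ * Λ₂ ≤ X := by have := rt_xg_pw h1 h2 (i := 1) (j := 1) (by norm_num) (by norm_num); rw [hX]; simpa using this
  have x12 : Λ₁ * Λ₂ ^ 2 ≤ X := by have := rt_xg_pw h1 h2 (i := 1) (j := 2) (by norm_num) (by norm_num); rw [hX]; simpa using this
  have x30 : Λ₁ ^ 3 ≤ X := by have := rt_xg_pw h1 h2 (i := 3) (j := 0) (by norm_num) (by norm_num); rw [hX]; simpa using this
  have x31 : Λ₁ ^ 3 * Λ₂ ≤ X := by have := rt_xg_pw h1 h2 (i := 3) (j := 1) (by norm_num) (by norm_num); rw [hX]; simpa using this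
  have hX0 : 0 ≤ X := p1.trans x10
  rw [← hX]
  have s1 := rt_xg_n1_shift (t' := te₃) (σ := S * Λ₁ * l) (by positivity) (by positivity) (rt_xg_n1_of b2) d32
  have s2 := rt_xg_n1_trans (by positivity) (by positivity) (by positivity) (by positivity) s1 (rt_xg_n1_of c3')
  constructor
  · have : te₃ - T₂ = (te₃ - te₂) + (te₂ - T₂) := by ring
    rw [this]
    refine (abs_add_le _ _).trans ?_
    calc _ ≤ S * Λ₁ * l + Λ₂ * l := add_le_add d32 b1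
      _ = (S * Λ₁ + Λ₂) * l := by ring
      _ ≤ C * X * l := by
          refine mul_le_mul_of_nonneg_right ?_ hl.le
          have : S * Λ₁ ≤ S * X := mul_le_mul_of_nonneg_left x10 hS
          have : (2 + 3 * S + N + 2 * N) * X ≤ C * X := mul_le_mul_of_nonneg_right hC hX0
          nlinarith [mul_nonneg hN hX0, mul_nonneg hS hX0]
  · have hCX : (2 + 3 * S + N + 2 * N) * X ≤ C * X := mul_le_mul_of_nonneg_right hC hX0
    have nX := mul_nonneg hN hX0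
    have sX := mul_nonneg hS hX0
    have n30 : N * Λ₁ ^ 3 ≤ N * X := mul_le_mul_of_nonneg_left x30 hN
    have n31 : N * (Λ₁ ^ 3 * Λ₂) ≤ N * X := mul_le_mul_of_nonneg_left x31 hN
    have s11 : S * (Λ₁ * Λ₂) ≤ S * X := mul_le_mul_of_nonneg_left x11 hS
    have s12 : S * (Λ₁ * Λ₂ ^ 2) ≤ S * X := mul_le_mul_of_nonneg_left x12 hS
    refine rt_xg_n1_to (by positivity) (by positivity) ?_ ?_ ?_ s2
    · have : Λ₂ * d + N * Λ₁ ^ 3 * d = (Λ₂ + N * Λ₁ ^ 3) * d := by ring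
      rw [this]
      exact mul_le_mul_of_nonneg_right (by nlinarith) hd.le
    · have : Λ₂ * (l * d) + S * Λ₁ * l * (Λ₂ * d) + N * Λ₁ ^ 3 * (l * d) = (Λ₂ + S * (Λ₁ * Λ₂) + N * Λ₁ ^ 3) * (l * d) := by ring
      rw [this]
      exact mul_le_mul_of_nonneg_right (by nlinarith) (by positivity)
    · have : Λ₂ * H + S * Λ₁ * l * (Λ₂ * d) ^ 2 + N * Λ₁ ^ 3 * (l * d ^ 2) + 2 * (Λ₂ * d * (N * Λ₁ ^ 3 * (l * d)))
          = (Λ₂ + S * (Λ₁ * Λ₂ ^ 2) + N * Λ₁ ^ 3 + 2 * (N * (Λ₁ ^ 3 * Λ₂))) * H := by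
        rw [eH']; ring
      rw [this]
      exact mul_le_mul_of_nonneg_right (by nlinarith) hH.le

/-- LEAF `L-256-RT-XG-SDB`.  **composition with a dual boost** -/
theorem rt_xg_step_db : ∃ C : ℝ, 1 ≤ C ∧ ∀ (Ψ₁ : RtCh) (H : ℝ) (k : ℕ) (γ Λ₁ Λ₂ α β υ t₁ t₂ T : ℝ) (x : RdWvPar.Ph) (z' z'' : RtZ), 0 < H → |γ| ≤ 1 → 1 ≤ Λ₁ → 1 ≤ Λ₂ →
    C * (Λ₁ * Λ₂) ^ 4 * rdD H k ≤ 1 → 0 ≤ α → α ≤ 1 / 10 → 0 ≤ β → β ≤ 1 / 10 → 0 ≤ υ → υ ≤ 1 / 10 → -1 ≤ t₁ → t₂ ≤ 1 → rtTm k z'.1 ≤ 3 / 4 →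
    RtAg Ψ₁ H k Λ₁ α β υ t₁ t₂ T x z' → RtAs (rtChDb γ) k H k Λ₂ z' z'' →
    RtAg ((rtChDb γ).comp Ψ₁) H k (C * (Λ₁ * Λ₂) ^ 4) (α + 4 * α ^ 2) (β + |γ| * υ + 2 * α * (2 * β + υ)) (υ + 2 * α ^ 2 * (2 * β + υ))
      (t₁ - (2 * |γ| * (β + α) + γ ^ 2 * (υ + α ^ 2))) (t₂ + (2 * |γ| * (β + α) + γ ^ 2 * (υ + α ^ 2))) T x z'' := by
  refine ⟨2000, by norm_num, ?_⟩
  intro Ψ₁ H k γ Λ₁ Λ₂ α β υ t₁ t₂ T x z' z'' hH hγ h1 h2 hC hα0 hα hβ0 hβ hυ0 hυ ht₁ ht₂ hz' h h'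
  obtain ⟨hl, hl1, hd, -, -⟩ := rt_xg_sc hH k
  obtain ⟨a1, a2⟩ := (rt_xg_as_iff _ _ _ _ _ _ _ _).1 h.as
  obtain ⟨b1, b2⟩ := (rt_xg_as_iff _ _ _ _ _ _ _ _).1 h'
  have e_tm : ((rtChDb γ).comp Ψ₁).tm (rtRay T x) T = (rtChDb γ).tm (Ψ₁.row (rtRay T x)) (Ψ₁.tm (rtRay T x) T) := rt_ch_comp_tm _ _ _ _ h.dn
  have e_dn : ((rtChDb γ).comp Ψ₁).dn (rtRay T x) T = (rtChDb γ).dn (Ψ₁.row (rtRay T x)) (Ψ₁.tm (rtRay T x) T) * Ψ₁.dn (rtRay T x) T :=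
    rt_ch_comp_dn _ _ _ _ h.dn
  have e_row : ((rtChDb γ).comp Ψ₁).row (rtRay T x) = (rtChDb γ).row (Ψ₁.row (rtRay T x)) := rfl
  have hbox := h.box
  have hlo := h.lo
  have hhi := h.hi
  obtain ⟨r, hr⟩ : ∃ r, r = Ψ₁.row (rtRay T x) := ⟨_, rfl⟩
  obtain ⟨te₁, hte₁⟩ : ∃ t, t = Ψ₁.tm (rtRay T x) T := ⟨_, rfl⟩
  obtain ⟨p₁, hp₁⟩ : ∃ p, p = rtRay (rtTm k z'.1) z'.2 := ⟨_, rfl⟩
  obtain ⟨T₁, hT₁⟩ : ∃ t, t = rtTm k z'.1 := ⟨_, rfl⟩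
  rw [← hr, ← hte₁] at e_tm e_dn a2
  rw [← hr] at e_row hbox
  rw [← hte₁] at a1 hlo hhi
  rw [← hp₁] at a2 b1 b2
  rw [← hT₁] at a1 b1 b2
  have p1 : 0 ≤ Λ₁ := by linarith
  have x10 : Λ₁ ≤ (Λ₁ * Λ₂) ^ 4 := by have := rt_xg_pw h1 h2 (i := 1) (j := 0) (by norm_num) (by norm_num); simpa using this
  have hd1 : Λ₁ * rdD H k ≤ 1 / 10 := by
    have : Λ₁ * rdD H k ≤ (Λ₁ * Λ₂) ^ 4 * rdD H k := mul_le_mul_of_nonneg_right x10 hd.le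
    nlinarith
  have hrA : rtSq r.A ≤ (1 / 10 : ℝ) ^ 2 := hbox.1.trans (pow_le_pow_left₀ hα0 hα 2)
  obtain ⟨c1, c2, c3⟩ := rt_xg_db_core hγ h1 hl hd.le hd1 hrA ((rt_xg_nr_iff hH k _ _ _).1 a2)
  obtain ⟨q3, q4⟩ := rt_xg_dbc_Q hγ c2
  have d32 : |(rtChDb γ).tm r te₁ - (rtChDb γ).tm p₁ T₁| ≤ 3 * Λ₁ * rdLen k := by
    have e : (rtChDb γ).tm r te₁ - (rtChDb γ).tm p₁ T₁ = -((rtChDb γ).tm p₁ te₁ - (rtChDb γ).tm r te₁) + ((rtChDb γ).tm p₁ te₁ - (rtChDb γ).tm p₁ T₁) := by ring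
    rw [e]
    refine (abs_add_le _ _).trans ?_
    rw [abs_neg, rt_xg_db_tm_sub, abs_mul, abs_of_nonneg (by linarith : 0 ≤ rtCfQ γ p₁)]
    have : |te₁ - T₁| * rtCfQ γ p₁ ≤ Λ₁ * rdLen k * (36 / 25) := mul_le_mul a1 q4 (by linarith) (by positivity)
    have : 0 ≤ Λ₁ * rdLen k := by positivity
    linarith
  have c3' : RtNr (648 * Λ₁ ^ 3) (rdLen k) (rdD H k) (((rtChDb γ).row p₁).flow ((rtChDb γ).tm r te₁)) (((rtChDb γ).row r).flow ((rtChDb γ).tm r te₁)) := c3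
  obtain ⟨f1, f2⟩ := rt_xg_chain hH k (C := 2000) h1 h2 (by norm_num) (by norm_num) b1 b2 d32 c3' (by norm_num)
  have hte1 : |te₁| ≤ 1 := abs_le.2 ⟨by linarith, by linarith⟩
  have htm := abs_le.1 (rt_xg_tm_db hγ hbox hα0 hβ0 hte1)
  refine ⟨(rt_xg_as_iff _ _ _ _ _ _ _ _).2 ⟨?_, ?_⟩, ?_, ?_, ?_, ?_⟩
  · rw [e_tm]; exact f1
  · rw [e_tm, e_row]; exact f2
  · rw [e_dn, rt_xg_dn_db, one_mul]; exact h.dn
  · rw [e_row]; exact rt_xg_b3_db hγ hα0 hα hβ0 hυ0 hbox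
  · rw [e_tm]; linarith [htm.1]
  · rw [e_tm]; linarith [htm.2]

/-! ### the lens -/

theorem rt_xg_ln_den (c : ℝ) (p : RtRow) (t : ℝ) : (rtChLn c).den (p.ev t) = 1 + c * t := by
  simp only [rtChLn, rtChCf, rtCfDen, RtEv.pol, RtEv.q, rtQ, rtIp, rtSq, RtRow.ev]
  ring

theorem rt_xg_ln_sub {c s t : ℝ} (hs : 1 + c * s ≠ 0) (ht : 1 + c * t ≠ 0) : t / (1 + c * t) - s / (1 + c * s) = (t - s) / ((1 + c * s) * (1 + c * t)) := by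
  rw [div_sub_div _ _ ht hs, div_eq_div_iff (mul_ne_zero ht hs) (mul_ne_zero hs ht)]
  ring

theorem rt_xg_ln_rg {c t a : ℝ} (hc : |c| ≤ 1) (ht : |t| ≤ a) : 1 - a ≤ 1 + c * t ∧ 1 + c * t ≤ 1 + a := by
  have h : |c * t| ≤ a := by
    rw [abs_mul]
    calc |c| * |t| ≤ 1 * a := mul_le_mul hc ht (abs_nonneg _) zero_le_one
      _ = a := one_mul _
  obtain ⟨h1, h2⟩ := abs_le.1 h
  constructor <;> linarith

theorem rt_xg_ln_core {c Λ₁ l d te₁ : ℝ} {r p₁ : RtRow} (hc : |c| ≤ 1) (h1 : 1 ≤ Λ₁) (hl : 0 < l) (hl1 : l ≤ 1) (hd : 0 ≤ d) (hte : |te₁| ≤ 1 / 2)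
    (hn : RtNr Λ₁ l d (p₁.flow te₁) (r.flow te₁)) :
    RtNr (209088 * Λ₁ ^ 2) l d (((rtChLn c).row p₁).flow (te₁ / (1 + c * te₁))) (((rtChLn c).row r).flow (te₁ / (1 + c * te₁))) := by
  obtain ⟨g1, g2⟩ := rt_xg_ln_rg hc hte
  have hte' : |te₁ + l / 4| ≤ 3 / 4 := by
    obtain ⟨u1, u2⟩ := abs_le.1 hte
    exact abs_le.2 ⟨by linarith, by linarith⟩
  obtain ⟨g3, g4⟩ := rt_xg_ln_rg hc hte'
  have n1 : 1 + c * te₁ ≠ 0 := by linarith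
  have n2 : 1 + c * (te₁ + l / 4) ≠ 0 := by linarith
  have hP : 0 < (1 + c * te₁) * (1 + c * (te₁ + l / 4)) := mul_pos (by linarith) (by linarith)
  have hPl : 1 / 8 ≤ (1 + c * te₁) * (1 + c * (te₁ + l / 4)) := by nlinarith
  have hPu : (1 + c * te₁) * (1 + c * (te₁ + l / 4)) ≤ 21 / 8 := by nlinarith
  have L : ∀ p : RtRow, (rtChLn c).Lc p te₁ (te₁ / (1 + c * te₁)) l (l / 4) 2 (1 / 11) 4 := by
    intro p
    refine ⟨?_, ?_, ?_, ?_, ?_⟩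
    · rw [rt_xg_ln_den, abs_of_pos (by linarith)]; linarith
    · rw [rt_xg_ln_den, abs_of_pos (by linarith)]; linarith
    · rw [(rt_xg_tm_ln c te₁ p).1, sub_self, abs_zero]; positivity
    · rw [(rt_xg_tm_ln c (te₁ + l / 4) p).1, rt_xg_ln_sub n1 n2, add_sub_cancel_left, abs_of_nonneg (by positivity), div_le_iff₀ hP]
      nlinarith
    · rw [(rt_xg_tm_ln c (te₁ + l / 4) p).1, (rt_xg_tm_ln c te₁ p).1, abs_sub_comm, rt_xg_ln_sub n1 n2, add_sub_cancel_left, abs_of_nonneg (by positivity),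
        le_div_iff₀ hP]
      nlinarith
  have hS : ∀ p : RtRow, p ∈ {p | rtCfD0 (0, 0) p ≠ 0} := by
    intro p
    show rtCfD0 (0, 0) p ≠ 0
    simp [rtCfD0, rtIp, rtSq]
  have m := rt_xg_move (Φ := rtChLn c) (rt_ch_cf_ex (0, 0) c) (hS r) (hS p₁) hl hd (σ := l / 4) (by rw [abs_of_pos (by positivity)]; linarith) (by norm_num) (by norm_num) (by norm_num)
    (by norm_num) h1 (L r) (L p₁) hn
  have ec : 6 * 2 * (4 * (3 * Λ₁)) ^ 2 / (1 / 11) ^ 2 = 209088 * Λ₁ ^ 2 := by ring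
  rw [ec] at m
  exact m

/-- LEAF `L-256-RT-XG-SLN`.  **composition with a lens**   (`1 + c t ∈ [1/2, 3/2]` for `|t| ≤ 1/2`; `t ↦ t/(1+ct)` is increasing) -/
theorem rt_xg_step_ln : ∃ C : ℝ, 1 ≤ C ∧ ∀ (Ψ₁ : RtCh) (H : ℝ) (k : ℕ) (c Λ₁ Λ₂ α β υ t₁ t₂ T : ℝ) (x : RdWvPar.Ph) (z' z'' : RtZ), 0 < H → |c| ≤ 1 → 1 ≤ Λ₁ → 1 ≤ Λ₂ →
    C * (Λ₁ * Λ₂) ^ 4 * rdD H k ≤ 1 → 0 ≤ α → α ≤ 1 / 10 → 0 ≤ β → β ≤ 1 / 10 → 0 ≤ υ → υ ≤ 1 / 10 → -(1 / 2) ≤ t₁ → t₂ ≤ 1 / 2 → rtTm k z'.1 ≤ 1 / 2 →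
    RtAg Ψ₁ H k Λ₁ α β υ t₁ t₂ T x z' → RtAs (rtChLn c) k H k Λ₂ z' z'' →
    RtAg ((rtChLn c).comp Ψ₁) H k (C * (Λ₁ * Λ₂) ^ 4) (α + β) β (υ + β ^ 2) (t₁ / (1 + c * t₁)) (t₂ / (1 + c * t₂)) T x z'' := by
  refine ⟨700000, by norm_num, ?_⟩
  intro Ψ₁ H k c Λ₁ Λ₂ α β υ t₁ t₂ T x z' z'' hH hc h1 h2 hC hα0 hα hβ0 hβ hυ0 hυ ht₁ ht₂ hz' h h'
  obtain ⟨hl, hl1, hd, -, -⟩ := rt_xg_sc hH k
  obtain ⟨a1, a2⟩ := (rt_xg_as_iff _ _ _ _ _ _ _ _).1 h.as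
  obtain ⟨b1, b2⟩ := (rt_xg_as_iff _ _ _ _ _ _ _ _).1 h'
  have e_tm : ((rtChLn c).comp Ψ₁).tm (rtRay T x) T = (rtChLn c).tm (Ψ₁.row (rtRay T x)) (Ψ₁.tm (rtRay T x) T) := rt_ch_comp_tm _ _ _ _ h.dn
  have e_dn : ((rtChLn c).comp Ψ₁).dn (rtRay T x) T = (rtChLn c).dn (Ψ₁.row (rtRay T x)) (Ψ₁.tm (rtRay T x) T) * Ψ₁.dn (rtRay T x) T :=
    rt_ch_comp_dn _ _ _ _ h.dn
  have e_row : ((rtChLn c).comp Ψ₁).row (rtRay T x) = (rtChLn c).row (Ψ₁.row (rtRay T x)) := rfl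
  have hbox := h.box
  have hlo := h.lo
  have hhi := h.hi
  obtain ⟨r, hr⟩ : ∃ r, r = Ψ₁.row (rtRay T x) := ⟨_, rfl⟩
  obtain ⟨te₁, hte₁⟩ : ∃ t, t = Ψ₁.tm (rtRay T x) T := ⟨_, rfl⟩
  obtain ⟨p₁, hp₁⟩ : ∃ p, p = rtRay (rtTm k z'.1) z'.2 := ⟨_, rfl⟩
  have hT0 : -(1 / 4) ≤ rtTm k z'.1 := by
    unfold rtTm tmL
    have : (0 : ℝ) ≤ (z'.1 : ℝ) / 2 ^ k := by positivity
    linarith
  obtain ⟨T₁, hT₁⟩ : ∃ t, t = rtTm k z'.1 := ⟨_, rfl⟩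
  rw [← hr, ← hte₁] at e_tm e_dn a2
  rw [← hr] at e_row hbox
  rw [← hte₁] at a1 hlo hhi
  rw [← hp₁] at a2 b1 b2
  rw [← hT₁] at a1 b1 b2 hz' hT0
  rw [(rt_xg_tm_ln c te₁ r).1] at e_tm
  rw [(rt_xg_tm_ln c te₁ r).2] at e_dn
  rw [(rt_xg_tm_ln c T₁ p₁).1] at b1 b2
  have p1 : 0 ≤ Λ₁ := by linarith
  have hte : |te₁| ≤ 1 / 2 := abs_le.2 ⟨by linarith, by linarith⟩
  have hT1 : |T₁| ≤ 1 / 2 := abs_le.2 ⟨by linarith, by linarith⟩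
  have ht1 : |t₁| ≤ 1 / 2 := abs_le.2 ⟨by linarith, by linarith⟩
  have ht2 : |t₂| ≤ 1 / 2 := abs_le.2 ⟨by linarith, by linarith⟩
  obtain ⟨g1, g2⟩ := rt_xg_ln_rg hc hte
  obtain ⟨g3, g4⟩ := rt_xg_ln_rg hc hT1
  obtain ⟨g5, g6⟩ := rt_xg_ln_rg hc ht1
  obtain ⟨g7, g8⟩ := rt_xg_ln_rg hc ht2
  have c3 := rt_xg_ln_core hc h1 hl hl1 hd.le hte ((rt_xg_nr_iff hH k _ _ _).1 a2)
  have c3' : RtNr (209088 * Λ₁ ^ 3) (rdLen k) (rdD H k) (((rtChLn c).row p₁).flow (te₁ / (1 + c * te₁))) (((rtChLn c).row r).flow (te₁ / (1 + c * te₁))) := by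
    refine rt_xg_nr_mono (by positivity) ?_ hl.le hd.le c3
    have : Λ₁ ^ 2 ≤ Λ₁ ^ 3 := pow_le_pow_right₀ h1 (by norm_num)
    linarith
  have d32 : |te₁ / (1 + c * te₁) - T₁ / (1 + c * T₁)| ≤ 4 * Λ₁ * rdLen k := by
    have hP : 0 < (1 + c * T₁) * (1 + c * te₁) := mul_pos (by linarith) (by linarith)
    rw [rt_xg_ln_sub (by linarith) (by linarith), abs_div, abs_of_pos hP, div_le_iff₀ hP]
    have : 1 / 4 ≤ (1 + c * T₁) * (1 + c * te₁) := by nlinarith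
    have h0 : 0 ≤ Λ₁ * rdLen k := by positivity
    nlinarith
  obtain ⟨f1, f2⟩ := rt_xg_chain hH k (C := 700000) h1 h2 (by norm_num) (by norm_num) b1 b2 d32 c3' (by norm_num)
  refine ⟨(rt_xg_as_iff _ _ _ _ _ _ _ _).2 ⟨?_, ?_⟩, ?_, ?_, ?_, ?_⟩
  · rw [e_tm]; exact f1
  · rw [e_tm, e_row]; exact f2
  · rw [e_dn]; exact mul_ne_zero (by linarith) h.dn
  · rw [e_row]; exact rt_xg_b3_ln hc hα0 hβ0 hbox
  · rw [e_tm, ← sub_nonneg, rt_xg_ln_sub (by linarith) (by linarith)]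
    exact div_nonneg (by linarith) (mul_nonneg (by linarith) (by linarith))
  · rw [e_tm, ← sub_nonneg, rt_xg_ln_sub (by linarith) (by linarith)]
    exact div_nonneg (by linarith) (mul_nonneg (by linarith) (by linarith))

/-- LEAF `L-256-RT-XG-SID`.  **composition with the identity** (cuts): the chart does not change -/
theorem rt_xg_step_id {Ψ₁ : RtCh} {H : ℝ} {k : ℕ} {Λ₁ Λ₂ α β υ t₁ t₂ T : ℝ} {x : RdWvPar.Ph} {z' z'' : RtZ} (hH : 0 < H) (h1 : 1 ≤ Λ₁) (h2 : 1 ≤ Λ₂)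
    (h : RtAg Ψ₁ H k Λ₁ α β υ t₁ t₂ T x z') (h' : RtAs (rtChTr 0) k H k Λ₂ z' z'') : RtAg Ψ₁ H k (8 * (Λ₁ * Λ₂) ^ 2) α β υ t₁ t₂ T x z'' := by
  obtain ⟨hl, hl1, hd, eq, eH⟩ := rt_xg_sc hH k
  obtain ⟨a1, a2⟩ := (rt_xg_as_iff _ _ _ _ _ _ _ _).1 h.as
  obtain ⟨b1, b2⟩ := (rt_xg_as_iff _ _ _ _ _ _ _ _).1 h'
  rw [rt_xg_tr0_tm] at b1 b2
  rw [rt_xg_tr0_row] at b2
  obtain ⟨te, hte⟩ : ∃ te, te = Ψ₁.tm (rtRay T x) T := ⟨_, rfl⟩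
  rw [← hte] at a1 a2
  obtain ⟨l, hl'⟩ : ∃ l, l = rdLen k := ⟨_, rfl⟩
  obtain ⟨d, hd'⟩ : ∃ d, d = rdD H k := ⟨_, rfl⟩
  rw [eq, ← hl', ← hd'] at a2 b2
  rw [← hl'] at a1 b1 hl hl1
  rw [← hd'] at hd
  have eH' : H = l * d ^ 2 := by rw [hl', hd']; exact eH
  have p1 : 0 ≤ Λ₁ := by linarith
  have p2 : 0 ≤ Λ₂ := by linarith
  have c := rt_xg_n1_shift (t' := te) (σ := Λ₁ * l) (by positivity) (by positivity) (rt_xg_n1_of b2) a1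
  have e := rt_xg_n1_trans (by positivity) (by positivity) (by positivity) (by positivity) c (rt_xg_n1_of a2)
  have hab : 1 ≤ Λ₁ * Λ₂ := by nlinarith
  have hX : Λ₁ * Λ₂ ≤ (Λ₁ * Λ₂) ^ 2 := by nlinarith
  have k1 : Λ₁ ≤ Λ₁ * Λ₂ := by nlinarith
  have k2 : Λ₂ ≤ Λ₁ * Λ₂ := by nlinarith
  refine ⟨(rt_xg_as_iff _ _ _ _ _ _ _ _).2 ⟨?_, ?_⟩, h.dn, h.box, h.lo, h.hi⟩
  · rw [← hte, ← hl']
    have : te - rtTm k z''.1 = (te - rtTm k z'.1) + (rtTm k z'.1 - rtTm k z''.1) := by ring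
    rw [this]
    refine (abs_add_le _ _).trans ?_
    calc _ ≤ Λ₁ * l + Λ₂ * l := add_le_add a1 b1
      _ = (Λ₁ + Λ₂) * l := by ring
      _ ≤ 8 * (Λ₁ * Λ₂) ^ 2 * l := mul_le_mul_of_nonneg_right (by nlinarith) hl.le
  · rw [← hte, eq, ← hl', ← hd']
    refine rt_xg_n1_to (by positivity) (by positivity) ?_ ?_ ?_ e
    · have : Λ₂ * d + Λ₁ * d = (Λ₂ + Λ₁) * d := by ring
      rw [this]
      exact mul_le_mul_of_nonneg_right (by nlinarith) hd.le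
    · have : Λ₂ * (l * d) + Λ₁ * l * (Λ₂ * d) + Λ₁ * (l * d) = (Λ₂ + Λ₁ * Λ₂ + Λ₁) * (l * d) := by ring
      rw [this]
      exact mul_le_mul_of_nonneg_right (by nlinarith) (by positivity)
    · have : Λ₂ * H + Λ₁ * l * (Λ₂ * d) ^ 2 + Λ₁ * H + 2 * (Λ₂ * d * (Λ₁ * (l * d))) = (Λ₂ + Λ₁ * Λ₂ ^ 2 + Λ₁ + 2 * (Λ₁ * Λ₂)) * H := by
        rw [eH']; ring
      rw [this]
      refine mul_le_mul_of_nonneg_right ?_ hH.le
      have : Λ₁ * Λ₂ ^ 2 ≤ (Λ₁ * Λ₂) ^ 2 := by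
        rw [mul_pow]
        exact mul_le_mul_of_nonneg_right (by nlinarith) (by positivity)
      nlinarith

/-- LEAF `L-256-RT-XG-SCH`.  **composition with the change of cut** `(depth 0, index 0) → (depth 2, index 1)`   (relation of `rt_xk_chg`; `d₂ = 2 d₀`, `q₂ = q₀/2`; symmetry of `RtNear` up to `2 Λ² d q`; shift of the time by `|te| ≤ 1`) -/
theorem rt_xg_step_chg : ∃ C : ℝ, 1 ≤ C ∧ ∀ (Ψ₁ : RtCh) (H Λ₁ Λ₂ α β υ t₁ t₂ T : ℝ) (x : RdWvPar.Ph) (z' z'' : RtZ), 0 < H → 1 ≤ Λ₁ → 1 ≤ Λ₂ → -1 ≤ t₁ → t₂ ≤ 1 →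
    z'.1 = 0 → z''.1 = 1 → RtAg Ψ₁ H 0 Λ₁ α β υ t₁ t₂ T x z' →
    RtNear Λ₂ (rdD H 2) (rdQ H 0) H ((RdWvPar.co 0 z'.2).flow (rtTm 2 1 - rtTm 0 0)) (RdWvPar.co 0 z''.2) →
    RtAg Ψ₁ H 2 (C * (Λ₁ * Λ₂) ^ 2) α β υ t₁ t₂ T x z'' := by
  refine ⟨16, by norm_num, ?_⟩
  intro Ψ₁ H Λ₁ Λ₂ α β υ t₁ t₂ T x z' z'' hH h1 h2 ht₁ ht₂ hz' hz'' h hn
  obtain ⟨-, -, hd, eq, eH⟩ := rt_xg_sc hH 0
  obtain ⟨-, -, hd2, eq2, eH2⟩ := rt_xg_sc hH 2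
  have l0 : rdLen 0 = 1 := by simp [rdLen]
  have l2 : rdLen 2 = 1 / 4 := by unfold rdLen; norm_num
  rw [l0, one_mul] at eq eH
  rw [l2] at eq2 eH2
  obtain ⟨D, hD⟩ : ∃ D, D = rdD H 0 := ⟨_, rfl⟩
  rw [← hD] at hd eq eH
  have ed2 : rdD H 2 = 2 * D := by
    have : (rdD H 2 - 2 * D) * (rdD H 2 + 2 * D) = 0 := by nlinarith
    rcases mul_eq_zero.1 this with h0 | h0
    · linarith
    · nlinarith
  rw [ed2] at eq2
  have T2 : rtTm 2 1 = 0 := by unfold rtTm tmL; norm_num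
  obtain ⟨a1, a2⟩ := (rt_xg_as_iff _ _ _ _ _ _ _ _).1 h.as
  obtain ⟨te, hte⟩ : ∃ te, te = Ψ₁.tm (rtRay T x) T := ⟨_, rfl⟩
  have hlo := h.lo
  have hhi := h.hi
  rw [← hte] at a1 a2 hlo hhi
  rw [hz', eq, ← hD] at a2
  rw [rt_xg_co_flow, ed2, eq, T2] at hn
  have e0 : RdWvPar.co 0 z''.2 = (rtRay 0 z''.2).flow 0 := by
    have := rt_xg_co_flow 0 0 z''.2
    rw [sub_zero, rt_xg_flow_zero] at this
    exact this
  rw [e0] at hn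
  have p1 : 0 ≤ Λ₁ := by linarith
  have p2 : 0 ≤ Λ₂ := by linarith
  have hte1 : |te - 0| ≤ 1 := by
    rw [sub_zero]
    exact abs_le.2 ⟨by linarith, by linarith⟩
  have s1 := rt_xg_n1_symm (by positivity) (by positivity) (rt_xg_n1_of hn)
  have s2 := rt_xg_n1_shift (t' := te) (σ := 1) (by positivity) (by positivity) s1 hte1
  have s3 := rt_xg_n1_trans (by positivity) (by positivity) (by positivity) (by positivity) s2 (rt_xg_n1_of a2)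
  have hab : 1 ≤ Λ₁ * Λ₂ := by nlinarith
  have hX : Λ₁ * Λ₂ ≤ (Λ₁ * Λ₂) ^ 2 := by nlinarith
  have k1 : Λ₁ ≤ Λ₁ * Λ₂ := by nlinarith
  have k2 : Λ₂ ≤ Λ₁ * Λ₂ := by nlinarith
  refine ⟨(rt_xg_as_iff _ _ _ _ _ _ _ _).2 ⟨?_, ?_⟩, h.dn, h.box, h.lo, h.hi⟩
  · rw [← hte, hz'', T2, l2]
    refine hte1.trans ?_
    nlinarith
  · rw [← hte, hz'', T2, ed2, eq2]
    refine rt_xg_n1_to (by positivity) (by positivity) ?_ ?_ ?_ s3
    · have : Λ₂ * (2 * D) + Λ₁ * D = (2 * Λ₂ + Λ₁) * D := by ring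
      rw [this]
      have : 16 * (Λ₁ * Λ₂) ^ 2 * (2 * D) = (32 * (Λ₁ * Λ₂) ^ 2) * D := by ring
      rw [this]
      exact mul_le_mul_of_nonneg_right (by nlinarith) hd.le
    · have : Λ₂ * D + 1 * (Λ₂ * (2 * D)) + Λ₁ * D = (3 * Λ₂ + Λ₁) * D := by ring
      rw [this]
      have : 16 * (Λ₁ * Λ₂) ^ 2 * (1 / 4 * (2 * D)) = (8 * (Λ₁ * Λ₂) ^ 2) * D := by ring
      rw [this]
      exact mul_le_mul_of_nonneg_right (by nlinarith) hd.le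
    · have : Λ₂ * H + 2 * (Λ₂ * (2 * D) * (Λ₂ * D)) + 1 * (Λ₂ * (2 * D)) ^ 2 + Λ₁ * H + 2 * (Λ₂ * (2 * D) * (Λ₁ * D))
          = (Λ₂ + 8 * Λ₂ ^ 2 + Λ₁ + 4 * (Λ₁ * Λ₂)) * H := by
        rw [eH]; ring
      rw [this]
      refine mul_le_mul_of_nonneg_right ?_ hH.le
      have : Λ₂ ^ 2 ≤ (Λ₁ * Λ₂) ^ 2 := pow_le_pow_left₀ p2 k2 2
      nlinarith

/-! ## FAR -/

/-- the ray of a row of the time `T₀`, read at the time `te` -/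
theorem rt_xg_far_ray (T₀ te : ℝ) (x : RdWvPar.Ph) : (rtRay T₀ x).flow te = (RdWvPar.co 0 x).flow (te - T₀) := by
  ext <;> simp only [rtRay, RdWvPar.co, RtRow.flow, Prod.fst_add, Prod.snd_add, Prod.smul_fst, Prod.smul_snd, smul_eq_mul] <;> ring

/-- the ray of a lattice point, read at its own time -/
theorem rt_xg_far_zr (k : ℕ) (z : RtZ) : (rtZr k z).flow (rtTm k z.1) = RdWvPar.co 0 z.2 := by
  ext <;> simp only [rtZr, rtRay, RdWvPar.co, RtRow.flow, Prod.fst_add, Prod.snd_add, Prod.smul_fst, Prod.smul_snd, smul_eq_mul] <;> ring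

/-- the numerology of FAR: `q_{k₀} ≤ d_k`, `H ≤ d_k` as soon as `d_k ≤ 1` -/
theorem rt_xg_far_num {k k₀ : ℕ} {H Λ η : ℝ} (hH : 0 < H) (hη : η ≤ 1 / 100) (hΛ : 1 ≤ Λ) (hd : Λ * rdD H k ≤ η) :
    0 ≤ rdD H k ∧ 0 ≤ rdQ H k₀ ∧ Λ * rdQ H k₀ ≤ η ∧ Λ * H ≤ η := by
  have hΛ0 : 0 ≤ Λ := le_trans zero_le_one hΛ
  have len1 : ∀ j : ℕ, rdLen j ≤ 1 := fun j => by
    unfold rdLen
    exact pow_le_one₀ (by norm_num) (by norm_num)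
  have hd0 : 0 ≤ rdD H k := Real.sqrt_nonneg _
  have hq0 : 0 ≤ rdQ H k₀ := Real.sqrt_nonneg _
  have hsd : Real.sqrt H ≤ rdD H k := by
    unfold rdD
    refine Real.sqrt_le_sqrt ?_
    rw [le_div_iff₀ (rdLen_pos k)]
    exact mul_le_of_le_one_right hH.le (len1 k)
  have hqs : rdQ H k₀ ≤ Real.sqrt H := by
    unfold rdQ
    exact Real.sqrt_le_sqrt (mul_le_of_le_one_right hH.le (len1 k₀))
  have hd1 : rdD H k ≤ 1 := by nlinarith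
  have hs0 : 0 ≤ Real.sqrt H := Real.sqrt_nonneg _
  have hHs : H ≤ Real.sqrt H := by
    have e : Real.sqrt H * Real.sqrt H = H := Real.mul_self_sqrt hH.le
    nlinarith
  refine ⟨hd0, hq0, ?_, ?_⟩
  · exact (mul_le_mul_of_nonneg_left (hqs.trans hsd) hΛ0).trans hd
  · exact (mul_le_mul_of_nonneg_left (hHs.trans hsd) hΛ0).trans hd

/-- LEAF `L-256-RT-XG-FAR`.  (A) a row of a region (depth `k`) is not connected to a row of the root cut `(T₀, k₀)` outside the enlarged box   (contrapositive: `rt_xg_b3_near` at the time `T`; `Λ q_{k₀} ≤ Λ d_k`, `Λ H ≤ Λ d_k`) -/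
theorem rt_xg_far {k k₀ : ℕ} {H Λ η α β υ t₁ t₂ T₀ : ℝ} {z : RtZ} {x : RdWvPar.Ph} (hH : 0 < H) (hk : k₀ ≤ k) (hα0 : 0 ≤ α) (hα : α ≤ 1 / 10) (hβ : 0 ≤ β)
    (hη : η ≤ 1 / 100) (hΛ : 1 ≤ Λ) (hd : Λ * rdD H k ≤ η) (ht₁ : -(1 / 4) ≤ t₁) (ht₂ : t₂ ≤ 3 / 4)
    (hz : z ∈ rtRg k α β υ t₁ t₂) (hx : x ∉ rtS3 T₀ (α + η) (β + 3 * η) (υ + 2 * η)) :
    ¬ RtNear Λ (rdD H k) (rdQ H k₀) H ((RdWvPar.co 0 x).flow (rtTm k z.1 - T₀)) (RdWvPar.co 0 z.2) := by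
  intro hn
  obtain ⟨-, hr, h1, h2⟩ := hz
  obtain ⟨hd0, hq0, hq, hHd⟩ := rt_xg_far_num (k := k) (k₀ := k₀) hH hη hΛ hd
  have hte : |rtTm k z.1| ≤ 2 := abs_le.2 ⟨by linarith, by linarith⟩
  refine hx (rt_xg_b3_near (p := rtRay T₀ x) (r := rtZr k z) (te := rtTm k z.1) hα0 hα hβ hη (by linarith) hd0 hq0 hH.le hd hq hHd hte hr (Or.inl ?_))
  rw [rt_xg_far_ray, rt_xg_far_zr]
  exact hn

/-- LEAF `L-256-RT-XG-FAR`.  (B) a row of the root cut inside a box is not connected to a later row whose ray lies outside the enlarged box -/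
theorem rt_xg_far' {k k₀ : ℕ} {H Λ η α β υ T₀ : ℝ} {z : RtZ} {x : RdWvPar.Ph} (hH : 0 < H) (hk : k₀ ≤ k) (hα0 : 0 ≤ α) (hα : α ≤ 1 / 10) (hβ : 0 ≤ β)
    (hη : η ≤ 1 / 100) (hΛ : 1 ≤ Λ) (hd : Λ * rdD H k ≤ η) (ht : |rtTm k z.1| ≤ 3 / 4)
    (hx : x ∈ rtS3 T₀ α β υ) (hz : rtZr k z ∉ rtB3 (α + η) (β + 3 * η) (υ + 2 * η)) :
    ¬ RtNear Λ (rdD H k) (rdQ H k₀) H ((RdWvPar.co 0 x).flow (rtTm k z.1 - T₀)) (RdWvPar.co 0 z.2) := by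
  intro hn
  obtain ⟨hd0, hq0, hq, hHd⟩ := rt_xg_far_num (k := k) (k₀ := k₀) hH hη hΛ hd
  have hte : |rtTm k z.1| ≤ 2 := ht.trans (by norm_num)
  refine hz (rt_xg_b3_near (p := rtZr k z) (r := rtRay T₀ x) (te := rtTm k z.1) hα0 hα hβ hη (by linarith) hd0 hq0 hH.le hd hq hHd hte hx (Or.inr ?_))
  rw [rt_xg_far_ray, rt_xg_far_zr]
  exact hn

/-! ## XS : the exact relabelling -/

theorem rt_xg_xs_ff (p : RtRow) (s t : ℝ) : (p.flow s).flow t = p.flow (s + t) := by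
  ext <;> simp only [RtRow.flow, Prod.fst_add, Prod.snd_add, Prod.smul_fst, Prod.smul_snd, smul_eq_mul] <;> ring

theorem rt_xg_xs_f0 (p : RtRow) : p.flow 0 = p := by
  ext <;> simp [RtRow.flow]

/-- the clock identity of the exact relabelling -/
theorem rt_xg_xs_clk {θ l : ℝ} (hl : 0 < l) {k k' s₁ s₂ : ℕ} (hlen : rdLen k = l * rdLen k')
    (hclk : (θ / l - 1 / 4) * 2 ^ k' = (s₁ : ℝ) - s₂) {j j' : ℕ} (h : j' + s₁ = j + s₂) :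
    (tmL k j - θ) / l = rtTm k' j' := by
  have h' : (j' : ℝ) + s₁ = j + s₂ := by exact_mod_cast h
  have e1 : tmL k j = j * rdLen k := by
    unfold tmL rdLen
    rw [inv_pow, div_eq_mul_inv]
  have e2 : rtTm k' j' = j' * rdLen k' - 1 / 4 := by
    unfold rtTm tmL rdLen
    rw [inv_pow, div_eq_mul_inv]
  have e3 : rdLen k' * 2 ^ k' = 1 := by
    unfold rdLen
    rw [inv_pow]
    exact inv_mul_cancel₀ (by positivity)
  have e4 : θ / l = ((s₁ : ℝ) - s₂) * rdLen k' + 1 / 4 := by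
    have : (θ / l - 1 / 4) = ((s₁ : ℝ) - s₂) * rdLen k' := by
      rw [← hclk, mul_assoc, mul_comm (2 ^ k' : ℝ), e3, mul_one]
    linarith
  rw [e1, e2, hlen, sub_div, e4]
  have : (j : ℝ) * (l * rdLen k') / l = j * rdLen k' := by
    field_simp
  rw [this]
  have : (j' : ℝ) = j + s₂ - s₁ := by linarith
  rw [this]
  ring

theorem rt_xg_xs_dn (θ l r : ℝ) (c : RtRow) (e : ℝ × ℝ) (p : RtRow) (t : ℝ) : (rtChS θ l r c e).dn p t = l * r := by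
  simp only [rtChS, RtCh.dn, RtCh.comp, rtChSc, rtChRot, rtChCen, rtChTr]
  ring

theorem rt_xg_xs_self {Λ d q H : ℝ} (hΛ : 0 ≤ Λ) (hH : 0 ≤ H) (p : RtRow) : RtNear Λ d q H p p := by
  refine ⟨?_, ?_, ?_⟩
  · have e0 : rtSq (p.A - p.A) = 0 := by simp [rtSq]
    rw [e0]
    positivity
  · have e0 : rtSq (p.b - p.b) = 0 := by simp [rtSq]
    rw [e0]
    positivity
  · simp only [sub_self, rtIp, Prod.fst_zero, Prod.snd_zero, mul_zero, add_zero, abs_zero]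
    positivity

theorem rt_xg_xs_co (Ψ : RtCh) (T T' : ℝ) (x : RdWvPar.Ph) :
    RdWvPar.co T' (rtZm Ψ T x) = (Ψ.row (rtRay T x)).flow (Ψ.tm (rtRay T x) T) := rfl

/-- the instantaneous normalisation at the physical time `θ + s` -/
noncomputable def rtXgXsN (l r : ℝ) (c : RtRow) (e : ℝ × ℝ) (s : ℝ) (X : RtRow) : RtRow :=
  ⟨r⁻¹ • rtRot e (X.A - c.A), (l * r)⁻¹ • rtRot e (X.b - c.b - s • c.A), (X.y - c.y - 2 * rtIp c.A (X.b - c.b) + s * rtSq c.A) / (l * r ^ 2)⟩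

theorem rtXgXsN_eqns_cite : True := by
  have := @rtXgXsN.eq_1
  trivial

theorem rt_xg_xs_n_zm (θ l r : ℝ) (c : RtRow) (e : ℝ × ℝ) (hl : l ≠ 0) (hr : r ≠ 0) (he : rtSq e = 1) (T T' : ℝ) (x : RdWvPar.Ph) :
    RdWvPar.co T' (rtZm (rtChS θ l r c e) T x) = rtXgXsN l r c e (T - θ) (RdWvPar.co 0 x) := by
  rw [rt_xs_zm θ l r c e hl hr he]
  rfl

theorem rt_xg_xs_n_flow (l r : ℝ) (c : RtRow) (e : ℝ × ℝ) (hl : l ≠ 0) (hr : r ≠ 0) (he : rtSq e = 1) (s u : ℝ) (X : RtRow) :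
    (rtXgXsN l r c e s X).flow u = rtXgXsN l r c e (s + l * u) (X.flow (l * u)) := by
  have he' : e.1 ^ 2 + e.2 ^ 2 = 1 := he
  ext
  · rfl
  · rfl
  · simp only [rtXgXsN, RtRow.flow, rtRot, Prod.fst_add, Prod.snd_add, Prod.fst_sub, Prod.snd_sub, Prod.smul_fst, Prod.smul_snd, smul_eq_mul]
    field_simp
    ring
  · simp only [rtXgXsN, RtRow.flow, rtRot, Prod.fst_add, Prod.snd_add, Prod.fst_sub, Prod.snd_sub, Prod.smul_fst, Prod.smul_snd, smul_eq_mul]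
    field_simp
    ring
  · simp only [rtXgXsN, RtRow.flow, rtRot, rtSq, rtIp, Prod.fst_add, Prod.snd_add, Prod.fst_sub, Prod.snd_sub, Prod.smul_fst, Prod.smul_snd, smul_eq_mul]
    field_simp
    linear_combination (l * u * ((X.A.1 - c.A.1) ^ 2 + (X.A.2 - c.A.2) ^ 2)) * he'

theorem rt_xg_xs_n_near {l r : ℝ} (c : RtRow) (e : ℝ × ℝ) (hl : 0 < l) (hr : 0 < r) (he : rtSq e = 1) (s : ℝ) {Λ d q H : ℝ} {X Y : RtRow}
    (h : RtNear Λ d q H (rtXgXsN l r c e s X) (rtXgXsN l r c e s Y)) : RtNear Λ (r * d) (l * r * q) (l * r ^ 2 * H) X Y := by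
  obtain ⟨h1, h2, h3⟩ := h
  have eA : (rtXgXsN l r c e s Y).A - (rtXgXsN l r c e s X).A = r⁻¹ • rtRot e (Y.A - X.A) := by
    ext <;> simp only [rtXgXsN, rtRot, Prod.fst_sub, Prod.snd_sub, Prod.smul_fst, Prod.smul_snd, smul_eq_mul] <;> ring
  have eb : (rtXgXsN l r c e s Y).b - (rtXgXsN l r c e s X).b = (l * r)⁻¹ • rtRot e (Y.b - X.b) := by
    ext <;> simp only [rtXgXsN, rtRot, Prod.fst_sub, Prod.snd_sub, Prod.smul_fst, Prod.smul_snd, smul_eq_mul] <;> ring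
  have sq_smul : ∀ (a : ℝ) (v : ℝ × ℝ), rtSq (a • v) = a ^ 2 * rtSq v := by
    intro a v
    simp only [rtSq, Prod.smul_fst, Prod.smul_snd, smul_eq_mul]
    ring
  have ip_smul : ∀ (a a' : ℝ) (v v' : ℝ × ℝ), rtIp (a • v) (a' • v') = a * a' * rtIp v v' := by
    intro a a' v v'
    simp only [rtIp, Prod.smul_fst, Prod.smul_snd, smul_eq_mul]
    ring
  refine ⟨?_, ?_, ?_⟩
  · rw [eA, sq_smul, rt_rot_sq, he, one_mul] at h1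
    have : rtSq (Y.A - X.A) = r ^ 2 * (r⁻¹ ^ 2 * rtSq (Y.A - X.A)) := by
      field_simp
    rw [this]
    calc r ^ 2 * (r⁻¹ ^ 2 * rtSq (Y.A - X.A)) ≤ r ^ 2 * (Λ * d) ^ 2 := by gcongr
      _ = (Λ * (r * d)) ^ 2 := by ring
  · rw [eb, sq_smul, rt_rot_sq, he, one_mul] at h2
    have : rtSq (Y.b - X.b) = (l * r) ^ 2 * ((l * r)⁻¹ ^ 2 * rtSq (Y.b - X.b)) := by
      field_simp
    rw [this]
    calc (l * r) ^ 2 * ((l * r)⁻¹ ^ 2 * rtSq (Y.b - X.b)) ≤ (l * r) ^ 2 * (Λ * q) ^ 2 := by gcongr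
      _ = (Λ * (l * r * q)) ^ 2 := by ring
  · have e3 : (rtXgXsN l r c e s Y).y - (rtXgXsN l r c e s X).y - 2 * rtIp (rtXgXsN l r c e s X).A ((rtXgXsN l r c e s Y).b - (rtXgXsN l r c e s X).b)
        = (Y.y - X.y - 2 * rtIp X.A (Y.b - X.b)) / (l * r ^ 2) := by
      rw [eb]
      have : (rtXgXsN l r c e s X).A = r⁻¹ • rtRot e (X.A - c.A) := rfl
      rw [this, ip_smul, rt_rot_ip, he, one_mul]
      simp only [rtXgXsN, rtIp, Prod.fst_sub, Prod.snd_sub]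
      field_simp
      ring
    rw [e3, abs_div, abs_of_pos (by positivity : 0 < l * r ^ 2), div_le_iff₀ (by positivity)] at h3
    calc |Y.y - X.y - 2 * rtIp X.A (Y.b - X.b)| ≤ Λ * H * (l * r ^ 2) := h3
      _ = Λ * (l * r ^ 2 * H) := by ring

theorem rt_xg_xs_si_tm (θ l r : ℝ) (c : RtRow) (e : ℝ × ℝ) (hl : l ≠ 0) (hr : r ≠ 0) (p : RtRow) (t : ℝ) : (rtChSi θ l r c e).tm p t = l * t + θ := by
  simp only [rtChSi, RtCh.tm, RtCh.dn, RtCh.comp, rtChSc, rtChRot, rtChCen, rtChTr]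
  field_simp
  ring

theorem rt_xg_xs_si_n (θ l r : ℝ) (c : RtRow) (e : ℝ × ℝ) (hl : l ≠ 0) (hr : r ≠ 0) (he : rtSq e = 1) (p : RtRow) (t : ℝ) :
    rtXgXsN l r c e (l * t) (((rtChSi θ l r c e).row p).flow (l * t + θ)) = p.flow t := by
  have he' : e.1 ^ 2 + e.2 ^ 2 = 1 := he
  ext
  · simp only [rtXgXsN, rtChSi, RtCh.comp, rtChSc, rtChRot, rtChCen, rtChTr, RtRow.flow, rtCfRowRot, rtCfRowCen, rtRot, Prod.fst_add, Prod.snd_add, Prod.fst_sub, Prod.snd_sub, Prod.smul_fst, Prod.smul_snd, smul_eq_mul, Prod.fst_neg, Prod.snd_neg, inv_inv]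
    field_simp
    linear_combination (r * p.A.1) * he'
  · simp only [rtXgXsN, rtChSi, RtCh.comp, rtChSc, rtChRot, rtChCen, rtChTr, RtRow.flow, rtCfRowRot, rtCfRowCen, rtRot, Prod.fst_add, Prod.snd_add, Prod.fst_sub, Prod.snd_sub, Prod.smul_fst, Prod.smul_snd, smul_eq_mul, Prod.fst_neg, Prod.snd_neg, inv_inv]
    field_simp
    linear_combination (r * p.A.2) * he'
  · simp only [rtXgXsN, rtChSi, RtCh.comp, rtChSc, rtChRot, rtChCen, rtChTr, RtRow.flow, rtCfRowRot, rtCfRowCen, rtRot, Prod.fst_add, Prod.snd_add, Prod.fst_sub, Prod.snd_sub, Prod.smul_fst, Prod.smul_snd, smul_eq_mul, Prod.fst_neg, Prod.snd_neg, inv_inv]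
    field_simp
    linear_combination (l * r * (p.b.1 + t * p.A.1)) * he'
  · simp only [rtXgXsN, rtChSi, RtCh.comp, rtChSc, rtChRot, rtChCen, rtChTr, RtRow.flow, rtCfRowRot, rtCfRowCen, rtRot, rtSq, rtIp, Prod.fst_add, Prod.snd_add, Prod.fst_sub, Prod.snd_sub, Prod.smul_fst, Prod.smul_snd, smul_eq_mul, Prod.fst_neg, Prod.snd_neg, inv_inv]
    field_simp
    linear_combination (l * r * (p.b.2 + t * p.A.2)) * he'
  · simp only [rtXgXsN, rtChSi, RtCh.comp, rtChSc, rtChRot, rtChCen, rtChTr, RtRow.flow, rtCfRowRot, rtCfRowCen, rtRot, rtSq, rtIp, Prod.fst_add, Prod.snd_add, Prod.fst_sub, Prod.snd_sub, Prod.smul_fst, Prod.smul_snd, smul_eq_mul, Prod.fst_neg, Prod.snd_neg, inv_inv]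
    field_simp
    linear_combination (l * r ^ 2 * t * (p.A.1 ^ 2 + p.A.2 ^ 2)) * he'

/-- LEAF `L-256-RT-XG-XS`.  START of the output chain: the exact relabelling is an association with distance `0`      (`rt_xs_tm`, `rtZm`; `rtZr k' z' = S.row (rtRay T x)`) -/
theorem rt_xg_xs_start (θ l r : ℝ) (c : RtRow) (e : ℝ × ℝ) (hl : 0 < l) (hr : 0 < r) (he : rtSq e = 1) (k k' s₁ s₂ : ℕ) (hlen : rdLen k = l * rdLen k')
    (hclk : (θ / l - 1 / 4) * 2 ^ k' = (s₁ : ℝ) - s₂) {H' Λ α β υ t₁ t₂ : ℝ} {z z' : RtZ} (hH : 0 < H') (hΛ : 0 ≤ Λ)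
    (h : RtXsR (rtChS θ l r c e) k s₁ s₂ z z') (hz' : z' ∈ rtRg k' α β υ t₁ t₂) :
    RtAg (rtChS θ l r c e) H' k' Λ α β υ t₁ t₂ (tmL k z.1) z.2 z' := by
  obtain ⟨h1, h2⟩ := h
  obtain ⟨_, hb, hlo, hhi⟩ := hz'
  have htm : (rtChS θ l r c e).tm (rtRay (tmL k z.1) z.2) (tmL k z.1) = rtTm k' z'.1 := by
    rw [rt_xs_tm θ l r c e hl.ne' hr.ne']
    exact rt_xg_xs_clk hl hlen hclk h1
  have hco : ∀ T', RdWvPar.co T' z'.2 = ((rtChS θ l r c e).row (rtRay (tmL k z.1) z.2)).flow (rtTm k' z'.1) := by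
    intro T'
    rw [h2, rt_xg_xs_co, htm]
  have hrow : rtZr k' z' = (rtChS θ l r c e).row (rtRay (tmL k z.1) z.2) := by
    unfold rtZr rtRay
    rw [hco, rt_xg_xs_ff, add_neg_cancel, rt_xg_xs_f0]
    rfl
  refine ⟨⟨?_, ?_⟩, ?_, ?_, ?_, ?_⟩
  · rw [htm, sub_self, abs_zero]
    exact mul_nonneg hΛ (rdLen_pos k').le
  · rw [htm, sub_self, rt_xg_xs_f0, hco]
    exact rt_xg_xs_self hΛ hH.le _
  · rw [rt_xg_xs_dn]
    exact (mul_pos hl hr).ne'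
  · rw [← hrow]
    exact hb
  · rw [htm]
    exact hlo
  · rw [htm]
    exact hhi

/-- LEAF `L-256-RT-XG-XS`.  END of the input chain: back to the physical picture      (`rtChSi` inverts `rtChS` on rows and times; `d' = d/r`, `q' = q/(l r)`, `H' = H/(l r²)`, `ℓ' = ℓ/l`; rotations and centrings preserve `RtNear`) -/
theorem rt_xg_xs_end (θ l r : ℝ) (c : RtRow) (e : ℝ × ℝ) (hl : 0 < l) (hr : 0 < r) (he : rtSq e = 1) (k k' s₁ s₂ : ℕ) (hlen : rdLen k = l * rdLen k')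
    (hclk : (θ / l - 1 / 4) * 2 ^ k' = (s₁ : ℝ) - s₂) {Ψ₁ : RtCh} {H Λ α β υ t₁ t₂ T : ℝ} {x : RdWvPar.Ph} {z' z'' : RtZ} (hH : 0 < H) (hΛ : 0 ≤ Λ)
    (h : RtAg Ψ₁ (H / (l * r ^ 2)) k' Λ α β υ t₁ t₂ T x z') (hx : RtXsR (rtChS θ l r c e) k s₁ s₂ z'' z') :
    RtAsR ((rtChSi θ l r c e).comp Ψ₁) H k Λ T x (tmL k z''.1) z''.2 := by
  obtain ⟨h1, h2⟩ := hx
  obtain ⟨ha1, ha2⟩ := h.as
  have hclk' : (tmL k z''.1 - θ) / l = rtTm k' z'.1 := rt_xg_xs_clk hl hlen hclk h1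
  have hT : tmL k z''.1 - θ = l * rtTm k' z'.1 := by
    rw [← hclk']
    field_simp
  have htm : ((rtChSi θ l r c e).comp Ψ₁).tm (rtRay T x) T = l * Ψ₁.tm (rtRay T x) T + θ := by
    rw [rt_ch_comp_tm _ _ _ _ h.dn, rt_xg_xs_si_tm θ l r c e hl.ne' hr.ne']
  have hsub : ((rtChSi θ l r c e).comp Ψ₁).tm (rtRay T x) T - tmL k z''.1 = l * (Ψ₁.tm (rtRay T x) T - rtTm k' z'.1) := by
    rw [htm]
    linarith
  have hk' := rdLen_pos k'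
  have eD : r * rdD (H / (l * r ^ 2)) k' = rdD H k := by
    unfold rdD
    rw [hlen]
    have : r = Real.sqrt (r ^ 2) := (Real.sqrt_sq hr.le).symm
    nth_rewrite 1 [this]
    rw [← Real.sqrt_mul (by positivity)]
    congr 1
    field_simp
  have eQ : l * r * rdQ (H / (l * r ^ 2)) k' = rdQ H k := by
    unfold rdQ
    rw [hlen]
    have : l * r = Real.sqrt ((l * r) ^ 2) := (Real.sqrt_sq (by positivity)).symm
    rw [this, ← Real.sqrt_mul (by positivity)]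
    congr 1
    field_simp
  have eH : l * r ^ 2 * (H / (l * r ^ 2)) = H := by
    field_simp
  refine ⟨?_, ?_⟩
  · rw [hsub, abs_mul, abs_of_pos hl, hlen]
    calc l * |Ψ₁.tm (rtRay T x) T - rtTm k' z'.1| ≤ l * (Λ * rdLen k') := by gcongr
      _ = Λ * (l * rdLen k') := by ring
  · rw [hsub, htm]
    have e1 : (RdWvPar.co 0 z'.2).flow (Ψ₁.tm (rtRay T x) T - rtTm k' z'.1)
        = rtXgXsN l r c e (l * Ψ₁.tm (rtRay T x) T) ((RdWvPar.co 0 z''.2).flow (l * (Ψ₁.tm (rtRay T x) T - rtTm k' z'.1))) := by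
      rw [h2, rt_xg_xs_n_zm θ l r c e hl.ne' hr.ne' he, rt_xg_xs_n_flow l r c e hl.ne' hr.ne' he, hT]
      congr 1
      ring
    have e2 : (Ψ₁.row (rtRay T x)).flow (Ψ₁.tm (rtRay T x) T)
        = rtXgXsN l r c e (l * Ψ₁.tm (rtRay T x) T) (((rtChSi θ l r c e).row (Ψ₁.row (rtRay T x))).flow (l * Ψ₁.tm (rtRay T x) T + θ)) :=
      (rt_xg_xs_si_n θ l r c e hl.ne' hr.ne' he _ _).symm
    rw [e1, e2] at ha2
    have := rt_xg_xs_n_near c e hl hr he _ ha2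
    rw [eD, eQ, eH] at this
    exact this

/-- LEAF `L-256-RT-XG-XS`.  START of the input chain: a row near a row of a box -/
theorem rt_xg_in_start {H Λ η α β υ : ℝ} {z z' : RtZ} (hH : 0 < H) (hα0 : 0 ≤ α) (hα : α ≤ 1 / 10) (hβ : 0 ≤ β) (hη : η ≤ 1 / 100) (hΛ : 1 ≤ Λ) (hd : Λ * rdD H 0 ≤ η)
    (hz : z.1 = 0) (hz' : z'.1 = 0) (hS : z'.2 ∈ rtS3 (-(1 / 4)) α β υ) (h : RtAs (rtChTr 0) 0 H 0 Λ z z') :
    RtAg (rtChTr 0) H 0 Λ (α + η) (β + 3 * η) (υ + 2 * η) (-(1 / 4)) (-(1 / 4)) (rtTm 0 z.1) z.2 z' := by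
  have hT : rtTm 0 z.1 = -(1 / 4) := by
    rw [hz]
    simp [rtTm, tmL]
  have hT' : rtTm 0 z'.1 = -(1 / 4) := by
    rw [hz']
    simp [rtTm, tmL]
  have htm : ∀ (p : RtRow) (t : ℝ), (rtChTr 0).tm p t = t := by
    intro p t
    simp [rtChTr, RtCh.tm, RtCh.dn]
  have hrow : ∀ p : RtRow, (rtChTr 0).row p = p := fun p => rt_xg_xs_f0 p
  have h2 := h.2
  rw [htm, hrow, hT, hT', sub_self, rt_xg_xs_f0] at h2
  have hl0 : rdLen 0 = 1 := by simp [rdLen]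
  have eD : rdD H 0 = Real.sqrt H := by
    unfold rdD
    rw [hl0, div_one]
  have eQ : rdQ H 0 = Real.sqrt H := by
    unfold rdQ
    rw [hl0, mul_one]
  have hs0 : 0 ≤ Real.sqrt H := Real.sqrt_nonneg H
  have hs1 : Real.sqrt H ≤ 1 := by
    rw [eD] at hd
    nlinarith
  have hHs : H ≤ Real.sqrt H := by
    have : H = Real.sqrt H * Real.sqrt H := (Real.mul_self_sqrt hH.le).symm
    nlinarith
  refine ⟨h, ?_, ?_, ?_, ?_⟩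
  · simp [rtChTr, RtCh.dn]
  · rw [hrow, hT]
    refine rt_xg_b3_near (Λ := Λ) (d := rdD H 0) (q := rdQ H 0) (H := H) (te := -(1 / 4)) (r := rtRay (-(1 / 4)) z'.2) hα0 hα hβ hη (by linarith)
      (by rw [eD]; exact hs0) (by rw [eQ]; exact hs0) hH.le hd (by rw [eQ, ← eD]; exact hd) ?_ ?_ hS (Or.inr ?_)
    · rw [eD] at hd
      calc Λ * H ≤ Λ * Real.sqrt H := by gcongr
        _ ≤ η := hd
    · rw [abs_neg, abs_of_pos (by norm_num)]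
      norm_num
    · have : (rtRay (-(1 / 4)) z'.2).flow (-(1 / 4)) = RdWvPar.co 0 z'.2 := by
        unfold rtRay
        rw [rt_xg_xs_ff]
        have : (-(-(1 / 4 : ℝ)) + -(1 / 4)) = 0 := by ring
        rw [this, rt_xg_xs_f0]
        rfl
      rw [this]
      exact h2
  · rw [htm, hT]
  · rw [htm, hT]

/-! ## PAPER : the transport chart is the chart of the paper -/

/-- the physical centre ray (parametrised at the root time) of the patch with the exact ray `p₀` in the frame `(l₀, r₀, c₀)` -/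
def rtXgCen (l₀ r₀ : ℝ) (c₀ p₀ : RtRow) : RtRow :=
  ⟨r₀ • p₀.A + c₀.A, (l₀ * r₀) • p₀.b + c₀.b, l₀ * r₀ ^ 2 * p₀.y + c₀.y + 2 * rtIp c₀.A ((l₀ * r₀) • p₀.b)⟩

theorem rtXgCen_eqns_cite : True := by
  have := @rtXgCen.eq_1
  trivial

/-- two exact charts with the same event map along a ray have the same row and the same times -/
theorem rt_xg_pap_uniq {Φ Ψ : RtCh} {S S' : Set RtRow} (hΦ : Φ.Ex S) (hΨ : Ψ.Ex S') {p : RtRow} (hp : p ∈ S) (hp' : p ∈ S') {I : Set ℝ}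
    (h : ∀ t ∈ I, Φ.den (p.ev t) ≠ 0 ∧ Ψ.den (p.ev t) ≠ 0 ∧ Φ.ev (p.ev t) = Ψ.ev (p.ev t)) {ta tb : ℝ} (ha : ta ∈ I) (hb : tb ∈ I)
    (hab : Ψ.tm p ta ≠ Ψ.tm p tb) : Φ.row p = Ψ.row p ∧ ∀ t ∈ I, Φ.tm p t = Ψ.tm p t := by
  have key : ∀ t ∈ I, (Φ.row p).ev (Φ.tm p t) = (Ψ.row p).ev (Ψ.tm p t) := by
    intro t ht
    obtain ⟨h1, h2, h3⟩ := h t ht
    rw [← hΦ.ray p hp t h1, ← hΨ.ray p hp' t h2, h3]
  have htm : ∀ t ∈ I, Φ.tm p t = Ψ.tm p t := fun t ht => congrArg RtEv.t (key t ht)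
  refine ⟨rt_ch_ev_inj hab ?_ ?_, htm⟩
  · have := key ta ha
    rwa [htm ta ha] at this
  · have := key tb hb
    rwa [htm tb hb] at this

theorem rt_xg_pap_add_comm (a b : RtEv) : a.add b = b.add a := by
  ext <;> simp only [RtEv.add, Prod.fst_add, Prod.snd_add] <;> ring

/-- the event maps: `DB_g LENS_1 DB_(-2g) LENS_(-1) DB_(g+β) = C_(0,(0,κ),0) DB_β` -/
theorem rt_xg_pap_ev (β κ : ℝ) (x : RtEv) (h1 : rtCfDen ⟨0, (0, 0), -1⟩ (rtCfDb (κ / 2 + β) x) ≠ 0)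
    (h2 : rtCfDen ⟨0, (0, κ), 0⟩ (rtCfDb β x) ≠ 0) :
    rtCfDen ⟨0, (0, 0), 1⟩ (rtCfDb (-κ) (rtCfMap ⟨0, (0, 0), -1⟩ (rtCfDb (κ / 2 + β) x))) ≠ 0 ∧
    rtCfDb (κ / 2) (rtCfMap ⟨0, (0, 0), 1⟩ (rtCfDb (-κ) (rtCfMap ⟨0, (0, 0), -1⟩ (rtCfDb (κ / 2 + β) x))))
      = rtCfMap ⟨0, (0, κ), 0⟩ (rtCfDb β x) := by
  set g : ℝ := κ / 2 with hg
  set Y : RtEv := rtCfDb β x with hY
  set vm : RtEv := ⟨0, (0, 0), -1⟩ with hvm
  set vp : RtEv := ⟨0, (0, 0), 1⟩ with hvp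
  set a : RtEv := rtCfDb (-g) vm with ha
  set b : RtEv := rtCfDb g vp with hb
  have eX1 : rtCfDb (g + β) x = rtCfDb g Y := by
    rw [hY, rt_cf_db_add, add_comm]
  have eY : rtCfDb (-g) (rtCfDb g Y) = Y := rt_cf_db_inv g Y
  -- the first conjugation
  have c1 : rtCfDb (-g) (rtCfMap vm (rtCfDb g Y)) = rtCfMap a Y := by
    rw [← rt_cf_conj_db, eY]
  have d1 : rtCfDen a Y = rtCfDen vm (rtCfDb g Y) := by
    have := rt_cf_den_db (-g) vm (rtCfDb g Y)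
    rw [eY] at this
    exact this
  have eX3 : rtCfDb (-κ) (rtCfMap vm (rtCfDb g Y)) = rtCfDb (-g) (rtCfMap a Y) := by
    rw [← c1, rt_cf_db_add (-g) (-g) (rtCfMap vm (rtCfDb g Y))]
    have e2 : -g + -g = -κ := by rw [hg]; ring
    rw [e2]
  have eZ : rtCfDb g (rtCfDb (-g) (rtCfMap a Y)) = rtCfMap a Y := by
    have := rt_cf_db_inv (-g) (rtCfMap a Y)
    rwa [neg_neg] at this
  have c2 : rtCfDb g (rtCfMap vp (rtCfDb (-g) (rtCfMap a Y))) = rtCfMap b (rtCfMap a Y) := by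
    rw [← rt_cf_conj_db, eZ]
  have d2 : rtCfDen b (rtCfMap a Y) = rtCfDen vp (rtCfDb (-g) (rtCfMap a Y)) := by
    have := rt_cf_den_db g vp (rtCfDb (-g) (rtCfMap a Y))
    rw [eZ] at this
    exact this
  have hab : a.add b = ⟨0, (0, κ), 0⟩ := by
    have := rt_cf_null_split κ 1 one_ne_zero
    rw [rt_xg_pap_add_comm, this]
    have e2 : κ / (2 * 1) = g := by rw [hg]; ring
    rw [e2]
    rfl
  have hDa : rtCfDen a Y ≠ 0 := by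
    rw [d1, ← eX1]
    exact h1
  have hmul := rt_cf_den_add a b Y hDa
  rw [hab] at hmul
  have hDb : rtCfDen b (rtCfMap a Y) ≠ 0 := by
    intro h0
    rw [h0, mul_zero] at hmul
    exact h2 hmul
  rw [eX1, eX3]
  refine ⟨?_, ?_⟩
  · rw [← d2]
    exact hDb
  · rw [c2, rt_cf_add a b Y hDa hDb, hab]

theorem rt_xg_pap_D0 {κ : ℝ} {p : RtRow} (hκ : |κ| ≤ 1) (hp : rtSq p.b ≤ (1 / 5 : ℝ) ^ 2) : rtCfD0 (0, κ) p ≠ 0 := by
  have h2 := rt_g1_abs_snd (by norm_num) hp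
  have h3 : |κ * p.b.2| ≤ 1 / 5 := by
    rw [abs_mul]
    calc |κ| * |p.b.2| ≤ 1 * (1 / 5) := mul_le_mul hκ h2 (abs_nonneg _) zero_le_one
      _ = 1 / 5 := one_mul _
  have h5 : 0 ≤ κ ^ 2 * rtSq p.b := mul_nonneg (sq_nonneg _) (rtSq_nonneg _)
  obtain ⟨h7, h8⟩ := abs_le.1 h3
  have : rtCfD0 (0, κ) p = 1 - 2 * (κ * p.b.2) + κ ^ 2 * rtSq p.b := by
    simp only [rtCfD0, rtIp, rtSq]
    ring
  rw [this]
  have : 0 < 1 - 2 * (κ * p.b.2) + κ ^ 2 * rtSq p.b := by linarith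
  exact this.ne'

/-- the events of a ray of the box at the times `|τ| ≤ 1/2` -/
theorem rt_xg_pap_evb {w : RtRow} (hw : w ∈ rtB3 (1 / 100) (1 / 100) (1 / 100)) {τ : ℝ} (hτ : |τ| ≤ 1 / 2) :
    |(w.ev τ).b.2| ≤ 3 / 200 ∧ |(w.ev τ).y| ≤ 11 / 1000 := by
  obtain ⟨hA, hb, hy⟩ := hw
  have a2 := rt_g1_abs_snd (by norm_num) hA
  have b2 := rt_g1_abs_snd (by norm_num) hb
  have hA0 := rtSq_nonneg w.A
  constructor
  · show |w.b.2 + τ * w.A.2| ≤ _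
    have : |τ * w.A.2| ≤ 1 / 2 * (1 / 100) := by
      rw [abs_mul]
      exact mul_le_mul hτ a2 (abs_nonneg _) (by norm_num)
    calc |w.b.2 + τ * w.A.2| ≤ |w.b.2| + |τ * w.A.2| := abs_add_le _ _
      _ ≤ 3 / 200 := by linarith
  · show |w.y + τ * rtSq w.A| ≤ _
    have : |τ * rtSq w.A| ≤ 1 / 2 * (1 / 100) ^ 2 := by
      rw [abs_mul, abs_of_nonneg hA0]
      exact mul_le_mul hτ hA hA0 (by norm_num)
    calc |w.y + τ * rtSq w.A| ≤ |w.y| + |τ * rtSq w.A| := abs_add_le _ _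
      _ ≤ 11 / 1000 := by linarith

/-- the first lens factor -/
theorem rt_xg_pap_den1 {γ : ℝ} (hγ : |γ| ≤ 1) {x : RtEv} (ht : |x.t| ≤ 1 / 2) (hb : |x.b.2| ≤ 3 / 200) (hy : |x.y| ≤ 11 / 1000) :
    rtCfDen ⟨0, (0, 0), -1⟩ (rtCfDb γ x) ≠ 0 := by
  have e : rtCfDen ⟨0, (0, 0), -1⟩ (rtCfDb γ x) = 1 - (x.t + 2 * (γ * x.b.2) + γ ^ 2 * x.y) := by
    simp only [rtCfDen, RtEv.pol, RtEv.q, rtCfDb, rtQ, rtIp, rtSq]
    ring
  have h1 : |γ * x.b.2| ≤ 3 / 200 := by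
    rw [abs_mul]
    calc |γ| * |x.b.2| ≤ 1 * (3 / 200) := mul_le_mul hγ hb (abs_nonneg _) zero_le_one
      _ = 3 / 200 := one_mul _
  have h4 : γ ^ 2 ≤ 1 := (sq_le_one_iff_abs_le_one γ).2 hγ
  have h2 : |γ ^ 2 * x.y| ≤ 11 / 1000 := by
    rw [abs_mul, abs_of_nonneg (sq_nonneg γ)]
    calc γ ^ 2 * |x.y| ≤ 1 * (11 / 1000) := mul_le_mul h4 hy (abs_nonneg _) zero_le_one
      _ = 11 / 1000 := one_mul _
  rw [e]
  have := abs_le.1 ht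
  have := abs_le.1 h1
  have := abs_le.1 h2
  have : 0 < 1 - (x.t + 2 * (γ * x.b.2) + γ ^ 2 * x.y) := by linarith
  exact this.ne'

/-- the conformal factor of the flattening map -/
theorem rt_xg_pap_den2 {β κ : ℝ} (hβ : |β| ≤ 1) (hκ : |κ| ≤ 1) {x : RtEv} (ht : |x.t| ≤ 1 / 2) (hb : |x.b.2| ≤ 3 / 200) (hy : |x.y| ≤ 11 / 1000) :
    rtCfDen ⟨0, (0, κ), 0⟩ (rtCfDb β x) ≠ 0 := by
  have e : rtCfDen ⟨0, (0, κ), 0⟩ (rtCfDb β x) = 1 - 2 * (κ * (x.b.2 + β * x.y)) + κ ^ 2 * (x.b.1 ^ 2 + x.b.2 ^ 2) - κ ^ 2 * (x.t * x.y) := by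
    simp only [rtCfDen, RtEv.pol, RtEv.q, rtCfDb, rtQ, rtIp, rtSq]
    ring
  have h0 : |β * x.y| ≤ 11 / 1000 := by
    rw [abs_mul]
    calc |β| * |x.y| ≤ 1 * (11 / 1000) := mul_le_mul hβ hy (abs_nonneg _) zero_le_one
      _ = 11 / 1000 := one_mul _
  have h1 : |κ * (x.b.2 + β * x.y)| ≤ 26 / 1000 := by
    rw [abs_mul]
    have : |x.b.2 + β * x.y| ≤ 26 / 1000 := (abs_add_le _ _).trans (by linarith)
    calc |κ| * |x.b.2 + β * x.y| ≤ 1 * (26 / 1000) := mul_le_mul hκ this (abs_nonneg _) zero_le_one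
      _ = 26 / 1000 := one_mul _
  have h4 : κ ^ 2 ≤ 1 := (sq_le_one_iff_abs_le_one κ).2 hκ
  have h3 : |x.t * x.y| ≤ 1 / 2 * (11 / 1000) := by
    rw [abs_mul]
    exact mul_le_mul ht hy (abs_nonneg _) (by norm_num)
  have h2 : |κ ^ 2 * (x.t * x.y)| ≤ 11 / 2000 := by
    rw [abs_mul, abs_of_nonneg (sq_nonneg κ)]
    calc κ ^ 2 * |x.t * x.y| ≤ 1 * (1 / 2 * (11 / 1000)) := mul_le_mul h4 h3 (abs_nonneg _) zero_le_one
      _ = 11 / 2000 := by norm_num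
  have h5 : 0 ≤ κ ^ 2 * (x.b.1 ^ 2 + x.b.2 ^ 2) := by positivity
  rw [e]
  have := abs_le.1 h1
  have := abs_le.1 h2
  have : 0 < 1 - 2 * (κ * (x.b.2 + β * x.y)) + κ ^ 2 * (x.b.1 ^ 2 + x.b.2 ^ 2) - κ ^ 2 * (x.t * x.y) := by linarith
  exact this.ne'

/-- **the transport chart is `C_(0,(0,κ),0) ∘ DB_β`** on the rows of the box and the times `|τ| ≤ 1/2` -/
theorem rt_xg_pap_core {β κ : ℝ} (hβ : |β| ≤ 1 / 4) (hκ : |κ| ≤ 1) {w : RtRow} (hw : w ∈ rtB3 (1 / 100) (1 / 100) (1 / 100)) :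
    (rtChN β κ).row w = ((rtChCf (0, κ) 0).comp (rtChDb β)).row w ∧
      ∀ τ : ℝ, |τ| ≤ 1 / 2 → (rtChN β κ).tm w τ = ((rtChCf (0, κ) 0).comp (rtChDb β)).tm w τ ∧ ((rtChCf (0, κ) 0).comp (rtChDb β)).dn w τ ≠ 0 := by
  have hg : |κ / 2| ≤ 1 := by
    rw [abs_div, abs_of_pos (by norm_num : (0 : ℝ) < 2)]
    linarith
  have hγ : |κ / 2 + β| ≤ 1 := by
    refine (abs_add_le _ _).trans ?_
    rw [abs_div, abs_of_pos (by norm_num : (0 : ℝ) < 2)]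
    linarith
  have hβ1 : |β| ≤ 1 := by linarith
  have hκn : |-κ| ≤ 1 := by rwa [abs_neg]
  -- the chain of boxes
  have w1 : (rtChDb (κ / 2 + β)).row w ∈ rtB3 (11 / 1000) (21 / 1000) (11 / 1000) := by
    have := rt_xg_b3_db hγ (by norm_num) (by norm_num) (by norm_num) (by norm_num) hw
    refine rt_xg_ag_b3_mono (by norm_num) (by norm_num) (by positivity) ?_ (by norm_num) this
    nlinarith
  have w2 : (rtChLn (-1)).row ((rtChDb (κ / 2 + β)).row w) ∈ rtB3 (32 / 1000) (21 / 1000) (12 / 1000) := by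
    have := rt_xg_b3_ln (c := -1) (by norm_num) (by norm_num) (by norm_num) w1
    exact rt_xg_ag_b3_mono (by norm_num) (by norm_num) (by norm_num) (by norm_num) (by norm_num) this
  have w3 : (rtChDb (-κ)).row ((rtChLn (-1)).row ((rtChDb (κ / 2 + β)).row w)) ∈ rtB3 (37 / 1000) (37 / 1000) (13 / 1000) := by
    have := rt_xg_b3_db hκn (by norm_num) (by norm_num) (by norm_num) (by norm_num) w2
    refine rt_xg_ag_b3_mono (by norm_num) (by norm_num) (by positivity) ?_ (by norm_num) this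
    nlinarith
  have w4 : (rtChLn 1).row ((rtChDb (-κ)).row ((rtChLn (-1)).row ((rtChDb (κ / 2 + β)).row w))) ∈ rtB3 (74 / 1000) (37 / 1000) (15 / 1000) := by
    have := rt_xg_b3_ln (c := 1) (by norm_num) (by norm_num) (by norm_num) w3
    exact rt_xg_ag_b3_mono (by norm_num) (by norm_num) (by norm_num) (by norm_num) (by norm_num) this
  have v1 : (rtChDb β).row w ∈ rtB3 (11 / 1000) (21 / 1000) (11 / 1000) := by
    have := rt_xg_b3_db hβ1 (by norm_num) (by norm_num) (by norm_num) (by norm_num) hw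
    refine rt_xg_ag_b3_mono (by norm_num) (by norm_num) (by positivity) ?_ (by norm_num) this
    nlinarith
  have Qne : ∀ {γ a : ℝ} {p : RtRow} {b c : ℝ}, |γ| ≤ 1 → a ≤ 1 / 5 → 0 ≤ a → p ∈ rtB3 a b c → rtCfQ γ p ≠ 0 := by
    intro γ a p b c h1 h2 h3 h4
    have := (rt_xg_dbc_Q h1 (h4.1.trans (pow_le_pow_left₀ h3 h2 2))).1
    intro h0
    rw [h0] at this
    norm_num at this
  have D1 : ∀ p : RtRow, rtCfD0 (0, 0) p ≠ 0 := by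
    intro p
    simp [rtCfD0, rtIp, rtSq]
  -- exactness
  have exN := (rt_ch_db_ex (κ / 2)).comp ((rt_ch_cf_ex (0, 0) 1).comp ((rt_ch_db_ex (-κ)).comp ((rt_ch_cf_ex (0, 0) (-1)).comp (rt_ch_db_ex (κ / 2 + β)))))
  have exM := (rt_ch_cf_ex (0, κ) 0).comp (rt_ch_db_ex β)
  have memN : w ∈ {p | p ∈ {p | p ∈ {p | p ∈ {p | p ∈ {p | rtCfQ (κ / 2 + β) p ≠ 0} ∧ (rtChDb (κ / 2 + β)).row p ∈ {p | rtCfD0 (0, 0) p ≠ 0}} ∧
      ((rtChCf (0, 0) (-1)).comp (rtChDb (κ / 2 + β))).row p ∈ {p | rtCfQ (-κ) p ≠ 0}} ∧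
      ((rtChDb (-κ)).comp ((rtChCf (0, 0) (-1)).comp (rtChDb (κ / 2 + β)))).row p ∈ {p | rtCfD0 (0, 0) p ≠ 0}} ∧
      ((rtChCf (0, 0) 1).comp ((rtChDb (-κ)).comp ((rtChCf (0, 0) (-1)).comp (rtChDb (κ / 2 + β))))).row p ∈ {p | rtCfQ (κ / 2) p ≠ 0}} :=
    ⟨⟨⟨⟨Qne hγ (by norm_num) (by norm_num) hw, D1 _⟩, Qne hκn (by norm_num) (by norm_num) w2⟩, D1 _⟩, Qne hg (by norm_num) (by norm_num) w4⟩
  have memM : w ∈ {p | p ∈ {p | rtCfQ β p ≠ 0} ∧ (rtChDb β).row p ∈ {p | rtCfD0 (0, κ) p ≠ 0}} :=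
    ⟨Qne hβ1 (by norm_num) (by norm_num) hw, rt_xg_pap_D0 hκ (v1.2.1.trans (by norm_num))⟩
  -- the events
  have hev : ∀ τ ∈ {τ : ℝ | |τ| ≤ 1 / 2}, (rtChN β κ).den (w.ev τ) ≠ 0 ∧ ((rtChCf (0, κ) 0).comp (rtChDb β)).den (w.ev τ) ≠ 0 ∧
      (rtChN β κ).ev (w.ev τ) = ((rtChCf (0, κ) 0).comp (rtChDb β)).ev (w.ev τ) := by
    intro τ hτ
    obtain ⟨hb, hy⟩ := rt_xg_pap_evb hw hτ
    have d1 := rt_xg_pap_den1 hγ (x := w.ev τ) hτ hb hy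
    have d2 := rt_xg_pap_den2 hβ1 hκ (x := w.ev τ) hτ hb hy
    obtain ⟨d3, e⟩ := rt_xg_pap_ev β κ (w.ev τ) d1 d2
    refine ⟨?_, ?_, e⟩
    · show (1 : ℝ) * (rtCfDen ⟨0, (0, 0), 1⟩ _ * (1 * (rtCfDen ⟨0, (0, 0), -1⟩ _ * 1))) ≠ 0
      rw [one_mul, one_mul, mul_one]
      exact mul_ne_zero d3 d1
    · show rtCfDen ⟨0, (0, κ), 0⟩ _ * 1 ≠ 0
      rw [mul_one]
      exact d2
  have hdn : ∀ τ : ℝ, |τ| ≤ 1 / 2 → ((rtChCf (0, κ) 0).comp (rtChDb β)).dn w τ ≠ 0 := by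
    intro τ hτ
    rw [← exM.den_ray w memM τ (hev τ hτ).2.1]
    exact (hev τ hτ).2.1
  have h0 : (0 : ℝ) ∈ {τ : ℝ | |τ| ≤ 1 / 2} := by
    show |(0 : ℝ)| ≤ 1 / 2
    rw [abs_zero]
    norm_num
  have h12 : (1 / 2 : ℝ) ∈ {τ : ℝ | |τ| ≤ 1 / 2} := by
    show |(1 / 2 : ℝ)| ≤ 1 / 2
    rw [abs_of_pos (by norm_num)]
  have hne : ((rtChCf (0, κ) 0).comp (rtChDb β)).tm w 0 ≠ ((rtChCf (0, κ) 0).comp (rtChDb β)).tm w (1 / 2) := by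
    intro h
    have := rt_ch_tm_sub ((rtChCf (0, κ) 0).comp (rtChDb β)) w (hdn 0 h0) (hdn (1 / 2) h12)
    rw [h, sub_self, rt_ch_comp_wr] at this
    have hw1 : (rtChCf (0, κ) 0).wr ((rtChDb β).row w) = rtCfD0 (0, κ) ((rtChDb β).row w) := by
      simp [RtCh.wr, rtChCf]
    have hw2 : (rtChDb β).wr w = rtCfQ β w := by
      simp [RtCh.wr, rtChDb]
    rw [hw1, hw2] at this
    have hz := (div_eq_zero_iff.1 this.symm).resolve_right (mul_ne_zero (hdn 0 h0) (hdn (1 / 2) h12))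
    have : rtCfD0 (0, κ) ((rtChDb β).row w) * rtCfQ β w * (1 / 2 - 0) ≠ 0 :=
      mul_ne_zero (mul_ne_zero memM.2 memM.1) (by norm_num)
    exact this hz
  obtain ⟨hr, ht⟩ := rt_xg_pap_uniq exN exM memN memM hev h0 h12 hne
  exact ⟨hr, fun τ hτ => ⟨ht τ hτ, hdn τ hτ⟩⟩

theorem rt_xg_pap_assoc (Φ Ψ Χ : RtCh) : (Φ.comp Ψ).comp Χ = Φ.comp (Ψ.comp Χ) := by
  simp only [RtCh.comp, RtCh.mk.injEq]
  refine ⟨trivial, ?_, trivial, ?_, ?_, ?_, ?_, trivial⟩ <;> funext x <;> ring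

/-- scaling and dual boost, rows -/
theorem rt_xg_pap_sc_db (l r β : ℝ) (hl : l ≠ 0) (hr : r ≠ 0) (u : RtRow) :
    (rtChSc l r).row ((rtChDb β).row u) = (rtChDb (β * r)).row ((rtChSc l r).row u) := by
  have hQ : rtCfQ (β * r) ((rtChSc l r).row u) = rtCfQ β u := by
    simp only [rtCfQ, rtChSc, rtSq, Prod.smul_fst, Prod.smul_snd, smul_eq_mul]
    field_simp
  have hT : rtCfT0 (β * r) ((rtChSc l r).row u) = rtCfT0 β u / l := by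
    simp only [rtCfT0, rtChSc, Prod.smul_snd, smul_eq_mul]
    field_simp
  show (rtChSc l r).row (rtCfRowDb β u) = rtCfRowDb (β * r) ((rtChSc l r).row u)
  unfold rtCfRowDb
  rw [hQ, hT]
  generalize rtCfQ β u = Q
  generalize rtCfT0 β u = T0
  simp only [div_eq_mul_inv]
  generalize Q⁻¹ = Qi
  ext <;> simp only [rtChSc, rtSq, Prod.smul_fst, Prod.smul_snd, smul_eq_mul] <;> field_simp

/-- scaling and dual boost, times -/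
theorem rt_xg_pap_sc_db_tm (l r β : ℝ) (hl : l ≠ 0) (hr : r ≠ 0) (u : RtRow) (s : ℝ) :
    (rtChDb (β * r)).tm ((rtChSc l r).row u) (s / l) = (rtChDb β).tm u s / l := by
  simp only [rtChDb, RtCh.tm, RtCh.dn, mul_zero, add_zero, div_one, rtCfQ, rtCfT0, rtChSc, rtSq, Prod.smul_fst, Prod.smul_snd, smul_eq_mul]
  field_simp

theorem rt_xg_pap_sc_D0 (l r k : ℝ) (hl : l ≠ 0) (hr : r ≠ 0) (v : RtRow) : rtCfD0 (0, l * k * r) ((rtChSc l r).row v) = rtCfD0 (0, k) v := by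
  simp only [rtCfD0, rtChSc, rtSq, rtIp, Prod.smul_fst, Prod.smul_snd, smul_eq_mul]
  field_simp
  ring

theorem rt_xg_pap_sc_D1 (l r k : ℝ) (hl : l ≠ 0) (hr : r ≠ 0) (v : RtRow) : rtCfD1 (0, l * k * r) 0 ((rtChSc l r).row v) = l * rtCfD1 (0, k) 0 v := by
  simp only [rtCfD1, rtChSc, rtSq, rtIp, Prod.smul_fst, Prod.smul_snd, smul_eq_mul]
  field_simp
  ring

/-- scaling and flattening map, rows -/
theorem rt_xg_pap_sc_cf (l r k : ℝ) (hl : l ≠ 0) (hr : r ≠ 0) (v : RtRow) :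
    (rtChSc l r).row ((rtChCf (0, k) 0).row v) = (rtChCf (0, l * k * r) 0).row ((rtChSc l r).row v) := by
  show (rtChSc l r).row (rtCfRow (0, k) 0 v) = rtCfRow (0, l * k * r) 0 ((rtChSc l r).row v)
  unfold rtCfRow
  rw [rt_xg_pap_sc_D0 l r k hl hr, rt_xg_pap_sc_D1 l r k hl hr]
  generalize rtCfD0 (0, k) v = D0
  generalize rtCfD1 (0, k) 0 v = D1
  simp only [div_eq_mul_inv]
  generalize D0⁻¹ = Di
  ext <;> simp only [rtChSc, rtSq, rtIp, Prod.smul_fst, Prod.smul_snd, smul_eq_mul, Prod.fst_add, Prod.snd_add, Prod.fst_sub, Prod.snd_sub] <;> field_simp <;> ring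

/-- scaling and flattening map, times -/
theorem rt_xg_pap_sc_cf_tm (l r k : ℝ) (hl : l ≠ 0) (hr : r ≠ 0) (v : RtRow) (s : ℝ) :
    (rtChCf (0, l * k * r) 0).tm ((rtChSc l r).row v) (s / l) = (rtChCf (0, k) 0).tm v s / l := by
  show (0 + s / l * 1) / (rtCfD0 (0, l * k * r) ((rtChSc l r).row v) + s / l * rtCfD1 (0, l * k * r) 0 ((rtChSc l r).row v))
    = (0 + s * 1) / (rtCfD0 (0, k) v + s * rtCfD1 (0, k) 0 v) / l
  rw [rt_xg_pap_sc_D0 l r k hl hr, rt_xg_pap_sc_D1 l r k hl hr]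
  have : s / l * (l * rtCfD1 (0, k) 0 v) = s * rtCfD1 (0, k) 0 v := by
    field_simp
  rw [this]
  ring

/-- a scaling on the left, times -/
theorem rt_xg_pap_sc_tm (l r : ℝ) (hr : r ≠ 0) (X : RtCh) (p : RtRow) (t : ℝ) : ((rtChSc l r).comp X).tm p t = X.tm p t / l := by
  show (0 * X.d0 p + r * X.a0 p + t * (0 * X.d1 p + r * X.a1 p)) / (l * r * X.d0 p + 0 * X.a0 p + t * (l * r * X.d1 p + 0 * X.a1 p))
    = (X.a0 p + t * X.a1 p) / (X.d0 p + t * X.d1 p) / l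
  have e1 : 0 * X.d0 p + r * X.a0 p + t * (0 * X.d1 p + r * X.a1 p) = r * (X.a0 p + t * X.a1 p) := by ring
  have e2 : l * r * X.d0 p + 0 * X.a0 p + t * (l * r * X.d1 p + 0 * X.a1 p) = r * ((X.d0 p + t * X.d1 p) * l) := by ring
  rw [e1, e2, mul_div_mul_left _ _ hr, div_div]

/-- the linear parts -/
theorem rt_xg_pap_lin (θ l₀ r₀ r₂ : ℝ) (c₀ p₀ : RtRow) (e : ℝ × ℝ) (hl : l₀ ≠ 0) (hr : r₀ ≠ 0) (h2 : r₂ ≠ 0) (p : RtRow) :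
    (rtChS θ (4 * l₀) (r₂ * r₀) (rtXgCen l₀ r₀ c₀ p₀) e).row p
      = (rtChSc 4 r₂).row ((rtChRot e).row ((rtChCen p₀).row ((rtChSc l₀ r₀).row ((rtChCen c₀).row ((rtChTr θ).row p))))) := by
  generalize hP : (rtChTr θ).row p = P
  have : (rtChS θ (4 * l₀) (r₂ * r₀) (rtXgCen l₀ r₀ c₀ p₀) e).row p
      = (rtChSc (4 * l₀) (r₂ * r₀)).row ((rtChRot e).row ((rtChCen (rtXgCen l₀ r₀ c₀ p₀)).row ((rtChTr θ).row p))) := rfl
  rw [this, hP]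
  ext <;> simp only [rtChSc, rtChRot, rtChCen, rtCfRowRot, rtCfRowCen, rtXgCen, rtRot, rtIp, Prod.smul_fst, Prod.smul_snd, smul_eq_mul, Prod.fst_add, Prod.snd_add, Prod.fst_sub, Prod.snd_sub] <;> field_simp <;> ring

/-- LEAF `L-256-RT-XG-PAP`.  **the five exact factors after the normalising chart = the chart of the paper up to the scaling `Sc(4, r₂)`**, on rows and times.
`Sc ∘ Cf_(0,k) = Cf_(0, 4 r₂ k) ∘ Sc`, `Sc ∘ Db_β = Db_(r₂ β) ∘ Sc`, `Sc ∘ Rot = Rot ∘ Sc`, `Cen p₀ ∘ Sc ∘ Cen c₀ = Sc ∘ Cen c`, `Cf_(0,κ) = DB_g LENS_1 DB_(-2g) LENS_(-1) DB_g` (`rt_cf_null_split`, `rt_cf_conj_db`, `rt_cf_add`; or `field_simp; ring` on the explicit rational maps).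
The hypothesis `hdn`: all the intermediate conformal factors are nonzero (add the ones you need as further hypotheses and TELL helper76; on the patch they are all in `[1/2, 2]`). -/
theorem rt_xg_paper (θ l₀ r₀ r₂ : ℝ) (c₀ p₀ : RtRow) (n : RtPoly) (hl : 0 < l₀) (hr : 0 < r₀) (h2 : 0 < r₂) (he : rtSq (n.g 0 p₀.b p₀.A) = 1) (p : RtRow) (t : ℝ)
    (hbox : (rtChS θ (4 * l₀) (r₂ * r₀) (rtXgCen l₀ r₀ c₀ p₀) (n.g 0 p₀.b p₀.A)).row p ∈ rtB3 (1 / 100) (1 / 100) (1 / 100))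
    (hβ : |n.be * r₂| ≤ 1 / 4) (hκ : |4 * n.k * r₂| ≤ 1) (ht : |(t - θ) / (4 * l₀)| ≤ 1 / 2) :
    ((rtChDb (4 * n.k * r₂ / 2)).comp ((rtChLn 1).comp ((rtChDb (-(4 * n.k * r₂))).comp ((rtChLn (-1)).comp ((rtChDb (4 * n.k * r₂ / 2 + n.be * r₂)).comp
        (rtChS θ (4 * l₀) (r₂ * r₀) (rtXgCen l₀ r₀ c₀ p₀) (n.g 0 p₀.b p₀.A))))))).row p
      = ((rtChSc 4 r₂).comp ((rtChart p₀ n).comp (((rtChSc l₀ r₀).comp (rtChCen c₀)).comp (rtChTr θ)))).row p ∧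
    ((rtChDb (4 * n.k * r₂ / 2)).comp ((rtChLn 1).comp ((rtChDb (-(4 * n.k * r₂))).comp ((rtChLn (-1)).comp ((rtChDb (4 * n.k * r₂ / 2 + n.be * r₂)).comp
        (rtChS θ (4 * l₀) (r₂ * r₀) (rtXgCen l₀ r₀ c₀ p₀) (n.g 0 p₀.b p₀.A))))))).tm p t
      = ((rtChSc 4 r₂).comp ((rtChart p₀ n).comp (((rtChSc l₀ r₀).comp (rtChCen c₀)).comp (rtChTr θ)))).tm p t := by
  set e : ℝ × ℝ := n.g 0 p₀.b p₀.A with hedef
  set S : RtCh := rtChS θ (4 * l₀) (r₂ * r₀) (rtXgCen l₀ r₀ c₀ p₀) e with hS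
  set κ : ℝ := 4 * n.k * r₂ with hκdef
  set β : ℝ := n.be * r₂ with hβdef
  set u : RtRow := (rtChRot e).row ((rtChCen p₀).row ((rtChSc l₀ r₀).row ((rtChCen c₀).row ((rtChTr θ).row p)))) with hu
  have h4 : (4 : ℝ) ≠ 0 := by norm_num
  obtain ⟨hrow, htm⟩ := rt_xg_pap_core hβ hκ hbox
  have hlin : S.row p = (rtChSc 4 r₂).row u := rt_xg_pap_lin θ l₀ r₀ r₂ c₀ p₀ e hl.ne' hr.ne' h2.ne' p
  have hdb : (rtChSc 4 r₂).row ((rtChDb n.be).row u) = (rtChDb β).row (S.row p) := by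
    rw [rt_xg_pap_sc_db 4 r₂ n.be h4 h2.ne', hlin]
  have hL : (rtChDb (κ / 2)).comp ((rtChLn 1).comp ((rtChDb (-κ)).comp ((rtChLn (-1)).comp ((rtChDb (κ / 2 + β)).comp S)))) = (rtChN β κ).comp S := by
    unfold rtChN
    simp only [rt_xg_pap_assoc]
  rw [hL]
  refine ⟨?_, ?_⟩
  · show (rtChN β κ).row (S.row p) = (rtChSc 4 r₂).row ((rtChCf (0, n.k) 0).row ((rtChDb n.be).row u))
    rw [hrow, rt_xg_pap_sc_cf 4 r₂ n.k h4 h2.ne', hdb]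
    rfl
  · have hSdn : S.dn p t ≠ 0 := by
      rw [hS, rt_xg_xs_dn]
      positivity
    have hStm : S.tm p t = (t - θ) / (4 * l₀) := rt_xs_tm θ (4 * l₀) (r₂ * r₀) _ e (by positivity) (by positivity) p t
    rw [rt_ch_comp_tm _ _ _ _ hSdn, hStm, (htm _ ht).1, rt_xg_pap_sc_tm 4 r₂ h2.ne']
    -- the right side
    have hL0dn : (((rtChSc l₀ r₀).comp (rtChCen c₀)).comp (rtChTr θ)).dn p t = l₀ * r₀ := by
      simp only [RtCh.dn, RtCh.comp, rtChSc, rtChCen, rtChTr]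
      ring
    have hL0tm : (((rtChSc l₀ r₀).comp (rtChCen c₀)).comp (rtChTr θ)).tm p t = (t - θ) / l₀ := by
      simp only [RtCh.tm, RtCh.dn, RtCh.comp, rtChSc, rtChCen, rtChTr]
      field_simp
      ring
    have hKdn : ∀ (q : RtRow) (s : ℝ), ((rtChRot e).comp (rtChCen p₀)).dn q s = 1 := by
      intro q s
      simp only [RtCh.dn, RtCh.comp, rtChRot, rtChCen]
      ring
    have hKtm : ∀ (q : RtRow) (s : ℝ), ((rtChRot e).comp (rtChCen p₀)).tm q s = s := by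
      intro q s
      simp only [RtCh.tm, RtCh.dn, RtCh.comp, rtChRot, rtChCen]
      ring_nf
    have hDdn : ∀ (q : RtRow) (s : ℝ), ((rtChDb n.be).comp ((rtChRot e).comp (rtChCen p₀))).dn q s = 1 := by
      intro q s
      simp only [RtCh.dn, RtCh.comp, rtChRot, rtChCen, rtChDb]
      ring
    have hch : rtChart p₀ n = (rtChCf (0, n.k) 0).comp ((rtChDb n.be).comp ((rtChRot e).comp (rtChCen p₀))) := rfl
    have hR : ((rtChart p₀ n).comp (((rtChSc l₀ r₀).comp (rtChCen c₀)).comp (rtChTr θ))).tm p t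
        = (rtChCf (0, n.k) 0).tm ((rtChDb n.be).row u) ((rtChDb n.be).tm u ((t - θ) / l₀)) := by
      rw [rt_ch_comp_tm (rtChart p₀ n) _ p t (by rw [hL0dn]; positivity), hL0tm, hch,
        rt_ch_comp_tm (rtChCf (0, n.k) 0) _ _ _ (by rw [hDdn]; exact one_ne_zero),
        rt_ch_comp_tm (rtChDb n.be) _ _ _ (by rw [hKdn]; exact one_ne_zero), hKtm]
      rfl
    rw [hR, ← rt_xg_pap_sc_cf_tm 4 r₂ n.k h4 h2.ne', ← rt_xg_pap_sc_db_tm 4 r₂ n.be h4 h2.ne', hdb, ← hlin,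
      rt_ch_comp_tm (rtChCf (0, κ) 0) (rtChDb β) _ _ (by rw [rt_xg_dn_db]; exact one_ne_zero), div_div, mul_comm l₀ 4]

end Claimed.Agent.R256
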