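import Claimed.Agent.R256.Rt.XgComp

/-!
# Row 256, folder Rt, block I1, unit XG (GEOMETRY OF ASSOCIATIONS), file 3 : TRACKING, NEAR ⟺ BOX, WINDOWS, FAR, MEASURABILITY      (unit architect helper136; consumer: unit XN, helper68; prefix `rt_xg_`)

Paper free.   Shapes of `Rt/XnDefs.lean` (`rtXnBx α β γ`, `RtXnTk`, `rtXnS`, `rtXnZ`).
* (T) TRACKING.   DB, `|c| ≤ g`, `g α < 1`:   `α' = α/(1-gα)`, `τ₀ = 2gβ + g²γ`, `β' = β + gγ + τ₀α'`, `γ' = γ + τ₀α'²` (`rt_xg_db_row`), `|t' - t| ≤ τ₀ + |t|(2gα + g²α²)` (`rt_xg_db_time`).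
                  LENS, `|c| ≤ 1`:   `α' = α + β`, `β' = β`, `γ' = γ + β²` (`rt_xg_ln_row`), `t' = t/(1+ct)` (`rt_xg_ln_fm`).      `RtXnTk`: `rt_xg_tk_comp` (generic), `rt_xg_tk_db`, `rt_xg_tk_ln`.
* (N) NEAR ⟹ BOX, both ways: `rt_xg_bx_of_near` (arbitrary scales `Λd, Λq, ΛH ≤ e`: radii `+e, +2e, +3e`), `rt_xg_asp_bx` (for `RtAsP`), `rt_xg_ps_far` (the hypothesis of `rt_xk_far`).
* (W) WINDOWS: `rt_xg_clock`, `rt_xg_win_db`, `rt_xg_win_ln`.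
* (M) measurability and finite volume of the regions.
-/

set_option autoImplicit false

namespace Claimed.Agent.R256

open MeasureTheory

/-! ## (T) tracking -/

/-- LEAF `L-256-RT-XG-TD1`.   `Q = (1 + cA₂)² + c²A₁² ≥ (1 - gα)²`;   `A₁² + (A₂ + c|A|²)² = |A|² Q`, so `|A'|² = |A|²/Q`. -/
theorem rt_xg_db_A {c g α : ℝ} {P : RtRow} (hc : |c| ≤ g) (hα : 0 ≤ α) (hg : g * α < 1) (hA : rtSq P.A ≤ α ^ 2) :
    (1 - g * α) ^ 2 ≤ rtCfQ c P ∧ rtSq ((rtChDb c).row P).A = rtSq P.A / rtCfQ c P ∧ rtSq ((rtChDb c).row P).A ≤ (α / (1 - g * α)) ^ 2 := by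
  have hS : rtSq P.A = P.A.1 ^ 2 + P.A.2 ^ 2 := rfl
  have hS0 : 0 ≤ rtSq P.A := by rw [hS]; positivity
  have h2 : |P.A.2| ≤ α := by
    apply abs_le_of_sq_le_sq _ hα
    rw [hS] at hA
    nlinarith [sq_nonneg P.A.1]
  have h3 : |c * P.A.2| ≤ g * α := by
    rw [abs_mul]
    exact mul_le_mul hc h2 (abs_nonneg _) ((abs_nonneg _).trans hc)
  have h4 : 1 - g * α ≤ 1 + c * P.A.2 := by
    have := (abs_le.1 h3).1
    linarith
  have h5 : 0 < 1 - g * α := by linarith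
  have hQ : rtCfQ c P = (1 + c * P.A.2) ^ 2 + c ^ 2 * P.A.1 ^ 2 := by
    unfold rtCfQ
    rw [hS]
    ring
  have h6 : (1 - g * α) ^ 2 ≤ rtCfQ c P := by
    rw [hQ]
    have : (1 - g * α) ^ 2 ≤ (1 + c * P.A.2) ^ 2 := pow_le_pow_left₀ h5.le h4 2
    nlinarith [mul_nonneg (sq_nonneg c) (sq_nonneg P.A.1)]
  have hQ0 : 0 < rtCfQ c P := lt_of_lt_of_le (by positivity) h6
  have h7 : rtSq ((rtChDb c).row P).A = rtSq P.A / rtCfQ c P := by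
    show (P.A.1 / rtCfQ c P) ^ 2 + ((P.A.2 + c * rtSq P.A) / rtCfQ c P) ^ 2 = _
    have e : P.A.1 ^ 2 + (P.A.2 + c * rtSq P.A) ^ 2 = rtSq P.A * rtCfQ c P := by
      unfold rtCfQ
      rw [hS]
      ring
    rw [div_pow, div_pow, ← add_div, e]
    field_simp
  refine ⟨h6, h7, ?_⟩
  rw [h7, div_pow]
  exact div_le_div₀ (by positivity) hA (by positivity) h6

/-- LEAF `L-256-RT-XG-TD2`.   `b' = (b₁, b₂ + c y) - T0 • A'`, `y' = y - T0 |A'|²`, `|T0| ≤ τ₀ = 2gβ + g²γ`; `rt_xg_db_A`, `rt_g2_sq_add`, `rt_k_sq_smul`-type identities. -/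
theorem rt_xg_db_row {c g α β γ : ℝ} {P : RtRow} (hc : |c| ≤ g) (hα : 0 ≤ α) (hβ : 0 ≤ β) (hg : g * α < 1) (hP : P ∈ rtXnBx α β γ) :
    (rtChDb c).row P ∈ rtXnBx (α / (1 - g * α)) (β + g * γ + (2 * g * β + g ^ 2 * γ) * (α / (1 - g * α))) (γ + (2 * g * β + g ^ 2 * γ) * (α / (1 - g * α)) ^ 2) := by
  obtain ⟨hA, hb, hy⟩ := hP
  obtain ⟨-, hAe, hA'⟩ := rt_xg_db_A hc hα hg hA
  have hg0 : 0 ≤ g := (abs_nonneg c).trans hc
  have hγ : 0 ≤ γ := (abs_nonneg _).trans hy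
  have h1g : 0 < 1 - g * α := by linarith
  have hα' : 0 ≤ α / (1 - g * α) := div_nonneg hα h1g.le
  have hb2 : |P.b.2| ≤ β := by
    refine abs_le_of_sq_le_sq ?_ hβ
    unfold rtSq at hb
    nlinarith [sq_nonneg P.b.1]
  have a1 : |c * P.b.2| ≤ g * β := by
    rw [abs_mul]
    exact mul_le_mul hc hb2 (abs_nonneg _) hg0
  have a2 : |c ^ 2 * P.y| ≤ g ^ 2 * γ := by
    rw [abs_mul, abs_pow]
    exact mul_le_mul (pow_le_pow_left₀ (abs_nonneg _) hc 2) hy (abs_nonneg _) (by positivity)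
  have a3 : |c * P.y| ≤ g * γ := by
    rw [abs_mul]
    exact mul_le_mul hc hy (abs_nonneg _) hg0
  have hT0 : |rtCfT0 c P| ≤ 2 * g * β + g ^ 2 * γ := by
    unfold rtCfT0
    have e : 2 * c * P.b.2 + c ^ 2 * P.y = 2 * (c * P.b.2) + c ^ 2 * P.y := by ring
    rw [e]
    refine (abs_add_le _ _).trans ?_
    rw [abs_mul, abs_two]
    linarith
  have hτ : 0 ≤ 2 * g * β + g ^ 2 * γ := by positivity
  have hsq0 : 0 ≤ rtSq ((rtChDb c).row P).A := rtSq_nonneg _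
  refine ⟨hA', ?_, ?_⟩
  · have e : ((rtChDb c).row P).b = (P.b + (0, c * P.y)) + (-(rtCfT0 c P)) • ((rtChDb c).row P).A := by
      ext
      · simp [rtChDb, rtCfRowDb]
        ring
      · simp [rtChDb, rtCfRowDb]
        ring
    rw [e]
    refine rt_g2_sq_add (by positivity) (by positivity) (rt_g2_sq_add hβ (by positivity) hb ?_) ?_
    · have : rtSq ((0 : ℝ), c * P.y) = (c * P.y) ^ 2 := by simp [rtSq]
      rw [this]
      exact sq_le_sq' (by linarith [(abs_le.1 a3).1]) (abs_le.1 a3).2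
    · have esm : ∀ (t : ℝ) (v : ℝ × ℝ), rtSq (t • v) = t ^ 2 * rtSq v := by
        intro t v
        unfold rtSq
        simp only [Prod.smul_fst, Prod.smul_snd, smul_eq_mul]
        ring
      rw [esm, mul_pow]
      refine mul_le_mul ?_ hA' hsq0 (by positivity)
      rw [neg_sq]
      exact sq_le_sq' (by linarith [(abs_le.1 hT0).1]) (abs_le.1 hT0).2
  · show |P.y - rtCfT0 c P * (rtSq P.A / rtCfQ c P)| ≤ _
    rw [← hAe]
    refine (abs_sub _ _).trans (add_le_add hy ?_)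
    rw [abs_mul, abs_of_nonneg hsq0]
    exact mul_le_mul hT0 hA' hsq0 hτ

/-- LEAF `L-256-RT-XG-TD3`.   `tm P t - t = T0 + t (Q - 1)` (`rt_xg_db_tm`), `|Q - 1| ≤ 2gα + g²α²`. -/
theorem rt_xg_db_time {c g α β γ : ℝ} {P : RtRow} (t : ℝ) (hc : |c| ≤ g) (hα : 0 ≤ α) (hβ : 0 ≤ β) (hP : P ∈ rtXnBx α β γ) :
    |(rtChDb c).tm P t - t| ≤ 2 * g * β + g ^ 2 * γ + |t| * (2 * g * α + g ^ 2 * α ^ 2) := by
  obtain ⟨hA, hb, hy⟩ := hP
  have hg : 0 ≤ g := (abs_nonneg c).trans hc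
  have hb2 : |P.b.2| ≤ β := abs_le_of_sq_le_sq (by unfold rtSq at hb; nlinarith [sq_nonneg P.b.1]) hβ
  have hA2 : |P.A.2| ≤ α := abs_le_of_sq_le_sq (by unfold rtSq at hA; nlinarith [sq_nonneg P.A.1]) hα
  have hc2 : c ^ 2 ≤ g ^ 2 := sq_le_sq' (by linarith [(abs_le.1 hc).1]) (abs_le.1 hc).2
  have hS0 : 0 ≤ rtSq P.A := by unfold rtSq; positivity
  rw [(rt_xg_db_tm c P t).1]
  have e : rtCfT0 c P + t * rtCfQ c P - t = (2 * (c * P.b.2) + c ^ 2 * P.y) + t * (2 * (c * P.A.2) + c ^ 2 * rtSq P.A) := by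
    unfold rtCfT0 rtCfQ; ring
  rw [e]
  have k1 : |c * P.b.2| ≤ g * β := by rw [abs_mul]; exact mul_le_mul hc hb2 (abs_nonneg _) hg
  have k2 : |c ^ 2 * P.y| ≤ g ^ 2 * γ := by
    rw [abs_mul, abs_of_nonneg (sq_nonneg c)]; exact mul_le_mul hc2 hy (abs_nonneg _) (sq_nonneg g)
  have k3 : |c * P.A.2| ≤ g * α := by rw [abs_mul]; exact mul_le_mul hc hA2 (abs_nonneg _) hg
  have k4 : |c ^ 2 * rtSq P.A| ≤ g ^ 2 * α ^ 2 := by
    rw [abs_mul, abs_of_nonneg (sq_nonneg c), abs_of_nonneg hS0]; exact mul_le_mul hc2 hA hS0 (sq_nonneg g)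
  have m1 : |2 * (c * P.b.2) + c ^ 2 * P.y| ≤ 2 * g * β + g ^ 2 * γ := by
    refine (abs_add_le _ _).trans ?_
    rw [abs_mul, abs_two]; linarith
  have m2 : |2 * (c * P.A.2) + c ^ 2 * rtSq P.A| ≤ 2 * g * α + g ^ 2 * α ^ 2 := by
    refine (abs_add_le _ _).trans ?_
    rw [abs_mul, abs_two]; linarith
  refine (abs_add_le _ _).trans ?_
  rw [abs_mul]
  exact add_le_add m1 (mul_le_mul_of_nonneg_left m2 (abs_nonneg t))

/-- LEAF `L-256-RT-XG-TL1`.   `rt_xg_ln_fm`, `rt_g2_sq_add`. -/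
theorem rt_xg_ln_row {c α β γ : ℝ} {P : RtRow} (hc : |c| ≤ 1) (hα : 0 ≤ α) (hβ : 0 ≤ β) (hP : P ∈ rtXnBx α β γ) : (rtChLn c).row P ∈ rtXnBx (α + β) β (γ + β ^ 2) := by
  obtain ⟨h1, h2, h3⟩ := hP
  rw [(rt_xg_ln_fm c P 0).2.2.2.1]
  have hc2 : c ^ 2 ≤ 1 := by
    have := abs_le.1 hc
    nlinarith
  refine ⟨?_, h2, ?_⟩
  · show rtSq (P.A - c • P.b) ≤ (α + β) ^ 2
    have h4 : rtSq (-(c • P.b)) ≤ β ^ 2 := by
      have e : rtSq (-(c • P.b)) = c ^ 2 * rtSq P.b := by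
        simp only [rtSq, Prod.fst_neg, Prod.snd_neg, Prod.smul_fst, Prod.smul_snd, smul_eq_mul]
        ring
      rw [e]
      nlinarith [rtSq_nonneg P.b]
    have := rt_g2_sq_add hα hβ h1 h4
    rwa [← sub_eq_add_neg] at this
  · show |P.y - c * rtSq P.b| ≤ γ + β ^ 2
    have h5 : |c * rtSq P.b| ≤ β ^ 2 := by
      rw [abs_mul, abs_of_nonneg (rtSq_nonneg _)]
      calc |c| * rtSq P.b ≤ 1 * rtSq P.b := mul_le_mul_of_nonneg_right hc (rtSq_nonneg _)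
        _ ≤ β ^ 2 := by linarith
    exact (abs_sub _ _).trans (add_le_add h3 h5)

/-- tracking through a composition -/
theorem rt_xg_tk_comp {E Ψ : RtCh} {P : RtRow} {T α β γ lo hi α' β' γ' lo' hi' : ℝ} (h : RtXnTk Ψ P T α β γ lo hi) (hdn : E.dn (Ψ.row P) (Ψ.tm P T) ≠ 0)
    (hrow : E.row (Ψ.row P) ∈ rtXnBx α' β' γ') (hlo : lo' ≤ E.tm (Ψ.row P) (Ψ.tm P T)) (hhi : E.tm (Ψ.row P) (Ψ.tm P T) ≤ hi') : RtXnTk (E.comp Ψ) P T α' β' γ' lo' hi' := by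
  obtain ⟨h1, -, -, -⟩ := h
  refine ⟨?_, hrow, ?_, ?_⟩
  · rw [rt_ch_comp_dn E Ψ P T h1]
    exact mul_ne_zero hdn h1
  · rw [rt_ch_comp_tm E Ψ P T h1]
    exact hlo
  · rw [rt_ch_comp_tm E Ψ P T h1]
    exact hhi

/-- **EXIT (T), dual boost** -/
theorem rt_xg_tk_db {Ψ : RtCh} {P : RtRow} {T α β γ lo hi c g m : ℝ} (h : RtXnTk Ψ P T α β γ lo hi) (hc : |c| ≤ g) (hα : 0 ≤ α) (hβ : 0 ≤ β) (hg : g * α < 1)
    (hm : -m ≤ lo) (hm' : hi ≤ m) :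
    RtXnTk ((rtChDb c).comp Ψ) P T (α / (1 - g * α)) (β + g * γ + (2 * g * β + g ^ 2 * γ) * (α / (1 - g * α))) (γ + (2 * g * β + g ^ 2 * γ) * (α / (1 - g * α)) ^ 2)
      (lo - (2 * g * β + g ^ 2 * γ + m * (2 * g * α + g ^ 2 * α ^ 2))) (hi + (2 * g * β + g ^ 2 * γ + m * (2 * g * α + g ^ 2 * α ^ 2))) := by
  obtain ⟨h1, h2, h3, h4⟩ := h
  have hg0 : 0 ≤ g := (abs_nonneg c).trans hc
  have hX : 0 ≤ 2 * g * α + g ^ 2 * α ^ 2 := by positivity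
  have ht := rt_xg_db_time (Ψ.tm P T) hc hα hβ h2
  have hs : |Ψ.tm P T| ≤ m := abs_le.2 ⟨by linarith, by linarith⟩
  have hsX : |Ψ.tm P T| * (2 * g * α + g ^ 2 * α ^ 2) ≤ m * (2 * g * α + g ^ 2 * α ^ 2) := mul_le_mul_of_nonneg_right hs hX
  rw [abs_le] at ht
  refine rt_xg_tk_comp ⟨h1, h2, h3, h4⟩ ?_ (rt_xg_db_row hc hα hβ hg h2) ?_ ?_
  · rw [(rt_xg_db_tm c _ _).2.2.1]; exact one_ne_zero
  · linarith [ht.1]
  · linarith [ht.2]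

/-- LEAF `L-256-RT-XG-TL2`.   `s ↦ s/(1+cs)` is increasing where `1 + cs > 0`: `s/(1+cs) - lo/(1+c lo) = (s - lo)/((1+cs)(1+c lo))`;   `1 + cs > 0` on `[lo, hi]` (affine, positive at both ends). -/
theorem rt_xg_ln_mono {c lo hi s : ℝ} (hlo : 0 < 1 + c * lo) (hhi : 0 < 1 + c * hi) (h1 : lo ≤ s) (h2 : s ≤ hi) :
    0 < 1 + c * s ∧ lo / (1 + c * lo) ≤ s / (1 + c * s) ∧ s / (1 + c * s) ≤ hi / (1 + c * hi) := by
  have hs : 0 < 1 + c * s := by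
    rcases le_total 0 c with hc | hc
    · nlinarith [mul_le_mul_of_nonneg_left h1 hc]
    · nlinarith [mul_le_mul_of_nonpos_left h2 hc]
  refine ⟨hs, ?_, ?_⟩
  · rw [div_le_div_iff₀ hlo hs]
    nlinarith
  · rw [div_le_div_iff₀ hs hhi]
    nlinarith

/-- **EXIT (T), lens** -/
theorem rt_xg_tk_ln {Ψ : RtCh} {P : RtRow} {T α β γ lo hi c : ℝ} (h : RtXnTk Ψ P T α β γ lo hi) (hc : |c| ≤ 1) (hα : 0 ≤ α) (hβ : 0 ≤ β)
    (hlo : 0 < 1 + c * lo) (hhi : 0 < 1 + c * hi) :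
    RtXnTk ((rtChLn c).comp Ψ) P T (α + β) β (γ + β ^ 2) (lo / (1 + c * lo)) (hi / (1 + c * hi)) := by
  obtain ⟨h1, h2, h3, h4⟩ := h
  obtain ⟨m1, m2, m3⟩ := rt_xg_ln_mono hlo hhi h3 h4
  obtain ⟨f1, f2, -, -, -⟩ := rt_xg_ln_fm c (Ψ.row P) (Ψ.tm P T)
  refine rt_xg_tk_comp ⟨h1, h2, h3, h4⟩ ?_ (rt_xg_ln_row hc hα hβ h2) ?_ ?_
  · rw [f2]; exact m1.ne'
  · rw [f1]; exact m2
  · rw [f1]; exact m3

/-! ## (N) near ⟹ box -/

/-- the core of near ⟹ box: one direction, with the roles of the two rays symmetric -/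
theorem rt_xg_bx_of_near_aux {e t α β γ : ℝ} {A A' b b' : ℝ × ℝ} {y y' : ℝ} (he : 0 ≤ e) (ht : |t| ≤ 1) (hα : 0 ≤ α) (hβ : 0 ≤ β)
    (hαe : α + e ≤ 1 / 2) (a0 : ℝ × ℝ) (ha0 : rtSq a0 ≤ (α + e) ^ 2)
    (hA : rtSq (A' - A) ≤ e ^ 2) (hB : rtSq ((b' + t • A') - (b + t • A)) ≤ e ^ 2)
    (hY : |(y' + t * rtSq A') - (y + t * rtSq A) - 2 * rtIp a0 ((b' + t • A') - (b + t • A))| ≤ e)
    (h1 : rtSq A ≤ α ^ 2) (h2 : rtSq b ≤ β ^ 2) (h3 : |y| ≤ γ) :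
    rtSq A' ≤ (α + e) ^ 2 ∧ rtSq b' ≤ (β + 2 * e) ^ 2 ∧ |y'| ≤ γ + 3 * e := by
  have hA' : rtSq A' ≤ (α + e) ^ 2 := by
    have := rt_g2_sq_add hα he h1 hA
    rwa [add_sub_cancel] at this
  have htA : rtSq (t • (A' - A)) ≤ e ^ 2 := by
    rw [rt_g2_sq_smul]
    have h4 : t ^ 2 ≤ 1 := by
      rw [← sq_abs]
      nlinarith [abs_nonneg t]
    have h5 : 0 ≤ rtSq (A' - A) := by unfold rtSq; positivity
    nlinarith
  have hb : rtSq (b' - b) ≤ (e + e) ^ 2 := by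
    have := rt_g2_sq_sub he he hB htA
    have e1 : (b' + t • A') - (b + t • A) - t • (A' - A) = b' - b := by
      rw [smul_sub]
      abel
    rwa [e1] at this
  have hb' : rtSq b' ≤ (β + 2 * e) ^ 2 := by
    have := rt_g2_sq_add hβ (by linarith : (0 : ℝ) ≤ e + e) h2 hb
    rw [add_sub_cancel] at this
    calc rtSq b' ≤ (β + (e + e)) ^ 2 := this
      _ = _ := by ring
  refine ⟨hA', hb', ?_⟩
  have i1 := rtIp_abs_le (by linarith : (0 : ℝ) ≤ α + e) he ha0 hB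
  have hsum : rtSq (A' + A) ≤ ((α + e) + α) ^ 2 := rt_g2_sq_add (by linarith) hα hA' h1
  have i2 := rtIp_abs_le he (by linarith : (0 : ℝ) ≤ (α + e) + α) hA hsum
  have e2 : rtSq A' - rtSq A = rtIp (A' - A) (A' + A) := by
    simp only [rtSq, rtIp, Prod.fst_sub, Prod.snd_sub, Prod.fst_add, Prod.snd_add]
    ring
  set Y := (y' + t * rtSq A') - (y + t * rtSq A) - 2 * rtIp a0 ((b' + t • A') - (b + t • A)) with hYd
  have e3 : y' = y + Y + 2 * rtIp a0 ((b' + t • A') - (b + t • A)) - t * rtIp (A' - A) (A' + A) := by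
    rw [hYd, ← e2]
    ring
  have i3 : |t * rtIp (A' - A) (A' + A)| ≤ e * ((α + e) + α) := by
    rw [abs_mul]
    calc |t| * |rtIp (A' - A) (A' + A)| ≤ 1 * (e * ((α + e) + α)) := mul_le_mul ht i2 (abs_nonneg _) (by norm_num)
      _ = _ := one_mul _
  rw [e3]
  have b1 := abs_le.1 h3
  have b2 := abs_le.1 hY
  have b3 := abs_le.1 i1
  have b4 := abs_le.1 i3
  have c1 : (α + e) * e ≤ e / 2 := by nlinarith
  have c2 : e * ((α + e) + α) ≤ e := by nlinarith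
  rw [abs_le]
  constructor <;> linarith [b1.1, b1.2, b2.1, b2.2, b3.1, b3.2, b4.1, b4.2]

/-- LEAF `L-256-RT-XG-NB`.   **near ⟹ box, both ways, arbitrary scales.**   `Δ = P - p` at the time `t`: `|ΔA| ≤ e`, `|ΔB| ≤ e`, `|Y| ≤ e`, `Y = Δy(t) - 2A_p·ΔB`.   At time `0`: `Δb = ΔB - t ΔA` (`≤ 2e`),
`Δy = Y + 2A_p·ΔB - t ΔA·(A_P + A_p)` (`≤ e + 2|A_p| e + |t| e (|A_P| + |A_p|) ≤ 3e`, both `|A| ≤ α + e ≤ 1/2`).   `rt_g2_sq_add`, `rtIp_abs_le`. -/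
theorem rt_xg_bx_of_near {Λ d q H e t α β γ : ℝ} {p P : RtRow} (h : RtNear Λ d q H (p.flow t) (P.flow t)) (h0d : 0 ≤ Λ * d) (h0q : 0 ≤ Λ * q)
    (hd : Λ * d ≤ e) (hq : Λ * q ≤ e) (hH : Λ * H ≤ e) (ht : |t| ≤ 1) (hα : 0 ≤ α) (hβ : 0 ≤ β) (hαe : α + e ≤ 1 / 2) :
    (P ∈ rtXnBx α β γ → p ∈ rtXnBx (α + e) (β + 2 * e) (γ + 3 * e)) ∧ (p ∈ rtXnBx α β γ → P ∈ rtXnBx (α + e) (β + 2 * e) (γ + 3 * e)) := by
  have he : 0 ≤ e := h0d.trans hd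
  obtain ⟨n1, n2, n3⟩ := h
  simp only [RtRow.flow] at n1 n2 n3
  have hA : rtSq (P.A - p.A) ≤ e ^ 2 := n1.trans (pow_le_pow_left₀ h0d hd 2)
  have hB : rtSq ((P.b + t • P.A) - (p.b + t • p.A)) ≤ e ^ 2 := n2.trans (pow_le_pow_left₀ h0q hq 2)
  have hY := n3.trans hH
  have sw : ∀ u v : ℝ × ℝ, rtSq (u - v) = rtSq (v - u) := by
    intro u v
    simp only [rtSq, Prod.fst_sub, Prod.snd_sub]
    ring
  constructor
  · rintro ⟨h1, h2, h3⟩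
    have hpA : rtSq p.A ≤ (α + e) ^ 2 := by
      have := rt_g2_sq_sub hα he h1 hA
      rwa [sub_sub_cancel] at this
    refine rt_xg_bx_of_near_aux (A := P.A) (A' := p.A) (b := P.b) (b' := p.b) (y := P.y) (y' := p.y) he ht hα hβ hαe p.A hpA
      (by rw [sw]; exact hA) (by rw [sw]; exact hB) ?_ h1 h2 h3
    rw [← abs_neg]
    refine le_trans (le_of_eq ?_) hY
    congr 1
    simp only [rtIp, Prod.fst_sub, Prod.snd_sub]
    ring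
  · rintro ⟨h1, h2, h3⟩
    exact rt_xg_bx_of_near_aux he ht hα hβ hαe p.A (h1.trans (pow_le_pow_left₀ hα (by linarith) 2)) hA hB hY h1 h2 h3

/-- **EXIT (N)** for `RtAsP` -/
theorem rt_xg_asp_bx {H : ℝ} {k : ℕ} {Λ e α β γ : ℝ} {P : RtRow} {t T' : ℝ} {x' : RdWvPar.Ph} (hH : 0 < H) (hΛ : 0 ≤ Λ) (a : RtAsP H k Λ P t T' x')
    (he : Λ * rdD H k ≤ e) (hd1 : rdD H k ≤ 1) (ht : |t| ≤ 1) (hα : 0 ≤ α) (hβ : 0 ≤ β) (hαe : α + e ≤ 1 / 2) :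
    (P ∈ rtXnBx α β γ → rtRay T' x' ∈ rtXnBx (α + e) (β + 2 * e) (γ + 3 * e)) ∧ (rtRay T' x' ∈ rtXnBx α β γ → P ∈ rtXnBx (α + e) (β + 2 * e) (γ + 3 * e)) := by
  obtain ⟨hd, hq, hHe⟩ := rt_xg_scales H hH k
  have hl0 := rdLen_pos k
  have hl1 : rdLen k ≤ 1 := pow_le_one₀ (by norm_num) (by norm_num)
  have hqd : rdQ H k ≤ rdD H k := by rw [hq]; nlinarith
  have hHd : H ≤ rdD H k := by
    have h1 : rdD H k ^ 2 ≤ rdD H k := by nlinarith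
    have h2 : rdLen k * rdD H k ^ 2 ≤ 1 * rdD H k ^ 2 := mul_le_mul_of_nonneg_right hl1 (sq_nonneg _)
    linarith
  have hq0 : 0 ≤ rdQ H k := Real.sqrt_nonneg _
  have hn : RtNear Λ (rdD H k) (rdQ H k) H ((rtRay T' x').flow t) (P.flow t) := by
    have e1 : (rtRay T' x').flow t = (RdWvPar.co 0 x').flow (t - T') := by
      unfold rtRay
      rw [rt_xg_flow_flow, show -T' + t = t - T' by ring]
      rfl
    rw [e1]; exact a.2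
  exact rt_xg_bx_of_near hn (mul_nonneg hΛ hd.le) (mul_nonneg hΛ hq0) he ((mul_le_mul_of_nonneg_left hqd hΛ).trans he)
    ((mul_le_mul_of_nonneg_left hHd hΛ).trans he) ht hα hβ hαe

/-- **EXIT (N)**: the hypothesis of `rt_xk_far` -/
theorem rt_xg_ps_far {H : ℝ} {k₀ k : ℕ} {Λ e α β γ T₀ T : ℝ} {x x' : RdWvPar.Ph} (hH : 0 < H) (hΛ : 0 ≤ Λ) (he1 : Λ * rdD H k ≤ e) (he2 : Λ * rdQ H k₀ ≤ e) (he3 : Λ * H ≤ e)
    (hT : |T| ≤ 1) (hα : 0 ≤ α) (hβ : 0 ≤ β) (hαe : α + e ≤ 1 / 2) (hx' : rtRay T x' ∈ rtXnBx α β γ) (hx : rtRay T₀ x ∉ rtXnBx (α + e) (β + 2 * e) (γ + 3 * e)) :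
    ¬ RtNear Λ (rdD H k) (rdQ H k₀) H ((RdWvPar.co 0 x).flow (T - T₀)) (RdWvPar.co 0 x') := by
  intro hn
  have hn' : RtNear Λ (rdD H k) (rdQ H k₀) H ((rtRay T₀ x).flow T) ((rtRay T x').flow T) := by
    have e1 : (rtRay T₀ x).flow T = (RdWvPar.co 0 x).flow (T - T₀) := by
      unfold rtRay
      rw [rt_xg_flow_flow, show -T₀ + T = T - T₀ by ring]
      rfl
    have e2 : (rtRay T x').flow T = RdWvPar.co 0 x' := by
      unfold rtRay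
      rw [rt_xg_flow_flow, neg_add_cancel, rt_xg_flow_zero]
      rfl
    rw [e1, e2]; exact hn
  exact hx ((rt_xg_bx_of_near hn' (mul_nonneg hΛ (Real.sqrt_nonneg _)) (mul_nonneg hΛ (Real.sqrt_nonneg _)) he1 he2 he3 hT hα hβ hαe).1 hx')

/-! ## (W) windows -/

/-- LEAF `L-256-RT-XG-W0`.   the clock -/
theorem rt_xg_clock (k j : ℕ) (hj : j < 2 ^ k) : -(1 / 4) ≤ rtTm k j ∧ rtTm k j ≤ 3 / 4 - rdLen k ∧ rtTm 0 0 = -(1 / 4) ∧ rtTm 2 1 = 0 := by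
  have hp : (0 : ℝ) < 2 ^ k := by positivity
  have h1 : (j : ℝ) + 1 ≤ 2 ^ k := by exact_mod_cast hj
  have e : rdLen k = 1 / 2 ^ k := by
    unfold rdLen
    rw [inv_pow, one_div]
  refine ⟨?_, ?_, ?_, ?_⟩
  · unfold rtTm tmL
    have : (0 : ℝ) ≤ (j : ℝ) / 2 ^ k := by positivity
    linarith
  · unfold rtTm tmL
    rw [e]
    have : (j : ℝ) / 2 ^ k + 1 / 2 ^ k ≤ 1 := by
      rw [← add_div, div_le_one hp]
      exact h1
    linarith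
  · unfold rtTm tmL
    norm_num
  · unfold rtTm tmL
    norm_num

/-- **EXIT (W), dual boost**: the target time of an associated row under the next boost -/
theorem rt_xg_win_db {H : ℝ} {k : ℕ} {Λ c g α β γ : ℝ} {P : RtRow} {t : ℝ} {z' : RtZ} (a : RtAsP H k Λ P t (rtTm k z'.1) z'.2) (hc : |c| ≤ g) (hα : 0 ≤ α) (hβ : 0 ≤ β)
    (hray : rtZr k z' ∈ rtXnBx α β γ) :
    |rtZt (rtChDb c) k z' - t| ≤ Λ * rdLen k + (2 * g * β + g ^ 2 * γ + |rtTm k z'.1| * (2 * g * α + g ^ 2 * α ^ 2)) := by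
  have h1 := rt_xg_db_time (rtTm k z'.1) hc hα hβ hray
  have h2 := a.1
  have e : rtZt (rtChDb c) k z' - t = ((rtChDb c).tm (rtZr k z') (rtTm k z'.1) - rtTm k z'.1) - (t - rtTm k z'.1) := by
    unfold rtZt
    ring
  rw [e]
  exact (abs_sub _ _).trans (by linarith)

/-- **EXIT (W), lens** -/
theorem rt_xg_win_ln (c : ℝ) (k : ℕ) (z' : RtZ) : rtZt (rtChLn c) k z' = rtTm k z'.1 / (1 + c * rtTm k z'.1) :=
  (rt_xg_ln_fm c _ _).1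

/-! ## (M) measurability -/

/-- LEAF `L-256-RT-XG-M1`.   `x ↦ rtRay T x` has measurable (polynomial) components; `measurableSet_le`. -/
theorem rt_xg_S_meas (T α β γ : ℝ) : MeasurableSet (rtXnS T α β γ) := by
  have e : rtXnS T α β γ = {x : RdWvPar.Ph | x.1.1 ^ 2 + x.1.2 ^ 2 ≤ α ^ 2} ∩ ({x : RdWvPar.Ph | (x.2.1.1 + -T * x.1.1) ^ 2 + (x.2.1.2 + -T * x.1.2) ^ 2 ≤ β ^ 2}
      ∩ {x : RdWvPar.Ph | |x.2.2 + -T * (x.1.1 ^ 2 + x.1.2 ^ 2)| ≤ γ}) := by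
    ext x
    exact Iff.rfl
  rw [e]
  exact (measurableSet_le (by fun_prop) measurable_const).inter
    ((measurableSet_le (by fun_prop) measurable_const).inter (measurableSet_le (by fun_prop) measurable_const))

/-- LEAF `L-256-RT-XG-M2`.   the set is bounded: `|A_i| ≤ |α|`, `|b_i| ≤ |β| + |T||α|`, `|y| ≤ γ + |T| α²`      (`Bornology.IsBounded.measure_lt_top`, or a product of `Set.Icc`) -/
theorem rt_xg_S_vol (T α β γ : ℝ) : (volume : Measure RdWvPar.Ph) (rtXnS T α β γ) ≠ ⊤ := by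
  obtain ⟨R1, hR1⟩ : ∃ R1, R1 = |α| := ⟨_, rfl⟩
  obtain ⟨R2, hR2⟩ : ∃ R2, R2 = |β| + |T| * |α| := ⟨_, rfl⟩
  obtain ⟨R3, hR3⟩ : ∃ R3, R3 = γ + |T| * α ^ 2 := ⟨_, rfl⟩
  have hsub : rtXnS T α β γ ⊆ Set.Icc (((-R1, -R1), ((-R2, -R2), -R3)) : RdWvPar.Ph) ((R1, R1), ((R2, R2), R3)) := by
    intro x hx
    obtain ⟨h1, h2, h3⟩ := hx
    have h1' : rtSq x.1 ≤ |α| ^ 2 := by rw [sq_abs]; exact h1
    have h2' : rtSq (x.2.1 + (-T) • x.1) ≤ |β| ^ 2 := by rw [sq_abs]; exact h2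
    have h3' : |x.2.2 + (-T) * rtSq x.1| ≤ γ := h3
    have a1 := rt_g1_abs_fst (abs_nonneg α) h1'
    have a2 := rt_g1_abs_snd (abs_nonneg α) h1'
    have b1 := rt_g1_abs_fst (abs_nonneg β) h2'
    have b2 := rt_g1_abs_snd (abs_nonneg β) h2'
    simp only [Prod.fst_add, Prod.snd_add, Prod.smul_fst, Prod.smul_snd, smul_eq_mul] at b1 b2
    have c1 : |x.2.1.1| ≤ R2 := by
      have e : x.2.1.1 = (x.2.1.1 + -T * x.1.1) + T * x.1.1 := by ring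
      rw [e, hR2]
      refine (abs_add_le _ _).trans (add_le_add b1 ?_)
      rw [abs_mul]
      exact mul_le_mul_of_nonneg_left a1 (abs_nonneg T)
    have c2 : |x.2.1.2| ≤ R2 := by
      have e : x.2.1.2 = (x.2.1.2 + -T * x.1.2) + T * x.1.2 := by ring
      rw [e, hR2]
      refine (abs_add_le _ _).trans (add_le_add b2 ?_)
      rw [abs_mul]
      exact mul_le_mul_of_nonneg_left a2 (abs_nonneg T)
    have c3 : |x.2.2| ≤ R3 := by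
      have e : x.2.2 = (x.2.2 + -T * rtSq x.1) + T * rtSq x.1 := by ring
      rw [e, hR3]
      refine (abs_add_le _ _).trans (add_le_add h3' ?_)
      rw [abs_mul, abs_of_nonneg (rtSq_nonneg _)]
      exact mul_le_mul_of_nonneg_left h1 (abs_nonneg T)
    rw [← hR1] at a1 a2
    rw [abs_le] at a1 a2 c1 c2 c3
    exact ⟨⟨⟨a1.1, a2.1⟩, ⟨c1.1, c2.1⟩, c3.1⟩, ⟨⟨a1.2, a2.2⟩, ⟨c1.2, c2.2⟩, c3.2⟩⟩
  exact ((measure_mono hsub).trans_lt isCompact_Icc.measure_lt_top).ne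

theorem rt_xg_S_cone (T α β γ : ℝ) : ∀ x ∈ rtXnS T α β γ, rtSq x.1 ≤ α ^ 2 := fun _ hx => hx.1

/-- LEAF `L-256-RT-XG-M1`.   (`measurable_from_prod_countable_right`-style: the time index is discrete; each section is `rtXnS (rtTm k j) α β γ` or empty) -/
theorem rt_xg_Z_meas (k : ℕ) (α β γ : ℝ) : MeasurableSet (rtXnZ k α β γ) ∧ MeasurableSet (rtXnZ0 k) := by
  obtain ⟨τ, hτ⟩ : ∃ τ : RtZ → ℝ, τ = fun z => rtTm k z.1 := ⟨_, rfl⟩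
  have hm : Measurable τ := by
    rw [hτ]
    exact (Measurable.of_discrete (f := fun j : ℕ => rtTm k j)).comp measurable_fst
  have e1 : rtXnZ k α β γ = {z : RtZ | -(1 / 4) ≤ τ z} ∩ ({z : RtZ | τ z ≤ 3 / 4} ∩ ({z : RtZ | z.2.1.1 ^ 2 + z.2.1.2 ^ 2 ≤ α ^ 2}
      ∩ ({z : RtZ | (z.2.2.1.1 + -(τ z) * z.2.1.1) ^ 2 + (z.2.2.1.2 + -(τ z) * z.2.1.2) ^ 2 ≤ β ^ 2}
      ∩ {z : RtZ | |z.2.2.2 + -(τ z) * (z.2.1.1 ^ 2 + z.2.1.2 ^ 2)| ≤ γ}))) := by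
    rw [hτ]
    ext z
    exact Iff.rfl
  have e2 : rtXnZ0 k = {z : RtZ | 0 ≤ τ z} ∩ ({z : RtZ | τ z ≤ 1 / 4}
      ∩ ({z : RtZ | (z.2.2.1.1 + -(τ z) * z.2.1.1 - 0) ^ 2 + (z.2.2.1.2 + -(τ z) * z.2.1.2 - 0) ^ 2 ≤ (1 / 200 * 1) ^ 2}
      ∩ ({z : RtZ | |z.2.2.2 + -(τ z) * (z.2.1.1 ^ 2 + z.2.1.2 ^ 2) - 0
          - 2 * rtIp (0 : ℝ × ℝ) ((z.2.2.1.1 + -(τ z) * z.2.1.1 - 0, z.2.2.1.2 + -(τ z) * z.2.1.2 - 0) : ℝ × ℝ)| ≤ 1 / 200 * 1 ^ 2}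
      ∩ {z : RtZ | (z.2.1.1 - 0) ^ 2 + (z.2.1.2 - 0) ^ 2 ≤ (1 / 200 * 1) ^ 2}))) := by
    rw [hτ]
    ext z
    exact Iff.rfl
  constructor
  · rw [e1]
    exact (measurableSet_le measurable_const hm).inter ((measurableSet_le hm measurable_const).inter
      ((measurableSet_le (by fun_prop) measurable_const).inter
      ((measurableSet_le (by fun_prop) measurable_const).inter (measurableSet_le (by fun_prop) measurable_const))))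
  · rw [e2]
    refine (measurableSet_le measurable_const hm).inter ((measurableSet_le hm measurable_const).inter
      ((measurableSet_le (by fun_prop) measurable_const).inter
      ((measurableSet_le ?_ measurable_const).inter (measurableSet_le (by fun_prop) measurable_const))))
    unfold rtIp
    fun_prop

end Claimed.Agent.R256
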