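import Claimed.Agent.R256.Rt.XDefs
import Claimed.Agent.R256.Rt.XaContract
import Claimed.Agent.R256.Rt.XlPsiContract
import Claimed.Agent.R256.Rt.Ker

/-!
# Row 256, folder Rt, block I1, unit XL (the lens arrow) : DEFINITIONS OF THE UNIT      (unit architect helper280; block architect helper76; prefix `rt_xl_`, defs `rtXl*`)      SORRY-FREE

Exits of the unit: `Rt/XlContract.lean`.   Cut: `XlOp` (operator) → `XlId` (exact identity) → `XlKer` (kernel bound) → `XlSum` (Schur sums, gain, count, geometry) → `XlArrow` (views, domination, assembly).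
NOTATION.  `ℓ = rdLen k = 2^-k`, `d = rdD H k = √(H/ℓ)`, `Q = rdQ H k = √(Hℓ)`, `Q d = H`.   Source time `T` (`= rtTm k j' ∈ [-1/4, 3/4)`), `|c| ≤ 1`, so `1 - cT ∈ [1/4, 7/4]`.
* `rtXlFr lam g`      the Fresnel transform on ONE fibre: `(4πi lam)⁻¹ ∫ e^{i|ξ'-ξ|²/(4 lam)} g ξ dξ`;   `rtXlF c G (ξ', ρ) = rtXlFr (ρ c) (G(·, ρ)) ξ'`.
* `rtXlW0`            the angular bump `rdPsi` as a Schwartz function on `E2` (junk `0` unless it exists: THEOREM `rt_xl_w0_spec`);   `rtXlG = 𝓕⁻ rtXlW0`;   `rtXlPs v ε = Ψ(v, ε) = rtXlPsi rtXlG (v, ε)` on `ℝ × ℝ`;   `Ψ(v, 0) = rdPsi v`.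
* `rtXlPk p T k β D e0 x`   THE WINDOWED PACKET: `D (2π)^{-3/2} χ_β(Hρ) Ψ(D (ξ/2ρ - A)/d, e0/(Hρ)) e^{i(ξ·b - ρ y - T|ξ|²/4ρ)}`;   `D = 1, e0 = 0`: the packet `pk`.
* lens data of a source time `T`:   `rtXlDe c T = 1/(1-cT)`,  `rtXlTe c T = T/(1-cT)`,  `rtXlE0 k c T = π² c ℓ/(1-cT)`,  `rtXlXe c T (A,b,y) = ((1-cT) A + c b, b/(1-cT), y + c|b|²/(1-cT))`.
      EXACT IDENTITY (`rt_xl_id`): `rtXlF c (pk T k β x) = rtXlPk (Te) k β De E0 (Xe x)`.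
* `rtXlK`   kernel `∫ rtXlPk(Tg, xg) conj pk(T, x)`;   `rtXlAm`, `rtXlMi`   model amplitude and model integral (clones of `rtKB`, `rtKI`; `a = (A_g - A)/d` is NOT compact);
* `rtXlWa N a = (1+|a|)^-N`;   `rtXlM` the majorant `(Q²H)⁻¹ (1+|a|)^-N (1+|X|+|Y|)^-N`.
* `rtXlJ k te = min(⌊(te+1/4) 2^k⌋₊, 2^k - 1)` the target time index;   `rtXlRg k te` the region `-1/4 - ℓ ≤ te ≤ 3/4`;   `rtXlMv` the majorant on (source view) × (target view), carried by `j' < 2^k`, `te` in the region, `j = rtXlJ k te`;   `rtXlNr` the correspondence.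
-/

set_option autoImplicit false

namespace Claimed.Agent.R256

open MeasureTheory Claimed.Agent.R255.BR
open scoped ENNReal ComplexConjugate FourierTransform SchwartzMap

/-- the Fresnel transform on one fibre -/
noncomputable def rtXlFr (lam : ℝ) (g : ℝ × ℝ → ℂ) (ξ' : ℝ × ℝ) : ℂ :=
  (4 * (Real.pi : ℂ) * Complex.I * (lam : ℂ))⁻¹ * ∫ ξ : ℝ × ℝ, Complex.exp (Complex.I * ((rtSq (ξ' - ξ) / (4 * lam) : ℝ) : ℂ)) * g ξ

/-- the angular bump as a Schwartz function on `E2` (THEOREM `rt_xl_w0_spec`) -/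
noncomputable def rtXlW0 : 𝓢(E2, ℂ) :=
  open Classical in
  if h : ∃ f : 𝓢(E2, ℂ), ∀ v : E2, f v = ((rdPsi (v 0, v 1) : ℝ) : ℂ) then h.choose else 0

/-- its inverse Fourier transform -/
noncomputable def rtXlG : 𝓢(E2, ℂ) := 𝓕⁻ rtXlW0

/-- the window `Ψ(v, ε)` in the coordinates `ℝ × ℝ` -/
noncomputable def rtXlPs (v : ℝ × ℝ) (ε : ℝ) : ℂ := rtXlPsi rtXlG (rtW1cV v, ε)

/-- **the windowed packet** -/
noncomputable def rtXlPk (p : RdWvPar) (T : ℝ) (k β : ℕ) (D e0 : ℝ) (x : RdWvPar.Ph) (q : RdWvPar.Mo) : ℂ :=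
  ((D * (2 * Real.pi) ^ (-(3 / 2) : ℝ) * rdChi β (p.H * q.2) : ℝ) : ℂ)
    * rtXlPs ((D * (rdD p.H k)⁻¹) • ((2 * q.2)⁻¹ • q.1 - x.1)) (e0 / (p.H * q.2))
    * Complex.exp (Complex.I * ((rtIp q.1 x.2.1 - q.2 * x.2.2 - T * rtSq q.1 / (4 * q.2) : ℝ) : ℂ))

/-- `D_e = 1/(1 - cT)` -/
noncomputable def rtXlDe (c T : ℝ) : ℝ := (1 - c * T)⁻¹

/-- `te = T/(1 - cT)` -/
noncomputable def rtXlTe (c T : ℝ) : ℝ := T * (1 - c * T)⁻¹

/-- `ε₀ = π² c ℓ/(1 - cT)` -/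
noncomputable def rtXlE0 (k : ℕ) (c T : ℝ) : ℝ := Real.pi ^ 2 * c * rdLen k * (1 - c * T)⁻¹

/-- the image row at the time `te`: `((1-cT) A + c b, b/(1-cT), y + c|b|²/(1-cT))` -/
noncomputable def rtXlXe (c T : ℝ) (x : RdWvPar.Ph) : RdWvPar.Ph :=
  ((1 - c * T) • x.1 + c • x.2.1, (1 - c * T)⁻¹ • x.2.1, x.2.2 + c * (1 - c * T)⁻¹ * rtSq x.2.1)

/-- the kernel of `(windowed analysis at (Tg, D, e0)) ∘ An(T,k,b)^*` against the row measure `rw k` -/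
noncomputable def rtXlK (p : RdWvPar) (T : ℝ) (k b : ℕ) (Tg : ℝ) (b' : ℕ) (D e0 : ℝ) (xg x : RdWvPar.Ph) : ℂ :=
  ∫ q, rtXlPk p Tg k b' D e0 xg q * conj (p.pk T k b x q)

/-- the model amplitude in the variables `w = (ζ, σ)`; parameters `a = (A_g - A)/d`, `D`, `e0`, `tau = u/ℓ` -/
noncomputable def rtXlAm (b b' : ℕ) (a : ℝ × ℝ) (D e0 tau : ℝ) (w : (ℝ × ℝ) × ℝ) : ℂ :=
  ((rdChi b' w.2 * rdChi b w.2 * rdPsi ((2 * w.2)⁻¹ • w.1) : ℝ) : ℂ) * rtXlPs (D • ((2 * w.2)⁻¹ • w.1 - a)) (e0 / w.2)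
    * Complex.exp (Complex.I * ((-(tau * rtSq w.1 / (4 * w.2)) : ℝ) : ℂ))

/-- the model integral -/
noncomputable def rtXlMi (b b' : ℕ) (a : ℝ × ℝ) (D e0 tau : ℝ) (X : ℝ × ℝ) (Y : ℝ) : ℂ :=
  ∫ w : (ℝ × ℝ) × ℝ, Complex.exp (Complex.I * ((rtIp w.1 X - w.2 * Y : ℝ) : ℂ)) * rtXlAm b b' a D e0 tau w

/-- the weight `(1 + |a|)^-N` -/
noncomputable def rtXlWa (N : ℕ) (a : ℝ × ℝ) : ℝ := ((1 + Real.sqrt (rtSq a)) ^ N)⁻¹

/-- the majorant `(Q²H)⁻¹ (1+|a|)^-N (1+|X|+|Y|)^-N` -/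
noncomputable def rtXlM (H : ℝ) (k : ℕ) (u : ℝ) (N : ℕ) (xg x : RdWvPar.Ph) : ℝ :=
  (rdQ H k ^ 2 * H)⁻¹ * rtXlWa N ((rdD H k)⁻¹ • (xg.1 - x.1)) * rtKW N (rtKX H k u xg x, rtKY H u xg x)

/-- the target time index -/
noncomputable def rtXlJ (k : ℕ) (te : ℝ) : ℕ := min ⌊(te + 1 / 4) * 2 ^ k⌋₊ (2 ^ k - 1)

/-- the region of the arrow -/
def rtXlRg (k : ℕ) (te : ℝ) : Prop := -(1 / 4) - rdLen k ≤ te ∧ te ≤ 3 / 4

/-- the majorant on (source view) × (target view) -/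
noncomputable def rtXlMv (H : ℝ) (k : ℕ) (c : ℝ) (N : ℕ) (z z' : RtZ) : ℝ≥0∞ :=
  open Classical in
  if z.1 < 2 ^ k ∧ rtXlRg k (rtXlTe c (rtTm k z.1)) ∧ z'.1 = rtXlJ k (rtXlTe c (rtTm k z.1)) then
    ENNReal.ofReal (rtXlM H k (rtXlTe c (rtTm k z.1) - rtTm k z'.1) N (rtXlXe c (rtTm k z.1) z.2) z'.2)
  else 0

/-- the correspondence in the coordinates of the unit (`= RtAs (rtChLn (-c))` on the carrier of `rtXlMv`: THEOREM `rt_xl_mv_as`) -/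
def rtXlNr (H : ℝ) (k : ℕ) (c Λ : ℝ) (z z' : RtZ) : Prop :=
  RtNear Λ (rdD H k) (rdQ H k) H ((RdWvPar.co 0 z'.2).flow (rtXlTe c (rtTm k z.1) - rtTm k z'.1)) (RdWvPar.co 0 (rtXlXe c (rtTm k z.1) z.2))

theorem rt_xl_defs_eqns_cite : True := by
  have := @rtXlFr.eq_1
  have := @rtXlW0.eq_1
  have := @rtXlG.eq_1
  have := @rtXlPs.eq_1
  have := @rtXlPk.eq_1
  have := @rtXlDe.eq_1
  have := @rtXlTe.eq_1
  have := @rtXlE0.eq_1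
  have := @rtXlXe.eq_1
  have := @rtXlK.eq_1
  have := @rtXlAm.eq_1
  have := @rtXlMi.eq_1
  have := @rtXlWa.eq_1
  have := @rtXlM.eq_1
  have := @rtXlJ.eq_1
  have := @rtXlRg.eq_1
  have := @rtXlMv.eq_1
  have := @rtXlNr.eq_1
  trivial

end Claimed.Agent.R256
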