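import Claimed.Agent.R256.Rt.XlOp

/-!
# Row 256, folder Rt, unit XL (the lens arrow), file 2/5 : THE EXACT IDENTITY      (unit architect helper280; prefix `rt_xl_`)      CONTRACT FILE: every `sorry` is a leaf `L-256-RT-XL-I*`

Paper free.   PROVE IN PLACE, statements verbatim, helpers directly above your theorem, splice only your theorems.
EXITS of this file: `rt_xl_ps_le`, `rt_xl_ps_cont`, `rt_xl_pk_meas`, `rt_xl_pk_int`, **`rt_xl_rep`** (the analysis of `T_c w` at the time `T` IS the windowed analysis of `w` at the image event).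
MATHEMATICS (`rt_xl_id`).   `q = (ξ, ρ)`, `ρ > 0`, `x = (A', b', y')`, `A = ξ/2ρ`, `d = rdD H k`, `μ = (1-cT)/c`.   Substitution `ξ' = 2ρ(A' + dζ)` (Jacobian `(2ρd)²`), `w = A' + dζ`:
    `|ξ-ξ'|²/(4ρc) + ξ'·b' - ρy' - T|ξ'|²/4ρ = ρ[μ|w - w₀|² - μ|w₀|² + |A|²/c] - ρy'`,   `w₀ = (A - cb')/(1-cT)`,   `μ|w - w₀|² = μd²|ζ - ζ₀|²`,   `ζ₀ = (w₀ - A')/d = D_e (A - A_e)/d`,
    `ρ[-μ|w₀|² + |A|²/c] = ξ·b_e - ρ c D_e|b'|² - te |ξ|²/4ρ`      (`1 - D_e = -cT D_e`).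
    `rt_xl_fres2` with `Λ = ρμd²`:  `∫ ψ(ζ) e^{iΛ|ζ-ζ₀|²} dζ = (iπ/Λ) Ψ(ζ₀, π²/Λ)`;   prefactor `(4πiρc)⁻¹ (2ρd)² iπ/(ρμd²) = 1/(cμ) = D_e`;   `π²/Λ = π² c D_e/(ρ d²) = ε₀/(Hρ)` (`d² = H/ℓ`).
-/

set_option autoImplicit false

namespace Claimed.Agent.R256

open MeasureTheory Claimed.Agent.R255.BR
open scoped ENNReal ComplexConjugate FourierTransform SchwartzMap InnerProductSpace

/-- LEAF `L-256-RT-XL-I1`.  the Schwartz bump exists.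
PLAN.  `f v = (rdPsi (v 0, v 1) : ℂ)` is smooth (`rd_psi_contDiff`, `EuclideanSpace.proj`, `Complex.ofRealCLM`) with compact support (`rd_psi_supp : rdPsi A ≠ 0 → rtSq A < 2` or `≤`: see `Rt/Wv1*.lean`, `Base`; support in `closedBall 0 2`):
`HasCompactSupport.toSchwartzMap` (used in `Top/Tools.lean ls_pl_ae`); then `dif_pos` + `choose_spec`.   ~60 l. -/
theorem rt_xl_w0_spec (v : E2) : rtXlW0 v = ((rdPsi (v 0, v 1) : ℝ) : ℂ) := by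
  have hex : ∃ f : 𝓢(E2, ℂ), ∀ v : E2, f v = ((rdPsi (v 0, v 1) : ℝ) : ℂ) := by
    have h2 : ContDiff ℝ ((⊤ : ℕ∞) : WithTop ℕ∞) (fun v : E2 => ((rdPsi (v 0, v 1) : ℝ) : ℂ)) := by
      have a0 : ContDiff ℝ ((⊤ : ℕ∞) : WithTop ℕ∞) (fun v : E2 => v 0) := (EuclideanSpace.proj (0 : Fin 2) : E2 →L[ℝ] ℝ).contDiff
      have a1 : ContDiff ℝ ((⊤ : ℕ∞) : WithTop ℕ∞) (fun v : E2 => v 1) := (EuclideanSpace.proj (1 : Fin 2) : E2 →L[ℝ] ℝ).contDiff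
      exact Complex.ofRealCLM.contDiff.comp (rd_psi_contDiff.comp (a0.prodMk a1))
    have h1 : HasCompactSupport (fun v : E2 => ((rdPsi (v 0, v 1) : ℝ) : ℂ)) := by
      refine HasCompactSupport.intro (isCompact_closedBall (0 : E2) 2) fun v hv => ?_
      by_contra hne
      have hne' : rdPsi (v 0, v 1) ≠ 0 := fun h0 => hne (by rw [h0]; rfl)
      have h3 := rd_psi_supp hne'
      apply hv
      rw [mem_closedBall_zero_iff, EuclideanSpace.norm_eq, Fin.sum_univ_two, Real.norm_eq_abs, Real.norm_eq_abs, sq_abs, sq_abs]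
      unfold rtSq at h3
      simp only at h3
      calc Real.sqrt (v 0 ^ 2 + v 1 ^ 2) ≤ Real.sqrt 4 := Real.sqrt_le_sqrt (by linarith)
        _ = 2 := by rw [show (4 : ℝ) = 2 ^ 2 by norm_num]; exact Real.sqrt_sq (by norm_num)
    exact ⟨h1.toSchwartzMap h2, fun v => rfl⟩
  unfold rtXlW0
  rw [dif_pos hex]
  exact hex.choose_spec v

/-- LEAF `L-256-RT-XL-I1`.  `Ψ(v, 0) = ψ(v)`   (`rt_xl_psi_zero`, Fourier inversion on Schwartz functions `FourierTransform.fourier_fourierInv_eq`-type / `SchwartzMap.fourier_fourierInv`..., `rt_xl_w0_spec`, `rt_w1c_V_apply`).   ~30 l. -/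
theorem rt_xl_ps_zero (v : ℝ × ℝ) : rtXlPs v 0 = ((rdPsi v : ℝ) : ℂ) := by
  unfold rtXlPs rtXlG
  rw [rt_xl_psi_zero, ← SchwartzMap.fourier_coe, FourierTransform.fourier_fourierInv_eq, rt_xl_w0_spec]
  obtain ⟨a0, a1⟩ := rt_w1c_V_apply v
  rw [a0, a1]

/-- LEAF `L-256-RT-XL-I1`.  `D = 1`, `e0 = 0`: the packet   (`unfold rtXlPk RdWvPar.pk`, `zero_div`, `one_mul`, `rt_xl_ps_zero`, `push_cast`, `ring`).   ~20 l. -/
theorem rt_xl_pk_zero (p : RdWvPar) (T : ℝ) (k β : ℕ) (x : RdWvPar.Ph) (q : RdWvPar.Mo) : rtXlPk p T k β 1 0 x q = p.pk T k β x q := by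
  unfold rtXlPk RdWvPar.pk
  rw [zero_div, one_mul, one_mul, rt_xl_ps_zero]
  push_cast
  ring

/-- LEAF `L-256-RT-XL-I1`.  decay of the window   (`rt_xl_psi_decay rtXlG 0 N E0`, `norm_iteratedFDeriv_zero`, `rt_k_V_norm`; `C := max C 0`).   ~30 l. -/
theorem rt_xl_ps_le (N : ℕ) (E0 : ℝ) : ∃ C : ℝ, 0 ≤ C ∧ ∀ (v : ℝ × ℝ) (ε : ℝ), |ε| ≤ E0 → ‖rtXlPs v ε‖ ≤ C * rtXlWa N v := by
  obtain ⟨C, hC⟩ := rt_xl_psi_decay rtXlG 0 N E0
  refine ⟨max C 0, le_max_right _ _, fun v ε hε => ?_⟩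
  have h1 := hC (rtW1cV v, ε) hε
  rw [norm_iteratedFDeriv_zero, rt_k_V_norm] at h1
  unfold rtXlPs rtXlWa
  have hp : 0 < (1 + Real.sqrt (rtSq v)) ^ N := by positivity
  rw [← div_eq_mul_inv, le_div_iff₀ hp, mul_comm]
  exact h1.trans (le_max_left _ _)

/-- LEAF `L-256-RT-XL-I1`.  continuity of the window   (`rt_xl_psi_contDiff.continuous`; `rtW1cV` is continuous: it is `toLp ∘ ![·,·]`, e.g. `(EuclideanSpace.equiv ..).symm` / `PiLp.continuous_toLp`, `continuous_pi`).   ~30 l. -/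
theorem rt_xl_ps_cont : Continuous fun z : (ℝ × ℝ) × ℝ => rtXlPs z.1 z.2 := by
  unfold rtXlPs
  have hV : Continuous (rtW1cV : ℝ × ℝ → E2) := by
    have e : (rtW1cV : ℝ × ℝ → E2) = fun a => WithLp.toLp 2 ![a.1, a.2] := by
      funext a
      obtain ⟨a0, a1⟩ := rt_w1c_V_apply a
      ext i
      fin_cases i
      · exact a0
      · exact a1
    rw [e]
    refine (PiLp.continuous_toLp 2 _).comp ?_
    refine continuous_pi fun i => ?_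
    fin_cases i
    · exact continuous_fst
    · exact continuous_snd
  exact (rt_xl_psi_contDiff rtXlG).continuous.comp ((hV.comp continuous_fst).prodMk continuous_snd)

/-- LEAF `L-256-RT-XL-I2`.  Fresnel-Parseval in the coordinates `ℝ × ℝ`   (`rt_xl_fresnel rtXlW0 Λ hΛ (rtW1cV ζ₀)`, `rt_w1c_V_mp.integral_comp`, `rt_xl_w0_spec`, `rt_w1c_V_apply`; `‖V ζ - V ζ₀‖² = rtSq (ζ - ζ₀)`: `EuclideanSpace.norm_eq`/`real_inner_self_eq_norm_sq`, `Fin.sum_univ_two`).   ~60 l. -/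
theorem rt_xl_fres2 (Λ : ℝ) (hΛ : Λ ≠ 0) (ζ₀ : ℝ × ℝ) :
    ∫ ζ : ℝ × ℝ, ((rdPsi ζ : ℝ) : ℂ) * Complex.exp (Complex.I * ((Λ * rtSq (ζ - ζ₀) : ℝ) : ℂ))
      = (Complex.I * Real.pi / Λ) * rtXlPs ζ₀ (Real.pi ^ 2 / Λ) := by
  have h1 := rt_xl_fresnel rtXlW0 Λ hΛ (rtW1cV ζ₀)
  have h2 := rt_w1c_V_mp.integral_comp' (fun ζ : E2 => rtXlW0 ζ * Complex.exp (Complex.I * ((Λ * ‖ζ - rtW1cV ζ₀‖ ^ 2 : ℝ) : ℂ)))
  rw [h1] at h2
  unfold rtXlPs rtXlG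
  rw [← h2]
  refine integral_congr_ae (Filter.Eventually.of_forall fun ζ => ?_)
  obtain ⟨a0, a1⟩ := rt_w1c_V_apply ζ
  obtain ⟨b0, b1⟩ := rt_w1c_V_apply ζ₀
  have e1 : rtXlW0 (rtW1cV ζ) = ((rdPsi ζ : ℝ) : ℂ) := by
    rw [rt_xl_w0_spec, a0, a1]
  have e2 : ‖rtW1cV ζ - rtW1cV ζ₀‖ ^ 2 = rtSq (ζ - ζ₀) := by
    rw [EuclideanSpace.norm_eq, Real.sq_sqrt (Finset.sum_nonneg fun i _ => by positivity), Fin.sum_univ_two]
    simp only [PiLp.sub_apply, a0, a1, b0, b1, Real.norm_eq_abs, sq_abs]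
    rfl
  simp only [e1, e2]

/-- the completed square (pure algebra) -/
theorem rt_xl_aux_phase (ρ c T d : ℝ) (hρ : ρ ≠ 0) (hc : c ≠ 0) (h1 : 1 - c * T ≠ 0) (hd : d ≠ 0) (ξ A' b' ζ : ℝ × ℝ) (y' : ℝ) :
    rtSq (ξ - ((2 * ρ * d) • ζ + (2 * ρ) • A')) / (4 * ρ * c)
      + (rtIp ((2 * ρ * d) • ζ + (2 * ρ) • A') b' - ρ * y' - T * rtSq ((2 * ρ * d) • ζ + (2 * ρ) • A') / (4 * ρ))
    = (ρ * ((1 - c * T) / c) * d ^ 2) * rtSq (ζ - ((1 - c * T)⁻¹ * d⁻¹) • ((2 * ρ)⁻¹ • ξ - ((1 - c * T) • A' + c • b')))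
      + (rtIp ξ ((1 - c * T)⁻¹ • b') - ρ * (y' + c * (1 - c * T)⁻¹ * rtSq b') - (T * (1 - c * T)⁻¹) * rtSq ξ / (4 * ρ)) := by
  obtain ⟨ξ1, ξ2⟩ := ξ
  obtain ⟨A1, A2⟩ := A'
  obtain ⟨b1, b2⟩ := b'
  obtain ⟨ζ1, ζ2⟩ := ζ
  simp only [rtSq, rtIp, Prod.smul_mk, Prod.mk_add_mk, Prod.mk_sub_mk, smul_eq_mul]
  field_simp
  ring

/-- affine substitution on `ℝ × ℝ` -/
theorem rt_xl_aux_cov (f : ℝ × ℝ → ℂ) {r : ℝ} (hr : 0 < r) (t : ℝ × ℝ) :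
    ∫ ξ, f ξ = ((r ^ 2 : ℝ) : ℂ) * ∫ ζ, f (r • ζ + t) := by
  have e1 := integral_add_right_eq_self (μ := (volume : Measure (ℝ × ℝ))) f t
  have e2 := Measure.integral_comp_smul (volume : Measure (ℝ × ℝ)) (fun x => f (x + t)) r
  have hfr : Module.finrank ℝ (ℝ × ℝ) = 2 := by simp
  rw [hfr, e1, abs_of_pos (by positivity)] at e2
  rw [e2, Complex.real_smul, ← mul_assoc, ← Complex.ofReal_mul, mul_inv_cancel₀ (by positivity), Complex.ofReal_one, one_mul]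

/-- LEAF `L-256-RT-XL-I3`.  **THE EXACT IDENTITY** (header).
PLAN.  `q.2 ≤ 0`: `rdChi β (H q.2) = 0` (`rd_chi_supp`), both sides vanish.   `ρ = q.2 > 0`: `unfold rtXlF RdWvPar.pk`; pull the constants `(2π)^{-3/2} χ_β(Hρ)` out; substitution `ξ' = (2ρd) • ζ + (2ρ) • A'`
(`integral_comp_smul`/`Measure.integral_comp_smul` + `integral_add_right_eq_self` on `ℝ × ℝ`, `finrank = 2`; or the `ℂ`-analogue of `rt_k_cov2`); pointwise phase identity (pure algebra: `unfold rtSq rtIp`, `field_simp`, `ring`; state it as a separate lemma on reals);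
`Complex.exp_add`, `rt_xl_fres2`; constants (`rt_k_d_pos : d² = H/ℓ`).   ~300 l. -/
theorem rt_xl_id (p : RdWvPar) (T : ℝ) (k β : ℕ) (c : ℝ) (hc : c ≠ 0) (h1 : 0 < 1 - c * T) (x : RdWvPar.Ph) (q : RdWvPar.Mo) :
    rtXlF c (p.pk T k β x) q = rtXlPk p (rtXlTe c T) k β (rtXlDe c T) (rtXlE0 k c T) (rtXlXe c T x) q := by
  obtain ⟨ξ, ρ⟩ := q
  obtain ⟨A', b', y'⟩ := x
  by_cases hρ : 0 < ρ
  swap
  · have hχ : rdChi β (p.H * ρ) = 0 := by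
      by_contra h
      have h2 := (rd_chi_supp h).1
      have h3 : p.H * ρ ≤ 0 := mul_nonpos_of_nonneg_of_nonpos p.H_pos.le (not_lt.1 hρ)
      have h4 : (0 : ℝ) < 2⁻¹ ^ (β + 5) := by positivity
      linarith
    unfold rtXlF rtXlPk RdWvPar.pk
    simp [hχ]
  obtain ⟨hd, hd2⟩ := rt_k_d_pos p.H_pos k
  obtain ⟨d, hdd⟩ : ∃ d : ℝ, d = rdD p.H k := ⟨_, rfl⟩
  rw [← hdd] at hd hd2
  have hl := rdLen_pos k
  obtain ⟨Λ, hΛ⟩ : ∃ Λ : ℝ, Λ = ρ * ((1 - c * T) / c) * d ^ 2 := ⟨_, rfl⟩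
  have hΛ0 : Λ ≠ 0 := by
    rw [hΛ]
    have : (1 - c * T) / c ≠ 0 := div_ne_zero h1.ne' hc
    positivity
  obtain ⟨ζ₀, hζ₀⟩ : ∃ ζ₀ : ℝ × ℝ, ζ₀ = ((1 - c * T)⁻¹ * d⁻¹) • ((2 * ρ)⁻¹ • ξ - ((1 - c * T) • A' + c • b')) := ⟨_, rfl⟩
  obtain ⟨Θ, hΘ⟩ : ∃ Θ : ℝ, Θ = rtIp ξ ((1 - c * T)⁻¹ • b') - ρ * (y' + c * (1 - c * T)⁻¹ * rtSq b') - (T * (1 - c * T)⁻¹) * rtSq ξ / (4 * ρ) :=
    ⟨_, rfl⟩
  obtain ⟨K, hK⟩ : ∃ K : ℝ, K = (2 * Real.pi) ^ (-(3 / 2) : ℝ) * rdChi β (p.H * ρ) := ⟨_, rfl⟩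
  unfold rtXlF
  rw [rt_xl_aux_cov _ (r := 2 * ρ * d) (by positivity) ((2 * ρ) • A')]
  have hint : ∀ ζ : ℝ × ℝ, Complex.exp (Complex.I * ((rtSq ((ξ, ρ).1 - ((2 * ρ * d) • ζ + (2 * ρ) • A')) / (4 * (ξ, ρ).2 * c) : ℝ) : ℂ))
      * p.pk T k β (A', b', y') ((2 * ρ * d) • ζ + (2 * ρ) • A', (ξ, ρ).2)
      = ((K : ℂ) * Complex.exp (Complex.I * (Θ : ℂ))) * (((rdPsi ζ : ℝ) : ℂ) * Complex.exp (Complex.I * ((Λ * rtSq (ζ - ζ₀) : ℝ) : ℂ))) := by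
    intro ζ
    have hph := rt_xl_aux_phase ρ c T d hρ.ne' hc h1.ne' hd.ne' ξ A' b' ζ y'
    rw [← hΛ, ← hζ₀, ← hΘ] at hph
    have harg : (rdD p.H k)⁻¹ • ((2 * ρ)⁻¹ • ((2 * ρ * d) • ζ + (2 * ρ) • A') - A') = ζ := by
      rw [← hdd]
      ext <;> simp <;> field_simp <;> ring
    unfold RdWvPar.pk
    simp only
    rw [harg, ← hK]
    have e1 : Complex.exp (Complex.I * ((Θ : ℝ) : ℂ)) * Complex.exp (Complex.I * ((Λ * rtSq (ζ - ζ₀) : ℝ) : ℂ))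
        = Complex.exp (Complex.I * ((rtSq (ξ - ((2 * ρ * d) • ζ + (2 * ρ) • A')) / (4 * ρ * c) : ℝ) : ℂ))
          * Complex.exp (Complex.I * ((rtIp ((2 * ρ * d) • ζ + (2 * ρ) • A') b' - ρ * y' - T * rtSq ((2 * ρ * d) • ζ + (2 * ρ) • A') / (4 * ρ) : ℝ) : ℂ)) := by
      rw [← Complex.exp_add, ← Complex.exp_add, ← mul_add, ← mul_add, ← Complex.ofReal_add, ← Complex.ofReal_add, hph, add_comm]
    push_cast at e1 ⊢
    linear_combination (-(K : ℂ) * (rdPsi ζ : ℂ)) * e1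
  simp_rw [hint]
  rw [integral_const_mul, rt_xl_fres2 Λ hΛ0 ζ₀]
  unfold rtXlPk rtXlTe rtXlDe rtXlE0 rtXlXe
  simp only
  rw [← hdd, ← hζ₀, ← hΘ]
  have hε : Real.pi ^ 2 / Λ = Real.pi ^ 2 * c * rdLen k * (1 - c * T)⁻¹ / (p.H * ρ) := by
    rw [hΛ, hd2]
    field_simp
  rw [hε]
  have hpre : (4 * (Real.pi : ℂ) * Complex.I * ((ρ * c : ℝ) : ℂ))⁻¹ * (((2 * ρ * d) ^ 2 : ℝ) : ℂ) * (Complex.I * Real.pi / Λ)
      = (((1 - c * T)⁻¹ : ℝ) : ℂ) := by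
    rw [hΛ]
    have hπ : (Real.pi : ℂ) ≠ 0 := by exact_mod_cast Real.pi_ne_zero
    have hρc : (ρ : ℂ) ≠ 0 := by exact_mod_cast hρ.ne'
    have hcc : (c : ℂ) ≠ 0 := by exact_mod_cast hc
    have hdc : (d : ℂ) ≠ 0 := by exact_mod_cast hd.ne'
    have h1c : (1 - (c : ℂ) * T) ≠ 0 := by exact_mod_cast h1.ne'
    push_cast
    field_simp
    norm_num
  rw [show ((1 - c * T)⁻¹ * (2 * Real.pi) ^ (-(3 / 2) : ℝ) * rdChi β (p.H * ρ) : ℝ) = (1 - c * T)⁻¹ * K by rw [hK]; ring]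
  push_cast at hpre ⊢
  linear_combination ((K : ℂ) * Complex.exp (Complex.I * (Θ : ℂ)) * rtXlPs ζ₀ (Real.pi ^ 2 * c * rdLen k * (1 - c * T)⁻¹ / (p.H * ρ))) * hpre

/-- LEAF `L-256-RT-XL-I4`.  joint measurability of the windowed packet   (`rt_xl_ps_cont.measurable.comp`, measurable arithmetic as in `rt_w1c_pk_meas`).   ~50 l. -/
theorem rt_xl_pk_meas (p : RdWvPar) (T : ℝ) (k β : ℕ) (D e0 : ℝ) : Measurable fun z : RdWvPar.Ph × RdWvPar.Mo => rtXlPk p T k β D e0 z.1 z.2 := by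
  unfold rtXlPk
  have h1 : Measurable fun z : RdWvPar.Ph × RdWvPar.Mo => rdChi β (p.H * z.2.2) :=
    (rd_chi_contDiff β).continuous.measurable.comp (by fun_prop)
  have h2 : Measurable fun z : RdWvPar.Ph × RdWvPar.Mo =>
      rtXlPs ((D * (rdD p.H k)⁻¹) • ((2 * z.2.2)⁻¹ • z.2.1 - z.1.1)) (e0 / (p.H * z.2.2)) :=
    rt_xl_ps_cont.measurable.comp (f := fun z : RdWvPar.Ph × RdWvPar.Mo =>
      (((D * (rdD p.H k)⁻¹) • ((2 * z.2.2)⁻¹ • z.2.1 - z.1.1)), (e0 / (p.H * z.2.2)))) (by fun_prop)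
  have h3 : Measurable fun z : RdWvPar.Ph × RdWvPar.Mo => D * (2 * Real.pi) ^ (-(3 / 2) : ℝ) * rdChi β (p.H * z.2.2) :=
    h1.const_mul _
  have h4 : Measurable fun z : RdWvPar.Ph × RdWvPar.Mo =>
      z.2.1.1 * z.1.2.1.1 + z.2.1.2 * z.1.2.1.2 - z.2.2 * z.1.2.2 - T * (z.2.1.1 ^ 2 + z.2.1.2 ^ 2) / (4 * z.2.2) := by
    fun_prop
  have h5 : Measurable fun z : RdWvPar.Ph × RdWvPar.Mo =>
      ((rtIp z.2.1 z.1.2.1 - z.2.2 * z.1.2.2 - T * rtSq z.2.1 / (4 * z.2.2) : ℝ) : ℂ) := Complex.measurable_ofReal.comp h4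
  exact ((Complex.measurable_ofReal.comp h3).mul h2).mul (Complex.measurable_exp.comp (h5.const_mul Complex.I))

/-- `∫ (1+|a|)^-4 da < ∞` on `ℝ × ℝ` -/
theorem rt_xl_pk_int_wa : ∫⁻ a : ℝ × ℝ, ENNReal.ofReal (rtXlWa 4 a) ≠ ∞ := by
  have hfr : Module.finrank ℝ (ℝ × ℝ) = 2 := by simp
  have hint : Integrable (fun w : ℝ × ℝ => (1 + ‖w‖) ^ (-(4 : ℝ))) := by
    apply integrable_one_add_norm
    rw [hfr]
    norm_num
  have hle : ∀ w : ℝ × ℝ, rtXlWa 4 w ≤ (1 + ‖w‖) ^ (-(4 : ℝ)) := by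
    intro w
    have h1 : ‖w‖ ≤ Real.sqrt (rtSq w) := by
      have a1 : |w.1| ≤ Real.sqrt (rtSq w) := by
        apply Real.abs_le_sqrt
        unfold rtSq
        nlinarith [sq_nonneg w.2]
      have a2 : |w.2| ≤ Real.sqrt (rtSq w) := by
        apply Real.abs_le_sqrt
        unfold rtSq
        nlinarith [sq_nonneg w.1]
      rw [Prod.norm_def, Real.norm_eq_abs, Real.norm_eq_abs]
      exact max_le a1 a2
    unfold rtXlWa
    rw [Real.rpow_neg (by positivity), show (4 : ℝ) = ((4 : ℕ) : ℝ) by norm_num, Real.rpow_natCast]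
    apply inv_anti₀ (by positivity)
    exact pow_le_pow_left₀ (by positivity) (by linarith) 4
  have h2 : ∫⁻ w : ℝ × ℝ, ENNReal.ofReal (rtXlWa 4 w) ≤ ∫⁻ w : ℝ × ℝ, ENNReal.ofReal ((1 + ‖w‖) ^ (-(4 : ℝ))) :=
    lintegral_mono fun w => ENNReal.ofReal_le_ofReal (hle w)
  rw [← ofReal_integral_eq_lintegral_ofReal hint (Filter.Eventually.of_forall fun w => by positivity)] at h2
  exact (h2.trans_lt ENNReal.ofReal_lt_top).ne

/-- the weight is measurable, nonnegative, at most one -/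
theorem rt_xl_pk_int_wb (N : ℕ) : Measurable (rtXlWa N) ∧ ∀ a, 0 ≤ rtXlWa N a ∧ rtXlWa N a ≤ 1 := by
  refine ⟨by unfold rtXlWa rtSq; fun_prop, fun a => ?_⟩
  have h := Real.sqrt_nonneg (rtSq a)
  unfold rtXlWa
  exact ⟨by positivity, inv_le_one_of_one_le₀ (one_le_pow₀ (by linarith))⟩

/-- the majorant of the windowed packet -/
theorem rt_xl_pk_int_le (p : RdWvPar) (T : ℝ) (k β : ℕ) {D : ℝ} (hD : 0 < D) (e0 : ℝ) : ∃ K : ℝ, 0 ≤ K ∧ ∀ (x : RdWvPar.Ph) (q : RdWvPar.Mo),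
    ‖rtXlPk p T k β D e0 x q‖ ≤ K * ((Set.Ioo ((2 : ℝ)⁻¹ ^ (β + 5) / p.H) (2 ^ (β + 5) / p.H)).indicator (fun _ => (1 : ℝ)) q.2
      * rtXlWa 4 ((D * (rdD p.H k)⁻¹) • ((2 * q.2)⁻¹ • q.1 - x.1))) := by
  obtain ⟨C, hC, hΨ⟩ := rt_xl_ps_le 4 (|e0| * 2 ^ (β + 5))
  have hH := p.H_pos
  have hc0 : (0 : ℝ) ≤ (2 * Real.pi) ^ (-(3 / 2) : ℝ) := by positivity
  refine ⟨D * (2 * Real.pi) ^ (-(3 / 2) : ℝ) * C, by positivity, fun x q => ?_⟩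
  obtain ⟨-, hW⟩ := rt_xl_pk_int_wb 4
  have hW0 := (hW ((D * (rdD p.H k)⁻¹) • ((2 * q.2)⁻¹ • q.1 - x.1))).1
  have hχ0 := rd_chi_nonneg β (p.H * q.2)
  have hχ1 := rd_chi_le_one β (p.H * q.2)
  have he : ∀ r : ℝ, ‖Complex.exp (Complex.I * (r : ℂ))‖ = 1 := fun r => by
    rw [mul_comm]
    exact Complex.norm_exp_ofReal_mul_I r
  unfold rtXlPk
  rw [norm_mul, norm_mul, he, mul_one, Complex.norm_real, Real.norm_eq_abs, abs_of_nonneg (by positivity)]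
  by_cases hχ : rdChi β (p.H * q.2) = 0
  · rw [hχ, mul_zero, zero_mul]
    refine mul_nonneg (by positivity) (mul_nonneg (Set.indicator_nonneg (fun _ _ => zero_le_one) _) hW0)
  · obtain ⟨s1, s2⟩ := rd_chi_supp hχ
    have hmem : q.2 ∈ Set.Ioo ((2 : ℝ)⁻¹ ^ (β + 5) / p.H) (2 ^ (β + 5) / p.H) :=
      ⟨by rw [div_lt_iff₀ hH]; linarith, by rw [lt_div_iff₀ hH]; linarith⟩
    rw [Set.indicator_of_mem hmem, one_mul]
    have hpos : 0 < p.H * q.2 := lt_trans (by positivity) s1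
    have hE : |e0 / (p.H * q.2)| ≤ |e0| * 2 ^ (β + 5) := by
      rw [abs_div, abs_of_pos hpos, div_eq_mul_inv]
      refine mul_le_mul_of_nonneg_left ?_ (abs_nonneg _)
      rw [inv_pow] at s1
      exact (inv_lt_of_inv_lt₀ (by positivity) s1).le
    have h1 := hΨ ((D * (rdD p.H k)⁻¹) • ((2 * q.2)⁻¹ • q.1 - x.1)) (e0 / (p.H * q.2)) hE
    calc D * (2 * Real.pi) ^ (-(3 / 2) : ℝ) * rdChi β (p.H * q.2)
          * ‖rtXlPs ((D * (rdD p.H k)⁻¹) • ((2 * q.2)⁻¹ • q.1 - x.1)) (e0 / (p.H * q.2))‖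
        ≤ D * (2 * Real.pi) ^ (-(3 / 2) : ℝ) * 1 * (C * rtXlWa 4 ((D * (rdD p.H k)⁻¹) • ((2 * q.2)⁻¹ • q.1 - x.1))) := by
          gcongr
      _ = _ := by ring

/-- the majorant has a finite integral -/
theorem rt_xl_pk_int_fin {c a1 a2 : ℝ} (hc : 0 < c) (ha1 : 0 < a1) (A : ℝ × ℝ) :
    ∫⁻ q : (ℝ × ℝ) × ℝ, ENNReal.ofReal ((Set.Ioo a1 a2).indicator (fun _ => (1 : ℝ)) q.2 * rtXlWa 4 (c • ((2 * q.2)⁻¹ • q.1 - A))) ≠ ∞ := by
  obtain ⟨hWm, hW⟩ := rt_xl_pk_int_wb 4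
  have hm : Measurable fun q : (ℝ × ℝ) × ℝ =>
      ENNReal.ofReal ((Set.Ioo a1 a2).indicator (fun _ => (1 : ℝ)) q.2 * rtXlWa 4 (c • ((2 * q.2)⁻¹ • q.1 - A))) := by
    refine ENNReal.measurable_ofReal.comp (Measurable.mul ?_ (hWm.comp (by fun_prop)))
    exact (measurable_const.indicator measurableSet_Ioo).comp measurable_snd
  have e0 : (volume : Measure ((ℝ × ℝ) × ℝ)) = (volume : Measure (ℝ × ℝ)).prod (volume : Measure ℝ) := rfl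
  rw [e0, lintegral_prod_symm _ hm.aemeasurable]
  have hin : ∀ ρ : ℝ, ∫⁻ ξ : ℝ × ℝ, ENNReal.ofReal ((Set.Ioo a1 a2).indicator (fun _ => (1 : ℝ)) ρ * rtXlWa 4 (c • ((2 * ρ)⁻¹ • ξ - A)))
      ≤ (Set.Ioo a1 a2).indicator (fun _ => ENNReal.ofReal ((2 * a2 / c) ^ 2) * ∫⁻ a : ℝ × ℝ, ENNReal.ofReal (rtXlWa 4 a)) ρ := by
    intro ρ
    by_cases hρ : ρ ∈ Set.Ioo a1 a2
    · rw [Set.indicator_of_mem hρ, Set.indicator_of_mem hρ]
      have hρ0 : 0 < ρ := ha1.trans hρ.1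
      have ha : 0 < 2 * ρ / c := by positivity
      have e1 : ∀ ξ : ℝ × ℝ, c • ((2 * ρ)⁻¹ • ξ - A) = (2 * ρ / c)⁻¹ • (ξ - (2 * ρ) • A) := by
        intro ξ
        ext
        · simp only [Prod.smul_fst, Prod.fst_sub, smul_eq_mul]
          field_simp
        · simp only [Prod.smul_snd, Prod.snd_sub, smul_eq_mul]
          field_simp
      simp only [one_mul, e1]
      rw [rt_k_cov2 (fun a => ENNReal.ofReal (rtXlWa 4 a)) ha ((2 * ρ) • A)]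
      gcongr
      exact hρ.2.le
    · rw [Set.indicator_of_notMem hρ, Set.indicator_of_notMem hρ]
      simp
  refine ((lintegral_mono hin).trans_lt ?_).ne
  rw [lintegral_indicator measurableSet_Ioo, setLIntegral_const, Real.volume_Ioo]
  exact ENNReal.mul_lt_top (ENNReal.mul_lt_top ENNReal.ofReal_lt_top rt_xl_pk_int_wa.lt_top) ENNReal.ofReal_lt_top

/-- LEAF `L-256-RT-XL-I4`.  **the windowed packet is integrable and square integrable in `q`.**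
PLAN.  `‖rtXlPk‖ = D (2π)^{-3/2} χ_β(Hρ) ‖Ψ(..)‖`.   On `χ_β(Hρ) ≠ 0`: `2^-(β+5) < Hρ < 2^(β+5)` (`rd_chi_supp`), `|e0/(Hρ)| ≤ |e0| 2^(β+5) =: E0`, `0 ≤ χ ≤ 1`; `rt_xl_ps_le 3 E0`.
Majorant `g(ξ, ρ) = C 1_{I}(ρ) (1 + |(D/d)(ξ/2ρ - A)|)^-3`: Tonelli, for fixed `ρ ∈ I` the `ξ`-integral is `(2ρd/D)² ∫ (1+|v|)^-3 dv` (`rt_k_cov2`), bounded on `I`; `∫ (1+|v|)^-3 dv < ∞` on `ℝ × ℝ` (see `rt_xl_wa_int` of `Rt/XlSum.lean` for `N = 4`: use `rt_xl_ps_le 4` and copy, or prove here for `4`).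
`L²`: bounded (`rt_xl_ps_le 0`) and integrable (`MemLp` from `memLp_one_iff_integrable` + `MemLp.of_bound`-type interpolation: `‖f‖² ≤ B ‖f‖`).   ~250 l. -/
theorem rt_xl_pk_int (p : RdWvPar) (T : ℝ) (k β : ℕ) {D : ℝ} (hD : 0 < D) (e0 : ℝ) (x : RdWvPar.Ph) :
    Integrable (rtXlPk p T k β D e0 x) volume ∧ MemLp (rtXlPk p T k β D e0 x) 2 volume := by
  obtain ⟨K, hK, hle⟩ := rt_xl_pk_int_le p T k β hD e0
  obtain ⟨-, hW⟩ := rt_xl_pk_int_wb 4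
  have hd := (rt_k_d_pos p.H_pos k).1
  have hm : Measurable (rtXlPk p T k β D e0 x) :=
    (rt_xl_pk_meas p T k β D e0).comp (f := fun q : RdWvPar.Mo => (x, q)) (by fun_prop)
  have hfin := rt_xl_pk_int_fin (c := D * (rdD p.H k)⁻¹) (a1 := (2 : ℝ)⁻¹ ^ (β + 5) / p.H) (a2 := 2 ^ (β + 5) / p.H) (by positivity)
    (div_pos (by positivity) p.H_pos) x.1
  have hint : Integrable (rtXlPk p T k β D e0 x) volume := by
    refine ⟨hm.aestronglyMeasurable, ?_⟩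
    rw [hasFiniteIntegral_iff_enorm]
    calc ∫⁻ q, ‖rtXlPk p T k β D e0 x q‖ₑ
        ≤ ∫⁻ q : (ℝ × ℝ) × ℝ, ENNReal.ofReal K * ENNReal.ofReal ((Set.Ioo ((2 : ℝ)⁻¹ ^ (β + 5) / p.H) (2 ^ (β + 5) / p.H)).indicator
            (fun _ => (1 : ℝ)) q.2 * rtXlWa 4 ((D * (rdD p.H k)⁻¹) • ((2 * q.2)⁻¹ • q.1 - x.1))) := by
          refine lintegral_mono fun q => ?_
          rw [← ofReal_norm, ← ENNReal.ofReal_mul hK]
          exact ENNReal.ofReal_le_ofReal (hle x q)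
      _ < ∞ := by
          rw [lintegral_const_mul' _ _ ENNReal.ofReal_ne_top]
          exact ENNReal.mul_lt_top ENNReal.ofReal_lt_top hfin.lt_top
  refine ⟨hint, ?_⟩
  rw [memLp_two_iff_integrable_sq_norm hm.aestronglyMeasurable]
  refine Integrable.mono' (hint.norm.const_mul K) (hm.norm.pow_const 2).aestronglyMeasurable (Filter.Eventually.of_forall fun q => ?_)
  have hb : ‖rtXlPk p T k β D e0 x q‖ ≤ K := by
    refine (hle x q).trans ?_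
    have h1 := hW ((D * (rdD p.H k)⁻¹) • ((2 * q.2)⁻¹ • q.1 - x.1))
    have h2 : (Set.Ioo ((2 : ℝ)⁻¹ ^ (β + 5) / p.H) (2 ^ (β + 5) / p.H)).indicator (fun _ => (1 : ℝ)) q.2 ≤ 1 :=
      Set.indicator_le_self' (fun _ _ => zero_le_one) _
    have h3 : (0 : ℝ) ≤ (Set.Ioo ((2 : ℝ)⁻¹ ^ (β + 5) / p.H) (2 ^ (β + 5) / p.H)).indicator (fun _ => (1 : ℝ)) q.2 :=
      Set.indicator_nonneg (fun _ _ => zero_le_one) _
    calc K * _ ≤ K * (1 * 1) := mul_le_mul_of_nonneg_left (mul_le_mul h2 h1.2 h1.1 zero_le_one) hK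
      _ = K := by ring
  rw [Real.norm_eq_abs, abs_of_nonneg (by positivity), sq]
  exact mul_le_mul_of_nonneg_right hb (norm_nonneg _)

/-- LEAF `L-256-RT-XL-I5`.  conjugation symmetry of the formula   (`integral_conj`, `Complex.exp_conj`, `map_inv₀`, `map_mul`, `Complex.conj_I`, `Complex.conj_ofReal`; `x/(4ρ(-c)) = -(x/(4ρc))`).   ~40 l. -/
theorem rt_xl_F_conj (c : ℝ) (G : RdWvPar.Mo → ℂ) (q : RdWvPar.Mo) : conj (rtXlF (-c) (fun q' => conj (G q')) q) = rtXlF c G q := by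
  unfold rtXlF
  rw [map_mul, map_inv₀, ← integral_conj]
  congr 1
  · congr 1
    simp only [map_mul, Complex.conj_I, Complex.conj_ofReal, map_ofNat]
    push_cast
    ring
  · refine integral_congr_ae (Filter.Eventually.of_forall fun ξ => ?_)
    have e : rtSq (q.1 - ξ) / (4 * q.2 * -c) = -(rtSq (q.1 - ξ) / (4 * q.2 * c)) := by
      rw [mul_neg, div_neg]
    simp only [map_mul, Complex.conj_conj, ← Complex.exp_conj, Complex.conj_I, Complex.conj_ofReal, e]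
    push_cast
    congr 2
    ring

/-- LEAF `L-256-RT-XL-I5`.  **representation of the analysis of `T_c w`.**
PLAN.  `c = 0`: `rt_xl_o_zero`, `rt_w1_an_spec`, `RdWvPar.row`, `rtXlTe 0 T = T`, `rtXlDe 0 T = 1`, `rtXlE0 k 0 T = 0`, `rtXlXe 0 T x = x` (`simp`), `rt_xl_pk_zero`.
`c ≠ 0`: `rt_w1_an_spec`: for a.e. `x`, LHS `= ∫ pk x q (T_c w) q dq`.   FOR EVERY `x`: `P := conj ∘ pk x` is bounded with compact support and measurable (`rt_k_pk_le`, `rt_w1c_A_supp`/`rt_w1_amp_supp`, `rt_k_pk_meas`), so integrable and in `L²`; `Pl := toLp P`.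
`∫ pk x (T_c w) = ⟪Pl, T_c w⟫ = ⟪T_c^* Pl, w⟫ = ⟪T_{-c} Pl, w⟫` (`L2.inner_def`, `ContinuousLinearMap.adjoint_inner_left`, `rt_xl_o_adj`), `T_{-c} Pl =ᵐ rtXlF (-c) P` (`rt_xl_o_spec (-c)`, `rt_xl_F_congr`),
`conj (rtXlF (-c) (conj ∘ pk x)) = rtXlF c (pk x)` (`rt_xl_F_conj`) `= rtXlPk ..` (`rt_xl_id`).   ~200 l. -/
theorem rt_xl_rep (p : RdWvPar) (T : ℝ) (k β : ℕ) (c : ℝ) (h1 : 0 < 1 - c * T) (w : RtKc) :
    (p.an T k β (rtXlOp c w) : RdWvPar.Ph → ℂ) =ᵐ[p.rw k] fun x =>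
      ∫ q, rtXlPk p (rtXlTe c T) k β (rtXlDe c T) (rtXlE0 k c T) (rtXlXe c T x) q * (w : RdWvPar.Mo → ℂ) q := by
  by_cases hc : c = 0
  · subst hc
    rw [rt_xl_o_zero]
    refine (rt_w1_an_spec p T k β w).trans (Filter.Eventually.of_forall fun x => ?_)
    have e1 : rtXlTe 0 T = T := by unfold rtXlTe; simp
    have e2 : rtXlDe 0 T = 1 := by unfold rtXlDe; simp
    have e3 : rtXlE0 k 0 T = 0 := by unfold rtXlE0; simp
    have e4 : rtXlXe 0 T x = x := by unfold rtXlXe; simp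
    simp only [e1, e2, e3, e4]
    unfold RdWvPar.row
    refine integral_congr_ae (Filter.Eventually.of_forall fun q => ?_)
    simp only [rt_xl_pk_zero]
  · refine (rt_w1_an_spec p T k β (rtXlOp c w)).trans (Filter.Eventually.of_forall fun x => ?_)
    have hc' : -c ≠ 0 := neg_ne_zero.2 hc
    have hpk : rtXlPk p T k β 1 0 x = p.pk T k β x := funext (rt_xl_pk_zero p T k β x)
    obtain ⟨hi, h2⟩ := rt_xl_pk_int p T k β one_pos 0 x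
    rw [hpk] at hi h2
    have hPm : AEStronglyMeasurable (fun q => conj (p.pk T k β x q)) (volume : Measure RdWvPar.Mo) :=
      Complex.continuous_conj.comp_aestronglyMeasurable hi.1
    have hPi : Integrable (fun q => conj (p.pk T k β x q)) (volume : Measure RdWvPar.Mo) :=
      hi.mono hPm (Filter.Eventually.of_forall fun q => by rw [RCLike.norm_conj])
    have hP2 : MemLp (fun q => conj (p.pk T k β x q)) 2 (volume : Measure RdWvPar.Mo) :=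
      h2.mono hPm (Filter.Eventually.of_forall fun q => by rw [RCLike.norm_conj])
    obtain ⟨Pl, hPl⟩ : ∃ Pl : RtKc, (Pl : RdWvPar.Mo → ℂ) =ᵐ[volume] fun q => conj (p.pk T k β x q) :=
      ⟨hP2.toLp _, hP2.coeFn_toLp⟩
    have hPli : Integrable (Pl : RdWvPar.Mo → ℂ) volume := hPi.congr hPl.symm
    have s1 : p.row T k β (rtXlOp c w) x = ⟪Pl, rtXlOp c w⟫_ℂ := by
      unfold RdWvPar.row
      rw [L2.inner_def]
      refine integral_congr_ae ?_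
      filter_upwards [hPl] with q hq
      rw [RCLike.inner_apply, hq, Complex.conj_conj, mul_comm]
    have s2 : ⟪Pl, rtXlOp c w⟫_ℂ = ⟪rtXlOp (-c) Pl, w⟫_ℂ := by
      rw [← rt_xl_o_adj c, ContinuousLinearMap.adjoint_inner_left]
    have s3 : (rtXlOp (-c) Pl : RdWvPar.Mo → ℂ) =ᵐ[volume] rtXlF (-c) (fun q => conj (p.pk T k β x q)) :=
      ((rt_xl_o_spec (-c) hc').2 Pl hPli).trans (rt_xl_F_congr (-c) hPl)
    rw [s1, s2, L2.inner_def]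
    refine integral_congr_ae ?_
    filter_upwards [s3] with q hq
    rw [RCLike.inner_apply, hq, rt_xl_F_conj c (p.pk T k β x) q, rt_xl_id p T k β c hc h1 x q, mul_comm]

end Claimed.Agent.R256
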