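import Claimed.Agent.R256.Rt.XlId

/-!
# Row 256, folder Rt, unit XL (the lens arrow), file 3/5 : THE KERNEL BOUND      (unit architect helper280; prefix `rt_xl_`)      CONTRACT FILE: every `sorry` is a leaf `L-256-RT-XL-K*`

Paper free.   PROVE IN PLACE, statements verbatim, helpers directly above your theorem, splice only your theorems.      MODEL TO CLONE: `Rt/Ker.lean` (`rt_k_scale`, `rt_k_b_smooth`, `rt_k_b_supp`, `rt_k_I_eq`, `rt_k_decay_one`, `rt_k_decay`, `rt_k_bound`), sorry-free.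
EXIT of this file: **`rt_xl_bound`** : `‖rtXlK‖ ≤ C rtXlM`, i.e. `|∫ (windowed packet at (Tg, xg)) conj (packet at (T, x))| ≤ C_N (Q²H)⁻¹ (1+|a|)^-N (1+|X|+|Y|)^-N`, `a = (A_g - A)/d`, `X, Y = rtKX, rtKY` at `u = Tg - T`, `|u| ≤ ℓ`.
NEW POINT with respect to `Rt/Ker.lean`: the parameter `a` is NOT compact (the window `Ψ` is Schwartz, not compactly supported) and we want decay in `a`.   SOLUTION:
    `rtXlAm (w) = F₁(w; τ) · Φ(G(w; D, e0))`,   `Φ = Ψ(· - (D a, 0))`,   `G(w; D, e0) = (D ζ/2σ, e0/σ)` made GLOBALLY smooth by `1/σ → rtXlR b σ = χ_{b+1}(σ)/σ`,   `F₁ = χ_{b'}χ_b(σ) ψ(ζ/2σ) e^{-iτ|ζ|²/4σ}`.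
    K2 : Fourier decay from derivative bounds given as HYPOTHESES (any family).      K3 : derivative bounds of `F₁ · (Φ ∘ G)`, uniform over compact `(D, e0, τ)` and over ALL outer functions `Φ` with given bounds.      K4/K5 : the instance; `rt_xl_psi_decay` gives `‖D^j Φ‖ ≤ C (1+|a|)^-N` on the compact range of `G`.
-/

set_option autoImplicit false

namespace Claimed.Agent.R256

open MeasureTheory Claimed.Agent.R255.BR
open scoped ENNReal ComplexConjugate FourierTransform SchwartzMap InnerProductSpace ContDiff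

/-- auxiliary to K1 (helper32): product of a windowed packet and a conjugate packet (clone of `rt_k_pk_mul`) -/
theorem rt_xl_pk_mul (p : RdWvPar) (T : ℝ) (k b : ℕ) (Tg : ℝ) (b' : ℕ) (D e0 : ℝ) (xg x : RdWvPar.Ph) (q : RdWvPar.Mo) :
    rtXlPk p Tg k b' D e0 xg q * conj (p.pk T k b x q)
      = ((D * ((2 * Real.pi) ^ (-(3 / 2) : ℝ)) ^ 2 * (rdChi b' (p.H * q.2) * rdChi b (p.H * q.2) * rdPsi ((rdD p.H k)⁻¹ • ((2 * q.2)⁻¹ • q.1 - x.1))) : ℝ) : ℂ)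
        * rtXlPs ((D * (rdD p.H k)⁻¹) • ((2 * q.2)⁻¹ • q.1 - xg.1)) (e0 / (p.H * q.2))
        * Complex.exp (Complex.I * ((rtIp q.1 (xg.2.1 - x.2.1) - q.2 * (xg.2.2 - x.2.2) - (Tg - T) * rtSq q.1 / (4 * q.2) : ℝ) : ℂ)) := by
  unfold RdWvPar.pk rtXlPk
  rw [map_mul, Complex.conj_ofReal, ← Complex.exp_conj, map_mul, Complex.conj_I, Complex.conj_ofReal]
  have e : Complex.exp (Complex.I * ((rtIp q.1 (xg.2.1 - x.2.1) - q.2 * (xg.2.2 - x.2.2) - (Tg - T) * rtSq q.1 / (4 * q.2) : ℝ) : ℂ))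
      = Complex.exp (Complex.I * ((rtIp q.1 xg.2.1 - q.2 * xg.2.2 - Tg * rtSq q.1 / (4 * q.2) : ℝ) : ℂ))
        * Complex.exp (-Complex.I * ((rtIp q.1 x.2.1 - q.2 * x.2.2 - T * rtSq q.1 / (4 * q.2) : ℝ) : ℂ)) := by
    rw [← Complex.exp_add]
    congr 1
    unfold rtIp
    simp only [Prod.fst_sub, Prod.snd_sub]
    push_cast
    ring
  rw [e]
  push_cast
  ring

/-- LEAF `L-256-RT-XL-K1`.  **scaling** (clone of `rt_k_pk_mul` + `rt_k_scale`, ~100 l. there).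
PLAN.  Product formula for `rtXlPk .. xg q * conj (pk .. x q)` (`Complex.exp_conj`, `← Complex.exp_add`); `rt_k_cov_i` with `a = Q`, `c = H`, `v = 2 • x.1` (`ρ = σ/H`, `ξ = ζ/Q + 2ρA`);
`(ξ/2ρ - A)/d = ζ/2σ`, `(D/d)(ξ/2ρ - A_g) = D (ζ/2σ - a)`, `e0/(Hρ) = e0/σ`, phase `= ζ·X - σY - (u/ℓ)|ζ|²/4σ` EXACTLY as in `rt_k_scale` (copy its algebra; `σ = 0`: both sides vanish since `rdChi b 0 = 0`).   ~200 l. -/
theorem rt_xl_scale (p : RdWvPar) (T : ℝ) (k b : ℕ) (Tg : ℝ) (b' : ℕ) (D e0 : ℝ) (xg x : RdWvPar.Ph) :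
    rtXlK p T k b Tg b' D e0 xg x = (((D * ((2 * Real.pi) ^ 3 * (rdQ p.H k ^ 2 * p.H))⁻¹ : ℝ)) : ℂ) *
      rtXlMi b b' ((rdD p.H k)⁻¹ • (xg.1 - x.1)) D e0 ((Tg - T) / rdLen k) (rtKX p.H k (Tg - T) xg x) (rtKY p.H (Tg - T) xg x) := by
  have hH := p.H_pos
  have hℓ := rdLen_pos k
  have hQ : 0 < rdQ p.H k := Real.sqrt_pos.2 (mul_pos hH hℓ)
  have hQ2 : rdQ p.H k ^ 2 = p.H * rdLen k := Real.sq_sqrt (mul_pos hH hℓ).le
  have hd : 0 < rdD p.H k := Real.sqrt_pos.2 (div_pos hH hℓ)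
  have hd2 : rdD p.H k ^ 2 = p.H / rdLen k := Real.sq_sqrt (div_pos hH hℓ).le
  have hQd : rdD p.H k = p.H / rdQ p.H k := by
    rw [eq_div_iff hQ.ne']
    have h1 : (rdD p.H k * rdQ p.H k) ^ 2 = p.H ^ 2 := by
      rw [mul_pow, hd2, hQ2]
      field_simp
    exact (pow_left_inj₀ (by positivity) hH.le (by norm_num)).1 h1
  have hℓQ : rdLen k = rdQ p.H k ^ 2 / p.H := by rw [hQ2]; field_simp
  unfold rtXlK
  rw [rt_k_cov_i _ hQ hH (2 • x.1)]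
  unfold rtXlMi
  have hc : (((D * ((2 * Real.pi) ^ 3 * (rdQ p.H k ^ 2 * p.H))⁻¹ : ℝ)) : ℂ) = (((rdQ p.H k ^ 2 * p.H)⁻¹ : ℝ) : ℂ) * (((D * ((2 * Real.pi) ^ 3)⁻¹ : ℝ)) : ℂ) := by
    rw [← Complex.ofReal_mul, mul_inv]
    congr 1
    ring
  rw [hc, mul_assoc]
  congr 1
  rw [← integral_const_mul]
  refine integral_congr_ae (Filter.Eventually.of_forall fun w => ?_)
  simp only
  rw [rt_xl_pk_mul]
  simp only
  have hHσ : p.H * (w.2 / p.H) = w.2 := by field_simp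
  rw [hHσ]
  unfold rtXlAm
  by_cases hσ : w.2 = 0
  · have h0 : rdChi b w.2 = 0 := by
      by_contra hne
      have := (rd_chi_supp hne).1
      rw [hσ] at this
      exact absurd this (not_lt.2 (by positivity))
    rw [h0]
    simp
  · set Q := rdQ p.H k with hQdef
    have a1 : (rdD p.H k)⁻¹ • ((2 * (w.2 / p.H))⁻¹ • (Q⁻¹ • w.1 + (w.2 / p.H) • (2 • x.1)) - x.1) = (2 * w.2)⁻¹ • w.1 := by
      rw [hQd]
      ext
      · simp only [Prod.smul_fst, Prod.fst_sub, Prod.fst_add, smul_eq_mul]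
        field_simp
        ring
      · simp only [Prod.smul_snd, Prod.snd_sub, Prod.snd_add, smul_eq_mul]
        field_simp
        ring
    have a2 : (D * (rdD p.H k)⁻¹) • ((2 * (w.2 / p.H))⁻¹ • (Q⁻¹ • w.1 + (w.2 / p.H) • (2 • x.1)) - xg.1)
        = D • ((2 * w.2)⁻¹ • w.1 - (rdD p.H k)⁻¹ • (xg.1 - x.1)) := by
      rw [hQd]
      ext
      · simp only [Prod.smul_fst, Prod.fst_sub, Prod.fst_add, smul_eq_mul]
        field_simp
        ring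
      · simp only [Prod.smul_snd, Prod.snd_sub, Prod.snd_add, smul_eq_mul]
        field_simp
        ring
    have a3 : rtIp (Q⁻¹ • w.1 + (w.2 / p.H) • (2 • x.1)) (xg.2.1 - x.2.1) - w.2 / p.H * (xg.2.2 - x.2.2)
          - (Tg - T) * rtSq (Q⁻¹ • w.1 + (w.2 / p.H) • (2 • x.1)) / (4 * (w.2 / p.H))
        = (rtIp w.1 (rtKX p.H k (Tg - T) xg x) - w.2 * rtKY p.H (Tg - T) xg x) + -((Tg - T) / rdLen k * rtSq w.1 / (4 * w.2)) := by
      rw [hℓQ]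
      unfold rtKX rtKY rtIp rtSq
      rw [← hQdef]
      simp only [Prod.smul_fst, Prod.smul_snd, Prod.fst_sub, Prod.snd_sub, Prod.fst_add, Prod.snd_add, smul_eq_mul]
      field_simp
      ring
    rw [a1, a2, a3, Complex.ofReal_add, mul_add, Complex.exp_add]
    have hc3 : ((2 * Real.pi) ^ (-(3 / 2) : ℝ)) ^ 2 = ((2 * Real.pi) ^ 3)⁻¹ := by
      exact eq_inv_of_mul_eq_one_right rt_w1c_const
    rw [hc3]
    push_cast
    ring

theorem rt_xl_ud_tsupport {W : Type} [NormedAddCommGroup W] [NormedSpace ℝ W] {KW : Set W} (hKW : IsCompact KW) {f : W → ℂ}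
    (hs : ∀ w, w ∉ KW → f w = 0) : tsupport f ⊆ KW := by
  refine closure_minimal ?_ hKW.isClosed
  intro w hw
  by_contra h
  exact hw (hs w h)

theorem rt_xl_ud_int {W : Type} [NormedAddCommGroup W] [InnerProductSpace ℝ W] [FiniteDimensional ℝ W] [MeasurableSpace W]
    [BorelSpace W] {KW : Set W} (hKW : IsCompact KW) {f : W → ℂ} (hf : ContDiff ℝ ∞ f) (hs : ∀ w, w ∉ KW → f w = 0) (k j : ℕ) :
    Integrable fun v => ‖v‖ ^ k * ‖iteratedFDeriv ℝ j f v‖ := by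
  have hc : HasCompactSupport f := hKW.of_isClosed_subset (isClosed_tsupport _) (rt_xl_ud_tsupport hKW hs)
  have h1 : Continuous (iteratedFDeriv ℝ j f) := hf.continuous_iteratedFDeriv (m := j) (by exact_mod_cast le_top)
  refine Continuous.integrable_of_hasCompactSupport (by fun_prop) ?_
  exact ((hc.iteratedFDeriv j).norm).mul_left

theorem rt_xl_ud_M {W : Type} [NormedAddCommGroup W] [InnerProductSpace ℝ W] [FiniteDimensional ℝ W] [MeasurableSpace W]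
    [BorelSpace W] {KW : Set W} (hKW : IsCompact KW) {f : W → ℂ} (hs : ∀ w, w ∉ KW → f w = 0) (j : ℕ) {M : ℝ}
    (hM : ∀ w, ‖iteratedFDeriv ℝ j f w‖ ≤ M) : ∫ v, ‖v‖ ^ 0 * ‖iteratedFDeriv ℝ j f v‖ ≤ M * (volume KW).toReal := by
  have hz : ∀ v, v ∉ KW → ‖v‖ ^ 0 * ‖iteratedFDeriv ℝ j f v‖ = 0 := by
    intro v hv
    have : v ∉ Function.support (iteratedFDeriv ℝ j f) := fun h =>
      hv (rt_xl_ud_tsupport hKW hs (support_iteratedFDeriv_subset j h))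
    rw [Function.notMem_support.1 this]
    simp
  rw [← setIntegral_eq_integral_of_forall_compl_eq_zero hz]
  have hb := norm_setIntegral_le_of_norm_le_const (μ := volume) (s := KW) (C := M)
    (f := fun v => ‖v‖ ^ 0 * ‖iteratedFDeriv ℝ j f v‖) hKW.measure_lt_top (fun v _ => by
      rw [pow_zero, one_mul, norm_norm]
      exact hM v)
  exact (le_abs_self _).trans (by simpa [Measure.real] using hb)

theorem rt_xl_ud_pow {W : Type} [NormedAddCommGroup W] [InnerProductSpace ℝ W] [FiniteDimensional ℝ W] [MeasurableSpace W]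
    [BorelSpace W] {KW : Set W} (hKW : IsCompact KW) {f : W → ℂ} (hf : ContDiff ℝ ∞ f) (hs : ∀ w, w ∉ KW → f w = 0) (n : ℕ) {M : ℝ}
    (hM : ∀ j ≤ n, ∀ w, ‖iteratedFDeriv ℝ j f w‖ ≤ M) (x : W) :
    ‖x‖ ^ n * ‖𝓕 f x‖ ≤ 2 ^ n * ((n + 1 : ℕ) : ℝ) * (volume KW).toReal * M := by
  have h := Real.pow_mul_norm_iteratedFDeriv_fourier_le (K := 0) (N := ⊤) (f := f)
    hf (fun k j _ _ => rt_xl_ud_int hKW hf hs k j) (k := 0) (n := n) le_rfl le_top x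
  rw [norm_iteratedFDeriv_zero] at h
  refine h.trans ?_
  have h2 : ∑ q ∈ Finset.range (0 + 1) ×ˢ Finset.range (n + 1), ∫ v, ‖v‖ ^ q.1 * ‖iteratedFDeriv ℝ q.2 f v‖
      ≤ ∑ _q ∈ Finset.range (0 + 1) ×ˢ Finset.range (n + 1), M * (volume KW).toReal := by
    refine Finset.sum_le_sum fun q hq => ?_
    have hq1 : q.1 = 0 := by
      have := (Finset.mem_product.1 hq).1
      simpa using this
    have hq2 : q.2 ≤ n := by
      have := (Finset.mem_product.1 hq).2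
      exact Nat.lt_succ_iff.1 (Finset.mem_range.1 this)
    rw [hq1]
    exact rt_xl_ud_M hKW hs q.2 (hM q.2 hq2)
  rw [Finset.sum_const, Finset.card_product, Finset.card_range, Finset.card_range, nsmul_eq_mul] at h2
  calc (2 * Real.pi) ^ 0 * (2 * ((0 : ℕ) : ℝ) + 2) ^ n * ∑ q ∈ Finset.range (0 + 1) ×ˢ Finset.range (n + 1), ∫ v, ‖v‖ ^ q.1 * ‖iteratedFDeriv ℝ q.2 f v‖
      ≤ (2 * Real.pi) ^ 0 * (2 * ((0 : ℕ) : ℝ) + 2) ^ n * ((((0 + 1) * (n + 1) : ℕ) : ℝ) * (M * (volume KW).toReal)) :=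
        mul_le_mul_of_nonneg_left h2 (by positivity)
    _ = _ := by
        push_cast
        ring

theorem rt_xl_ud_gen {W : Type} [NormedAddCommGroup W] [InnerProductSpace ℝ W] [FiniteDimensional ℝ W] [MeasurableSpace W]
    [BorelSpace W] {KW : Set W} (hKW : IsCompact KW) (L : ℕ) : ∃ C : ℝ, 0 ≤ C ∧ ∀ (f : W → ℂ) (M : ℝ), ContDiff ℝ ∞ f →
    (∀ w, w ∉ KW → f w = 0) → (∀ j ≤ L, ∀ w, ‖iteratedFDeriv ℝ j f w‖ ≤ M) →
    ∀ x : W, (1 + ‖x‖) ^ L * ‖∫ w, ee ⟪w, x⟫_ℝ * f w‖ ≤ C * M := by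
  refine ⟨∑ m ∈ Finset.range (L + 1), (L.choose m : ℝ) * (2 ^ m * ((m + 1 : ℕ) : ℝ) * (volume KW).toReal),
    Finset.sum_nonneg fun m _ => by positivity, fun f M hf hs hM x => ?_⟩
  have e : ∫ w, ee ⟪w, x⟫_ℝ * f w = 𝓕 f (-x) := by
    rw [fourier_ee]
    refine integral_congr_ae (Filter.Eventually.of_forall fun v => ?_)
    simp only [inner_neg_right, neg_neg]
  rw [e, add_comm 1 ‖x‖, add_pow, Finset.sum_mul, Finset.sum_mul]
  refine Finset.sum_le_sum fun m hm => ?_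
  have hmL : m ≤ L := Nat.lt_succ_iff.1 (Finset.mem_range.1 hm)
  have h := rt_xl_ud_pow hKW hf hs m (fun j hj w => hM j (hj.trans hmL) w) (-x)
  rw [norm_neg] at h
  calc ‖x‖ ^ m * 1 ^ (L - m) * (L.choose m : ℝ) * ‖𝓕 f (-x)‖
      = (L.choose m : ℝ) * (‖x‖ ^ m * ‖𝓕 f (-x)‖) := by rw [one_pow]; ring
    _ ≤ (L.choose m : ℝ) * (2 ^ m * ((m + 1 : ℕ) : ℝ) * (volume KW).toReal * M) := mul_le_mul_of_nonneg_left h (Nat.cast_nonneg _)
    _ = _ := by ring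

/-- `Ji` as a continuous linear map -/
theorem rt_xl_ud_Ji : ∃ A : E3 →L[ℝ] E2 × ℝ, ∀ z, A z = Ji z := by
  have hadd : ∀ x y : E3, Ji (x + y) = Ji x + Ji y := fun x y => by
    rw [← Ji_J (Ji x + Ji y), J_add, J_Ji, J_Ji]
  have hsmul : ∀ (c : ℝ) (x : E3), Ji (c • x) = c • Ji x := fun c x => by
    rw [← Ji_J (c • Ji x), J_smul, J_Ji]
  exact ⟨LinearMap.toContinuousLinearMap (IsLinearMap.mk' Ji ⟨hadd, hsmul⟩), fun _ => rfl⟩

/-- LEAF `L-256-RT-XL-K2`.  **Fourier decay from derivative bounds** (no parameter space).   Mathlib + `Top/Tools.lean`.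
PLAN.  Copy `ls_ud_M`, `ls_ud_pow`, `ls_unif_decay`, `ls_unif_decay2` of `Top/Tools.lean` with the family `{f}`: `∫ ‖iteratedFDeriv j f‖ ≤ M vol(KW)` (derivatives vanish off `KW`: `support_iteratedFDeriv_subset`, `closure_minimal`),
`Real.pow_mul_norm_iteratedFDeriv_fourier_le` on `E3` for `f ∘ Ji` (`Ji` linear, `‖iteratedFDeriv j (f ∘ Ji)‖ ≤ ‖Ji‖^j ‖iteratedFDeriv j f‖`: `ContinuousLinearMap.iteratedFDeriv_comp_right`, `norm_compContinuousLinearMap_le`; the constant `‖Ji‖^j` goes into `C`), `integral_J`, `inner_J`, `norm_J_sq`.   ~200 l. -/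
theorem rt_xl_ud {KW : Set (E2 × ℝ)} (hKW : IsCompact KW) (L : ℕ) : ∃ C : ℝ, 0 ≤ C ∧ ∀ (f : E2 × ℝ → ℂ) (M : ℝ), ContDiff ℝ ∞ f →
    (∀ w, w ∉ KW → f w = 0) → (∀ j ≤ L, ∀ w, ‖iteratedFDeriv ℝ j f w‖ ≤ M) →
    ∀ (β : E2) (υ : ℝ), (1 + ‖β‖ + |υ|) ^ L * ‖∫ w : E2 × ℝ, ee (⟪w.1, β⟫_ℝ + w.2 * υ) * f w‖ ≤ C * M := by
  obtain ⟨A, hA⟩ := rt_xl_ud_Ji
  obtain ⟨C, hC0, hC⟩ := rt_xl_ud_gen (hKW.image continuous_J) L
  refine ⟨2 ^ L * (C * (max 1 ‖A‖) ^ L), by positivity, fun f M hf hs hM β υ => ?_⟩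
  have hM0 : 0 ≤ M := (norm_nonneg _).trans (hM 0 (Nat.zero_le _) 0)
  have hfun : (fun z : E3 => f (Ji z)) = f ∘ A := by
    funext z
    simp [hA]
  have h1 : ContDiff ℝ ∞ fun z : E3 => f (Ji z) := by
    rw [hfun]
    exact hf.comp A.contDiff
  have h2 : ∀ j ≤ L, ∀ z : E3, ‖iteratedFDeriv ℝ j (fun z : E3 => f (Ji z)) z‖ ≤ (max 1 ‖A‖) ^ L * M := by
    intro j hj z
    rw [hfun, ContinuousLinearMap.iteratedFDeriv_comp_right _ hf z (i := j) (by exact_mod_cast le_top)]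
    refine (ContinuousMultilinearMap.norm_compContinuousLinearMap_le _ _).trans ?_
    rw [Finset.prod_const, Finset.card_univ, Fintype.card_fin, mul_comm]
    refine mul_le_mul ?_ (hM j hj _) (norm_nonneg _) (by positivity)
    calc ‖A‖ ^ j ≤ (max 1 ‖A‖) ^ j := pow_le_pow_left₀ (norm_nonneg _) (le_max_right _ _) j
      _ ≤ (max 1 ‖A‖) ^ L := pow_le_pow_right₀ (le_max_left _ _) hj
  have hC' := hC (fun z : E3 => f (Ji z)) _ h1 (fun w hw => hs _ fun h => hw ⟨Ji w, h, J_Ji w⟩) h2 (J (β, υ))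
  have e : ∫ w : E2 × ℝ, ee (⟪w.1, β⟫_ℝ + w.2 * υ) * f w = ∫ z : E3, ee ⟪z, J (β, υ)⟫_ℝ * f (Ji z) := by
    rw [integral_J]
    refine integral_congr_ae (Filter.Eventually.of_forall fun w => ?_)
    simp only [inner_J, Ji_J]
  have hn := norm_J_sq (β, υ)
  simp only at hn
  have hJ0 := norm_nonneg (J (β, υ))
  have b1 : ‖β‖ ≤ ‖J (β, υ)‖ := by
    refine abs_le_of_sq_le_sq' ?_ hJ0 |>.2
    nlinarith [sq_nonneg υ]
  have b2 : |υ| ≤ ‖J (β, υ)‖ := by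
    refine abs_le_of_sq_le_sq ?_ hJ0
    nlinarith [sq_nonneg ‖β‖]
  have b3 : (1 + ‖β‖ + |υ|) ^ L ≤ 2 ^ L * (1 + ‖J (β, υ)‖) ^ L := by
    rw [← mul_pow]
    exact pow_le_pow_left₀ (by positivity) (by linarith) L
  rw [e]
  calc (1 + ‖β‖ + |υ|) ^ L * ‖∫ z : E3, ee ⟪z, J (β, υ)⟫_ℝ * f (Ji z)‖
      ≤ 2 ^ L * (1 + ‖J (β, υ)‖) ^ L * ‖∫ z : E3, ee ⟪z, J (β, υ)⟫_ℝ * f (Ji z)‖ :=
        mul_le_mul_of_nonneg_right b3 (norm_nonneg _)
    _ = 2 ^ L * ((1 + ‖J (β, υ)‖) ^ L * ‖∫ z : E3, ee ⟪z, J (β, υ)⟫_ℝ * f (Ji z)‖) := by ring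
    _ ≤ 2 ^ L * (C * ((max 1 ‖A‖) ^ L * M)) := mul_le_mul_of_nonneg_left hC' (by positivity)
    _ = _ := by ring

/-- slices of a jointly smooth map: derivative bounds (any target) -/
theorem rt_xl_aux_slice_norm {W P F : Type} [NormedAddCommGroup W] [NormedSpace ℝ W] [NormedAddCommGroup P] [NormedSpace ℝ P]
    [NormedAddCommGroup F] [NormedSpace ℝ F] (𝔟 : W × P → F) (h𝔟 : ContDiff ℝ ∞ 𝔟) (p : P) (j : ℕ) (w : W) :
    ‖iteratedFDeriv ℝ j (fun w => 𝔟 (w, p)) w‖ ≤ ‖iteratedFDeriv ℝ j 𝔟 (w, p)‖ := by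
  have h1 : ContDiff ℝ ∞ fun z : W × P => 𝔟 (z + (0, p)) := h𝔟.comp (contDiff_id.add contDiff_const)
  have e : (fun w => 𝔟 (w, p)) = (fun z : W × P => 𝔟 (z + (0, p))) ∘ (ContinuousLinearMap.inl ℝ W P) := by
    funext w
    simp
  rw [e, ContinuousLinearMap.iteratedFDeriv_comp_right _ h1 w (i := j) (by exact_mod_cast le_top), iteratedFDeriv_comp_add_right]
  refine (ContinuousMultilinearMap.norm_compContinuousLinearMap_le _ _).trans ?_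
  have e2 : (ContinuousLinearMap.inl ℝ W P) w + (0, p) = (w, p) := by simp
  rw [e2]
  calc ‖iteratedFDeriv ℝ j 𝔟 (w, p)‖ * ∏ _i : Fin j, ‖ContinuousLinearMap.inl ℝ W P‖
      ≤ ‖iteratedFDeriv ℝ j 𝔟 (w, p)‖ * 1 := by
        refine mul_le_mul_of_nonneg_left ?_ (norm_nonneg _)
        exact Finset.prod_le_one (fun _ _ => norm_nonneg _) fun _ _ => ContinuousLinearMap.norm_inl_le_one ℝ W P
    _ = _ := mul_one _

/-- one bound for all derivatives of order `≤ L` on a compact set -/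
theorem rt_xl_aux_cpt_bd {Z F : Type} [NormedAddCommGroup Z] [NormedSpace ℝ Z] [NormedAddCommGroup F] [NormedSpace ℝ F]
    (f : Z → F) (hf : ContDiff ℝ ∞ f) {K : Set Z} (hK : IsCompact K) (L : ℕ) :
    ∃ B : ℝ, 0 ≤ B ∧ ∀ i ≤ L, ∀ z ∈ K, ‖iteratedFDeriv ℝ i f z‖ ≤ B := by
  have h : ∀ i : ℕ, ∃ B : ℝ, 0 ≤ B ∧ ∀ z ∈ K, ‖iteratedFDeriv ℝ i f z‖ ≤ B := by
    intro i
    obtain ⟨B, hB⟩ := hK.exists_bound_of_continuousOn (hf.continuous_iteratedFDeriv (m := i) (by exact_mod_cast le_top)).continuousOn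
    exact ⟨max B 0, le_max_right _ _, fun z hz => (hB z hz).trans (le_max_left _ _)⟩
  choose b hb0 hb using h
  refine ⟨∑ i ∈ Finset.range (L + 1), b i, Finset.sum_nonneg fun i _ => hb0 i, fun i hi z hz => (hb i z hz).trans ?_⟩
  exact Finset.single_le_sum (f := b) (fun i _ => hb0 i) (Finset.mem_range.2 (Nat.lt_succ_iff.2 hi))

/-- LEAF `L-256-RT-XL-K3`.  **derivative bounds of `F₁ · (Φ ∘ G)`, uniform in the outer function.**   Mathlib + `Top/Tools.lean`.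
PLAN.  `w ∉ KW`: the function vanishes on the open set `KWᶜ`, so all derivatives vanish there (`iteratedFDeriv` of a function `=ᶠ 0`: `Filter.EventuallyEq.iteratedFDeriv_eq`, `iteratedFDeriv_zero_fun`).
`w ∈ KW`: slices `w ↦ F1 (w, p)`, `w ↦ G (w, p)` are smooth with `‖iteratedFDeriv i slice w‖ ≤ ‖iteratedFDeriv i (joint) (w, p)‖ ≤ B_i` on the compact `KW ×ˢ KP` (`ls_ud_slice_smooth`, `ls_ud_slice_norm`: stated for `ℂ`-valued maps, copy for `G`; `IsCompact.exists_bound_of_continuousOn`).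
`norm_iteratedFDeriv_comp_le` with `C := M`, `D := max 1 (max_i B_i)` (`B_i ≤ D ≤ D^i`), `norm_iteratedFDeriv_mul_le`.   ~250 l. -/
theorem rt_xl_comp_bd {P : Type} [NormedAddCommGroup P] [NormedSpace ℝ P] (F1 : (E2 × ℝ) × P → ℂ) (hF1 : ContDiff ℝ ∞ F1)
    (G : (E2 × ℝ) × P → E2 × ℝ) (hG : ContDiff ℝ ∞ G) {KW : Set (E2 × ℝ)} (hKW : IsCompact KW) {KP : Set P} (hKP : IsCompact KP)
    (hs : ∀ w p, p ∈ KP → w ∉ KW → F1 (w, p) = 0) (L : ℕ) :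
    ∃ C : ℝ, 0 ≤ C ∧ ∀ (Φ : E2 × ℝ → ℂ) (M : ℝ), ContDiff ℝ ∞ Φ → 0 ≤ M → ∀ p ∈ KP,
      (∀ j ≤ L, ∀ w ∈ KW, ‖iteratedFDeriv ℝ j Φ (G (w, p))‖ ≤ M) →
      ∀ j ≤ L, ∀ w, ‖iteratedFDeriv ℝ j (fun w => F1 (w, p) * Φ (G (w, p))) w‖ ≤ C * M := by
  obtain ⟨B1, hB10, hB1⟩ := rt_xl_aux_cpt_bd F1 hF1 (hKW.prod hKP) L
  obtain ⟨B2, hB20, hB2⟩ := rt_xl_aux_cpt_bd G hG (hKW.prod hKP) L
  obtain ⟨D, hD⟩ : ∃ D : ℝ, D = max 1 B2 := ⟨_, rfl⟩
  have hD1 : 1 ≤ D := by rw [hD]; exact le_max_left _ _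
  have hD0 : 0 ≤ D := by linarith
  refine ⟨2 ^ L * (B1 * (L.factorial * D ^ L)), by positivity, ?_⟩
  intro Φ M hΦ hM p hp hbd j hj w
  by_cases hw : w ∈ KW
  swap
  · have hev : (fun w => F1 (w, p) * Φ (G (w, p))) =ᶠ[nhds w] fun _ => (0 : ℂ) := by
      filter_upwards [hKW.isClosed.isOpen_compl.mem_nhds hw] with w' hw'
      rw [hs w' p hp hw', zero_mul]
    rw [(Filter.EventuallyEq.iteratedFDeriv (𝕜 := ℝ) hev j).eq_of_nhds, iteratedFDeriv_fun_zero]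
    simp only [Pi.zero_apply, norm_zero]
    positivity
  have hf : ContDiff ℝ ∞ fun w => F1 (w, p) := hF1.comp (contDiff_id.prodMk contDiff_const)
  have hg0 : ContDiff ℝ ∞ fun w => G (w, p) := hG.comp (contDiff_id.prodMk contDiff_const)
  have hg : ContDiff ℝ ∞ fun w => Φ (G (w, p)) := hΦ.comp hg0
  have hmul := norm_iteratedFDeriv_mul_le hf hg w (n := j) (by exact_mod_cast le_top)
  refine hmul.trans ?_
  have hterm : ∀ i ∈ Finset.range (j + 1), (j.choose i : ℝ) * ‖iteratedFDeriv ℝ i (fun w => F1 (w, p)) w‖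
      * ‖iteratedFDeriv ℝ (j - i) (fun w => Φ (G (w, p))) w‖ ≤ (j.choose i : ℝ) * (B1 * (L.factorial * D ^ L) * M) := by
    intro i hi
    have hij : i ≤ j := Nat.lt_succ_iff.1 (Finset.mem_range.1 hi)
    have h1 : ‖iteratedFDeriv ℝ i (fun w => F1 (w, p)) w‖ ≤ B1 :=
      (rt_xl_aux_slice_norm F1 hF1 p i w).trans (hB1 i (hij.trans hj) (w, p) ⟨hw, hp⟩)
    have h2 : ‖iteratedFDeriv ℝ (j - i) (fun w => Φ (G (w, p))) w‖ ≤ (j - i).factorial * M * D ^ (j - i) := by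
      refine norm_iteratedFDeriv_comp_le (g := Φ) (f := fun w => G (w, p)) hΦ hg0 (WithTop.coe_le_coe.2 le_top) w
        (fun m hm => hbd m ((hm.trans (Nat.sub_le _ _)).trans hj) w hw) (fun m hm1 hm => ?_)
      refine (rt_xl_aux_slice_norm G hG p m w).trans ((hB2 m ((hm.trans (Nat.sub_le _ _)).trans hj) (w, p) ⟨hw, hp⟩).trans ?_)
      calc B2 ≤ D := by rw [hD]; exact le_max_right _ _
        _ = D ^ 1 := (pow_one D).symm
        _ ≤ D ^ m := pow_le_pow_right₀ hD1 hm1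
    have h3 : ((j - i).factorial : ℝ) * M * D ^ (j - i) ≤ L.factorial * D ^ L * M := by
      have a1 : ((j - i).factorial : ℝ) ≤ L.factorial := by
        exact_mod_cast Nat.factorial_le ((Nat.sub_le _ _).trans hj)
      have a2 : D ^ (j - i) ≤ D ^ L := pow_le_pow_right₀ hD1 ((Nat.sub_le _ _).trans hj)
      calc ((j - i).factorial : ℝ) * M * D ^ (j - i) = ((j - i).factorial : ℝ) * D ^ (j - i) * M := by ring
        _ ≤ L.factorial * D ^ L * M :=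
          mul_le_mul_of_nonneg_right (mul_le_mul a1 a2 (by positivity) (by positivity)) hM
    calc (j.choose i : ℝ) * ‖iteratedFDeriv ℝ i (fun w => F1 (w, p)) w‖ * ‖iteratedFDeriv ℝ (j - i) (fun w => Φ (G (w, p))) w‖
        = (j.choose i : ℝ) * (‖iteratedFDeriv ℝ i (fun w => F1 (w, p)) w‖ * ‖iteratedFDeriv ℝ (j - i) (fun w => Φ (G (w, p))) w‖) := by ring
      _ ≤ (j.choose i : ℝ) * (B1 * (L.factorial * D ^ L * M)) :=
          mul_le_mul_of_nonneg_left (mul_le_mul h1 (h2.trans h3) (norm_nonneg _) hB10) (Nat.cast_nonneg _)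
      _ = (j.choose i : ℝ) * (B1 * (L.factorial * D ^ L) * M) := by ring
  refine (Finset.sum_le_sum hterm).trans ?_
  rw [← Finset.sum_mul]
  have hsum : ∑ i ∈ Finset.range (j + 1), (j.choose i : ℝ) = 2 ^ j := by
    exact_mod_cast Nat.sum_range_choose j
  rw [hsum]
  have h2 : (2 : ℝ) ^ j ≤ 2 ^ L := pow_le_pow_right₀ (by norm_num) hj
  calc (2 : ℝ) ^ j * (B1 * (L.factorial * D ^ L) * M) ≤ 2 ^ L * (B1 * (L.factorial * D ^ L) * M) :=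
        mul_le_mul_of_nonneg_right h2 (by positivity)
    _ = 2 ^ L * (B1 * (L.factorial * D ^ L)) * M := by ring

/-- the regularised inverse: `= 1/σ` on the support of `χ_b` -/
noncomputable def rtXlR (b : ℕ) (s : ℝ) : ℝ := rdChi (b + 1) s * s⁻¹

/-- the compactly supported factor of the model amplitude; parameters `(D, e0, τ)` (only `τ` is used) -/
noncomputable def rtXlF1 (b b' : ℕ) (z : (E2 × ℝ) × (ℝ × ℝ × ℝ)) : ℂ :=
  ((rdChi b' z.1.2 * rdChi b z.1.2 * rdPsi ((2 * z.1.2)⁻¹ • ((z.1.1 0, z.1.1 1) : ℝ × ℝ)) : ℝ) : ℂ)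
    * Complex.exp (Complex.I * ((-(z.2.2.2 * rtSq ((z.1.1 0, z.1.1 1) : ℝ × ℝ) / (4 * z.1.2)) : ℝ) : ℂ))

/-- the inner map `(ζ, σ; D, e0, τ) ↦ (D ζ/2σ, e0/σ)`, regularised -/
noncomputable def rtXlGm (b : ℕ) (z : (E2 × ℝ) × (ℝ × ℝ × ℝ)) : E2 × ℝ :=
  ((z.2.1 * (rtXlR b z.1.2 / 2)) • z.1.1, z.2.2.1 * rtXlR b z.1.2)

theorem rt_xl_ker_eqns_cite : True := by
  have := @rtXlR.eq_1
  have := @rtXlF1.eq_1
  have := @rtXlGm.eq_1
  trivial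

/-- LEAF `L-256-RT-XL-K4`.  (`contDiff_iff_contDiffAt`; `s > 0`: `ContDiffAt.inv`; `s ≤ 0`: locally zero, `rd_chi_supp`; pattern of `rt_k_b_smooth`.)   ~50 l. -/
theorem rt_xl_r_smooth (b : ℕ) : ContDiff ℝ ∞ (rtXlR b) := by
  rw [contDiff_iff_contDiffAt]
  intro s
  by_cases hs : 0 < s
  · show ContDiffAt ℝ ∞ (fun s => rdChi (b + 1) s * s⁻¹) s
    exact (rd_chi_contDiff (b + 1)).contDiffAt.mul (contDiffAt_id.inv hs.ne')
  · have hpos : (0 : ℝ) < (2 : ℝ)⁻¹ ^ (b + 1 + 5) := by positivity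
    have hU : {y : ℝ | y < (2 : ℝ)⁻¹ ^ (b + 1 + 5)} ∈ nhds s :=
      (isOpen_lt continuous_id continuous_const).mem_nhds (lt_of_le_of_lt (not_lt.1 hs) hpos)
    have h3 : rtXlR b =ᶠ[nhds s] fun _ => 0 := by
      filter_upwards [hU] with y hy
      have h0 : rdChi (b + 1) y = 0 := by
        by_contra hne
        exact absurd (rd_chi_supp hne).1 (not_lt.2 (le_of_lt hy))
      unfold rtXlR
      rw [h0, zero_mul]
    exact contDiffAt_const.congr_of_eventuallyEq h3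

/-- LEAF `L-256-RT-XL-K4`.  (`rd_chi_nest (Nat.lt_succ_self b) h`.)   ~5 l. -/
theorem rt_xl_r_eq {b : ℕ} {s : ℝ} (h : rdChi b s ≠ 0) : rtXlR b s = s⁻¹ := by
  unfold rtXlR
  rw [rd_chi_nest (Nat.lt_succ_self b) h, one_mul]

/-- LEAF `L-256-RT-XL-K4`.  (clone of `rt_k_b_smooth`, one factor less.)   ~80 l. -/
theorem rt_xl_f1_smooth (b b' : ℕ) : ContDiff ℝ ∞ (rtXlF1 b b') := by
  rw [contDiff_iff_contDiffAt]
  intro z
  have hs : ContDiff ℝ ∞ fun z : (E2 × ℝ) × (ℝ × ℝ × ℝ) => z.1.2 := contDiff_snd.comp contDiff_fst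
  by_cases hz : 0 < z.1.2
  · have h0 : ContDiff ℝ ∞ fun z : (E2 × ℝ) × (ℝ × ℝ × ℝ) => z.1.1 0 :=
      (EuclideanSpace.proj (0 : Fin 2) : E2 →L[ℝ] ℝ).contDiff.comp (contDiff_fst.comp contDiff_fst)
    have h1 : ContDiff ℝ ∞ fun z : (E2 × ℝ) × (ℝ × ℝ × ℝ) => z.1.1 1 :=
      (EuclideanSpace.proj (1 : Fin 2) : E2 →L[ℝ] ℝ).contDiff.comp (contDiff_fst.comp contDiff_fst)
    have hζ : ContDiff ℝ ∞ fun z : (E2 × ℝ) × (ℝ × ℝ × ℝ) => ((z.1.1 0, z.1.1 1) : ℝ × ℝ) := h0.prodMk h1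
    have ht : ContDiff ℝ ∞ fun z : (E2 × ℝ) × (ℝ × ℝ × ℝ) => z.2.2.2 :=
      contDiff_snd.comp (contDiff_snd.comp contDiff_snd)
    have hi : ContDiffAt ℝ ∞ (fun z : (E2 × ℝ) × (ℝ × ℝ × ℝ) => (2 * z.1.2)⁻¹) z :=
      (contDiff_const.mul hs).contDiffAt.inv (by positivity)
    have hχ' : ContDiffAt ℝ ∞ (fun z : (E2 × ℝ) × (ℝ × ℝ × ℝ) => rdChi b' z.1.2) z :=
      ((rd_chi_contDiff b').comp hs).contDiffAt
    have hχ : ContDiffAt ℝ ∞ (fun z : (E2 × ℝ) × (ℝ × ℝ × ℝ) => rdChi b z.1.2) z :=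
      ((rd_chi_contDiff b).comp hs).contDiffAt
    have hψ1 : ContDiffAt ℝ ∞ (fun z : (E2 × ℝ) × (ℝ × ℝ × ℝ) =>
        rdPsi ((2 * z.1.2)⁻¹ • ((z.1.1 0, z.1.1 1) : ℝ × ℝ))) z :=
      rd_psi_contDiff.contDiffAt.comp z (hi.smul hζ.contDiffAt)
    have hq : ContDiffAt ℝ ∞ (fun z : (E2 × ℝ) × (ℝ × ℝ × ℝ) =>
        -(z.2.2.2 * rtSq ((z.1.1 0, z.1.1 1) : ℝ × ℝ) / (4 * z.1.2))) z := by
      unfold rtSq
      exact ((ht.mul ((h0.pow 2).add (h1.pow 2))).contDiffAt.div (contDiff_const.mul hs).contDiffAt (by positivity)).neg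
    unfold rtXlF1
    exact (Complex.ofRealCLM.contDiff.contDiffAt.comp z ((hχ'.mul hχ).mul hψ1)).mul
      (Complex.contDiff_exp.contDiffAt.comp z (contDiffAt_const.mul (Complex.ofRealCLM.contDiff.contDiffAt.comp z hq)))
  · have hpos : (0 : ℝ) < (2 : ℝ)⁻¹ ^ (b + 5) := by positivity
    have hU : {y : (E2 × ℝ) × (ℝ × ℝ × ℝ) | y.1.2 < (2 : ℝ)⁻¹ ^ (b + 5)} ∈ nhds z :=
      (isOpen_lt hs.continuous continuous_const).mem_nhds (lt_of_le_of_lt (not_lt.1 hz) hpos)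
    have h3 : rtXlF1 b b' =ᶠ[nhds z] fun _ => 0 := by
      filter_upwards [hU] with y hy
      have h0 : rdChi b y.1.2 = 0 := by
        by_contra hne
        exact absurd (rd_chi_supp hne).1 (not_lt.2 (le_of_lt hy))
      unfold rtXlF1
      rw [h0]
      simp
    exact contDiffAt_const.congr_of_eventuallyEq h3

/-- LEAF `L-256-RT-XL-K4`.  (`rt_xl_r_smooth`, `ContDiff.smul`, `ContDiff.prodMk`.)   ~20 l. -/
theorem rt_xl_gm_smooth (b : ℕ) : ContDiff ℝ ∞ (rtXlGm b) := by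
  have hs : ContDiff ℝ ∞ fun z : (E2 × ℝ) × (ℝ × ℝ × ℝ) => z.1.2 := contDiff_snd.comp contDiff_fst
  have hr : ContDiff ℝ ∞ fun z : (E2 × ℝ) × (ℝ × ℝ × ℝ) => rtXlR b z.1.2 := (rt_xl_r_smooth b).comp hs
  have hv : ContDiff ℝ ∞ fun z : (E2 × ℝ) × (ℝ × ℝ × ℝ) => z.1.1 := contDiff_fst.comp contDiff_fst
  have hD : ContDiff ℝ ∞ fun z : (E2 × ℝ) × (ℝ × ℝ × ℝ) => z.2.1 := contDiff_fst.comp contDiff_snd
  have he : ContDiff ℝ ∞ fun z : (E2 × ℝ) × (ℝ × ℝ × ℝ) => z.2.2.1 := contDiff_fst.comp (contDiff_snd.comp contDiff_snd)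
  unfold rtXlGm
  exact ((hD.mul (hr.div_const 2)).smul hv).prodMk (he.mul hr)

/-- LEAF `L-256-RT-XL-K4`.  support of the model amplitude (clone of `rt_k_b_supp`).   ~40 l. -/
theorem rt_xl_f1_supp {b b' : ℕ} {z : (E2 × ℝ) × (ℝ × ℝ × ℝ)} (h : rtXlF1 b b' z ≠ 0) :
    (2 : ℝ)⁻¹ ^ (b + 5) < z.1.2 ∧ z.1.2 < 2 ^ (b + 5) ∧ ‖z.1.1‖ ^ 2 ≤ 8 * z.1.2 ^ 2 := by
  unfold rtXlF1 at h
  obtain ⟨h2, -⟩ := mul_ne_zero_iff.1 h
  have h3 : rdChi b' z.1.2 * rdChi b z.1.2 * rdPsi ((2 * z.1.2)⁻¹ • ((z.1.1 0, z.1.1 1) : ℝ × ℝ)) ≠ 0 := fun h0 => h2 (by rw [h0]; simp)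
  obtain ⟨h5, n3⟩ := mul_ne_zero_iff.1 h3
  obtain ⟨-, n2⟩ := mul_ne_zero_iff.1 h5
  obtain ⟨c1, c2⟩ := rd_chi_supp n2
  have c3 := rd_psi_supp n3
  have hw : 0 < z.1.2 := lt_trans (by positivity) c1
  unfold rtSq at c3
  simp only [Prod.smul_fst, Prod.smul_snd, smul_eq_mul] at c3
  refine ⟨c1, c2, ?_⟩
  rw [EuclideanSpace.norm_sq_eq, Fin.sum_univ_two, Real.norm_eq_abs, Real.norm_eq_abs, sq_abs, sq_abs]
  set v1 := (2 * z.1.2)⁻¹ * z.1.1 0 with hv1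
  set v2 := (2 * z.1.2)⁻¹ * z.1.1 1 with hv2
  have e1 : z.1.1 0 = 2 * z.1.2 * v1 := by rw [hv1]; field_simp
  have e2 : z.1.1 1 = 2 * z.1.2 * v2 := by rw [hv2]; field_simp
  rw [e1, e2]
  have : (2 * z.1.2 * v1) ^ 2 + (2 * z.1.2 * v2) ^ 2 = 4 * z.1.2 ^ 2 * (v1 ^ 2 + v2 ^ 2) := by ring
  rw [this]
  nlinarith [sq_nonneg z.1.2]

/-- LEAF `L-256-RT-XL-K4`.  **factorisation of the model amplitude.**
(`rdChi b w.2 = 0`: both sides vanish.   Otherwise `rt_xl_r_eq`; `rtW1cV (D • (s • (w.1 0, w.1 1) - a)) = (D * s) • w.1 - D • rtW1cV a`: `ext i; fin_cases i` with `rt_w1c_V_apply`; `unfold rtXlAm rtXlPs rtXlF1 rtXlGm`, `ring`.)   ~80 l. -/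
theorem rt_xl_am_fac (b b' : ℕ) (a : ℝ × ℝ) (D e0 tau : ℝ) (w : E2 × ℝ) :
    rtXlAm b b' a D e0 tau ((w.1 0, w.1 1), w.2)
      = rtXlF1 b b' (w, (D, e0, tau)) * rtXlPsi rtXlG (rtXlGm b (w, (D, e0, tau)) - (D • rtW1cV a, 0)) := by
  by_cases h : rdChi b w.2 = 0
  · unfold rtXlAm rtXlF1
    simp only
    rw [h]
    simp
  · have hr := rt_xl_r_eq h
    have hV : rtW1cV (D • ((2 * w.2)⁻¹ • ((w.1 0, w.1 1) : ℝ × ℝ) - a)) = (D * (w.2⁻¹ / 2)) • w.1 - D • rtW1cV a := by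
      obtain ⟨a0, a1⟩ := rt_w1c_V_apply (D • ((2 * w.2)⁻¹ • ((w.1 0, w.1 1) : ℝ × ℝ) - a))
      obtain ⟨b0, b1⟩ := rt_w1c_V_apply a
      ext i
      fin_cases i
      · simp only [Fin.zero_eta, Fin.isValue]
        rw [a0]
        simp only [PiLp.sub_apply, PiLp.smul_apply, b0, smul_eq_mul, Prod.smul_fst, Prod.fst_sub, mul_inv]
        ring
      · simp only [Fin.mk_one, Fin.isValue]
        rw [a1]
        simp only [PiLp.sub_apply, PiLp.smul_apply, b1, smul_eq_mul, Prod.smul_snd, Prod.snd_sub, mul_inv]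
        ring
    unfold rtXlAm rtXlPs rtXlF1 rtXlGm
    simp only
    rw [hr, hV]
    have e : (((D * (w.2⁻¹ / 2)) • w.1, e0 * w.2⁻¹) : E2 × ℝ) - (D • rtW1cV a, 0) = ((D * (w.2⁻¹ / 2)) • w.1 - D • rtW1cV a, e0 / w.2) := by
      rw [Prod.mk_sub_mk, sub_zero, div_eq_mul_inv e0]
    rw [e]
    ring

/-- helper of `rt_xl_am_bd`: the regularised inverse is bounded -/
theorem rt_xl_r_bd (b : ℕ) (s : ℝ) : 0 ≤ rtXlR b s ∧ rtXlR b s ≤ 2 ^ (b + 6) := by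
  unfold rtXlR
  by_cases h : rdChi (b + 1) s = 0
  · rw [h, zero_mul]
    exact ⟨le_rfl, by positivity⟩
  · obtain ⟨c1, -⟩ := rd_chi_supp h
    have hpos : (0 : ℝ) < (2 : ℝ)⁻¹ ^ (b + 1 + 5) := by positivity
    have hs : 0 < s := lt_trans hpos c1
    have h1 : s⁻¹ ≤ 2 ^ (b + 6) := by
      have := inv_anti₀ hpos c1.le
      rwa [inv_pow, inv_inv, show b + 1 + 5 = b + 6 by ring] at this
    refine ⟨mul_nonneg (rd_chi_nonneg _ _) (inv_nonneg.2 hs.le), ?_⟩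
    calc rdChi (b + 1) s * s⁻¹ ≤ 1 * s⁻¹ := mul_le_mul_of_nonneg_right (rd_chi_le_one _ _) (inv_nonneg.2 hs.le)
      _ ≤ _ := by rw [one_mul]; exact h1

/-- LEAF `L-256-RT-XL-K5`.  **derivative bounds of the model amplitude with decay in `a`.**
PLAN.  `KW = closedBall 0 R ×ˢ Icc 0 R`, `R = 3·2^(b+5)` (as in `rt_k_decay_one`), `KP = Icc (4/7) 4 ×ˢ Icc (-40) 40 ×ˢ Icc (-1) 1`; `rt_xl_comp_bd` with `F1 = rtXlF1 b b'`, `G = rtXlGm b` (`rt_xl_f1_supp`), constant `C₁`.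
`Φ y = rtXlPsi rtXlG (y - (D • V a, 0))`: smooth (`rt_xl_psi_contDiff`), `iteratedFDeriv j Φ y = iteratedFDeriv j Ψ (y - ..)` (`iteratedFDeriv_comp_sub`/`iteratedFDeriv_comp_add_right`).
For `w ∈ KW`, `p ∈ KP`: `G (w,p) = (v, ε)`, `0 ≤ rtXlR b σ ≤ 2^(b+6)` (`rd_chi_supp`, `rd_chi_le_one`, `rd_chi_nonneg`), so `‖v‖ ≤ R₀`, `|ε| ≤ E0` with explicit `R₀, E0`.   `rt_xl_psi_decay rtXlG j N E0`: `(1 + ‖v - D V a‖)^N ‖D^jΨ‖ ≤ C_j`;
Peetre: `1 + D|a| ≤ (1 + ‖v‖)(1 + ‖v - D V a‖)`, `1 + |a| ≤ (7/4)(1 + D|a|)`, `‖V a‖ = √(rtSq a)` (`rt_k_V_norm`): `‖D^jΦ (G (w,p))‖ ≤ C_j ((7/4)(1+R₀))^N rtXlWa N a =: M`.   `funext` + `rt_xl_am_fac`.   ~250 l. -/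
theorem rt_xl_am_bd (b b' N L : ℕ) : ∃ M : ℝ, 0 ≤ M ∧ ∀ (a : ℝ × ℝ) (D e0 tau : ℝ), 4 / 7 ≤ D → D ≤ 4 → |e0| ≤ 40 → |tau| ≤ 1 →
    ContDiff ℝ ∞ (fun w : E2 × ℝ => rtXlAm b b' a D e0 tau ((w.1 0, w.1 1), w.2)) ∧
    ∀ j ≤ L, ∀ w : E2 × ℝ, ‖iteratedFDeriv ℝ j (fun w : E2 × ℝ => rtXlAm b b' a D e0 tau ((w.1 0, w.1 1), w.2)) w‖ ≤ M * rtXlWa N a := by
  set R : ℝ := 3 * 2 ^ (b + 5) with hR
  have hR0 : 0 < R := by positivity
  obtain ⟨C1, hC10, hC1⟩ := rt_xl_comp_bd (P := ℝ × ℝ × ℝ) (rtXlF1 b b') (rt_xl_f1_smooth b b') (rtXlGm b) (rt_xl_gm_smooth b)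
    (KW := Metric.closedBall (0 : E2) R ×ˢ Set.Icc (0 : ℝ) R) ((isCompact_closedBall _ _).prod isCompact_Icc)
    (KP := Set.Icc (4 / 7 : ℝ) 4 ×ˢ (Set.Icc (-40 : ℝ) 40 ×ˢ Set.Icc (-1 : ℝ) 1)) (isCompact_Icc.prod (isCompact_Icc.prod isCompact_Icc))
    (by
      intro w p _ hw
      by_contra hne
      apply hw
      obtain ⟨c1, c2, c3⟩ := rt_xl_f1_supp hne
      simp only at c1 c2 c3
      have hw0 : 0 < w.2 := lt_trans (by positivity) c1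
      have h2 : (0 : ℝ) < 2 ^ (b + 5) := by positivity
      refine ⟨?_, hw0.le, ?_⟩
      · rw [mem_closedBall_zero_iff]
        apply abs_le_of_sq_le_sq' _ hR0.le |>.2
        have : w.2 ^ 2 ≤ (2 ^ (b + 5)) ^ 2 := pow_le_pow_left₀ hw0.le c2.le 2
        rw [hR]
        nlinarith
      · rw [hR]
        linarith) L
  set E0 : ℝ := 40 * 2 ^ (b + 6) with hE0
  set R0 : ℝ := 2 ^ (b + 7) * R with hR0'
  have hR00 : 0 ≤ R0 := by positivity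
  choose Cj hCj using fun j : ℕ => rt_xl_psi_decay rtXlG j N E0
  set Cm : ℝ := ∑ j ∈ Finset.range (L + 1), |Cj j| with hCm
  have hCm0 : 0 ≤ Cm := Finset.sum_nonneg fun j _ => abs_nonneg _
  have hCjm : ∀ j ≤ L, Cj j ≤ Cm := fun j hj => (le_abs_self _).trans
    (Finset.single_le_sum (f := fun j => |Cj j|) (fun j _ => abs_nonneg _) (Finset.mem_range.2 (Nat.lt_succ_of_le hj)))
  set K : ℝ := 7 / 4 * (1 + R0) with hK
  have hK0 : 0 ≤ K := by positivity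
  refine ⟨C1 * (K ^ N * Cm), by positivity, fun a D e0 tau hD1 hD2 he ht => ?_⟩
  have hp : ((D, e0, tau) : ℝ × ℝ × ℝ) ∈ Set.Icc (4 / 7 : ℝ) 4 ×ˢ (Set.Icc (-40 : ℝ) 40 ×ˢ Set.Icc (-1 : ℝ) 1) :=
    ⟨⟨hD1, hD2⟩, ⟨(abs_le.1 he).1, (abs_le.1 he).2⟩, ⟨(abs_le.1 ht).1, (abs_le.1 ht).2⟩⟩
  have hΦ : ContDiff ℝ ∞ (fun y : E2 × ℝ => rtXlPsi rtXlG (y - (D • rtW1cV a, 0))) :=
    (rt_xl_psi_contDiff rtXlG).comp (contDiff_id.sub contDiff_const)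
  have hfun : (fun w : E2 × ℝ => rtXlAm b b' a D e0 tau ((w.1 0, w.1 1), w.2))
      = fun w : E2 × ℝ => rtXlF1 b b' (w, (D, e0, tau)) * (fun y : E2 × ℝ => rtXlPsi rtXlG (y - (D • rtW1cV a, 0))) (rtXlGm b (w, (D, e0, tau))) := by
    funext w
    exact rt_xl_am_fac b b' a D e0 tau w
  have hWa : 0 ≤ rtXlWa N a := by unfold rtXlWa; positivity
  rw [hfun]
  constructor
  · exact ((rt_xl_f1_smooth b b').comp (contDiff_id.prodMk contDiff_const)).mul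
      (hΦ.comp ((rt_xl_gm_smooth b).comp (contDiff_id.prodMk contDiff_const)))
  · intro j hj w
    have key := hC1 (fun y : E2 × ℝ => rtXlPsi rtXlG (y - (D • rtW1cV a, 0))) (K ^ N * Cm * rtXlWa N a) hΦ (by positivity) (D, e0, tau) hp
      (by
        intro j hj w hw
        rw [iteratedFDeriv_comp_sub]
        obtain ⟨hw1, hw2⟩ := hw
        rw [mem_closedBall_zero_iff] at hw1
        obtain ⟨r0, r1⟩ := rt_xl_r_bd b w.2
        set r := rtXlR b w.2 with hr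
        have hz : rtXlGm b (w, (D, e0, tau)) - (D • rtW1cV a, 0) = ((D * (r / 2)) • w.1 - D • rtW1cV a, e0 * r) := by
          unfold rtXlGm
          simp only [Prod.mk_sub_mk, sub_zero]
          rfl
        rw [hz]
        set v : E2 := (D * (r / 2)) • w.1 with hv
        have hD0 : 0 < D := by linarith
        have hvn : ‖v‖ ≤ R0 := by
          rw [hv, norm_smul, Real.norm_eq_abs, abs_of_nonneg (by positivity)]
          have h1 : D * (r / 2) ≤ 2 ^ (b + 7) := by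
            have : (2 : ℝ) ^ (b + 7) = 4 * (2 ^ (b + 6) / 2) := by rw [pow_succ]; ring
            rw [this]
            exact mul_le_mul hD2 (by linarith) (by positivity) (by norm_num)
          exact mul_le_mul h1 hw1 (norm_nonneg _) (by positivity)
        have hε : |e0 * r| ≤ E0 := by
          rw [abs_mul, abs_of_nonneg r0]
          exact mul_le_mul he r1 r0 (by norm_num)
        have hdec := hCj j ((v - D • rtW1cV a, e0 * r) : E2 × ℝ) hε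
        simp only at hdec
        set t : ℝ := 1 + ‖v - D • rtW1cV a‖ with ht'
        have ht0 : 1 ≤ t := by rw [ht']; linarith [norm_nonneg (v - D • rtW1cV a)]
        set A : ℝ := 1 + Real.sqrt (rtSq a) with hA
        have hA0 : 0 < A := by rw [hA]; linarith [Real.sqrt_nonneg (rtSq a)]
        have hAt : A ≤ K * t := by
          have h1 : D * Real.sqrt (rtSq a) ≤ ‖v‖ + ‖v - D • rtW1cV a‖ := by
            have : D * Real.sqrt (rtSq a) = ‖D • rtW1cV a‖ := by rw [norm_smul, rt_k_V_norm, Real.norm_eq_abs, abs_of_pos hD0]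
            rw [this]
            have h2 : D • rtW1cV a = v - (v - D • rtW1cV a) := by abel
            calc ‖D • rtW1cV a‖ = ‖v - (v - D • rtW1cV a)‖ := by rw [← h2]
              _ ≤ _ := norm_sub_le _ _
          have hsq := Real.sqrt_nonneg (rtSq a)
          have h3 : Real.sqrt (rtSq a) ≤ 7 / 4 * (D * Real.sqrt (rtSq a)) := by nlinarith
          have h4 : 1 + (‖v‖ + ‖v - D • rtW1cV a‖) ≤ (1 + R0) * t := by
            rw [ht']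
            nlinarith [norm_nonneg (v - D • rtW1cV a), norm_nonneg v]
          rw [hA, hK]
          nlinarith
        have hApow : A ^ N ≤ K ^ N * t ^ N := by
          rw [← mul_pow]
          exact pow_le_pow_left₀ hA0.le hAt N
        have hApos : 0 < A ^ N := by positivity
        have hn := norm_nonneg (iteratedFDeriv ℝ j (rtXlPsi rtXlG) ((v - D • rtW1cV a, e0 * r) : E2 × ℝ))
        have : rtXlWa N a = (A ^ N)⁻¹ := rfl
        rw [this, ← div_eq_mul_inv, le_div_iff₀ hApos]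
        calc _ ≤ ‖iteratedFDeriv ℝ j (rtXlPsi rtXlG) ((v - D • rtW1cV a, e0 * r) : E2 × ℝ)‖ * (K ^ N * t ^ N) := mul_le_mul_of_nonneg_left hApow hn
          _ = K ^ N * (t ^ N * ‖iteratedFDeriv ℝ j (rtXlPsi rtXlG) ((v - D • rtW1cV a, e0 * r) : E2 × ℝ)‖) := by ring
          _ ≤ K ^ N * Cm := mul_le_mul_of_nonneg_left (hdec.trans (hCjm j hj)) (by positivity)) j hj w
    calc _ ≤ C1 * (K ^ N * Cm * rtXlWa N a) := key
      _ = _ := by ring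

/-- LEAF `L-256-RT-XL-K6`.  the model integral in the normal form of `rt_xl_ud` (clone of `rt_k_I_eq`, 15 l. there). -/
theorem rt_xl_mi_eq (b b' : ℕ) (a : ℝ × ℝ) (D e0 tau : ℝ) (X : ℝ × ℝ) (Y : ℝ) :
    rtXlMi b b' a D e0 tau X Y = ∫ w : E2 × ℝ, ee (inner ℝ w.1 ((2 * Real.pi)⁻¹ • rtW1cV X) + w.2 * (-((2 * Real.pi)⁻¹ * Y)))
      * rtXlAm b b' a D e0 tau ((w.1 0, w.1 1), w.2) := by
  have mp : MeasurePreserving (rtW1cV.prodCongr (MeasurableEquiv.refl ℝ)) (volume : Measure ((ℝ × ℝ) × ℝ)) (volume : Measure (E2 × ℝ)) :=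
    rt_w1c_V_mp.prod (MeasurePreserving.id volume)
  rw [← mp.integral_comp (rtW1cV.prodCongr (MeasurableEquiv.refl ℝ)).measurableEmbedding]
  unfold rtXlMi
  refine integral_congr_ae (Filter.Eventually.of_forall fun w => ?_)
  have e : (rtW1cV.prodCongr (MeasurableEquiv.refl ℝ)) w = (rtW1cV w.1, w.2) := rfl
  obtain ⟨a0, a1⟩ := rt_w1c_V_apply w.1
  simp only [e, a0, a1, Prod.mk.eta]
  rw [inner_smul_right, rt_k_V_inner, rt_w1c_exp_ee]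
  congr 2
  ring

/-- helper of `rt_xl_decay`: fixed `b, b'` -/
theorem rt_xl_decay_one (b b' N : ℕ) : ∃ C : ℝ, 0 ≤ C ∧ ∀ (a : ℝ × ℝ) (D e0 tau : ℝ), 4 / 7 ≤ D → D ≤ 4 → |e0| ≤ 40 → |tau| ≤ 1 →
    ∀ (X : ℝ × ℝ) (Y : ℝ), ‖rtXlMi b b' a D e0 tau X Y‖ ≤ C * (rtXlWa N a * rtKW N (X, Y)) := by
  set R : ℝ := 3 * 2 ^ (b + 5) with hR
  have hR0 : 0 < R := by positivity
  obtain ⟨C, hC0, hC⟩ := rt_xl_ud (KW := Metric.closedBall (0 : E2) R ×ˢ Set.Icc (0 : ℝ) R) ((isCompact_closedBall _ _).prod isCompact_Icc) N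
  obtain ⟨M, hM0, hM⟩ := rt_xl_am_bd b b' N N
  have hπ : (1 : ℝ) ≤ 2 * Real.pi := by linarith [Real.pi_gt_three]
  refine ⟨(2 * Real.pi) ^ N * (C * M), by positivity, fun a D e0 tau hD1 hD2 he ht X Y => ?_⟩
  obtain ⟨hsm, hbd⟩ := hM a D e0 tau hD1 hD2 he ht
  have hsupp : ∀ w : E2 × ℝ, w ∉ Metric.closedBall (0 : E2) R ×ˢ Set.Icc (0 : ℝ) R → rtXlAm b b' a D e0 tau ((w.1 0, w.1 1), w.2) = 0 := by
    intro w hw
    by_contra hne
    apply hw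
    rw [rt_xl_am_fac] at hne
    obtain ⟨c1, c2, c3⟩ := rt_xl_f1_supp (left_ne_zero_of_mul hne)
    simp only at c1 c2 c3
    have hw0 : 0 < w.2 := lt_trans (by positivity) c1
    have h2 : (0 : ℝ) < 2 ^ (b + 5) := by positivity
    refine ⟨?_, hw0.le, ?_⟩
    · rw [mem_closedBall_zero_iff]
      apply abs_le_of_sq_le_sq' _ hR0.le |>.2
      have : w.2 ^ 2 ≤ (2 ^ (b + 5)) ^ 2 := pow_le_pow_left₀ hw0.le c2.le 2
      rw [hR]
      nlinarith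
    · rw [hR]
      linarith
  have h := hC _ (M * rtXlWa N a) hsm hsupp hbd ((2 * Real.pi)⁻¹ • rtW1cV X) (-((2 * Real.pi)⁻¹ * Y))
  rw [← rt_xl_mi_eq, norm_smul, rt_k_V_norm, abs_neg, abs_mul, Real.norm_eq_abs, abs_of_pos (by positivity : (0 : ℝ) < (2 * Real.pi)⁻¹)] at h
  have hWa : 0 ≤ rtXlWa N a := by unfold rtXlWa; positivity
  unfold rtKW
  simp only
  set s := Real.sqrt (rtSq X) with hs
  have hs0 : 0 ≤ s := Real.sqrt_nonneg _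
  have hpos : 0 < (1 + s + |Y|) ^ N := by positivity
  rw [← mul_assoc, ← div_eq_mul_inv, le_div_iff₀ hpos]
  have h1 : 1 + s + |Y| ≤ (2 * Real.pi) * (1 + (2 * Real.pi)⁻¹ * s + (2 * Real.pi)⁻¹ * |Y|) := by
    have : (2 * Real.pi) * (1 + (2 * Real.pi)⁻¹ * s + (2 * Real.pi)⁻¹ * |Y|) = 2 * Real.pi + s + |Y| := by
      field_simp
    rw [this]
    linarith
  calc ‖rtXlMi b b' a D e0 tau X Y‖ * (1 + s + |Y|) ^ N
      ≤ ‖rtXlMi b b' a D e0 tau X Y‖ * ((2 * Real.pi) * (1 + (2 * Real.pi)⁻¹ * s + (2 * Real.pi)⁻¹ * |Y|)) ^ N :=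
        mul_le_mul_of_nonneg_left (pow_le_pow_left₀ (by positivity) h1 N) (norm_nonneg _)
    _ = (2 * Real.pi) ^ N * ((1 + (2 * Real.pi)⁻¹ * s + (2 * Real.pi)⁻¹ * |Y|) ^ N * ‖rtXlMi b b' a D e0 tau X Y‖) := by
        rw [mul_pow]; ring
    _ ≤ (2 * Real.pi) ^ N * (C * (M * rtXlWa N a)) := mul_le_mul_of_nonneg_left h (by positivity)
    _ = _ := by ring

/-- LEAF `L-256-RT-XL-K6`.  **uniform decay of the model integral**, in `(X, Y)` AND in `a`.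
PLAN.  Fixed `b, b'`: `rt_xl_ud` (`KW` as in K5, `L = N`), `rt_xl_am_bd b b' N N`, support from `rt_xl_am_fac` + `rt_xl_f1_supp`; `rt_xl_mi_eq`; passage `(1 + |X|/2π + |Y|/2π)^N → rtKW N (X, Y)` EXACTLY as at the end of `rt_k_decay_one`;
then the sum over `b, b' ≤ bm` as in `rt_k_decay`.   ~200 l. -/
theorem rt_xl_decay (bm N : ℕ) : ∃ C : ℝ, 0 ≤ C ∧ ∀ (b b' : ℕ), b ≤ bm → b' ≤ bm → ∀ (a : ℝ × ℝ) (D e0 tau : ℝ), 4 / 7 ≤ D → D ≤ 4 → |e0| ≤ 40 → |tau| ≤ 1 →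
    ∀ (X : ℝ × ℝ) (Y : ℝ), ‖rtXlMi b b' a D e0 tau X Y‖ ≤ C * (rtXlWa N a * rtKW N (X, Y)) := by
  choose C hC0 hC using fun bb : ℕ × ℕ => rt_xl_decay_one bb.1 bb.2 N
  refine ⟨∑ bb ∈ Finset.range (bm + 1) ×ˢ Finset.range (bm + 1), C bb, Finset.sum_nonneg fun bb _ => hC0 bb,
    fun b b' hb hb' a D e0 tau h1 h2 h3 h4 X Y => ?_⟩
  refine (hC (b, b') a D e0 tau h1 h2 h3 h4 X Y).trans (mul_le_mul_of_nonneg_right ?_ ?_)
  · exact Finset.single_le_sum (f := C) (fun bb _ => hC0 bb)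
      (Finset.mem_product.2 ⟨Finset.mem_range.2 (Nat.lt_succ_of_le hb), Finset.mem_range.2 (Nat.lt_succ_of_le hb')⟩)
  · unfold rtKW rtXlWa
    positivity

/-- LEAF `L-256-RT-XL-K7`.  EXIT of the file: **the kernel bound.**
(`rt_xl_scale`, `rt_xl_decay`, `norm_mul`, `|D| ≤ 4`, `(2π)^-3 ≤ 1`, `|(Tg - T)/ℓ| ≤ 1` (`abs_div`, `rdLen_pos`); `unfold rtXlM`; pattern of `rt_k_bound`.)   ~80 l. -/
theorem rt_xl_bound (bm N : ℕ) : ∃ C : ℝ, 0 ≤ C ∧ ∀ (p : RdWvPar) (T : ℝ) (k : ℕ) (Tg : ℝ) (b b' : ℕ) (D e0 : ℝ), b ≤ bm → b' ≤ bm →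
    4 / 7 ≤ D → D ≤ 4 → |e0| ≤ 40 → |Tg - T| ≤ rdLen k →
    ∀ xg x : RdWvPar.Ph, ‖rtXlK p T k b Tg b' D e0 xg x‖ ≤ C * rtXlM p.H k (Tg - T) N xg x := by
  obtain ⟨C, hC, hdec⟩ := rt_xl_decay bm N
  have hπ : (0 : ℝ) < (2 * Real.pi) ^ 3 := by positivity
  refine ⟨4 * ((2 * Real.pi) ^ 3)⁻¹ * C, by positivity, fun p T k Tg b b' D e0 hb hb' hD1 hD2 he0 hu xg x => ?_⟩
  have hH := p.H_pos
  have hl := rdLen_pos k
  have hQ : 0 < rdQ p.H k := Real.sqrt_pos.2 (mul_pos hH hl)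
  have hD0 : 0 < D := by linarith
  have htau : |(Tg - T) / rdLen k| ≤ 1 := by
    rw [abs_div, abs_of_pos hl, div_le_one hl]
    exact hu
  have hpos : 0 < (2 * Real.pi) ^ 3 * (rdQ p.H k ^ 2 * p.H) := by positivity
  have hpos2 : 0 < D * ((2 * Real.pi) ^ 3 * (rdQ p.H k ^ 2 * p.H))⁻¹ := mul_pos hD0 (inv_pos.2 hpos)
  rw [rt_xl_scale, norm_mul, Complex.norm_real, Real.norm_eq_abs, abs_of_pos hpos2]
  unfold rtXlM
  have h := hdec b b' hb hb' ((rdD p.H k)⁻¹ • (xg.1 - x.1)) D e0 ((Tg - T) / rdLen k) hD1 hD2 he0 htau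
    (rtKX p.H k (Tg - T) xg x) (rtKY p.H (Tg - T) xg x)
  have hR : 0 ≤ C * (rtXlWa N ((rdD p.H k)⁻¹ • (xg.1 - x.1)) * rtKW N (rtKX p.H k (Tg - T) xg x, rtKY p.H (Tg - T) xg x)) :=
    (norm_nonneg _).trans h
  calc D * ((2 * Real.pi) ^ 3 * (rdQ p.H k ^ 2 * p.H))⁻¹ * ‖rtXlMi b b' ((rdD p.H k)⁻¹ • (xg.1 - x.1)) D e0 ((Tg - T) / rdLen k)
        (rtKX p.H k (Tg - T) xg x) (rtKY p.H (Tg - T) xg x)‖
      ≤ 4 * ((2 * Real.pi) ^ 3 * (rdQ p.H k ^ 2 * p.H))⁻¹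
          * (C * (rtXlWa N ((rdD p.H k)⁻¹ • (xg.1 - x.1)) * rtKW N (rtKX p.H k (Tg - T) xg x, rtKY p.H (Tg - T) xg x))) :=
        mul_le_mul (mul_le_mul_of_nonneg_right hD2 (inv_pos.2 hpos).le) h (norm_nonneg _) (by positivity)
    _ = _ := by
        rw [mul_inv]
        ring

end Claimed.Agent.R256
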