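import Claimed.Agent.R256.Rt.XlDefs

/-!
# Row 256, folder Rt, unit XL (the lens arrow), file 1/5 : THE OPERATOR `rtXlOp c`      (unit architect helper280; prefix `rt_xl_`)      CONTRACT FILE: every `sorry` is a leaf `L-256-RT-XL-O*`

Paper free.   PROVE IN PLACE, statements verbatim, helpers directly above your theorem (prefix `rt_xl_`), splice only your theorems.
EXITS of this file (linked in `Rt/XlContract.lean`): `rt_xl_o_spec`, `rt_xl_o_norm`, `rt_xl_o_adj`, `rt_xl_o_inv`, `rt_xl_o_band`.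
MATHEMATICS.  `rtXlF c G (ξ', ρ) = rtXlFr (ρ c) (G(·, ρ)) ξ'` (`rt_xl_F_fib`), and on one fibre, `lam ≠ 0`:
    `rtXlFr lam g ξ' = (4πi lam)⁻¹ e^{i|ξ'|²/4lam} 𝓕[e^{i|·|²/4lam} g](ξ'/(4π lam))`      (`|ξ'-ξ|² = |ξ'|² - 2ξ'·ξ + |ξ|²`),
so `∫ |rtXlFr lam g|² = (4π|lam|)⁻² (4π|lam|)² ∫ |𝓕 h|² = ∫ |g|²` by `ls_plancherel` on `E2` (`Top/Tools.lean`), `rtW1cV : ℝ × ℝ ≃ᵐ E2` measure preserving (`rt_w1c_V_mp`, `rt_k_V_inner`, `rt_k_V_norm`).
ORDER: O1 (generic extension) | O2, O3 (fibre) | O4 (measurability, linearity) | O5 (Tonelli) | O6 (link: existence, spec, norm) | O7 (adjoint, inverse) | O8 (band).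
-/

set_option autoImplicit false

namespace Claimed.Agent.R256

open MeasureTheory Claimed.Agent.R255.BR
open scoped ENNReal ComplexConjugate FourierTransform InnerProductSpace

/-- LEAF `L-256-RT-XL-O1`.  **extension of a linear isometry given by a formula on `L¹ ∩ L²`.**   Mathlib only.
PLAN.  `D : Submodule ℂ (Lp ℂ 2 μ) := {G | Integrable G μ}` (closed under `+`, `•`: `Lp.coeFn_add`, `Lp.coeFn_smul`, `Integrable.congr`), dense (`rt_k_approx` of `Rt/Ker.lean`: `‖F - F'‖ ≤ ε` with `F'` integrable).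
`L₀ : D →ₗ[ℂ] Lp ℂ 2 ν`, `L₀ G = (hnorm G _ (Lp.memLp G)).1.toLp _`; additivity and homogeneity from `hadd`, `hsmul`, `hcongr` (`Lp.ext`, `MemLp.coeFn_toLp`); `‖L₀ G‖ = ‖G‖` (`Lp.norm_toLp`, `Lp.norm_def`).
`L₀.mkContinuous 1`, then `ContinuousLinearMap.extend` along `D.subtypeL` (`DenseRange`: `Submodule.dense_iff_topologicalClosure_eq_top` / `Subtype.range_coe`; `isUniformInducing_subtype_val`-type), `ContinuousLinearMap.extend_eq`.
`‖L G‖ = ‖G‖` for all `G`: both sides continuous, equal on the dense set (`DenseRange.induction_on` + `isClosed_eq`).   ~200 l. -/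
theorem rt_xl_ext {X Y : Type} [MeasurableSpace X] [MeasurableSpace Y] (μ : Measure X) [SigmaFinite μ] (ν : Measure Y)
    (Φ : (X → ℂ) → Y → ℂ)
    (hcongr : ∀ G G' : X → ℂ, G =ᵐ[μ] G' → Φ G =ᵐ[ν] Φ G')
    (hadd : ∀ G G' : X → ℂ, Integrable G μ → Integrable G' μ → Φ (G + G') =ᵐ[ν] Φ G + Φ G')
    (hsmul : ∀ (a : ℂ) (G : X → ℂ), Integrable G μ → Φ (a • G) =ᵐ[ν] a • Φ G)
    (hnorm : ∀ G : X → ℂ, Integrable G μ → MemLp G 2 μ → MemLp (Φ G) 2 ν ∧ eLpNorm (Φ G) 2 ν = eLpNorm G 2 μ) :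
    ∃ L : Lp ℂ 2 μ →L[ℂ] Lp ℂ 2 ν, (∀ G, ‖L G‖ = ‖G‖) ∧
      ∀ G : Lp ℂ 2 μ, Integrable (G : X → ℂ) μ → (L G : Y → ℂ) =ᵐ[ν] Φ (G : X → ℂ) := by
  obtain ⟨D, hD⟩ : ∃ D : Submodule ℂ (Lp ℂ 2 μ), ∀ G, G ∈ D ↔ Integrable (G : X → ℂ) μ :=
    ⟨{ carrier := {G | Integrable (G : X → ℂ) μ}
       add_mem' := fun {a b} ha hb => (Integrable.add ha hb).congr (Lp.coeFn_add a b).symm
       zero_mem' := (integrable_zero X ℂ μ).congr (Lp.coeFn_zero ℂ 2 μ).symm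
       smul_mem' := fun c a ha => (Integrable.smul c ha).congr (Lp.coeFn_smul c a).symm }, fun G => Iff.rfl⟩
  have hI : ∀ G : D, Integrable (G.1 : X → ℂ) μ := fun G => (hD G.1).1 G.2
  have hm : ∀ G : D, MemLp (Φ (G.1 : X → ℂ)) 2 ν := fun G => (hnorm _ (hI G) (Lp.memLp G.1)).1
  obtain ⟨L₀, hL₀⟩ : ∃ L₀ : D →ₗ[ℂ] Lp ℂ 2 ν, ∀ G : D, (L₀ G : Y → ℂ) =ᵐ[ν] Φ (G.1 : X → ℂ) := by
    refine ⟨{ toFun := fun G => (hm G).toLp _, map_add' := fun a b => ?_, map_smul' := fun c a => ?_ }, fun G => (hm G).coeFn_toLp⟩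
    · apply Lp.ext
      have h1 := (hm (a + b)).coeFn_toLp
      have h2 := (hm a).coeFn_toLp
      have h3 := (hm b).coeFn_toLp
      have h4 := Lp.coeFn_add ((hm a).toLp _) ((hm b).toLp _)
      have h5 : Φ ((a + b : D).1 : X → ℂ) =ᵐ[ν] Φ ((a.1 : X → ℂ) + (b.1 : X → ℂ)) := hcongr _ _ (Lp.coeFn_add a.1 b.1)
      have h6 := hadd _ _ (hI a) (hI b)
      filter_upwards [h1, h2, h3, h4, h5, h6] with y e1 e2 e3 e4 e5 e6
      rw [e1, e4, e5, e6, Pi.add_apply, Pi.add_apply, e2, e3]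
    · apply Lp.ext
      have h1 := (hm (c • a)).coeFn_toLp
      have h2 := (hm a).coeFn_toLp
      have h4 := Lp.coeFn_smul c ((hm a).toLp _)
      have h5 : Φ ((c • a : D).1 : X → ℂ) =ᵐ[ν] Φ (c • (a.1 : X → ℂ)) := hcongr _ _ (Lp.coeFn_smul c a.1)
      have h6 := hsmul c _ (hI a)
      filter_upwards [h1, h2, h4, h5, h6] with y e1 e2 e4 e5 e6
      rw [e1, RingHom.id_apply, e4, e5, e6, Pi.smul_apply, Pi.smul_apply, e2]
  have hn : ∀ G : D, ‖L₀ G‖ = ‖G.1‖ := by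
    intro G
    rw [Lp.norm_def, Lp.norm_def, eLpNorm_congr_ae (hL₀ G), (hnorm _ (hI G) (Lp.memLp G.1)).2]
  have hdense : DenseRange D.subtype := by
    rw [Metric.denseRange_iff]
    intro F r hr
    obtain ⟨F', h1, -, -, h4⟩ := rt_k_approx μ F (half_pos hr)
    refine ⟨⟨F', (hD F').2 h1⟩, ?_⟩
    rw [dist_eq_norm]
    exact lt_of_le_of_lt h4 (half_lt_self hr)
  have hbd : ∃ C : ℝ, ∀ x : D, ‖L₀ x‖ ≤ C * ‖D.subtype x‖ := ⟨1, fun x => by rw [one_mul]; exact (hn x).le⟩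
  have hext : ∀ G : D, L₀.extendOfNorm D.subtype G.1 = L₀ G := fun G => LinearMap.extendOfNorm_eq hdense hbd G
  refine ⟨L₀.extendOfNorm D.subtype, ?_, ?_⟩
  · intro G
    refine hdense.induction (P := fun G => ‖L₀.extendOfNorm D.subtype G‖ = ‖G‖) ?_ (isClosed_eq (by fun_prop) (by fun_prop)) G
    rintro _ ⟨x, rfl⟩
    show ‖L₀.extendOfNorm D.subtype x.1‖ = ‖x.1‖
    rw [hext x, hn x]
  · intro G hG
    have := hext ⟨G, (hD G).2 hG⟩
    rw [this]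
    exact hL₀ ⟨G, (hD G).2 hG⟩

/-- the formula is fibred over `ρ` -/
theorem rt_xl_F_fib (c : ℝ) (G : RdWvPar.Mo → ℂ) (q' : RdWvPar.Mo) :
    rtXlF c G q' = rtXlFr (q'.2 * c) (fun ξ => G (ξ, q'.2)) q'.1 := by
  unfold rtXlF rtXlFr
  simp only [mul_assoc]

/-- LEAF `L-256-RT-XL-O2`.  the fibre transform as a Fourier transform on `E2`.
PLAN.  `rtSq (ξ' - ξ) = rtSq ξ' - 2 rtIp ξ' ξ + rtSq ξ` (`ring` after `unfold rtSq rtIp`), `Complex.exp_add`, pull `e^{i|ξ'|²/4lam}` out (`integral_const_mul`), transport to `E2` by `rt_w1c_V_mp.integral_comp` (as in `rt_k_I_eq`),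
`Real.fourier_eq'`/`fourier_ee` (`R255/BR`): `𝓕 h y = ∫ e^{-2πi<v,y>} h v`, `<v, (4π lam)⁻¹ V ξ'> = rtIp ξ ξ'/(4π lam)` (`rt_k_V_inner`), `‖V ξ‖² = rtSq ξ` (`rt_k_V_norm`, `Real.sq_sqrt`).   ~120 l. -/
theorem rt_xl_fib_four {lam : ℝ} (hl : lam ≠ 0) (g : ℝ × ℝ → ℂ) (ξ' : ℝ × ℝ) :
    rtXlFr lam g ξ' = (4 * (Real.pi : ℂ) * Complex.I * (lam : ℂ))⁻¹ * Complex.exp (Complex.I * ((rtSq ξ' / (4 * lam) : ℝ) : ℂ)) *
      𝓕 (fun v : E2 => Complex.exp (Complex.I * ((‖v‖ ^ 2 / (4 * lam) : ℝ) : ℂ)) * g (rtW1cV.symm v)) ((4 * Real.pi * lam)⁻¹ • rtW1cV ξ') := by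
  rw [fourier_ee, ← rt_w1c_V_mp.integral_comp rtW1cV.measurableEmbedding]
  unfold rtXlFr
  rw [← integral_const_mul (L := ℂ), ← integral_const_mul (L := ℂ)]
  refine integral_congr_ae (Filter.Eventually.of_forall fun ξ => ?_)
  have hsq : 0 ≤ rtSq ξ := by unfold rtSq; positivity
  simp only [MeasurableEquiv.symm_apply_apply]
  rw [inner_smul_right, rt_k_V_inner, rt_k_V_norm, Real.sq_sqrt hsq]
  have e : ee (-((4 * Real.pi * lam)⁻¹ * rtIp ξ ξ')) = Complex.exp (Complex.I * ((-(rtIp ξ ξ' / (2 * lam)) : ℝ) : ℂ)) := by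
    rw [rt_w1c_exp_ee]
    congr 1
    have := Real.pi_pos.ne'
    field_simp
    ring
  have hE : Complex.exp (Complex.I * ((rtSq (ξ' - ξ) / (4 * lam) : ℝ) : ℂ)) = Complex.exp (Complex.I * ((rtSq ξ' / (4 * lam) : ℝ) : ℂ)) *
      (Complex.exp (Complex.I * ((-(rtIp ξ ξ' / (2 * lam)) : ℝ) : ℂ)) * Complex.exp (Complex.I * ((rtSq ξ / (4 * lam) : ℝ) : ℂ))) := by
    rw [← Complex.exp_add, ← Complex.exp_add, ← mul_add, ← mul_add, ← Complex.ofReal_add, ← Complex.ofReal_add]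
    congr 3
    unfold rtSq rtIp
    simp only [Prod.fst_sub, Prod.snd_sub]
    field_simp
    ring
  rw [e, hE]
  ring

theorem rt_xl_fib_iso_cst {lam : ℝ} (hl : lam ≠ 0) :
    ‖(4 * (Real.pi : ℂ) * Complex.I * (lam : ℂ))⁻¹‖ₑ ^ 2 * ENNReal.ofReal |(((4 * Real.pi * lam)⁻¹) ^ 2)⁻¹| = 1 := by
  have hπ := Real.pi_pos
  have hn : ‖(4 * (Real.pi : ℂ) * Complex.I * (lam : ℂ))⁻¹‖ = (4 * Real.pi * |lam|)⁻¹ := by
    rw [norm_inv, norm_mul, norm_mul, norm_mul, Complex.norm_I, Complex.norm_real, Complex.norm_real, Real.norm_eq_abs, Real.norm_eq_abs,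
      abs_of_pos hπ, mul_one]
    norm_num
  rw [← ofReal_norm, hn, ← ENNReal.ofReal_pow (by positivity), ← ENNReal.ofReal_mul (by positivity)]
  have habs : 0 < |lam| := abs_pos.2 hl
  have e : ((4 * Real.pi * |lam|)⁻¹) ^ 2 * |(((4 * Real.pi * lam)⁻¹) ^ 2)⁻¹| = 1 := by
    rw [abs_inv, abs_pow, abs_inv, abs_mul, abs_mul, abs_of_pos hπ, abs_of_pos (by norm_num : (0 : ℝ) < 4)]
    field_simp
  rw [e, ENNReal.ofReal_one]


/-- LEAF `L-256-RT-XL-O2`.  **the fibre transform is an isometry on `L¹ ∩ L²`.**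
PLAN.  `rt_xl_fib_four`; `‖·‖ₑ` of the unimodular factor is `1` (`rt_w1c_norm_exp`); `h v = e^{i|v|²/4lam} g (V⁻¹ v)` is integrable and in `L²` (`MeasurePreserving.integrable_comp_emb`, `MemLp.comp_measurePreserving`, unimodular continuous factor);
`ls_plancherel` + `rt_w1c_lint_sq` (`∫⁻ ‖f‖ₑ² = ofReal ∫ ‖f‖²`); scaling `∫⁻ Φ(r • V ξ') dξ' = |r|⁻² ∫⁻ Φ` (`rt_w1c_V_mp.lintegral_comp_emb`, `rt_w1_scale`, `finrank E2 = 2`), `r = (4π lam)⁻¹`;  `‖(4πi lam)⁻¹‖ₑ² |r|⁻² = 1`.   ~200 l. -/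
theorem rt_xl_fib_iso {lam : ℝ} (hl : lam ≠ 0) {g : ℝ × ℝ → ℂ} (h1 : Integrable g) (h2 : MemLp g 2 volume) :
    ∫⁻ ξ', ‖rtXlFr lam g ξ'‖ₑ ^ 2 = ∫⁻ ξ, ‖g ξ‖ₑ ^ 2 := by
  have hVs : MeasurePreserving rtW1cV.symm (volume : Measure E2) (volume : Measure (ℝ × ℝ)) := rt_w1c_V_mp.symm
  have g1 : Integrable (fun v : E2 => g (rtW1cV.symm v)) := hVs.integrable_comp_of_integrable h1
  have g2 : MemLp (fun v : E2 => g (rtW1cV.symm v)) 2 volume := h2.comp_measurePreserving hVs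
  obtain ⟨h, hh⟩ : ∃ h : E2 → ℂ, h = fun v : E2 => Complex.exp (Complex.I * ((‖v‖ ^ 2 / (4 * lam) : ℝ) : ℂ)) * g (rtW1cV.symm v) := ⟨_, rfl⟩
  have hcont : Continuous fun v : E2 => Complex.exp (Complex.I * ((‖v‖ ^ 2 / (4 * lam) : ℝ) : ℂ)) := by fun_prop
  have hmeas : AEStronglyMeasurable h volume := by
    rw [hh]
    exact hcont.aestronglyMeasurable.mul g1.1
  have hnorm : ∀ v, ‖h v‖ = ‖g (rtW1cV.symm v)‖ := by
    intro v
    rw [hh]
    simp only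
    rw [norm_mul, rt_w1c_norm_exp, one_mul]
  have hI : Integrable h := g1.mono hmeas (Filter.Eventually.of_forall fun v => (hnorm v).le)
  have hM : MemLp h 2 volume := g2.mono hmeas (Filter.Eventually.of_forall fun v => (hnorm v).le)
  obtain ⟨p1, p2⟩ := ls_plancherel hI hM
  obtain ⟨Ψ, hΨ⟩ : ∃ Ψ : E2 → ℝ≥0∞, Ψ = fun w => ‖𝓕 h w‖ₑ ^ 2 := ⟨_, rfl⟩
  have hr : ((4 * Real.pi * lam)⁻¹ : ℝ) ≠ 0 := inv_ne_zero (mul_ne_zero (by positivity) hl)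
  have e1 : ∀ ξ' : ℝ × ℝ, ‖rtXlFr lam g ξ'‖ₑ ^ 2 = ‖(4 * (Real.pi : ℂ) * Complex.I * (lam : ℂ))⁻¹‖ₑ ^ 2 * (fun w : E2 => Ψ ((4 * Real.pi * lam)⁻¹ • w)) (rtW1cV ξ') := by
    intro ξ'
    rw [rt_xl_fib_four hl, ← hh, hΨ, enorm_mul, enorm_mul, mul_pow, mul_pow]
    have : ‖Complex.exp (Complex.I * ((rtSq ξ' / (4 * lam) : ℝ) : ℂ))‖ₑ = 1 := by
      rw [← ofReal_norm, rt_w1c_norm_exp, ENNReal.ofReal_one]
    rw [this, one_pow, mul_one]
  have e3 : ∫⁻ w, Ψ w = ∫⁻ ξ, ‖g ξ‖ₑ ^ 2 := by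
    rw [hΨ, rt_w1c_lint_sq p1, p2, ← rt_w1c_lint_sq hM, ← hVs.lintegral_comp_emb rtW1cV.symm.measurableEmbedding (fun q => ‖g q‖ₑ ^ 2)]
    refine lintegral_congr fun v => ?_
    rw [← ofReal_norm, hnorm v, ofReal_norm]
  rw [lintegral_congr e1, lintegral_const_mul' _ _ (ENNReal.pow_ne_top enorm_ne_top),
    rt_w1c_V_mp.lintegral_comp_emb rtW1cV.measurableEmbedding (fun w : E2 => Ψ ((4 * Real.pi * lam)⁻¹ • w)),
    rt_w1_scale volume Ψ hr, finrank_euclideanSpace_fin, ← mul_assoc, rt_xl_fib_iso_cst hl, one_mul, e3]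

/-- helper of `rt_xl_fib_adj`: Fubini for a unimodular symmetric kernel -/
theorem rt_xl_fib_adj_gen {X : Type} [MeasurableSpace X] (μ : Measure X) [SFinite μ] (θ : X → X → ℝ)
    (hθ : Measurable (fun z : X × X => θ z.1 z.2)) (hs : ∀ a b, θ a b = θ b a) (a : ℂ) {g f : X → ℂ}
    (hg : Integrable g μ) (hf : Integrable f μ) :
    ∫ x', (a * ∫ x, Complex.exp (Complex.I * ((θ x' x : ℝ) : ℂ)) * g x ∂μ) * conj (f x') ∂μ
      = ∫ x, g x * conj (conj a * ∫ x', Complex.exp (Complex.I * ((-θ x x' : ℝ) : ℂ)) * f x' ∂μ) ∂μ := by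
  have hint : Integrable (fun z : X × X => Complex.exp (Complex.I * ((θ z.1 z.2 : ℝ) : ℂ)) * (a * (conj (f z.1) * g z.2))) (μ.prod μ) := by
    have h1 : Integrable (fun z : X × X => conj (f z.1) * g z.2) (μ.prod μ) := by
      have hf' : Integrable (fun x => conj (f x)) μ := by
        refine (integrable_norm_iff ?_).1 ?_
        · exact (Complex.continuous_conj.measurable.comp_aemeasurable hf.1.aemeasurable).aestronglyMeasurable
        · simpa using hf.norm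
      exact hf'.mul_prod hg
    refine (h1.const_mul a).bdd_mul (c := 1) ?_ ?_
    · apply Measurable.aestronglyMeasurable
      exact Complex.measurable_exp.comp (measurable_const.mul (Complex.measurable_ofReal.comp hθ))
    · refine Filter.Eventually.of_forall fun z => ?_
      rw [mul_comm, Complex.norm_exp_ofReal_mul_I]
  have hL : ∀ x', (a * ∫ x, Complex.exp (Complex.I * ((θ x' x : ℝ) : ℂ)) * g x ∂μ) * conj (f x')
      = ∫ x, Complex.exp (Complex.I * ((θ x' x : ℝ) : ℂ)) * (a * (conj (f x') * g x)) ∂μ := by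
    intro x'
    rw [← integral_const_mul, ← integral_mul_const]
    refine integral_congr_ae (Filter.Eventually.of_forall fun x => ?_)
    show a * (Complex.exp (Complex.I * ((θ x' x : ℝ) : ℂ)) * g x) * conj (f x') = _
    ring
  have hR : ∀ x, g x * conj (conj a * ∫ x', Complex.exp (Complex.I * ((-θ x x' : ℝ) : ℂ)) * f x' ∂μ)
      = ∫ x', Complex.exp (Complex.I * ((θ x' x : ℝ) : ℂ)) * (a * (conj (f x') * g x)) ∂μ := by
    intro x
    rw [map_mul, Complex.conj_conj, ← integral_conj, ← integral_const_mul, ← integral_const_mul]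
    refine integral_congr_ae (Filter.Eventually.of_forall fun x' => ?_)
    show g x * (a * conj (Complex.exp (Complex.I * ((-θ x x' : ℝ) : ℂ)) * f x')) = _
    rw [map_mul, ← Complex.exp_conj, map_mul, Complex.conj_I, Complex.conj_ofReal, hs x x']
    have : -Complex.I * ((-θ x' x : ℝ) : ℂ) = Complex.I * ((θ x' x : ℝ) : ℂ) := by
      push_cast
      ring
    rw [this]
    ring
  simp_rw [hL, hR]
  exact integral_integral_swap hint

/-- LEAF `L-256-RT-XL-O3`.  **adjoint on one fibre** (Fubini; the kernel is bounded by `1`).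
PLAN.  Both sides `= (4πi lam)⁻¹ ∫∫ e^{i|ξ'-ξ|²/4lam} g ξ conj (f ξ')`: `integral_const_mul`/`integral_mul_const` to move the factors inside, `integral_integral_swap` with
`Integrable (fun z : (ℝ×ℝ)×(ℝ×ℝ) => e^{..} g z.2 conj (f z.1))` (`Integrable.mul_prod`-type product of `f.conj` and `g`, times a bounded continuous unimodular factor: `Integrable.bdd_mul`);
`conj ((4πi(-lam))⁻¹) = (4πi lam)⁻¹`, `conj (exp (I θ)) = exp (I (-θ))` (`Complex.exp_conj`), `integral_conj`, `rtSq (ξ - ξ') = rtSq (ξ' - ξ)` (`rt_k_sq_comm`).   No hypothesis on `lam` (`lam = 0`: both sides vanish).   ~120 l. -/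
theorem rt_xl_fib_adj (lam : ℝ) {g f : ℝ × ℝ → ℂ} (hg : Integrable g) (hf : Integrable f) :
    ∫ ξ', rtXlFr lam g ξ' * conj (f ξ') = ∫ ξ, g ξ * conj (rtXlFr (-lam) f ξ) := by
  have h := rt_xl_fib_adj_gen (volume : Measure (ℝ × ℝ)) (fun a b => rtSq (a - b) / (4 * lam)) (by unfold rtSq; fun_prop)
    (fun a b => by rw [rt_k_sq_comm]) (4 * (Real.pi : ℂ) * Complex.I * (lam : ℂ))⁻¹ hg hf
  have e1 : conj ((4 * (Real.pi : ℂ) * Complex.I * (lam : ℂ))⁻¹) = (4 * (Real.pi : ℂ) * Complex.I * ((-lam : ℝ) : ℂ))⁻¹ := by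
    rw [map_inv₀, map_mul, map_mul, map_mul, Complex.conj_I, Complex.conj_ofReal, Complex.conj_ofReal, map_ofNat]
    congr 1
    push_cast
    ring
  have e2 : ∀ a b : ℝ × ℝ, -(rtSq (a - b) / (4 * lam)) = rtSq (a - b) / (4 * -lam) := by
    intro a b
    rw [mul_neg, div_neg]
  rw [e1] at h
  simp_rw [e2] at h
  unfold rtXlFr
  exact h

/-- a property of a.e. `ρ` holds at a.e. point of `Mo` -/
theorem rt_xl_o4_snd {p : ℝ → Prop} (h : ∀ᵐ ρ ∂(volume : Measure ℝ), p ρ) : ∀ᵐ z ∂(volume : Measure RdWvPar.Mo), p z.2 :=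
  (Measure.quasiMeasurePreserving_snd (μ := (volume : Measure (ℝ × ℝ))) (ν := (volume : Measure ℝ))).ae h

/-- a.e. on `Mo` ⇒ for a.e. `ρ`, a.e. on the slice -/
theorem rt_xl_o4_slice {p : RdWvPar.Mo → Prop} (h : ∀ᵐ z ∂(volume : Measure RdWvPar.Mo), p z) :
    ∀ᵐ ρ ∂(volume : Measure ℝ), ∀ᵐ ξ ∂(volume : Measure (ℝ × ℝ)), p (ξ, ρ) := by
  have h1 : ∀ᵐ z ∂((volume : Measure ℝ).prod (volume : Measure (ℝ × ℝ))), p z.swap :=
    (Measure.measurePreserving_swap (μ := (volume : Measure ℝ)) (ν := (volume : Measure (ℝ × ℝ)))).quasiMeasurePreserving.ae h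
  exact Measure.ae_ae_of_ae_prod h1

/-- the unimodular factor keeps integrability -/
theorem rt_xl_o4_int (ξ' : ℝ × ℝ) (m : ℝ) {g : ℝ × ℝ → ℂ} (hg : Integrable g volume) :
    Integrable (fun ξ : ℝ × ℝ => Complex.exp (Complex.I * ((rtSq (ξ' - ξ) / m : ℝ) : ℂ)) * g ξ) volume := by
  have hm : Measurable (fun ξ : ℝ × ℝ => Complex.exp (Complex.I * ((rtSq (ξ' - ξ) / m : ℝ) : ℂ))) := by
    unfold rtSq
    fun_prop
  refine hg.norm.mono' (hm.aestronglyMeasurable.mul hg.aestronglyMeasurable) (Filter.Eventually.of_forall fun ξ => ?_)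
  rw [norm_mul, mul_comm Complex.I, Complex.norm_exp_ofReal_mul_I, one_mul]

/-- LEAF `L-256-RT-XL-O4`.  the formula respects a.e. equality.
PLAN.  `Measure.ae_ae_of_ae_prod` after swapping (`volume` on `(ℝ×ℝ)×ℝ` is the product; `Measure.prod_swap`, or `MeasureTheory.Measure.ae_prod_iff`-type): for a.e. `ρ`, `G(·,ρ) =ᵐ G'(·,ρ)`, then `integral_congr_ae`.
The exceptional set is `{q | q.2 ∈ N}`, `N` null in `ℝ`: null for the product (`Measure.prod_prod`, `measure_mono`; or `(quasiMeasurePreserving_snd).ae`).   ~80 l. -/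
theorem rt_xl_F_congr (c : ℝ) {G G' : RdWvPar.Mo → ℂ} (h : G =ᵐ[volume] G') : rtXlF c G =ᵐ[volume] rtXlF c G' := by
  filter_upwards [rt_xl_o4_snd (rt_xl_o4_slice h)] with z hz
  unfold rtXlF
  congr 1
  refine integral_congr_ae ?_
  filter_upwards [hz] with ξ hξ
  rw [hξ]

/-- LEAF `L-256-RT-XL-O4`.  additivity (for a.e. `ρ` both slices are integrable: `Integrable.prod_left_ae`; unimodular factor: `Integrable.bdd_mul`; `integral_add`).   ~80 l. -/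
theorem rt_xl_F_add (c : ℝ) {G G' : RdWvPar.Mo → ℂ} (hG : Integrable G volume) (hG' : Integrable G' volume) :
    rtXlF c (G + G') =ᵐ[volume] rtXlF c G + rtXlF c G' := by
  have h1 : ∀ᵐ ρ ∂(volume : Measure ℝ), Integrable (fun ξ : ℝ × ℝ => G (ξ, ρ)) volume := Integrable.prod_left_ae hG
  have h2 : ∀ᵐ ρ ∂(volume : Measure ℝ), Integrable (fun ξ : ℝ × ℝ => G' (ξ, ρ)) volume := Integrable.prod_left_ae hG'
  filter_upwards [rt_xl_o4_snd h1, rt_xl_o4_snd h2] with z hz hz'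
  rw [Pi.add_apply]
  unfold rtXlF
  rw [← mul_add, ← integral_add (rt_xl_o4_int z.1 (4 * z.2 * c) hz) (rt_xl_o4_int z.1 (4 * z.2 * c) hz')]
  congr 1
  refine integral_congr_ae (Filter.Eventually.of_forall fun ξ => ?_)
  simp only [Pi.add_apply]
  ring

/-- LEAF `L-256-RT-XL-O4`.  homogeneity, pointwise (`integral_const_mul` holds without integrability).   ~20 l. -/
theorem rt_xl_F_smul (c : ℝ) (a : ℂ) (G : RdWvPar.Mo → ℂ) : rtXlF c (a • G) = a • rtXlF c G := by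
  funext q'
  rw [Pi.smul_apply, smul_eq_mul]
  unfold rtXlF
  have e : ∀ ξ : ℝ × ℝ, Complex.exp (Complex.I * ((rtSq (q'.1 - ξ) / (4 * q'.2 * c) : ℝ) : ℂ)) * (a • G) (ξ, q'.2)
      = a * (Complex.exp (Complex.I * ((rtSq (q'.1 - ξ) / (4 * q'.2 * c) : ℝ) : ℂ)) * G (ξ, q'.2)) := by
    intro ξ
    rw [Pi.smul_apply, smul_eq_mul]
    ring
  simp only [e]
  rw [integral_const_mul]
  ring

/-- LEAF `L-256-RT-XL-O4`.  joint measurability.
PLAN.  By `rt_xl_F_congr` replace `G` by `hG.mk G` (strongly measurable).   `(q', ξ) ↦ e^{i rtSq (q'.1 - ξ)/(4 q'.2 c)} G (ξ, q'.2)` is strongly measurable on `Mo × (ℝ×ℝ)` (measurable arithmetic, `Complex.measurable_exp`; `hG.comp_measurable`),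
`StronglyMeasurable.integral_prod_right`; the prefactor is measurable.   ~80 l. -/
theorem rt_xl_F_meas (c : ℝ) {G : RdWvPar.Mo → ℂ} (hG : AEStronglyMeasurable G volume) : AEStronglyMeasurable (rtXlF c G) volume := by
  refine AEStronglyMeasurable.congr ?_ (rt_xl_F_congr c hG.ae_eq_mk).symm
  have hm : StronglyMeasurable (hG.mk G) := hG.stronglyMeasurable_mk
  have h1 : Measurable (fun q' : RdWvPar.Mo => (4 * (Real.pi : ℂ) * Complex.I * ((q'.2 * c : ℝ) : ℂ))⁻¹) := by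
    fun_prop
  have h2 : Measurable (fun z : RdWvPar.Mo × (ℝ × ℝ) => Complex.exp (Complex.I * ((rtSq (z.1.1 - z.2) / (4 * z.1.2 * c) : ℝ) : ℂ))) := by
    unfold rtSq
    fun_prop
  have h3 : StronglyMeasurable (fun z : RdWvPar.Mo × (ℝ × ℝ) => hG.mk G (z.2, z.1.2)) :=
    hm.comp_measurable (by fun_prop)
  have h4 : StronglyMeasurable (fun q' : RdWvPar.Mo =>
      ∫ ξ : ℝ × ℝ, Complex.exp (Complex.I * ((rtSq (q'.1 - ξ) / (4 * q'.2 * c) : ℝ) : ℂ)) * hG.mk G (ξ, q'.2)) :=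
    StronglyMeasurable.integral_prod_right' (f := fun z : RdWvPar.Mo × (ℝ × ℝ) =>
      Complex.exp (Complex.I * ((rtSq (z.1.1 - z.2) / (4 * z.1.2 * c) : ℝ) : ℂ)) * hG.mk G (z.2, z.1.2)) (h2.stronglyMeasurable.mul h3)
  exact (h1.stronglyMeasurable.mul h4).aestronglyMeasurable

/-- LEAF `L-256-RT-XL-O5`.  **the formula is isometric on `L¹ ∩ L²`** (Tonelli over `ρ`).
PLAN.  `eLpNorm f 2 ^ 2 = ∫⁻ ‖f‖ₑ²` (`rt_w1c_eLp_sq`).   `∫⁻ q', ‖rtXlF c G q'‖ₑ² = ∫⁻ ρ, ∫⁻ ξ', ..` (`lintegral_prod_symm'`/`lintegral_prod_symm` with `rt_xl_F_meas`), `rt_xl_F_fib`;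
for a.e. `ρ`: `ρ c ≠ 0` (`ρ ≠ 0` a.e.: `Measure.ae_ne`-type, `volume {0} = 0`), the slice `G(·,ρ)` is integrable (`Integrable.prod_left_ae`) and in `L²` (apply the same to `‖G‖²`, integrable by `MemLp.integrable_norm_pow`-type; slice measurability from `AEStronglyMeasurable.prodMk_right`-type / `hG.mk`),
`rt_xl_fib_iso`; `lintegral_congr_ae`; Tonelli back.   `MemLp`: `rt_xl_F_meas` + finiteness.   ~200 l. -/
theorem rt_xl_F_norm (c : ℝ) (hc : c ≠ 0) {G : RdWvPar.Mo → ℂ} (h1 : Integrable G volume) (h2 : MemLp G 2 volume) :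
    MemLp (rtXlF c G) 2 volume ∧ eLpNorm (rtXlF c G) 2 volume = eLpNorm G 2 volume := by
  have hm := rt_xl_F_meas c h1.1
  have hvol : (volume : Measure RdWvPar.Mo) = (volume : Measure (ℝ × ℝ)).prod (volume : Measure ℝ) := rfl
  have key : ∫⁻ q', ‖rtXlF c G q'‖ₑ ^ 2 = ∫⁻ q, ‖G q‖ₑ ^ 2 := by
    have a1 : AEMeasurable (fun q' : RdWvPar.Mo => ‖rtXlF c G q'‖ₑ ^ 2) ((volume : Measure (ℝ × ℝ)).prod (volume : Measure ℝ)) :=
      (hm.enorm).pow_const 2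
    have a2 : AEMeasurable (fun q : RdWvPar.Mo => ‖G q‖ₑ ^ 2) ((volume : Measure (ℝ × ℝ)).prod (volume : Measure ℝ)) :=
      (h1.1.enorm).pow_const 2
    rw [hvol, lintegral_prod_symm _ a1, lintegral_prod_symm _ a2]
    have b1 : ∀ᵐ ρ : ℝ, Integrable (fun ξ : ℝ × ℝ => G (ξ, ρ)) volume := Integrable.prod_left_ae h1
    have b2 : ∀ᵐ ρ : ℝ, Integrable (fun ξ : ℝ × ℝ => ‖G (ξ, ρ)‖ ^ 2) volume :=
      Integrable.prod_left_ae ((memLp_two_iff_integrable_sq_norm h2.1).1 h2)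
    have b3 : ∀ᵐ ρ : ℝ, ρ ≠ 0 := by
      have : ({0}ᶜ : Set ℝ) ∈ ae (volume : Measure ℝ) := compl_mem_ae_iff.2 (measure_singleton (0 : ℝ))
      filter_upwards [this] with ρ hρ
      exact hρ
    refine lintegral_congr_ae ?_
    filter_upwards [b1, b2, b3] with ρ c1 c2 c3
    have e : ∀ ξ' : ℝ × ℝ, rtXlF c G (ξ', ρ) = rtXlFr (ρ * c) (fun ξ => G (ξ, ρ)) ξ' := fun ξ' => rt_xl_F_fib c G (ξ', ρ)
    simp only [e]
    exact rt_xl_fib_iso (mul_ne_zero c3 hc) c1 ((memLp_two_iff_integrable_sq_norm c1.1).2 c2)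
  have heq : eLpNorm (rtXlF c G) 2 volume = eLpNorm G 2 volume := by
    have h3 : eLpNorm (rtXlF c G) 2 volume ^ 2 = eLpNorm G 2 volume ^ 2 := by
      rw [rt_w1c_eLp_sq, rt_w1c_eLp_sq, key]
    exact le_antisymm ((ENNReal.pow_le_pow_left_iff two_ne_zero).1 h3.le) ((ENNReal.pow_le_pow_left_iff two_ne_zero).1 h3.ge)
  exact ⟨⟨hm, heq ▸ h2.2⟩, heq⟩

/-- LINK (O6) -/
theorem rt_xl_o_ex (c : ℝ) (hc : c ≠ 0) : ∃ L : RtKc →L[ℂ] RtKc, (∀ G : RtKc, ‖L G‖ = ‖G‖) ∧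
    ∀ G : RtKc, Integrable (G : RdWvPar.Mo → ℂ) volume → (L G : RdWvPar.Mo → ℂ) =ᵐ[volume] rtXlF c (G : RdWvPar.Mo → ℂ) :=
  rt_xl_ext volume volume (rtXlF c) (fun _ _ h => rt_xl_F_congr c h) (fun _ _ h h' => rt_xl_F_add c h h')
    (fun a G _ => Filter.EventuallyEq.of_eq (rt_xl_F_smul c a G)) (fun _ h1 h2 => rt_xl_F_norm c hc h1 h2)

/-- EXIT of the file -/
theorem rt_xl_o_spec (c : ℝ) (hc : c ≠ 0) : (∀ G : RtKc, ‖rtXlOp c G‖ = ‖G‖) ∧
    ∀ G : RtKc, Integrable (G : RdWvPar.Mo → ℂ) volume → (rtXlOp c G : RdWvPar.Mo → ℂ) =ᵐ[volume] rtXlF c (G : RdWvPar.Mo → ℂ) := by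
  have h := rt_xl_o_ex c hc
  have e : rtXlOp c = h.choose := by
    unfold rtXlOp
    rw [if_neg hc, dif_pos h]
  rw [e]
  exact h.choose_spec

theorem rt_xl_o_zero : rtXlOp 0 = ContinuousLinearMap.id ℂ RtKc := by
  unfold rtXlOp
  rw [if_pos rfl]

/-- EXIT of the file -/
theorem rt_xl_o_norm (c : ℝ) (G : RtKc) : ‖rtXlOp c G‖ = ‖G‖ := by
  by_cases hc : c = 0
  · rw [hc, rt_xl_o_zero]
    rfl
  · exact (rt_xl_o_spec c hc).1 G

/-- LEAF `L-256-RT-XL-O7`.  the adjoint identity on `L¹ ∩ L²`.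
PLAN.  `L2.inner_def`, `RCLike.inner_apply` (`⟪z, w⟫ = w * conj z`: check the order in this Mathlib); replace `rtXlOp (±c)` by the formula (`rt_xl_o_spec`, `integral_congr_ae`).
Both integrands are integrable on `Mo` (products of two `L²` functions: `L2.integrable_inner`), so `integral_prod_symm`/`integral_prod` reduce to `∫ ρ, ∫ ξ`; for a.e. `ρ` the slices of `G`, `F` are integrable (`Integrable.prod_left_ae`): `rt_xl_F_fib`, `rt_xl_fib_adj (ρ c)`, `ρ * -c = -(ρ c)`.   ~200 l. -/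
theorem rt_xl_o_adj0 (c : ℝ) (hc : c ≠ 0) (G F : RtKc) (hG : Integrable (G : RdWvPar.Mo → ℂ) volume) (hF : Integrable (F : RdWvPar.Mo → ℂ) volume) :
    ⟪rtXlOp c G, F⟫_ℂ = ⟪G, rtXlOp (-c) F⟫_ℂ := by
  have hc' : -c ≠ 0 := neg_ne_zero.2 hc
  have e1 := (rt_xl_o_spec c hc).2 G hG
  have e2 := (rt_xl_o_spec (-c) hc').2 F hF
  have i1 : Integrable (fun q : RdWvPar.Mo => ⟪(rtXlOp c G : RdWvPar.Mo → ℂ) q, (F : RdWvPar.Mo → ℂ) q⟫_ℂ) volume :=
    L2.integrable_inner _ _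
  have i2 : Integrable (fun q : RdWvPar.Mo => ⟪(G : RdWvPar.Mo → ℂ) q, (rtXlOp (-c) F : RdWvPar.Mo → ℂ) q⟫_ℂ) volume :=
    L2.integrable_inner _ _
  have a1 : (fun q : RdWvPar.Mo => ⟪(rtXlOp c G : RdWvPar.Mo → ℂ) q, (F : RdWvPar.Mo → ℂ) q⟫_ℂ)
      =ᵐ[volume] fun q : RdWvPar.Mo => (F : RdWvPar.Mo → ℂ) q * conj (rtXlF c (G : RdWvPar.Mo → ℂ) q) := by
    filter_upwards [e1] with q hq
    rw [RCLike.inner_apply, hq]
  have a2 : (fun q : RdWvPar.Mo => ⟪(G : RdWvPar.Mo → ℂ) q, (rtXlOp (-c) F : RdWvPar.Mo → ℂ) q⟫_ℂ)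
      =ᵐ[volume] fun q : RdWvPar.Mo => rtXlF (-c) (F : RdWvPar.Mo → ℂ) q * conj ((G : RdWvPar.Mo → ℂ) q) := by
    filter_upwards [e2] with q hq
    rw [RCLike.inner_apply, hq]
  have j1 := i1.congr a1
  have j2 := i2.congr a2
  rw [L2.inner_def, L2.inner_def, integral_congr_ae a1, integral_congr_ae a2]
  generalize (G : RdWvPar.Mo → ℂ) = g at hG j1 j2 ⊢
  generalize (F : RdWvPar.Mo → ℂ) = f at hF j1 j2 ⊢
  have v : (volume : Measure RdWvPar.Mo) = (volume : Measure (ℝ × ℝ)).prod (volume : Measure ℝ) := rfl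
  rw [v] at j1 j2 hG hF ⊢
  rw [integral_prod_symm _ j1, integral_prod_symm _ j2]
  refine integral_congr_ae ?_
  filter_upwards [hG.prod_left_ae, hF.prod_left_ae] with ρ gρ fρ
  have h := rt_xl_fib_adj (ρ * -c) fρ gρ
  have e : -(ρ * -c) = ρ * c := by ring
  rw [e] at h
  simp only [rt_xl_F_fib]
  exact h.symm

/-- LEAF `L-256-RT-XL-O7`.  **`T_c^* = T_{-c}`.**
PLAN.  `c = 0`: `rt_xl_o_zero`, `neg_zero`, adjoint of the identity.   `c ≠ 0`: `ContinuousLinearMap.eq_adjoint_iff`; both sides of `⟪T_c G, F⟫ = ⟪G, T_{-c} F⟫` are continuous in `(G, F)`; integrable elements are dense (`rt_k_approx`): two `ε`-arguments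
(or `DenseRange.induction_on₂` for the dense submodule), `rt_xl_o_adj0`.   ~120 l. -/
theorem rt_xl_o_adj (c : ℝ) : ContinuousLinearMap.adjoint (rtXlOp c) = rtXlOp (-c) := by
  by_cases hc : c = 0
  · rw [hc, neg_zero, rt_xl_o_zero]
    exact (ContinuousLinearMap.eq_adjoint_iff _ _).2 (fun x y => rfl) |>.symm
  symm
  rw [ContinuousLinearMap.eq_adjoint_iff]
  intro F G
  -- goal: ⟪T_{-c} F, G⟫ = ⟪F, T_c G⟫
  have key : ∀ ε : ℝ, 0 < ε → ‖⟪rtXlOp (-c) F, G⟫_ℂ - ⟪F, rtXlOp c G⟫_ℂ‖ ≤ ε * (2 * ‖G‖ + 2 * ‖F‖) := by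
    intro ε hε
    obtain ⟨F', hF', -, hFn, hFe⟩ := rt_k_approx volume F hε
    obtain ⟨G', hG', -, hGn, hGe⟩ := rt_k_approx volume G hε
    have h0 : ⟪rtXlOp (-c) F', G'⟫_ℂ = ⟪F', rtXlOp c G'⟫_ℂ := by
      have := rt_xl_o_adj0 (-c) (neg_ne_zero.2 hc) F' G' hF' hG'
      rwa [neg_neg] at this
    have d1 : ⟪rtXlOp (-c) F, G⟫_ℂ - ⟪rtXlOp (-c) F', G'⟫_ℂ
        = ⟪rtXlOp (-c) (F - F'), G⟫_ℂ + ⟪rtXlOp (-c) F', G - G'⟫_ℂ := by
      rw [map_sub, inner_sub_left, inner_sub_right]; ring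
    have d2 : ⟪F, rtXlOp c G⟫_ℂ - ⟪F', rtXlOp c G'⟫_ℂ
        = ⟪F - F', rtXlOp c G⟫_ℂ + ⟪F', rtXlOp c (G - G')⟫_ℂ := by
      rw [map_sub, inner_sub_left, inner_sub_right]; ring
    have n1 : ‖⟪rtXlOp (-c) (F - F'), G⟫_ℂ‖ ≤ ε * ‖G‖ := by
      refine (norm_inner_le_norm _ _).trans ?_
      rw [rt_xl_o_norm]
      exact mul_le_mul_of_nonneg_right hFe (norm_nonneg _)
    have n2 : ‖⟪rtXlOp (-c) F', G - G'⟫_ℂ‖ ≤ ε * ‖F‖ := by
      refine (norm_inner_le_norm _ _).trans ?_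
      rw [rt_xl_o_norm, mul_comm]
      exact mul_le_mul hGe hFn (norm_nonneg _) hε.le
    have n3 : ‖⟪F - F', rtXlOp c G⟫_ℂ‖ ≤ ε * ‖G‖ := by
      refine (norm_inner_le_norm _ _).trans ?_
      rw [rt_xl_o_norm]
      exact mul_le_mul_of_nonneg_right hFe (norm_nonneg _)
    have n4 : ‖⟪F', rtXlOp c (G - G')⟫_ℂ‖ ≤ ε * ‖F‖ := by
      refine (norm_inner_le_norm _ _).trans ?_
      rw [rt_xl_o_norm, mul_comm]
      exact mul_le_mul hGe hFn (norm_nonneg _) hε.le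
    have d : ⟪rtXlOp (-c) F, G⟫_ℂ - ⟪F, rtXlOp c G⟫_ℂ
        = (⟪rtXlOp (-c) (F - F'), G⟫_ℂ + ⟪rtXlOp (-c) F', G - G'⟫_ℂ)
          - (⟪F - F', rtXlOp c G⟫_ℂ + ⟪F', rtXlOp c (G - G')⟫_ℂ) := by
      rw [← d1, ← d2, h0]; ring
    rw [d]
    have t1 := norm_sub_le (⟪rtXlOp (-c) (F - F'), G⟫_ℂ + ⟪rtXlOp (-c) F', G - G'⟫_ℂ)
      (⟪F - F', rtXlOp c G⟫_ℂ + ⟪F', rtXlOp c (G - G')⟫_ℂ)
    have t2 := norm_add_le (⟪rtXlOp (-c) (F - F'), G⟫_ℂ) (⟪rtXlOp (-c) F', G - G'⟫_ℂ)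
    have t3 := norm_add_le (⟪F - F', rtXlOp c G⟫_ℂ) (⟪F', rtXlOp c (G - G')⟫_ℂ)
    linarith only [t1, t2, t3, n1, n2, n3, n4]
  have hz : ‖⟪rtXlOp (-c) F, G⟫_ℂ - ⟪F, rtXlOp c G⟫_ℂ‖ ≤ 0 := by
    refine le_of_forall_pos_le_add ?_
    intro δ hδ
    have hK : 0 < 2 * ‖G‖ + 2 * ‖F‖ + 1 := by positivity
    have := key (δ / (2 * ‖G‖ + 2 * ‖F‖ + 1)) (div_pos hδ hK)
    refine this.trans ?_
    rw [zero_add, div_mul_eq_mul_div, div_le_iff₀ hK]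
    nlinarith only [hδ, hK]
  exact sub_eq_zero.1 (norm_le_zero_iff.1 hz)

/-- EXIT of the file: group law -/
theorem rt_xl_o_inv (c : ℝ) (G : RtKc) : rtXlOp (-c) (rtXlOp c G) = G := by
  have h := (ContinuousLinearMap.norm_map_iff_adjoint_comp_self (rtXlOp c)).1 (rt_xl_o_norm c)
  rw [rt_xl_o_adj] at h
  exact congrArg (fun L : RtKc →L[ℂ] RtKc => L G) h

/-- LEAF `L-256-RT-XL-O8`.  the formula does not move the `ρ`-support.
PLAN.  As in `rt_xl_F_congr`: for a.e. `ρ`, for a.e. `ξ`: `G (ξ, ρ) ≠ 0 → ρ ∈ S`.   For such `ρ ∉ S` the slice vanishes a.e., the integral is `0`, so `rtXlF c G (ξ', ρ) = 0` for ALL `ξ'`.   ~80 l. -/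
theorem rt_xl_F_supp (c : ℝ) {G : RdWvPar.Mo → ℂ} (S : Set ℝ) (h : ∀ᵐ z ∂(volume : Measure RdWvPar.Mo), G z ≠ 0 → z.2 ∈ S) :
    ∀ᵐ z ∂(volume : Measure RdWvPar.Mo), rtXlF c G z ≠ 0 → z.2 ∈ S := by
  have h1 : ∀ᵐ w ∂((volume : Measure ℝ).prod (volume : Measure (ℝ × ℝ))), G w.swap ≠ 0 → w.swap.2 ∈ S :=
    (Measure.measurePreserving_swap (μ := (volume : Measure ℝ)) (ν := (volume : Measure (ℝ × ℝ)))).quasiMeasurePreserving.ae h
  have h2 : ∀ᵐ ρ ∂(volume : Measure ℝ), ∀ᵐ ξ ∂(volume : Measure (ℝ × ℝ)), G (ξ, ρ) ≠ 0 → ρ ∈ S :=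
    Measure.ae_ae_of_ae_prod h1
  have h3 : ∀ᵐ z ∂(volume : Measure RdWvPar.Mo), ∀ᵐ ξ ∂(volume : Measure (ℝ × ℝ)), G (ξ, z.2) ≠ 0 → z.2 ∈ S :=
    (Measure.quasiMeasurePreserving_snd (μ := (volume : Measure (ℝ × ℝ))) (ν := (volume : Measure ℝ))).ae h2
  filter_upwards [h3] with z hz hne
  by_contra hS
  apply hne
  unfold rtXlF
  have e : (fun ξ : ℝ × ℝ => Complex.exp (Complex.I * ((rtSq (z.1 - ξ) / (4 * z.2 * c) : ℝ) : ℂ)) * G (ξ, z.2)) =ᵐ[volume] fun _ => 0 := by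
    filter_upwards [hz] with ξ hξ
    have : G (ξ, z.2) = 0 := by
      by_contra h0
      exact hS (hξ h0)
    rw [this, mul_zero]
  rw [integral_congr_ae e, integral_zero, mul_zero]

/-- LEAF `L-256-RT-XL-O8`.  EXIT of the file: **the radial band is preserved.**
PLAN.  `c = 0` trivial.   `S = {ρ | p.H * ρ ∈ rdPlat b}` (measurable: closed interval), `B = {z | z.2 ∉ S}`.   For `ε > 0` take `G'` integrable with `G = 0 → G' = 0` a.e. and `‖G - G'‖ ≤ ε` (`rt_k_approx`): `G'` has the band, so `T_c G' =ᵐ rtXlF c G'` vanishes a.e. on `B` (`rt_xl_F_supp`).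
`(∫_B ‖T_c G‖²)^{1/2} = eLpNorm (T_c G) 2 (volume.restrict B) ≤ eLpNorm (T_c G') .. + eLpNorm (T_c (G - G')) .. ≤ 0 + ε` (`eLpNorm_add_le`, `eLpNorm_restrict_le`-type, `rt_xl_o_norm`, `map_sub`, `Lp.coeFn_sub`).
So `eLpNorm (T_c G) 2 (volume.restrict B) = 0`, `eLpNorm_eq_zero_iff`, `ae_restrict_iff'`.   ~150 l. -/
theorem rt_xl_o_band (p : RdWvPar) (c : ℝ) (b : ℕ) (G : RtKc) (hG : p.Spec b G) : p.Spec b (rtXlOp c G) := by
  by_cases hc : c = 0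
  · rw [hc, rt_xl_o_zero]
    exact hG
  set S : Set ℝ := {ρ | p.H * ρ ∈ rdPlat b} with hS
  set B : Set RdWvPar.Mo := {z | z.2 ∉ S} with hBdef
  have hSm : MeasurableSet S := by
    have m1 : Measurable fun ρ : ℝ => p.H * ρ := measurable_id.const_mul _
    exact m1 (by unfold rdPlat; exact measurableSet_Icc)
  have hB : MeasurableSet B := (measurable_snd hSm).compl
  have key : ∀ ε : ℝ, 0 < ε → eLpNorm (rtXlOp c G : RdWvPar.Mo → ℂ) 2 (volume.restrict B) ≤ ENNReal.ofReal ε := by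
    intro ε hε
    obtain ⟨G', hi, hz, -, hd⟩ := rt_k_approx (volume : Measure RdWvPar.Mo) G hε
    have hG' : ∀ᵐ z ∂(volume : Measure RdWvPar.Mo), (G' : RdWvPar.Mo → ℂ) z ≠ 0 → z.2 ∈ S := by
      filter_upwards [hG, hz] with z h1 h2 h3
      exact h1 fun h0 => h3 (h2 h0)
    have hF := rt_xl_F_supp c S hG'
    have hT := (rt_xl_o_spec c hc).2 G' hi
    have z2 : (rtXlOp c G' : RdWvPar.Mo → ℂ) =ᵐ[volume.restrict B] 0 := by
      rw [Filter.EventuallyEq, ae_restrict_iff' hB]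
      filter_upwards [hF, hT] with z h1 h2 h3
      rw [h2]
      by_contra h0
      exact h3 (h1 h0)
    have e0 : rtXlOp c G = rtXlOp c (G - G') + rtXlOp c G' := by
      rw [← map_add, sub_add_cancel]
    have e1 : (rtXlOp c G : RdWvPar.Mo → ℂ) =ᵐ[volume] (rtXlOp c (G - G') : RdWvPar.Mo → ℂ) + (rtXlOp c G' : RdWvPar.Mo → ℂ) := by
      rw [e0]
      exact Lp.coeFn_add _ _
    have n1 : eLpNorm (rtXlOp c (G - G') : RdWvPar.Mo → ℂ) 2 (volume.restrict B) ≤ ENNReal.ofReal ε := by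
      refine (eLpNorm_mono_measure _ Measure.restrict_le_self).trans ?_
      rw [← ENNReal.ofReal_toReal (Lp.eLpNorm_ne_top (rtXlOp c (G - G'))), ← Lp.norm_def, rt_xl_o_norm]
      exact ENNReal.ofReal_le_ofReal hd
    calc eLpNorm (rtXlOp c G : RdWvPar.Mo → ℂ) 2 (volume.restrict B)
        = eLpNorm ((rtXlOp c (G - G') : RdWvPar.Mo → ℂ) + (rtXlOp c G' : RdWvPar.Mo → ℂ)) 2 (volume.restrict B) :=
          eLpNorm_congr_ae (ae_restrict_of_ae e1)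
      _ ≤ eLpNorm (rtXlOp c (G - G') : RdWvPar.Mo → ℂ) 2 (volume.restrict B) + eLpNorm (rtXlOp c G' : RdWvPar.Mo → ℂ) 2 (volume.restrict B) :=
          eLpNorm_add_le (Lp.aestronglyMeasurable _).restrict (Lp.aestronglyMeasurable _).restrict (by norm_num)
      _ = eLpNorm (rtXlOp c (G - G') : RdWvPar.Mo → ℂ) 2 (volume.restrict B) := by
          rw [eLpNorm_congr_ae z2, eLpNorm_zero, add_zero]
      _ ≤ ENNReal.ofReal ε := n1
  have h0 : eLpNorm (rtXlOp c G : RdWvPar.Mo → ℂ) 2 (volume.restrict B) = 0 := by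
    refine nonpos_iff_eq_zero.1 (ENNReal.le_of_forall_pos_le_add fun ε hε _ => ?_)
    rw [zero_add, ← ENNReal.ofReal_coe_nnreal]
    exact key ε (by exact_mod_cast hε)
  rw [eLpNorm_eq_zero_iff (Lp.aestronglyMeasurable _).restrict (by norm_num), Filter.EventuallyEq, ae_restrict_iff' hB] at h0
  filter_upwards [h0] with z hz hne
  by_contra hn
  exact hne (hz hn)

end Claimed.Agent.R256
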