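import Claimed.Agent.R256.Rt.XDefs

/-!
# Row 256, folder Rt, block I1, unit XN : THE NORMALISED CORE (composition of the five factors WITH CUTS) : DEFINITIONS      (architect helper68; block architect helper76; geometry XG helper136; prefix `rt_xn_`, defs `rtXn*`, `RtXn*`, `RtAsP`)      SORRY-FREE

NORMALISED PICTURE (header of `Rt/XDefs.lean`): Planck parameter `p.H`, old root interval `[0, 1/4)` = depth `2`, index `1` of the clock `rtTm`, hyperquadric `b₂ + β y + κ q`, `|β| ≤ 1/4`, `|κ| ≤ 1`, rays in `rtBx rtO 1 (1/200)`.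
CHARTS   `E₁ = DB_(κ/2+β)`, `E₂ = LENS_(-1)`, `E₃ = DB_(-κ)`, `E₄ = LENS_1`, `E₅ = DB_(κ/2)`;   `rtChN β κ = E₅ ∘ E₄ ∘ E₃ ∘ E₂ ∘ E₁`,   `rtChNi β κ = E₁⁻¹ ∘ .. ∘ E₅⁻¹`.
STATES   `u0 = w`  -cut `S0` (depth 2, index 1)→  `c0`  -`Xd(κ/2+β)`→  `u1`  -`Xl(-1)`→  `u2`  -cut `S2` (depth 0)→  `c2`  -`Xd(-κ)`→  `u3`  -`Xl(1)`→  `u4`  -cut `S4`→  `c4`  -`Xd(κ/2)`→  `u5`  -cut `S5`→  `v1 = rtXnV`.
   The cuts are FIXED numerical boxes of rays (independent of `Λ`, `k`, `H`).   Generations: `w : b0`, `c0 : b0+1`, `u1, u2 : b0+2`, `c2 : b0+3`, `u3, u4 : b0+4`, `c4 : b0+5`, `u5 : b0+6`, `v1 : b0+7`.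
* `RtAsP H k Λ P t T' x'`      association of the row `x'` of the time `T'` with a TRACKED ray `P` (parametrised at time `0`) at the tracked time `t`.      `RtAsR Ψ H k Λ T x T' x' = RtAsP H k Λ (Ψ.row ray) (Ψ.tm ray T) T' x'` by `Iff.rfl`.
* `rtXnBx α β γ`      ANISOTROPIC box of rays around the time axis: `|A| ≤ α`, `|b| ≤ β`, `|y| ≤ γ`.      (`a₀ = 1/200` is forced by `rtChRho`; ISOTROPIC tracking fails: it gives `|A| ≤ 19 a₀ > 1/20`.)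
* `rtXnS T α β γ`      the rows of the time `T` whose ray lies in the box.
* `RtXnTk Ψ P T α β γ lo hi`      TRACKING: `Ψ.dn P T ≠ 0`, `Ψ.row P ∈ rtXnBx α β γ`, `lo ≤ Ψ.tm P T ≤ hi`.
* `RtXnR Ψ H k k' Λ α β γ lo hi z z'`      the relation carried along the chains: tracking of the ray of `z` + `RtAs Ψ k H k' Λ z z'`.
RADII (units `1/1000`; tracked rays of the OUT chain `R_i`, rows `R_i + 1`, cuts `S_i = R_i + 2`):
   `R0 = (5,5,5)`, `R1 = (6,9,6)`, `R2 = (15,9,7)`, `R3 = (16,17,8)`, `R4 = (33,17,9)`, `R5 = (34,23,10)`;      `S0 = (7,7,7)`, `S2 = (17,11,9)`, `S4 = (35,19,11)`, `S5 = (36,25,12)`.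
   DB, `|γ| ≤ g`:   `α' = α/(1-gα)`, `τ₀ = 2gβ + g²γ`, `β' = β + gγ + τ₀α'`, `γ' = γ + τ₀α'²`, `|t' - t| ≤ τ₀ + |t|(2gα + g²α²)`.      LENS, `|c| ≤ 1`:   `α' = α + β`, `β' = β`, `γ' = γ + β²`, `t' = t/(1+ct)`.
-/

set_option autoImplicit false

namespace Claimed.Agent.R256

open MeasureTheory
open scoped ENNReal

/-- association of the row `x'` of the time `T'` with the tracked ray `P` at the tracked time `t` -/
def RtAsP (H : ℝ) (k : ℕ) (Λ : ℝ) (P : RtRow) (t T' : ℝ) (x' : RdWvPar.Ph) : Prop :=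
  |t - T'| ≤ Λ * rdLen k ∧ RtNear Λ (rdD H k) (rdQ H k) H ((RdWvPar.co 0 x').flow (t - T')) (P.flow t)

/-- anisotropic box of rays around the time axis -/
def rtXnBx (α β γ : ℝ) : Set RtRow := {P | rtSq P.A ≤ α ^ 2 ∧ rtSq P.b ≤ β ^ 2 ∧ |P.y| ≤ γ}

/-- the rows of the time `T` whose ray lies in an anisotropic box -/
def rtXnS (T α β γ : ℝ) : Set RdWvPar.Ph := {x | rtRay T x ∈ rtXnBx α β γ}

/-- tracking of a ray and a time through a chart -/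
def RtXnTk (Ψ : RtCh) (P : RtRow) (T α β γ lo hi : ℝ) : Prop :=
  Ψ.dn P T ≠ 0 ∧ Ψ.row P ∈ rtXnBx α β γ ∧ lo ≤ Ψ.tm P T ∧ Ψ.tm P T ≤ hi

/-- the relation carried along the chains -/
def RtXnR (Ψ : RtCh) (H : ℝ) (k k' : ℕ) (Λ α β γ lo hi : ℝ) (z z' : RtZ) : Prop :=
  RtXnTk Ψ (rtZr k z) (rtTm k z.1) α β γ lo hi ∧ RtAs Ψ k H k' Λ z z'

/-- the cut boxes -/
def rtXnS0 : Set RdWvPar.Ph := rtXnS 0 (7 / 1000) (7 / 1000) (7 / 1000)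
def rtXnS2 : Set RdWvPar.Ph := rtXnS (-(1 / 4)) (17 / 1000) (11 / 1000) (9 / 1000)
def rtXnS4 : Set RdWvPar.Ph := rtXnS (-(1 / 4)) (35 / 1000) (19 / 1000) (11 / 1000)
def rtXnS5 : Set RdWvPar.Ph := rtXnS (-(1 / 4)) (36 / 1000) (25 / 1000) (12 / 1000)

/-! ### the chain of states -/

noncomputable def rtXnC0 (p : RdWvPar) (b0 : ℕ) (w : RtKc) : RtKc := rtCut p (rtTm 2 1) 2 b0 rtXnS0 w
noncomputable def rtXnU1 (p : RdWvPar) (b0 : ℕ) (β κ : ℝ) (w : RtKc) : RtKc := rtXdOp (κ / 2 + β) (rtXnC0 p b0 w)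
noncomputable def rtXnU2 (p : RdWvPar) (b0 : ℕ) (β κ : ℝ) (w : RtKc) : RtKc := rtXlOp (-1) (rtXnU1 p b0 β κ w)
noncomputable def rtXnC2 (p : RdWvPar) (b0 : ℕ) (β κ : ℝ) (w : RtKc) : RtKc := rtCut p (rtTm 0 0) 0 (b0 + 2) rtXnS2 (rtXnU2 p b0 β κ w)
noncomputable def rtXnU3 (p : RdWvPar) (b0 : ℕ) (β κ : ℝ) (w : RtKc) : RtKc := rtXdOp (-κ) (rtXnC2 p b0 β κ w)
noncomputable def rtXnU4 (p : RdWvPar) (b0 : ℕ) (β κ : ℝ) (w : RtKc) : RtKc := rtXlOp 1 (rtXnU3 p b0 β κ w)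
noncomputable def rtXnC4 (p : RdWvPar) (b0 : ℕ) (β κ : ℝ) (w : RtKc) : RtKc := rtCut p (rtTm 0 0) 0 (b0 + 4) rtXnS4 (rtXnU4 p b0 β κ w)
noncomputable def rtXnU5 (p : RdWvPar) (b0 : ℕ) (β κ : ℝ) (w : RtKc) : RtKc := rtXdOp (κ / 2) (rtXnC4 p b0 β κ w)

/-- **the transported state** -/
noncomputable def rtXnV (p : RdWvPar) (b0 : ℕ) (β κ : ℝ) (w : RtKc) : RtKc := rtCut p (rtTm 0 0) 0 (b0 + 6) rtXnS5 (rtXnU5 p b0 β κ w)

/-- the region of the OUT transfer: old terminal rows of the root interval whose ray lies in the patch -/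
def rtXnZ0 (k : ℕ) : Set RtZ := {z | 0 ≤ rtTm k z.1 ∧ rtTm k z.1 ≤ 1 / 4 ∧ rtZr k z ∈ rtBx rtO 1 (1 / 200)}

/-- a measurable region of a lattice view: time in the window, ray in a box -/
def rtXnZ (k : ℕ) (α β γ : ℝ) : Set RtZ := {z | -(1 / 4) ≤ rtTm k z.1 ∧ rtTm k z.1 ≤ 3 / 4 ∧ rtZr k z ∈ rtXnBx α β γ}

theorem rt_xndefs_eqns_cite : True := by
  have := @RtAsP.eq_1
  have := @rtXnBx.eq_1
  have := @rtXnS.eq_1
  have := @RtXnTk.eq_1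
  have := @RtXnR.eq_1
  have := @rtXnS0.eq_1
  have := @rtXnS2.eq_1
  have := @rtXnS4.eq_1
  have := @rtXnS5.eq_1
  have := @rtXnC0.eq_1
  have := @rtXnU1.eq_1
  have := @rtXnU2.eq_1
  have := @rtXnC2.eq_1
  have := @rtXnU3.eq_1
  have := @rtXnU4.eq_1
  have := @rtXnC4.eq_1
  have := @rtXnU5.eq_1
  have := @rtXnV.eq_1
  have := @rtXnZ0.eq_1
  have := @rtXnZ.eq_1
  trivial

theorem rt_xn_asr_iff (Ψ : RtCh) (H' : ℝ) (k' : ℕ) (Λ T : ℝ) (x : RdWvPar.Ph) (T' : ℝ) (x' : RdWvPar.Ph) :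
    RtAsR Ψ H' k' Λ T x T' x' ↔ RtAsP H' k' Λ (Ψ.row (rtRay T x)) (Ψ.tm (rtRay T x) T) T' x' := Iff.rfl

theorem rt_xn_as_iff (Ψ : RtCh) (k : ℕ) (H' : ℝ) (k' : ℕ) (Λ : ℝ) (z z' : RtZ) :
    RtAs Ψ k H' k' Λ z z' ↔ RtAsP H' k' Λ (Ψ.row (rtZr k z)) (rtZt Ψ k z) (rtTm k' z'.1) z'.2 := Iff.rfl

/-- the ray of a row, flowed -/
theorem rt_xn_ray_flow (T : ℝ) (x : RdWvPar.Ph) (s : ℝ) : (rtRay T x).flow s = (RdWvPar.co 0 x).flow (s - T) := by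
  simp only [rtRay, RdWvPar.co, RtRow.flow]
  ext <;> simp <;> ring

theorem rt_xn_ray_self (T : ℝ) (x : RdWvPar.Ph) : (rtRay T x).flow T = RdWvPar.co 0 x := by
  rw [rt_xn_ray_flow]
  simp only [RdWvPar.co, RtRow.flow, sub_self]
  ext <;> simp

/-- the isotropic box of radius `a` is the anisotropic box `(a, a, a)` -/
theorem rt_xn_bx_iso (a : ℝ) : rtBx rtO 1 a = rtXnBx a a a := by
  ext P
  have e : rtSq P.b ≤ a ^ 2 ∧ |P.y| ≤ a ∧ rtSq P.A ≤ a ^ 2 ↔ rtSq P.A ≤ a ^ 2 ∧ rtSq P.b ≤ a ^ 2 ∧ |P.y| ≤ a := by tauto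
  simpa [rtBx, rtXnBx, rtO, rtIp] using e

theorem rt_xn_bx_mono {α β γ α' β' γ' : ℝ} (h0 : 0 ≤ α) (h1 : 0 ≤ β) (hα : α ≤ α') (hβ : β ≤ β') (hγ : γ ≤ γ') : rtXnBx α β γ ⊆ rtXnBx α' β' γ' := by
  intro P hP
  exact ⟨hP.1.trans (pow_le_pow_left₀ h0 hα 2), hP.2.1.trans (pow_le_pow_left₀ h1 hβ 2), hP.2.2.trans hγ⟩

end Claimed.Agent.R256
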