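import Claimed.Agent.R256.Rt.XoStepContract

/-!
# Row 256, folder Rt, block I1, unit XO (assembly), file 1b : THE TWO ENDS OF THE CHAINS, version 2      (architect helper76; prefix `rt_xo_`)      CONTRACT FILE: leaves `L-256-RT-XO-TL2`, `L-256-RT-XO-SO2`

WHY v2.  The consumer (`RtPwRin` of `Rt/PwDefs.lean`) needs the old root rows of the input arrow in the PATCH SET `d.In`: the first cut `S₀` must be an ARBITRARY measurable subset of the root box, and the relation must remember it.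
The core of the chains is now `Rt/XnContract.lean` (helper68): `rt_xn_out` starts from the lattice view of the pre-cut state on `rtXnZ0 k`, `rt_xn_in` ends at depth `2`, index `1`.   So `so2` exports the EXACT relation of the symmetry + the region, `tl2` starts at depth `2`.
`rt_xo_tail`, `rt_xo_so` (v1, `Rt/XoStepContract.lean`) are superseded; their proofs adapt line by line.
-/

set_option autoImplicit false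

namespace Claimed.Agent.R256

open MeasureTheory
open scoped ENNReal

/-- LEAF `L-256-RT-XO-TL2`.  **end of the input chain** (v2: `S₀` ANY measurable subset of a box; the relation remembers `S₀`; no change of cut: the chain arrives at depth `2`, index `1`; ADAPT the proof of `rt_xo_tail`): `rt_xk_cut` (`k = 2`, `j = 1`; `volume S₀ ≠ ⊤` by `rt_xg_s3_fin`), `rt_xg_step_id`; the exact symmetry `hxs`, `rt_xg_xs_end`.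
Tolerance `8 (Λ^m Λ)² ≤ Λ^(4m+5)`. -/
theorem rt_xo_tl2 (bm N : ℕ) : ∃ C : ℝ, 1000 ≤ C ∧ ∀ (ζ : Measure RtZ) (D : RtZ → ℝ≥0∞) (τ : ℕ → ℝ) (Z0 : Set RtZ) (Ψ : RtCh) (p p1 : RdWvPar) (k0 i0 b0 b' m : ℕ)
    (r : ℝ) (c : RtRow) (e : ℝ × ℝ) (Λ α β υ t₁ t₂ αS βS υS a X : ℝ) (S₀ : Set RdWvPar.Ph) (u v : RtKc), b0 ≤ bm → b' ≤ bm → C ≤ Λ → 0 < r → rtSq e = 1 →
    p1.H = p.H / (4 * rdLen k0 * r ^ 2) → MeasurableSet S₀ → S₀ ⊆ rtS3 0 αS βS υS → 0 ≤ a → 0 ≤ X → Λ ^ (-(N : ℝ)) * ‖u‖ ^ 2 ≤ X →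
    RtXf (rtVm p1 2) (rtVd p1 2 b0 u) (rtVmP p k0 {i0}) (rtVdP p k0 b0 v) (fun z' z => RtXsR (rtChS (tmL k0 i0) (4 * rdLen k0) r c e) k0 i0 1 z z')
      {z' | ∃ j ∈ ({i0} : Set ℕ), z'.1 + i0 = j + 1} 1 0 →
    RtXf ζ D (rtVm p1 2) (rtVd p1 2 b' (rtCut p1 (rtTm 2 1) 2 b0 S₀ u)) (fun z z' => RtRl τ Ψ p1.H 2 (Λ ^ m) α β υ t₁ t₂ z z' ∧ z'.1 = 1) Z0
      (ENNReal.ofReal a) (ENNReal.ofReal (a * X)) →
    RtXf ζ D (rtVmP p k0 {i0}) (rtVdP p k0 b0 v)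
      (fun z z'' => z''.1 = i0 ∧ rtZm (rtChS (tmL k0 i0) (4 * rdLen k0) r c e) (tmL k0 i0) z''.2 ∈ S₀ ∧
        RtAsR ((rtChSi (tmL k0 i0) (4 * rdLen k0) r c e).comp Ψ) p.H k0 (Λ ^ (4 * m + 5)) (τ z.1) z.2 (tmL k0 z''.1) z''.2) Z0
      (ENNReal.ofReal (a * (2 * C))) (ENNReal.ofReal (a * (2 * C) * X)) := by
  obtain ⟨C₁, hC₁, hcut⟩ := rt_xk_cut bm N
  refine ⟨1000 + C₁, by linarith, ?_⟩
  intro ζ D τ Z0 Ψ p p1 k0 i0 b0 b' m r c e Λ α β υ t₁ t₂ αS βS υS a X S₀ u v hb0 hb' hΛ hr he hH1 hSm hSsub ha hX hu hxs h₁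
  obtain ⟨C, hC⟩ : ∃ C : ℝ, C = 1000 + C₁ := ⟨_, rfl⟩
  rw [← hC] at hΛ ⊢
  have hΛ1000 : 1000 ≤ Λ := by linarith
  have hΛ1 : 1 ≤ Λ := by linarith
  have hH := p1.H_pos
  have hSf : volume S₀ ≠ ⊤ := ((measure_mono hSsub).trans_lt (lt_top_iff_ne_top.2 (rt_xg_s3_fin _ _ _ _))).ne
  have h₃ := hcut p1 2 1 b0 b' Λ S₀ u hb0 hb' (by linarith) (by norm_num) hSm hSf
  have hNu : 0 ≤ Λ ^ (-(N : ℝ)) * ‖u‖ ^ 2 := by positivity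
  have e3 : 0 ≤ C₁ * Λ ^ (-(N : ℝ)) * ‖u‖ ^ 2 := by rw [mul_assoc]; exact mul_nonneg (by linarith) hNu
  have g₂ := rt_xo_cb_comp ha (mul_nonneg ha hX) e3 h₁ h₃ (fun z _ z' hr => hr.2)
  have hxs' : RtXf (rtVm p1 2) (rtVd p1 2 b0 u) (rtVmP p k0 {i0}) (rtVdP p k0 b0 v) (fun z' z => RtXsR (rtChS (tmL k0 i0) (4 * rdLen k0) r c e) k0 i0 1 z z')
      {z' | ∃ j ∈ ({i0} : Set ℕ), z'.1 + i0 = j + 1} (ENNReal.ofReal 1) (ENNReal.ofReal 0) := by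
    rw [ENNReal.ofReal_one, ENNReal.ofReal_zero]
    exact hxs
  have g₃ := rt_xo_cb_comp (mul_nonneg ha (by linarith)) (add_nonneg (mul_nonneg ha hX) (mul_nonneg ha e3)) le_rfl g₂ hxs' (fun z _ z' hr => by
    obtain ⟨_, _, h, _⟩ := hr
    exact ⟨i0, rfl, by rw [h]; ring⟩)
  refine rt_xa_mono g₃ ?_ subset_rfl (ENNReal.ofReal_le_ofReal ?_) (ENNReal.ofReal_le_ofReal ?_)
  · rintro z - z'' ⟨z₃, ⟨z₂, ⟨⟨hag, -⟩, -⟩, hz₃, hzS, has⟩, hx⟩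
    have hm1 : 1 ≤ Λ ^ m := one_le_pow₀ hΛ1
    have s2 := rt_xg_step_id hH hm1 hΛ1 hag has
    rw [hH1] at s2
    have hl : 0 < 4 * rdLen k0 := by have := rdLen_pos k0; positivity
    have hlen : rdLen k0 = 4 * rdLen k0 * rdLen 2 := by
      have : rdLen 2 = 1 / 4 := by unfold rdLen; norm_num
      rw [this]; ring
    have hclk : (tmL k0 i0 / (4 * rdLen k0) - 1 / 4) * 2 ^ 2 = (i0 : ℝ) - (1 : ℕ) := by
      have e1 : tmL k0 i0 = i0 * rdLen k0 := by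
        unfold tmL rdLen
        rw [inv_pow, div_eq_mul_inv]
      have := (rdLen_pos k0).ne'
      rw [e1]
      field_simp
      push_cast
      ring
    have s3 := rt_xg_xs_end (tmL k0 i0) (4 * rdLen k0) r c e hl hr he k0 2 i0 1 hlen hclk p.H_pos (by positivity) s2 hx
    have hi : z''.1 = i0 := by
      have := hx.1
      omega
    refine ⟨hi, ?_, rt_xo_tl_as_mono p.H_pos (by positivity) ?_ s3⟩
    · have := hx.2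
      rw [hi] at this
      rw [← this]
      exact hzS
    · calc 8 * (Λ ^ m * Λ) ^ 2 = 8 * Λ ^ (2 * m + 2) := by ring
        _ ≤ Λ * Λ ^ (2 * m + 2) := mul_le_mul_of_nonneg_right (by linarith) (by positivity)
        _ = Λ ^ (2 * m + 3) := by ring
        _ ≤ Λ ^ (4 * m + 5) := rt_xo_cb_pow hΛ1 (by omega)
  · rw [mul_one]
    exact mul_le_mul_of_nonneg_left (by linarith) ha
  · have f3 : C₁ * Λ ^ (-(N : ℝ)) * ‖u‖ ^ 2 ≤ C₁ * X := by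
      rw [mul_assoc]; exact mul_le_mul_of_nonneg_left hu (by linarith)
    have g3 : a * (C₁ * Λ ^ (-(N : ℝ)) * ‖u‖ ^ 2) ≤ a * (C₁ * X) := mul_le_mul_of_nonneg_left f3 ha
    have haX : 0 ≤ a * X := mul_nonneg ha hX
    have e : a * (2 * C) * X = (a * X) * (2 * C) := by ring
    have e' : a * X + a * (C₁ * X) = (a * X) * (1 + C₁) := by ring
    have : (a * X) * (1 + C₁) ≤ (a * X) * (2 * C) := mul_le_mul_of_nonneg_left (by linarith) haX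
    rw [e, mul_zero, add_zero]
    linarith

theorem rt_xo_so2_far (bm N : ℕ) : ∃ C : ℝ, 0 ≤ C ∧ ∀ (p1 : RdWvPar) (n b0 bT : ℕ) (Λ αS βS υS : ℝ) (S₀ : Set RdWvPar.Ph) (u : RtKc), b0 ≤ bm → bT ≤ bm → 1000 ≤ Λ →
    Λ ^ 2 * rdD p1.H (n + 2) ≤ 1 → 0 ≤ αS → αS ≤ 9 / 100 → 0 ≤ βS → MeasurableSet S₀ → S₀ ⊆ rtS3 0 αS βS υS →
    ∫⁻ z in {z : RtZ | z.1 < 2 ^ (n + 2) ∧ 0 ≤ rtTm (n + 2) z.1 ∧ rtTm (n + 2) z.1 ≤ 1 / 4} \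
        rtRg (n + 2) (αS + 1 / 1000) (βS + 3 / 1000) (υS + 2 / 1000) 0 (1 / 4),
      rtVd p1 (n + 2) bT (rtCut p1 (rtTm 2 1) 2 b0 S₀ u) z ∂(rtVm p1 (n + 2))
      ≤ ENNReal.ofReal (C * Λ ^ (-(N : ℝ)) * 2 ^ (2 * (n + 2)) * ‖u‖ ^ 2) := by
  obtain ⟨C, hC, h⟩ := rt_xk_far bm N
  refine ⟨C, hC, ?_⟩
  intro p1 n b0 bT Λ αS βS υS S₀ u hb0 hbT hΛ hd hα0 hα hβ hSm hSs
  have hΛ0 : 0 < Λ := by linarith
  have hd0 : 0 ≤ rdD p1.H (n + 2) := Real.sqrt_nonneg _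
  have hd' : Λ * rdD p1.H (n + 2) ≤ 1 / 1000 := by
    have h1 : Λ * (Λ * rdD p1.H (n + 2)) ≤ 1 := by
      calc Λ * (Λ * rdD p1.H (n + 2)) = Λ ^ 2 * rdD p1.H (n + 2) := by ring
        _ ≤ 1 := hd
    have h2 : 0 ≤ Λ * rdD p1.H (n + 2) := by positivity
    nlinarith
  have h1 := h p1 2 1 (n + 2) b0 bT Λ S₀
    ({z : RtZ | z.1 < 2 ^ (n + 2) ∧ 0 ≤ rtTm (n + 2) z.1 ∧ rtTm (n + 2) z.1 ≤ 1 / 4} \
        rtRg (n + 2) (αS + 1 / 1000) (βS + 3 / 1000) (υS + 2 / 1000) 0 (1 / 4))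
    (p1.an (rtTm 2 1) 2 b0 u) hb0 hbT (by linarith) hSm ((rt_xo_so_win_meas n).diff (rt_xg_rg_meas _ _ _ _ _ _)) ?_ ?_
  · refine le_trans h1 (ENNReal.ofReal_le_ofReal ?_)
    have h3 : ‖p1.an (rtTm 2 1) 2 b0 u‖ ≤ ‖u‖ := rt_w1c_an_le p1 _ 2 b0 u
    gcongr
  · rintro z ⟨⟨-, hz1, hz2⟩, -⟩
    rw [rt_xo_so_t21]
    refine ⟨by omega, hz1, ?_⟩
    norm_num
    linarith
  · rintro z ⟨⟨hz0, hz1, hz2⟩, hz3⟩ x hx
    rw [rt_xo_so_t21]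
    have hz4 : rtZr (n + 2) z ∉ rtB3 (αS + 1 / 1000) (βS + 3 * (1 / 1000)) (υS + 2 * (1 / 1000)) := by
      intro hb
      apply hz3
      refine ⟨hz0, ?_, hz1, hz2⟩
      have e1 : βS + 3 / 1000 = βS + 3 * (1 / 1000) := by ring
      have e2 : υS + 2 / 1000 = υS + 2 * (1 / 1000) := by ring
      rw [e1, e2]
      exact hb
    exact rt_xg_far' (k := n + 2) (k₀ := 2) (η := 1 / 1000) p1.H_pos (by omega) hα0 (by linarith) hβ (by norm_num) (by linarith) hd'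
      (abs_le.2 ⟨by linarith, by linarith⟩) (hSs hx) hz4

/-- LEAF `L-256-RT-XO-SO2`.  **start of the output chain** (v2: `S₀` ANY measurable subset of a box; the EXACT relation is exported): the exact symmetry `hxs`; `D_u ≤ 2 D_{w₀} + 2 D_{u - w₀}`, `∫ D_{u - w₀} ≤ 2^K ‖u - w₀‖² ≤ 2^K ε₀` (`rt_xk_total`, `rt_xk_cut_err`);
restriction to `rtRg K (αS+η) (βS+3η) (υS+2η) 0 (1/4)` (`rt_xa_restr`; the rest is negligible: `rt_xk_far`, `rt_xg_far'`; the times lie in `[0, 1/4)` by the relation of `hxs` and `z.1 ∈ I`). -/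
theorem rt_xo_so2 (bm N : ℕ) : ∃ C : ℝ, 1000 ≤ C ∧ ∀ (p p1 : RdWvPar) (k0 i0 n b0 bT : ℕ) (r : ℝ) (c : RtRow) (e : ℝ × ℝ) (Λ αS βS υS ε₀ X : ℝ) (S₀ : Set RdWvPar.Ph) (u v : RtKc),
    b0 ≤ bm → bT ≤ bm → C ≤ Λ → 0 < r → rtSq e = 1 → Λ ^ 2 * rdD p1.H (n + 2) ≤ 1 → 0 ≤ αS → αS ≤ 9 / 100 → 0 ≤ βS → p1.Spec b0 u →
    MeasurableSet S₀ → S₀ ⊆ rtS3 0 αS βS υS →
    (p1.sys 0).ms (rtTm 2 1) 2 b0 S₀ᶜ u ≤ ε₀ → 2 ^ (2 * (n + 2)) * (ε₀ + Λ ^ (-(N : ℝ)) * ‖u‖ ^ 2) ≤ X →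
    RtXf (rtVmP p (k0 + n) {j | i0 * 2 ^ n ≤ j ∧ j < (i0 + 1) * 2 ^ n}) (rtVdP p (k0 + n) bT v) (rtVm p1 (n + 2)) (rtVd p1 (n + 2) bT u)
      (RtXsR (rtChS (tmL k0 i0) (4 * rdLen k0) r c e) (k0 + n) (i0 * 2 ^ n) (2 ^ n)) Set.univ 1 0 →
    RtXf (rtVmP p (k0 + n) {j | i0 * 2 ^ n ≤ j ∧ j < (i0 + 1) * 2 ^ n}) (rtVdP p (k0 + n) bT v) (rtVm p1 (n + 2))
      (rtVd p1 (n + 2) bT (rtCut p1 (rtTm 2 1) 2 b0 S₀ u))
      (fun z z' => RtXsR (rtChS (tmL k0 i0) (4 * rdLen k0) r c e) (k0 + n) (i0 * 2 ^ n) (2 ^ n) z z' ∧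
        z' ∈ rtRg (n + 2) (αS + 1 / 1000) (βS + 3 / 1000) (υS + 2 / 1000) 0 (1 / 4))
      {z | i0 * 2 ^ n ≤ z.1 ∧ z.1 < (i0 + 1) * 2 ^ n} (ENNReal.ofReal C) (ENNReal.ofReal (C * X)) := by
  obtain ⟨Cf, hCf, hfar⟩ := rt_xo_so2_far bm N
  refine ⟨1000 + 2 * Cf, by linarith, ?_⟩
  intro p p1 k0 i0 n b0 bT r c e Λ αS βS υS ε₀ X S₀ u v hb0 hbT hΛ hr he hd hα0 hα hβ hu hSm hSs hms hX hxs
  have hΛ3 : 1000 ≤ Λ := by linarith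
  have hΛ0 : 0 < Λ := by linarith
  obtain ⟨w0, hw0⟩ : ∃ w0, w0 = rtCut p1 (rtTm 2 1) 2 b0 S₀ u := ⟨_, rfl⟩
  have hfar' := hfar p1 n b0 bT Λ αS βS υS S₀ u hb0 hbT hΛ3 hd hα0 hα hβ hSm hSs
  have herr : ‖u - w0‖ ^ 2 ≤ ε₀ := by
    rw [hw0]
    exact (rt_xk_cut_err p1 _ 2 b0 _ hSm u hu).trans hms
  have hε0 : 0 ≤ ε₀ := le_trans (by positivity) herr
  rw [← hw0] at hfar' ⊢
  have s1 := rt_xa_mono hxs (R' := RtXsR (rtChS (tmL k0 i0) (4 * rdLen k0) r c e) (k0 + n) (i0 * 2 ^ n) (2 ^ n))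
    (Z1 := {z | i0 * 2 ^ n ≤ z.1 ∧ z.1 < (i0 + 1) * 2 ^ n}) (fun _ _ _ h => h) (Set.subset_univ _) le_rfl le_rfl
  have s2 : RtXf (rtVm p1 (n + 2)) (rtVd p1 (n + 2) bT u) (rtVm p1 (n + 2)) (rtVd p1 (n + 2) bT w0) (fun z z' => z' = z)
      {z : RtZ | z.1 < 2 ^ (n + 2) ∧ 0 ≤ rtTm (n + 2) z.1 ∧ rtTm (n + 2) z.1 ≤ 1 / 4} 2 (ENNReal.ofReal (2 * (2 ^ (n + 2) * ε₀))) := by
    refine rt_xa_dom (E := fun z => 2 * rtVd p1 (n + 2) bT (u - w0) z) (rt_xk_meas _ _ _ _) ((rt_xk_meas _ _ _ _).const_mul 2) ?_ ?_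
    · filter_upwards [rt_xk_add p1 (n + 2) bT u w0] with z hz _
      exact hz
    · rw [lintegral_const_mul _ (rt_xk_vd_meas _ _ _ _)]
      calc 2 * ∫⁻ z, rtVd p1 (n + 2) bT (u - w0) z ∂(rtVm p1 (n + 2)) ≤ 2 * ENNReal.ofReal (2 ^ (n + 2) * ‖u - w0‖ ^ 2) := by
            gcongr
            exact rt_xk_total _ _ _ _
        _ = ENNReal.ofReal (2 * (2 ^ (n + 2) * ‖u - w0‖ ^ 2)) := by
            rw [ENNReal.ofReal_mul (by norm_num : (0 : ℝ) ≤ 2)]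
            norm_num
        _ ≤ _ := ENNReal.ofReal_le_ofReal (by gcongr)
  have s3 := rt_xa_restr (ζ := rtVm p1 (n + 2)) (D := rtVd p1 (n + 2) bT w0)
    (Z0 := {z : RtZ | z.1 < 2 ^ (n + 2) ∧ 0 ≤ rtTm (n + 2) z.1 ∧ rtTm (n + 2) z.1 ≤ 1 / 4})
    (rt_xg_rg_meas (n + 2) (αS + 1 / 1000) (βS + 3 / 1000) (υS + 2 / 1000) 0 (1 / 4)) (rt_xk_meas _ _ _ _) _ subset_rfl hfar'
  have s23 := rt_xa_comp s2 s3 (fun z hz z' h => h ▸ hz)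
  have s123 := rt_xa_comp s1 s23 (fun z hz z' h => rt_xo_so_win hz.1 hz.2 h.1)
  refine rt_xa_mono s123 ?_ subset_rfl ?_ ?_
  · rintro z - z' ⟨z1, h1, z2, h2, h3, h4⟩
    subst h2
    subst h3
    exact ⟨h1, h4⟩
  · rw [one_mul, mul_one]
    have : (2 : ℝ≥0∞) = ENNReal.ofReal 2 := by norm_num
    rw [this]
    exact ENNReal.ofReal_le_ofReal (by linarith)
  · rw [zero_add, one_mul]
    have e2 : ∀ x : ℝ, (2 : ℝ≥0∞) * ENNReal.ofReal x = ENNReal.ofReal (2 * x) := fun x => by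
      rw [ENNReal.ofReal_mul (by norm_num : (0 : ℝ) ≤ 2)]
      norm_num
    have hN : 0 ≤ Λ ^ (-(N : ℝ)) := by positivity
    rw [e2, ← ENNReal.ofReal_add (by positivity) (by positivity)]
    refine ENNReal.ofReal_le_ofReal ?_
    have hp : (2 : ℝ) ^ (n + 2) ≤ 2 ^ (2 * (n + 2)) := pow_le_pow_right₀ (by norm_num) (by omega)
    have hq : (0 : ℝ) ≤ 2 ^ (2 * (n + 2)) := by positivity
    have hU : 0 ≤ Λ ^ (-(N : ℝ)) * ‖u‖ ^ 2 := by positivity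
    calc 2 * (2 ^ (n + 2) * ε₀) + 2 * (Cf * Λ ^ (-(N : ℝ)) * 2 ^ (2 * (n + 2)) * ‖u‖ ^ 2)
        ≤ 2 * (2 ^ (2 * (n + 2)) * ε₀) + 2 * (Cf * Λ ^ (-(N : ℝ)) * 2 ^ (2 * (n + 2)) * ‖u‖ ^ 2) := by gcongr
      _ = 2 * (2 ^ (2 * (n + 2)) * ε₀) + 2 * Cf * (2 ^ (2 * (n + 2)) * (Λ ^ (-(N : ℝ)) * ‖u‖ ^ 2)) := by ring
      _ ≤ (1000 + 2 * Cf) * (2 ^ (2 * (n + 2)) * ε₀) + (1000 + 2 * Cf) * (2 ^ (2 * (n + 2)) * (Λ ^ (-(N : ℝ)) * ‖u‖ ^ 2)) := by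
          gcongr <;> linarith
      _ = (1000 + 2 * Cf) * (2 ^ (2 * (n + 2)) * (ε₀ + Λ ^ (-(N : ℝ)) * ‖u‖ ^ 2)) := by ring
      _ ≤ (1000 + 2 * Cf) * X := by gcongr

end Claimed.Agent.R256
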