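import Claimed.Agent.R256.Rt.XgContract
import Claimed.Agent.R256.Rt.XdContract
import Claimed.Agent.R256.Rt.XlContract
import Claimed.Agent.R256.Rt.XkContract

/-!
# Row 256, folder Rt, block I1, unit XO (assembly), file 1/2 : THE STEPS OF A CHAIN OF TRANSFERS      (architect helper76; prefix `rt_xo_`)      CONTRACT FILE: every `sorry` is a leaf `L-256-RT-XO-*`; prove IN PLACE, statements verbatim

A CHAIN is a transfer `RtXf ζ D (rtVm p k) (rtVd p k b w) (RtRl τ Ψ p.H k (Λ^m) α β υ t₁ t₂) Z0 (ofReal a) (ofReal (a X))` from a FIXED source view `(ζ, D)` (time of the source point `z`: `τ z.1`) to the lattice view of the CURRENT state `w`;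
`Ψ` = the chart from the source coordinates to the current coordinates, `RtRl` = `RtAg` (association + exact image in the box `(α, β, υ)`, exact image time in `[t₁, t₂]`) + `z'.1 < 2^k`.
Each step lemma prolongs a chain by ONE arrow:   `rt_xa_comp` (calculus) + region of the arrow (`rt_xg_tgt`, `rt_xg_tm_db`, `rt_xg_tm_ln`) + `rt_xa_mono` with the STEP lemma of `Rt/XgContract.lean` + `rt_xg_mono` + arithmetic of the constants: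
   tolerance `Λ^m ↦ Λ^(4m+5)` (`C_g (Λ^m Λ)⁴ ≤ Λ^(4m+5)` as `C_g ≤ Λ`),   `a ↦ a · 2C`   (`A = a C`, `ε = a X + a C e`, `e ≤ X`, `1 ≤ C`),   margins `η = 1/1000` (`Λ^m d ≤ Λ^(4m+5) d / Λ ≤ 1/1000`).
`C` of each lemma = max of `1000` and of the constants of the exits used.      Each proof: 60-200 l., NO analysis.
* `rt_xo_null`, `rt_xo_null_src`, `rt_xo_vm_null`      (N)  null sets.
* `rt_xo_db`   (DB)   current state `rtXdOp γ w ↦ w`, chart `DB_{-γ}`.      FORWARD use: `w := T_γ w₀`, `γ := -γ`, `rt_xd_op_inv`.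
* `rt_xo_ln`   (LN)   current state `rtXlOp c w ↦ w`, chart `LENS_{-c}`.
* `rt_xo_cf`   (CF)   terminal views: `w ↦ rtCut .. S w`, relation unchanged (`rt_xa_dom`, `rt_xk_add`, `rt_xk_cut_compl`, `rt_xk_far`, `rt_xg_far`).
* `rt_xo_cb`   (CB)   root view (depth `0`): `rtCut .. S v ↦ v` (`rt_xk_cut`, `rt_xg_step_id`, `rt_xg_reset`).
* `rt_xo_si`   (SI)   start of the input chain.      `rt_xo_tail` (TL) end of the input chain: change of cut, first cut, exact symmetry.      `rt_xo_so` (SO) start of the output chain.      `rt_xo_root` (RT) root concentration in the normalised picture.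
-/

set_option autoImplicit false

namespace Claimed.Agent.R256

open MeasureTheory
open scoped ENNReal

/-- the relation carried along a chain -/
def RtRl (τ : ℕ → ℝ) (Ψ : RtCh) (H : ℝ) (k' : ℕ) (Λ α β υ t₁ t₂ : ℝ) (z z' : RtZ) : Prop :=
  RtAg Ψ H k' Λ α β υ t₁ t₂ (τ z.1) z.2 z' ∧ z'.1 < 2 ^ k'

theorem rt_xo_step_eqns_cite : True := by
  have := @RtRl.eq_1
  trivial

section

variable {Z Z' : Type} [MeasurableSpace Z] [MeasurableSpace Z']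

/-- LEAF `L-256-RT-XO-N`.   (`θ' ↦ θ' 1_N`) -/
theorem rt_xo_null {ζ : Measure Z} {D : Z → ℝ≥0∞} {ζ' : Measure Z'} {D' : Z' → ℝ≥0∞} {R : Z → Z' → Prop} {Z0 : Set Z} {A ε : ℝ≥0∞}
    (h : RtXf ζ D ζ' D' R Z0 A ε) {N : Set Z'} (hN : MeasurableSet N) (h0 : ζ' Nᶜ = 0) : RtXf ζ D ζ' D' (fun z z' => R z z' ∧ z' ∈ N) Z0 A ε := by
  intro L θ hθ hc
  obtain ⟨θ', e, a1, a2, a3, a4⟩ := h L θ hθ hc
  refine ⟨fun l => N.indicator (θ' l), e, ⟨fun l => (a1.meas l).indicator hN, fun z => ?_⟩, fun l z' hz' => ?_, fun l => ?_, a4⟩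
  · exact le_trans (Finset.sum_le_sum fun l _ => Set.indicator_le_self _ _ _) (a1.sum_le z)
  · have hm : z' ∈ N := by
      by_contra hn
      exact hz' (Set.indicator_of_notMem hn _)
    have hz2 : θ' l z' ≠ 0 := by
      intro h0
      exact hz' (by simp [Set.indicator_of_mem hm, h0])
    obtain ⟨z, hz, hr⟩ := a2 l z' hz2
    exact ⟨z, hz, hr, hm⟩
  · refine (a3 l).trans (le_of_eq ?_)
    congr 2
    refine lintegral_congr_ae ?_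
    have hae : ∀ᵐ z' ∂ζ', z' ∈ N := by
      rw [ae_iff]
      exact h0
    filter_upwards [hae] with z' hz'
    rw [Set.indicator_of_mem hz']

/-- LEAF `L-256-RT-XO-N`.   (`θ ↦ θ 1_{Z0}`) -/
theorem rt_xo_null_src {ζ : Measure Z} {D : Z → ℝ≥0∞} {ζ' : Measure Z'} {D' : Z' → ℝ≥0∞} {R : Z → Z' → Prop} {Z0 Z1 : Set Z} {A ε : ℝ≥0∞}
    (h : RtXf ζ D ζ' D' R Z0 A ε) (hZ0 : MeasurableSet Z0) (h0 : ζ (Z1 \ Z0) = 0) : RtXf ζ D ζ' D' R Z1 A ε := by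
  intro L θ hθ hc
  have hmem : ∀ l z, Z0.indicator (θ l) z ≠ 0 → z ∈ Z0 ∧ θ l z ≠ 0 := by
    intro l z hz
    have hm : z ∈ Z0 := by
      by_contra hn
      exact hz (Set.indicator_of_notMem hn _)
    refine ⟨hm, fun h0 => hz ?_⟩
    simp [Set.indicator_of_mem hm, h0]
  obtain ⟨θ', e, a1, a2, a3, a4⟩ := h L (fun l => Z0.indicator (θ l))
    ⟨fun l => (hθ.meas l).indicator hZ0, fun z => le_trans (Finset.sum_le_sum fun l _ => Set.indicator_le_self _ _ _) (hθ.sum_le z)⟩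
    (fun l z hz => (hmem l z hz).1)
  refine ⟨θ', e, a1, fun l z' hz' => ?_, fun l => ?_, a4⟩
  · obtain ⟨z, hz, hr⟩ := a2 l z' hz'
    exact ⟨z, (hmem l z hz).2, hr⟩
  · refine le_trans (le_of_eq ?_) (a3 l)
    refine lintegral_congr_ae ?_
    have hae : ∀ᵐ z ∂ζ, ¬ z ∈ Z1 \ Z0 := by
      rw [ae_iff]
      have e1 : {a | ¬ ¬ a ∈ Z1 \ Z0} = Z1 \ Z0 := by
        ext a
        simp
      rw [e1]
      exact h0
    filter_upwards [hae] with z hz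
    by_cases hm : z ∈ Z0
    · rw [Set.indicator_of_mem hm]
    · rw [Set.indicator_of_notMem hm]
      have : θ l z = 0 := by
        by_contra hn
        exact hz ⟨hc l z hn, hm⟩
      rw [this]

end

/-- LEAF `L-256-RT-XO-N` -/
theorem rt_xo_vm_null (p : RdWvPar) (k : ℕ) : MeasurableSet {z : RtZ | z.1 < 2 ^ k} ∧ rtVm p k {z : RtZ | z.1 < 2 ^ k}ᶜ = 0 := by
  have := rt_k_rw_sf p k
  constructor
  · exact measurable_fst (measurableSet_Iio (a := 2 ^ k))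
  · have e0 : {z : RtZ | z.1 < 2 ^ k}ᶜ = (Set.Ici (2 ^ k)) ×ˢ (Set.univ : Set RdWvPar.Ph) := by
      ext ⟨j, x⟩
      simp
    rw [e0]
    unfold rtVm
    have e : Set.Ici (2 ^ k) ∩ Set.Iio (2 ^ k) = (∅ : Set ℕ) := by
      ext j
      simp
    rw [Measure.prod_prod, Measure.restrict_apply measurableSet_Ici, e, measure_empty, zero_mul]

/-- the numbers common to the steps of a chain -/
theorem rt_xo_num {Λ d : ℝ} (m : ℕ) (hΛ : 1000 ≤ Λ) (hd0 : 0 ≤ d) (hd : Λ ^ (4 * m + 5) * d ≤ 1) :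
    1 ≤ Λ ^ m ∧ Λ ^ m * d ≤ 1 / 1000 ∧ d ≤ 1 / 1000 ∧ ∀ Cg : ℝ, 0 ≤ Cg → Cg ≤ Λ → Cg * (Λ ^ m * Λ) ^ 4 ≤ Λ ^ (4 * m + 5) := by
  have hΛ1 : 1 ≤ Λ := by linarith
  have hΛ0 : 0 < Λ := by linarith
  have hm1 : 1 ≤ Λ ^ m := one_le_pow₀ hΛ1
  have h34 : 1 ≤ Λ ^ (3 * m + 4) := one_le_pow₀ hΛ1
  have hpw : Λ ^ (4 * m + 5) = Λ ^ m * Λ * Λ ^ (3 * m + 4) := by ring
  have hmd : Λ ^ m * d ≤ 1 / 1000 := by
    have h1 : Λ ^ m * Λ * d ≤ 1 := by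
      refine le_trans ?_ hd
      rw [hpw]
      exact mul_le_mul_of_nonneg_right (le_mul_of_one_le_right (by positivity) h34) hd0
    have h2 : 0 ≤ Λ ^ m * d := by positivity
    nlinarith
  refine ⟨hm1, hmd, ?_, ?_⟩
  · have : d ≤ Λ ^ m * d := le_mul_of_one_le_left hd0 hm1
    linarith
  · intro Cg _ hCg
    have e : Λ ^ (4 * m + 5) = Λ * (Λ ^ m * Λ) ^ 4 := by ring
    rw [e]
    exact mul_le_mul_of_nonneg_right hCg (by positivity)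

/-- the constants of a prolonged chain -/
theorem rt_xo_cst {a X Ca C e : ℝ} (ha : 0 ≤ a) (hX : 0 ≤ X) (hCa0 : 0 ≤ Ca) (hCa : Ca ≤ C) (hC : 1 ≤ C) (he : e ≤ X) :
    ENNReal.ofReal a * ENNReal.ofReal Ca ≤ ENNReal.ofReal (a * (2 * C)) ∧
      ENNReal.ofReal (a * X) + ENNReal.ofReal a * ENNReal.ofReal (Ca * e) ≤ ENNReal.ofReal (a * (2 * C) * X) := by
  constructor
  · rw [← ENNReal.ofReal_mul ha]
    apply ENNReal.ofReal_le_ofReal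
    exact mul_le_mul_of_nonneg_left (by linarith) ha
  · rw [← ENNReal.ofReal_mul ha]
    refine le_trans (add_le_add le_rfl (ENNReal.ofReal_le_ofReal (q := a * (C * X)) ?_)) ?_
    · refine mul_le_mul_of_nonneg_left ?_ ha
      calc Ca * e ≤ Ca * X := mul_le_mul_of_nonneg_left he hCa0
        _ ≤ C * X := mul_le_mul_of_nonneg_right hCa hX
    · rw [← ENNReal.ofReal_add (by positivity) (by positivity)]
      apply ENNReal.ofReal_le_ofReal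
      have h1 : a * X ≤ a * (C * X) := mul_le_mul_of_nonneg_left (le_mul_of_one_le_left hX hC) ha
      calc a * X + a * (C * X) ≤ a * (C * X) + a * (C * X) := by linarith
        _ = a * (2 * C) * X := by ring

/-- the error of an arrow -/
theorem rt_xo_err {Λ X n : ℝ} (N k : ℕ) (hΛ : 0 < Λ) (hn : 0 ≤ n) (h : Λ ^ (-(N : ℝ)) * 2 ^ (2 * k) * n ≤ X) : Λ ^ (-(N : ℝ)) * 2 ^ k * n ≤ X := by
  refine le_trans ?_ h
  have h1 : (2 : ℝ) ^ k ≤ 2 ^ (2 * k) := pow_le_pow_right₀ (by norm_num) (by omega)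
  have h2 : 0 ≤ Λ ^ (-(N : ℝ)) := (Real.rpow_pos_of_pos hΛ _).le
  exact mul_le_mul_of_nonneg_right (mul_le_mul_of_nonneg_left h1 h2) hn

/-- LEAF `L-256-RT-XO-DB`.  **one dual boost** -/
theorem rt_xo_db (bm N : ℕ) : ∃ C : ℝ, 1000 ≤ C ∧ ∀ (ζ : Measure RtZ) (D : RtZ → ℝ≥0∞) (τ : ℕ → ℝ) (Z0 : Set RtZ) (Ψ : RtCh) (p : RdWvPar) (k b b' m : ℕ)
    (γ Λ α β υ t₁ t₂ a X : ℝ) (w : RtKc), b ≤ bm → b' ≤ bm → |γ| ≤ 1 → C ≤ Λ → Λ ^ (4 * m + 5) * rdD p.H k ≤ 1 → p.Spec b w → RtCone (1 / 10) w →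
    0 ≤ α → α ≤ 9 / 100 → 0 ≤ β → β ≤ 9 / 100 → 0 ≤ υ → υ ≤ 9 / 100 → -1 ≤ t₁ → t₂ ≤ 1 →
    (k = 0 ∨ (Λ ^ m * rdLen k ≤ 1 / 1000 ∧ -(1 / 4) + 1 / 50 ≤ t₁ - (2 * |γ| * (β + α) + γ ^ 2 * (υ + α ^ 2)) ∧
      t₂ + (2 * |γ| * (β + α) + γ ^ 2 * (υ + α ^ 2)) ≤ 3 / 4 - 1 / 50)) →
    0 ≤ a → 0 ≤ X → Λ ^ (-(N : ℝ)) * 2 ^ (2 * k) * ‖w‖ ^ 2 ≤ X →
    RtXf ζ D (rtVm p k) (rtVd p k b' (rtXdOp γ w)) (RtRl τ Ψ p.H k (Λ ^ m) α β υ t₁ t₂) Z0 (ENNReal.ofReal a) (ENNReal.ofReal (a * X)) →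
    RtXf ζ D (rtVm p k) (rtVd p k b w)
      (RtRl τ ((rtChDb (-γ)).comp Ψ) p.H k (Λ ^ (4 * m + 5)) (α + 4 * α ^ 2) (β + |γ| * υ + 2 * α * (2 * β + υ)) (υ + 2 * α ^ 2 * (2 * β + υ))
        (t₁ - (2 * |γ| * (β + α) + γ ^ 2 * (υ + α ^ 2))) (t₂ + (2 * |γ| * (β + α) + γ ^ 2 * (υ + α ^ 2)))) Z0
      (ENNReal.ofReal (a * (2 * C))) (ENNReal.ofReal (a * (2 * C) * X)) := by
  obtain ⟨Ca, hCa, harr⟩ := rt_xd_arrow bm N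
  obtain ⟨Cg, hCg, hstep⟩ := rt_xg_step_db
  refine ⟨1000 + Ca + Cg, by linarith, ?_⟩
  intro ζ D τ Z0 Ψ p k b b' m γ Λ α β υ t₁ t₂ a X w hb hb' hγ hΛ hd hs hcone hα0 hα hβ0 hβ hυ0 hυ ht₁ ht₂ hk ha hX hwX h
  have hH := p.H_pos
  have hΛ1000 : 1000 ≤ Λ := by linarith
  have hΛ1 : 1 ≤ Λ := by linarith
  have hΛ0 : 0 < Λ := by linarith
  obtain ⟨hd0, -, -, -⟩ := rt_xg_ag_units hH k
  obtain ⟨hm1, hmd, hd1000, hpw⟩ := rt_xo_num m hΛ1000 hd0.le hd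
  have hG0 : 0 ≤ |γ| := abs_nonneg γ
  have hS0 : 0 ≤ γ ^ 2 := sq_nonneg γ
  have hS1 : γ ^ 2 ≤ 1 := by
    rw [← sq_abs]
    exact pow_le_one₀ hG0 hγ
  -- the arrow
  have h2 := rt_xo_null (harr p k b b' γ Λ w hb hb' (by linarith) (by linarith) (by linarith) hs hcone) (rt_xo_vm_null p k).1 (rt_xo_vm_null p k).2
  -- the region of the arrow
  have hreg : ∀ z ∈ Z0, ∀ z', RtRl τ Ψ p.H k (Λ ^ m) α β υ t₁ t₂ z z' →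
      z' ∈ {z : RtZ | -(1 / 4) - rdLen k ≤ rtZt (rtChDb (-γ)) k z ∧ rtZt (rtChDb (-γ)) k z ≤ 3 / 4} := by
    intro z _ z' hr
    obtain ⟨hag, hlt⟩ := hr
    obtain ⟨hbox, hlo, hhi⟩ := rt_xg_tgt (η := 1 / 1000) hH hα0 (by linarith) hβ0 (by norm_num) hm1 hmd (by linarith) (by linarith) hag
    obtain ⟨hT1, hT2⟩ := rt_xl_s5_tm k z'.1 hlt
    have htm := rt_xg_tm_db (γ := -γ) (T := rtTm k z'.1) (by rwa [abs_neg]) hbox (by linarith) (by linarith) (abs_le.2 ⟨by linarith, by linarith⟩)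
    rw [abs_neg, neg_sq] at htm
    obtain ⟨htm1, htm2⟩ := abs_le.1 htm
    have hSα : γ ^ 2 * α ≤ α := mul_le_of_le_one_left hα0 hS1
    have hE : 2 * |γ| * (β + 3 * (1 / 1000) + (α + 1 / 1000)) + γ ^ 2 * (υ + 2 * (1 / 1000) + (α + 1 / 1000) ^ 2)
        ≤ 2 * |γ| * (β + α) + γ ^ 2 * (υ + α ^ 2) + 11 / 1000 := by
      have e : 2 * |γ| * (β + 3 * (1 / 1000) + (α + 1 / 1000)) + γ ^ 2 * (υ + 2 * (1 / 1000) + (α + 1 / 1000) ^ 2)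
          = 2 * |γ| * (β + α) + γ ^ 2 * (υ + α ^ 2) + (|γ| * (8 / 1000) + γ ^ 2 * (2 / 1000 + 1 / 1000000) + γ ^ 2 * α * (2 / 1000)) := by ring
      rw [e]
      linarith
    show -(1 / 4) - rdLen k ≤ (rtChDb (-γ)).tm (rtZr k z') (rtTm k z'.1) ∧ (rtChDb (-γ)).tm (rtZr k z') (rtTm k z'.1) ≤ 3 / 4
    rcases hk with hk | ⟨hk1, hk2, hk3⟩
    · subst hk
      have hz0 : z'.1 = 0 := by
        have : z'.1 < 1 := by simpa using hlt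
        omega
      have hl0 : rdLen 0 = 1 := by simp [rdLen]
      have hT0 : rtTm 0 z'.1 = -(1 / 4) := by
        rw [hz0]
        simp [rtTm, tmL]
      have hE2 : 2 * |γ| * (β + α) + γ ^ 2 * (υ + α ^ 2) ≤ 1 / 2 := by
        have a1 : |γ| * (β + α) ≤ β + α := mul_le_of_le_one_left (by linarith) hγ
        have a2 : α ^ 2 ≤ 1 / 100 := by nlinarith
        have a3 : γ ^ 2 * (υ + α ^ 2) ≤ υ + α ^ 2 := mul_le_of_le_one_left (by positivity) hS1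
        linarith
      rw [hl0]
      rw [hT0] at htm1 htm2 ⊢
      constructor <;> linarith
    · have hl := rdLen_pos k
      constructor <;> linarith
  have h3 := rt_xa_comp h h2 hreg
  obtain ⟨c1, c2⟩ := rt_xo_cst (C := 1000 + Ca + Cg) ha hX (by linarith : (0 : ℝ) ≤ Ca) (by linarith) (by linarith)
    (rt_xo_err N k hΛ0 (sq_nonneg ‖w‖) hwX)
  have c2' : ENNReal.ofReal (a * X) + ENNReal.ofReal a * ENNReal.ofReal (Ca * Λ ^ (-(N : ℝ)) * 2 ^ k * ‖w‖ ^ 2) ≤ ENNReal.ofReal (a * (2 * (1000 + Ca + Cg)) * X) := by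
    have e : Ca * Λ ^ (-(N : ℝ)) * 2 ^ k * ‖w‖ ^ 2 = Ca * (Λ ^ (-(N : ℝ)) * 2 ^ k * ‖w‖ ^ 2) := by ring
    rw [e]
    exact c2
  refine rt_xa_mono h3 ?_ subset_rfl c1 c2'
  rintro z _ z'' ⟨z', ⟨hag, hlt⟩, has, hlt''⟩
  refine ⟨?_, hlt''⟩
  have hpw' := hpw Cg (by linarith) (by linarith)
  have h4 := hstep Ψ p.H k (-γ) (Λ ^ m) Λ α β υ t₁ t₂ (τ z.1) z.2 z' z'' hH (by rwa [abs_neg]) hm1 hΛ1
    (le_trans (mul_le_mul_of_nonneg_right hpw' hd0.le) hd) hα0 (by linarith) hβ0 (by linarith) hυ0 (by linarith) ht₁ ht₂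
    (rt_xl_s5_tm k z'.1 hlt).2 hag has
  rw [abs_neg, neg_sq] at h4
  exact rt_xg_mono hH (by positivity) hpw' (by positivity) le_rfl (by positivity) le_rfl le_rfl le_rfl le_rfl h4

theorem rt_xo_ln_cst {a X C Ca e : ℝ} (ha : 0 ≤ a) (hX : 0 ≤ X) (hC : 1 ≤ C) (hCa : Ca ≤ C) (he : e ≤ C * X) :
    ENNReal.ofReal a * ENNReal.ofReal Ca ≤ ENNReal.ofReal (a * (2 * C)) ∧
    ENNReal.ofReal (a * X) + ENNReal.ofReal a * ENNReal.ofReal e ≤ ENNReal.ofReal (a * (2 * C) * X) := by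
  constructor
  · rw [← ENNReal.ofReal_mul ha]
    apply ENNReal.ofReal_le_ofReal
    apply mul_le_mul_of_nonneg_left _ ha
    linarith
  · rw [← ENNReal.ofReal_mul ha]
    have h1 : ENNReal.ofReal (a * e) ≤ ENNReal.ofReal (a * (C * X)) :=
      ENNReal.ofReal_le_ofReal (mul_le_mul_of_nonneg_left he ha)
    refine (add_le_add le_rfl h1).trans ?_
    rw [← ENNReal.ofReal_add (by positivity) (by positivity)]
    apply ENNReal.ofReal_le_ofReal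
    have : 0 ≤ a * X := by positivity
    nlinarith

/-- powers: `Λ^m d ≤ 1/1000` and `Cg (Λ^m Λ)⁴ ≤ Λ^(4m+5)` -/
theorem rt_xo_ln_pw {Λ d Cg : ℝ} (m : ℕ) (hΛ : 1000 ≤ Λ) (hCg : Cg ≤ Λ) (hd0 : 0 ≤ d) (hd : Λ ^ (4 * m + 5) * d ≤ 1) :
    1 ≤ Λ ^ m ∧ Λ ^ m * d ≤ 1 / 1000 ∧ Cg * (Λ ^ m * Λ) ^ 4 ≤ Λ ^ (4 * m + 5) := by
  have h1 : (1 : ℝ) ≤ Λ := by linarith
  have h0 : (0 : ℝ) < Λ := by linarith
  have hm : 1 ≤ Λ ^ m := one_le_pow₀ h1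
  refine ⟨hm, ?_, ?_⟩
  · have e : Λ ^ (4 * m + 5) = Λ ^ m * Λ * Λ ^ (3 * m + 4) := by
      rw [← pow_succ, ← pow_add]
      congr 1
      omega
    have h3 : 1 ≤ Λ ^ (3 * m + 4) := one_le_pow₀ h1
    have h4 : Λ ^ m * d * Λ ≤ 1 := by
      have h5 : 0 ≤ Λ ^ m * d * Λ := by positivity
      calc Λ ^ m * d * Λ ≤ Λ ^ m * d * Λ * Λ ^ (3 * m + 4) := le_mul_of_one_le_right h5 h3
        _ = Λ ^ (4 * m + 5) * d := by rw [e]; ring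
        _ ≤ 1 := hd
    have h6 : 0 ≤ Λ ^ m * d := by positivity
    nlinarith
  · have e : Λ ^ (4 * m + 5) = Λ * (Λ ^ m * Λ) ^ 4 := by
      rw [mul_pow, ← pow_mul]
      ring
    rw [e]
    exact mul_le_mul_of_nonneg_right hCg (by positivity)

/-- the time map of the lens on the region of the arrow -/
theorem rt_xo_ln_tm {c T : ℝ} (hc : |c| ≤ 1) (h1 : -(1 / 5) ≤ T) (h2 : T ≤ 3 / 7) : -(1 / 4) ≤ T / (1 + -c * T) ∧ T / (1 + -c * T) ≤ 3 / 4 := by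
  obtain ⟨c1, c2⟩ := abs_le.1 hc
  have hpos : 0 < 1 + -c * T := by nlinarith
  rw [le_div_iff₀ hpos, div_le_iff₀ hpos]
  constructor <;> nlinarith

/-- LEAF `L-256-RT-XO-LN`.  **one lens**      (region of the arrow: `T' ≥ -1/5 ⟹ T'/(1 - cT') ≥ -1/4`, `T' ≤ 3/7 ⟹ T'/(1 - cT') ≤ 3/4`; depth `0`: `T' = -1/4`, `ℓ = 1`) -/
theorem rt_xo_ln (bm N : ℕ) : ∃ C : ℝ, 1000 ≤ C ∧ ∀ (ζ : Measure RtZ) (D : RtZ → ℝ≥0∞) (τ : ℕ → ℝ) (Z0 : Set RtZ) (Ψ : RtCh) (p : RdWvPar) (k b b' m : ℕ)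
    (c Λ α β υ t₁ t₂ a X : ℝ) (w : RtKc), b ≤ bm → b' ≤ bm → |c| ≤ 1 → C ≤ Λ → Λ ^ (4 * m + 5) * rdD p.H k ≤ 1 → p.Spec b w →
    0 ≤ α → α ≤ 9 / 100 → 0 ≤ β → β ≤ 9 / 100 → 0 ≤ υ → υ ≤ 9 / 100 → -(1 / 2) ≤ t₁ → t₂ ≤ 1 / 2 →
    (k = 0 ∨ (Λ ^ m * rdLen k ≤ 1 / 1000 ∧ -(1 / 5) + 1 / 1000 ≤ t₁ ∧ t₂ ≤ 3 / 7 - 1 / 1000)) →
    0 ≤ a → 0 ≤ X → Λ ^ (-(N : ℝ)) * 2 ^ (2 * k) * ‖w‖ ^ 2 ≤ X →
    RtXf ζ D (rtVm p k) (rtVd p k b' (rtXlOp c w)) (RtRl τ Ψ p.H k (Λ ^ m) α β υ t₁ t₂) Z0 (ENNReal.ofReal a) (ENNReal.ofReal (a * X)) →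
    RtXf ζ D (rtVm p k) (rtVd p k b w)
      (RtRl τ ((rtChLn (-c)).comp Ψ) p.H k (Λ ^ (4 * m + 5)) (α + β) β (υ + β ^ 2) (t₁ / (1 + -c * t₁)) (t₂ / (1 + -c * t₂))) Z0
      (ENNReal.ofReal (a * (2 * C))) (ENNReal.ofReal (a * (2 * C) * X)) := by
  obtain ⟨Ca, hCa1, hA⟩ := rt_xl_arrow bm N
  obtain ⟨Cg, hCg1, hG⟩ := rt_xg_step_ln
  refine ⟨max 1000 (max Ca Cg), le_max_left _ _, ?_⟩
  intro ζ D τ Z0 Ψ p k b b' m c Λ α β υ t₁ t₂ a X w hb hb' hc hCΛ hΛd hsp hα0 hα hβ0 hβ hυ0 hυ ht₁ ht₂ hk ha hX hwX h₁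
  obtain ⟨C, hC⟩ : ∃ C : ℝ, C = max 1000 (max Ca Cg) := ⟨_, rfl⟩
  rw [← hC] at hCΛ ⊢
  have hC1000 : 1000 ≤ C := hC ▸ le_max_left _ _
  have hCCa : Ca ≤ C := hC ▸ (le_max_left _ _).trans (le_max_right _ _)
  have hCCg : Cg ≤ C := hC ▸ (le_max_right _ _).trans (le_max_right _ _)
  have hΛ1000 : 1000 ≤ Λ := hC1000.trans hCΛ
  have hΛ1 : 1 ≤ Λ := by linarith
  have hH := p.H_pos
  obtain ⟨hd0, -, -, -⟩ := rt_xg_ag_units hH k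
  obtain ⟨hm1, hmd, hpw⟩ := rt_xo_ln_pw (Cg := Cg) m hΛ1000 (hCCg.trans hCΛ) hd0.le hΛd
  -- the time of the intermediate point
  have hT : ∀ z z', RtRl τ Ψ p.H k (Λ ^ m) α β υ t₁ t₂ z z' →
      -(1 / 4) - rdLen k ≤ rtTm k z'.1 / (1 + -c * rtTm k z'.1) ∧ rtTm k z'.1 / (1 + -c * rtTm k z'.1) ≤ 3 / 4 ∧ rtTm k z'.1 ≤ 1 / 2 := by
    intro z z' hR
    obtain ⟨hag, hlt⟩ := hR
    have hl := rdLen_pos k
    rcases hk with rfl | ⟨hk1, hk2, hk3⟩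
    · have h0 : z'.1 = 0 := by simpa using hlt
      have e : rtTm 0 z'.1 = -(1 / 4) := by
        rw [h0]
        simp [rtTm, tmL]
      rw [e]
      obtain ⟨c1, c2⟩ := abs_le.1 hc
      have hpos : 0 < 1 + -c * -(1 / 4) := by nlinarith
      have hl0 : rdLen 0 = 1 := by simp [rdLen]
      rw [hl0, le_div_iff₀ hpos, div_le_iff₀ hpos]
      refine ⟨by nlinarith, by nlinarith, by norm_num⟩
    · obtain ⟨-, g1, g2⟩ := rt_xg_tgt (η := 1 / 1000) hH hα0 (by linarith) hβ0 (by norm_num) hm1 hmd (by linarith) (by linarith) hag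
      obtain ⟨q1, q2⟩ := rt_xo_ln_tm (T := rtTm k z'.1) hc (by linarith) (by linarith)
      exact ⟨by linarith, q2, by linarith⟩
  obtain ⟨mN, nN⟩ := rt_xo_vm_null p k
  have h₂ := rt_xo_null (hA p k b b' c Λ w hb hb' hc hΛ1 hsp) mN nN
  have h₃ := rt_xa_comp h₁ h₂ (by
    intro z _ z' hR
    obtain ⟨q1, q2, -⟩ := hT z z' hR
    show -(1 / 4) - rdLen k ≤ rtZt (rtChLn (-c)) k z' ∧ rtZt (rtChLn (-c)) k z' ≤ 3 / 4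
    unfold rtZt
    rw [(rt_xg_tm_ln _ _ _).1]
    exact ⟨q1, q2⟩)
  have hcst := rt_xo_ln_cst (a := a) (X := X) (C := C) (Ca := Ca) (e := Ca * Λ ^ (-(N : ℝ)) * 2 ^ k * ‖w‖ ^ 2) ha hX (by linarith) hCCa (by
    have hp : (0 : ℝ) ≤ Λ ^ (-(N : ℝ)) := by positivity
    have h2k : (2 : ℝ) ^ k ≤ 2 ^ (2 * k) := pow_le_pow_right₀ (by norm_num) (by omega)
    have : Λ ^ (-(N : ℝ)) * 2 ^ k * ‖w‖ ^ 2 ≤ X := by
      refine le_trans ?_ hwX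
      gcongr
    calc Ca * Λ ^ (-(N : ℝ)) * 2 ^ k * ‖w‖ ^ 2 = Ca * (Λ ^ (-(N : ℝ)) * 2 ^ k * ‖w‖ ^ 2) := by ring
      _ ≤ C * X := by
        apply mul_le_mul hCCa this (by positivity) (by linarith))
  refine rt_xa_mono h₃ ?_ subset_rfl hcst.1 hcst.2
  rintro z - z'' ⟨z', hR, has, hlt''⟩
  obtain ⟨-, -, q3⟩ := hT z z' hR
  refine ⟨?_, hlt''⟩
  have := hG Ψ p.H k (-c) (Λ ^ m) Λ α β υ t₁ t₂ (τ z.1) z.2 z' z'' hH (by rwa [abs_neg]) hm1 hΛ1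
    ((mul_le_mul_of_nonneg_right hpw hd0.le).trans hΛd) hα0 (by linarith) hβ0 (by linarith) hυ0 (by linarith) ht₁ ht₂ q3 hR.1 has
  exact rt_xg_mono hH (by positivity) hpw (by positivity) le_rfl hβ0 le_rfl le_rfl le_rfl le_rfl this

/-- powers: `Λ^m d ≤ 1/1000` and `Λ d ≤ 1/1000` -/
theorem rt_xo_cf_pw {Λ d : ℝ} (m : ℕ) (hΛ : 1000 ≤ Λ) (hd0 : 0 ≤ d) (hd : Λ ^ (m + 2) * d ≤ 1) :
    1 ≤ Λ ^ m ∧ Λ ^ m * d ≤ 1 / 1000 ∧ Λ * d ≤ 1 / 1000 := by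
  have h1 : (1 : ℝ) ≤ Λ := by linarith
  have h0 : (0 : ℝ) < Λ := by linarith
  have hm : 1 ≤ Λ ^ m := one_le_pow₀ h1
  have e : Λ ^ (m + 2) * d = Λ ^ m * (Λ * (Λ * d)) := by ring
  rw [e] at hd
  have hΛd : 0 ≤ Λ * d := by positivity
  have h2 : Λ * (Λ * d) ≤ 1 := by
    have : 0 ≤ Λ * (Λ * d) := by positivity
    nlinarith
  refine ⟨hm, ?_, by nlinarith⟩
  have h3 : Λ ^ m * d * Λ ≤ 1 := by
    have h4 : 0 ≤ Λ ^ m * d * Λ := by positivity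
    calc Λ ^ m * d * Λ ≤ Λ ^ m * d * Λ * Λ := le_mul_of_one_le_right h4 h1
      _ = Λ ^ m * (Λ * (Λ * d)) := by ring
      _ ≤ 1 := hd
  have h6 : 0 ≤ Λ ^ m * d := by positivity
  nlinarith

/-- LEAF `L-256-RT-XO-CF`.  **a cut seen from the terminal views**: `Z1 = rtRg k (α+η) (β+3η) (υ+2η) (t₁-η) (t₂+η)`, `D_w ≤ 2 D_{cut} + 2 D_{w - cut}` (`rt_xk_add`), `w - cut = An^* 1_{Sᶜ} An w` (`rt_xk_cut_compl`), negligible on `Z1` (`rt_xk_far`, `rt_xg_far`) -/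
theorem rt_xo_cf (bm N : ℕ) : ∃ C : ℝ, 1000 ≤ C ∧ ∀ (ζ : Measure RtZ) (D : RtZ → ℝ≥0∞) (τ : ℕ → ℝ) (Z0 : Set RtZ) (Ψ : RtCh) (p : RdWvPar) (k b b' m : ℕ)
    (Λ α β υ t₁ t₂ αS βS υS a X : ℝ) (w : RtKc), b ≤ bm → b' ≤ bm → C ≤ Λ → Λ ^ (m + 2) * rdD p.H k ≤ 1 → p.Spec b w →
    0 ≤ α → α ≤ 9 / 100 → 0 ≤ β → α + 2 / 1000 ≤ αS → β + 6 / 1000 ≤ βS → υ + 4 / 1000 ≤ υS →
    Λ ^ m * rdLen k ≤ 1 / 1000 → -(1 / 4) + 1 / 1000 ≤ t₁ → t₂ ≤ 3 / 4 - 1 / 1000 →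
    0 ≤ a → 0 ≤ X → Λ ^ (-(N : ℝ)) * 2 ^ (2 * k) * ‖w‖ ^ 2 ≤ X →
    RtXf ζ D (rtVm p k) (rtVd p k b' w) (RtRl τ Ψ p.H k (Λ ^ m) α β υ t₁ t₂) Z0 (ENNReal.ofReal a) (ENNReal.ofReal (a * X)) →
    RtXf ζ D (rtVm p k) (rtVd p k b' (rtCut p (rtTm 0 0) 0 b (rtS3 (-(1 / 4)) αS βS υS) w)) (RtRl τ Ψ p.H k (Λ ^ m) α β υ t₁ t₂) Z0
      (ENNReal.ofReal (a * (2 * C))) (ENNReal.ofReal (a * (2 * C) * X)) := by
  obtain ⟨Cf, hCf0, hF⟩ := rt_xk_far bm N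
  refine ⟨max 1000 (2 * Cf), le_max_left _ _, ?_⟩
  intro ζ D τ Z0 Ψ p k b b' m Λ α β υ t₁ t₂ αS βS υS a X w hb hb' hCΛ hΛd hsp hα0 hα hβ0 hαS hβS hυS hml ht₁ ht₂ ha hX hwX h₁
  obtain ⟨C, hC⟩ : ∃ C : ℝ, C = max 1000 (2 * Cf) := ⟨_, rfl⟩
  rw [← hC] at hCΛ ⊢
  have hC1000 : 1000 ≤ C := hC ▸ le_max_left _ _
  have hCCf : 2 * Cf ≤ C := hC ▸ le_max_right _ _
  have hΛ1000 : 1000 ≤ Λ := hC1000.trans hCΛ
  have hΛ1 : 1 ≤ Λ := by linarith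
  have hH := p.H_pos
  obtain ⟨hd0, -, -, -⟩ := rt_xg_ag_units hH k
  obtain ⟨hm1, hmd, hΛd1⟩ := rt_xo_cf_pw m hΛ1000 hd0.le hΛd
  have hT0 : rtTm 0 0 = -(1 / 4) := by simp [rtTm, tmL]
  obtain ⟨S, hSd⟩ : ∃ S, S = rtS3 (-(1 / 4)) αS βS υS := ⟨_, rfl⟩
  have hS : MeasurableSet S := hSd ▸ rt_xg_s3_meas _ _ _ _
  rw [← hSd]
  obtain ⟨Z1, hZ1d⟩ : ∃ Z1, Z1 = rtRg k (α + 1 / 1000) (β + 3 * (1 / 1000)) (υ + 2 * (1 / 1000)) (t₁ - 1 / 1000) (t₂ + 1 / 1000) := ⟨_, rfl⟩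
  have hZ1 : MeasurableSet Z1 := hZ1d ▸ rt_xg_rg_meas _ _ _ _ _ _
  -- the far field
  have hfar := hF p 0 0 k b b' Λ Sᶜ Z1 (p.an (rtTm 0 0) 0 b w) hb hb' hΛ1 hS.compl hZ1
    (by
      intro z hz
      rw [hZ1d] at hz
      obtain ⟨-, -, g1, g2⟩ := hz
      refine ⟨Nat.zero_le _, ?_, ?_⟩
      · rw [hT0]; linarith
      · rw [hT0]; norm_num; linarith)
    (by
      intro z hz x hx
      rw [hZ1d] at hz
      rw [hT0]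
      refine rt_xg_far (η := 1 / 1000) hH (Nat.zero_le _) (by linarith) (by linarith) (by linarith) (by norm_num) hΛ1 hΛd1 (by linarith) (by linarith) hz ?_
      intro hx'
      apply hx
      rw [hSd]
      exact rt_xg_ag_b3_mono (by linarith) (by linarith) (by linarith) (by linarith) (by linarith) hx')
  rw [← rt_xk_cut_compl p (rtTm 0 0) 0 b S hS w hsp] at hfar
  obtain ⟨u, hu⟩ : ∃ u, u = rtCut p (rtTm 0 0) 0 b S w := ⟨_, rfl⟩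
  rw [← hu] at hfar ⊢
  have mE : Measurable (rtVd p k b' (w - u)) := rt_xk_aux_meas p k b' (w - u)
  have h₂ : RtXf (rtVm p k) (rtVd p k b' w) (rtVm p k) (rtVd p k b' u) (fun z z' => z' = z) Z1 2
      (ENNReal.ofReal (2 * (Cf * Λ ^ (-(N : ℝ)) * 2 ^ (2 * k) * ‖p.an (rtTm 0 0) 0 b w‖ ^ 2))) := by
    apply rt_xa_dom (E := Z1.indicator (fun z => 2 * rtVd p k b' (w - u) z)) (rt_xk_meas p k b' u) ((mE.const_mul 2).indicator hZ1).aemeasurable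
    · filter_upwards [rt_xk_add p k b' w u] with z hz hzZ
      rw [Set.indicator_of_mem hzZ]
      exact hz
    · rw [lintegral_indicator hZ1, lintegral_const_mul _ mE, ENNReal.ofReal_mul (by norm_num)]
      simp only [ENNReal.ofReal_ofNat]
      gcongr
  have h₃ := rt_xa_comp h₁ h₂ (by
    intro z _ z' hR
    obtain ⟨hag, hlt⟩ := hR
    obtain ⟨g0, g1, g2⟩ := rt_xg_tgt (η := 1 / 1000) hH hα0 (by linarith) hβ0 (by norm_num) hm1 hmd (by linarith) (by linarith) hag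
    rw [hZ1d]
    exact ⟨hlt, g0, by linarith, by linarith⟩)
  have hcst := rt_xo_ln_cst (a := a) (X := X) (C := C) (Ca := 2) (e := 2 * (Cf * Λ ^ (-(N : ℝ)) * 2 ^ (2 * k) * ‖p.an (rtTm 0 0) 0 b w‖ ^ 2)) ha hX (by linarith) (by linarith) (by
    have hp : (0 : ℝ) ≤ Λ ^ (-(N : ℝ)) := by positivity
    have hn : ‖p.an (rtTm 0 0) 0 b w‖ ^ 2 ≤ ‖w‖ ^ 2 := pow_le_pow_left₀ (norm_nonneg _) (rt_w1_contr p _ 0 b w) 2
    have : Λ ^ (-(N : ℝ)) * 2 ^ (2 * k) * ‖p.an (rtTm 0 0) 0 b w‖ ^ 2 ≤ X := by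
      refine le_trans ?_ hwX
      gcongr
    calc 2 * (Cf * Λ ^ (-(N : ℝ)) * 2 ^ (2 * k) * ‖p.an (rtTm 0 0) 0 b w‖ ^ 2) = (2 * Cf) * (Λ ^ (-(N : ℝ)) * 2 ^ (2 * k) * ‖p.an (rtTm 0 0) 0 b w‖ ^ 2) := by ring
      _ ≤ C * X := by
        apply mul_le_mul hCCf this (by positivity) (by linarith))
  have e2 : ENNReal.ofReal 2 = 2 := by simp
  rw [e2] at hcst
  refine rt_xa_mono h₃ ?_ subset_rfl hcst.1 hcst.2
  rintro z - z'' ⟨z', hR, rfl⟩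
  exact hR

/-- composition of transfers with real constants -/
theorem rt_xo_cb_comp {Z Z' Z'' : Type} [MeasurableSpace Z] [MeasurableSpace Z'] [MeasurableSpace Z''] {ζ : Measure Z} {D : Z → ℝ≥0∞} {ζ' : Measure Z'} {D' : Z' → ℝ≥0∞}
    {ζ'' : Measure Z''} {D'' : Z'' → ℝ≥0∞} {R₁ : Z → Z' → Prop} {R₂ : Z' → Z'' → Prop} {Z0 : Set Z} {Z0' : Set Z'} {a c e₁ e₂ : ℝ}
    (ha : 0 ≤ a) (he₁ : 0 ≤ e₁) (he₂ : 0 ≤ e₂)
    (h₁ : RtXf ζ D ζ' D' R₁ Z0 (ENNReal.ofReal a) (ENNReal.ofReal e₁)) (h₂ : RtXf ζ' D' ζ'' D'' R₂ Z0' (ENNReal.ofReal c) (ENNReal.ofReal e₂))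
    (hZ : ∀ z ∈ Z0, ∀ z', R₁ z z' → z' ∈ Z0') :
    RtXf ζ D ζ'' D'' (fun z z'' => ∃ z', R₁ z z' ∧ R₂ z' z'') Z0 (ENNReal.ofReal (a * c)) (ENNReal.ofReal (e₁ + a * e₂)) := by
  have h := rt_xa_comp h₁ h₂ hZ
  rw [← ENNReal.ofReal_mul ha, ← ENNReal.ofReal_mul ha, ← ENNReal.ofReal_add he₁ (mul_nonneg ha he₂)] at h
  exact h

/-- the clock of the root view -/
theorem rt_xo_cb_tm0 : rtTm 0 0 = -(1 / 4) := by
  simp [rtTm, tmL]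

/-- powers of a large `Λ` -/
theorem rt_xo_cb_pow {Λ : ℝ} (hΛ : 1 ≤ Λ) {i j : ℕ} (h : i ≤ j) : Λ ^ i ≤ Λ ^ j := pow_le_pow_right₀ hΛ h

/-- the margin: `c Λ^i d ≤ 1/1000` as soon as `1000 c ≤ Λ^j`, `Λ^(i+j) d ≤ 1` -/
theorem rt_xo_cb_marg {Λ d c : ℝ} (hΛ : 1 ≤ Λ) (hd : 0 ≤ d) {i j n : ℕ} (hc : 1000 * c ≤ Λ ^ j) (hn : i + j ≤ n) (h : Λ ^ n * d ≤ 1) :
    c * Λ ^ i * d ≤ 1 / 1000 := by
  have h0 : (0 : ℝ) ≤ Λ ^ i := by positivity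
  have h1 : 1000 * c * Λ ^ i ≤ Λ ^ n := by
    calc 1000 * c * Λ ^ i ≤ Λ ^ j * Λ ^ i := mul_le_mul_of_nonneg_right hc h0
      _ = Λ ^ (i + j) := by rw [pow_add]; ring
      _ ≤ Λ ^ n := rt_xo_cb_pow hΛ hn
  have h2 : 1000 * c * Λ ^ i * d ≤ Λ ^ n * d := mul_le_mul_of_nonneg_right h1 hd
  have e : c * Λ ^ i * d = (1000 * c * Λ ^ i * d) / 1000 := by ring
  rw [e]
  linarith

/-- LEAF `L-256-RT-XO-CB`.  **a cut seen from the root view** (depth `0`): `rt_xk_cut` (`k = j = 0`), `rt_xg_step_id`, `rt_xg_reset` (the target row lies in `S`) -/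
theorem rt_xo_cb (bm N : ℕ) : ∃ C : ℝ, 1000 ≤ C ∧ ∀ (ζ : Measure RtZ) (D : RtZ → ℝ≥0∞) (τ : ℕ → ℝ) (Z0 : Set RtZ) (Ψ : RtCh) (p : RdWvPar) (b b' m : ℕ)
    (Λ α β υ t₁ t₂ αS βS υS a X : ℝ) (v : RtKc), b ≤ bm → b' ≤ bm → C ≤ Λ → Λ ^ (4 * m + 5) * rdD p.H 0 ≤ 1 →
    0 ≤ αS → αS ≤ 9 / 100 → 0 ≤ βS → -1 ≤ t₁ → t₂ ≤ 1 → 0 ≤ a → 0 ≤ X → Λ ^ (-(N : ℝ)) * ‖v‖ ^ 2 ≤ X →
    RtXf ζ D (rtVm p 0) (rtVd p 0 b' (rtCut p (rtTm 0 0) 0 b (rtS3 (-(1 / 4)) αS βS υS) v)) (RtRl τ Ψ p.H 0 (Λ ^ m) α β υ t₁ t₂) Z0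
      (ENNReal.ofReal a) (ENNReal.ofReal (a * X)) →
    RtXf ζ D (rtVm p 0) (rtVd p 0 b v) (RtRl τ Ψ p.H 0 (Λ ^ (4 * m + 5)) (αS + 1 / 1000) (βS + 3 / 1000) (υS + 2 / 1000) t₁ t₂) Z0
      (ENNReal.ofReal (a * (2 * C))) (ENNReal.ofReal (a * (2 * C) * X)) := by
  obtain ⟨C₁, hC₁, hcut⟩ := rt_xk_cut bm N
  refine ⟨max 1000 C₁, le_max_left _ _, ?_⟩
  intro ζ D τ Z0 Ψ p b b' m Λ α β υ t₁ t₂ αS βS υS a X v hb hb' hΛ hd hαS0 hαS hβS ht₁ ht₂ ha hX hv h₁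
  obtain ⟨C, hC⟩ : ∃ C : ℝ, C = max 1000 C₁ := ⟨_, rfl⟩
  rw [← hC] at hΛ ⊢
  have hC1000 : 1000 ≤ C := by rw [hC]; exact le_max_left _ _
  have hCC₁ : C₁ ≤ C := by rw [hC]; exact le_max_right _ _
  have hΛ1000 : 1000 ≤ Λ := hC1000.trans hΛ
  have hΛ1 : 1 ≤ Λ := by linarith
  have hH := p.H_pos
  have hd0 : 0 ≤ rdD p.H 0 := (rt_xg_ag_units hH 0).1.le
  have h₂ := hcut p 0 0 b b' Λ (rtS3 (-(1 / 4)) αS βS υS) v hb hb' (hCC₁.trans hΛ) (by norm_num) (rt_xg_s3_meas _ _ _ _) (rt_xg_s3_fin _ _ _ _)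
  have hN0 : 0 ≤ Λ ^ (-(N : ℝ)) * ‖v‖ ^ 2 := by positivity
  have h₃ := rt_xo_cb_comp ha (mul_nonneg ha hX) (by rw [mul_assoc]; exact mul_nonneg (by linarith) hN0) h₁ h₂ (fun z _ z' hr => by
    have := hr.2
    show z'.1 = 0
    omega)
  refine rt_xa_mono h₃ ?_ subset_rfl (ENNReal.ofReal_le_ofReal ?_) (ENNReal.ofReal_le_ofReal ?_)
  · rintro z - z'' ⟨z', ⟨hag, -⟩, hz0, hzS, has⟩
    have hm1 : 1 ≤ Λ ^ m := one_le_pow₀ hΛ1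
    have s1 := rt_xg_step_id hH hm1 hΛ1 hag has
    have e1 : 8 * (Λ ^ m * Λ) ^ 2 = 8 * Λ ^ (2 * m + 2) := by ring
    rw [e1] at s1
    have hz : rtZr 0 z'' ∈ rtB3 αS βS υS := by
      unfold rtZr
      rw [hz0, rt_xo_cb_tm0]
      exact hzS
    have hp1 : 1 ≤ Λ ^ (2 * m + 2) := one_le_pow₀ hΛ1
    have hmg : 8 * Λ ^ (2 * m + 2) * rdD p.H 0 ≤ 1 / 1000 :=
      rt_xo_cb_marg (j := 2) hΛ1 hd0 (by nlinarith) (by omega) hd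
    have s2 := rt_xg_reset (η := 1 / 1000) hH hαS0 (by linarith) hβS (by norm_num) (by linarith) hmg (by linarith) (by linarith) s1 hz
    refine ⟨rt_xg_mono hH (by positivity) ?_ (by linarith) le_rfl (by linarith) (by linarith) (by linarith) le_rfl le_rfl s2, by rw [hz0]; norm_num⟩
    calc 8 * Λ ^ (2 * m + 2) ≤ Λ * Λ ^ (2 * m + 2) := mul_le_mul_of_nonneg_right (by linarith) (by positivity)
      _ = Λ ^ (2 * m + 3) := by ring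
      _ ≤ Λ ^ (4 * m + 5) := rt_xo_cb_pow hΛ1 (by omega)
  · exact mul_le_mul_of_nonneg_left (by linarith) ha
  · have h5 : a * (C₁ * Λ ^ (-(N : ℝ)) * ‖v‖ ^ 2) ≤ a * (C * X) := by
      refine mul_le_mul_of_nonneg_left ?_ ha
      rw [mul_assoc]
      exact mul_le_mul hCC₁ hv hN0 (by linarith)
    have h6 : a * X ≤ a * (C * X) := by
      refine mul_le_mul_of_nonneg_left ?_ ha
      nlinarith
    have e : a * (2 * C) * X = a * (C * X) + a * (C * X) := by ring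
    rw [e]
    linarith

/-- LEAF `L-256-RT-XO-SI`.  **start of the input chain**: `rt_xk_cut` (`k = j = 0`), `rt_xo_null_src` (`z.1 = 0` a.e.), `rt_xo_null`, `rt_xg_in_start` -/
theorem rt_xo_si (bm N : ℕ) : ∃ C : ℝ, 1000 ≤ C ∧ ∀ (p : RdWvPar) (b b' : ℕ) (Λ αS βS υS X : ℝ) (v : RtKc), b ≤ bm → b' ≤ bm → C ≤ Λ → Λ ^ 2 * rdD p.H 0 ≤ 1 →
    0 ≤ αS → αS ≤ 9 / 100 → 0 ≤ βS → Λ ^ (-(N : ℝ)) * ‖v‖ ^ 2 ≤ X →
    RtXf (rtVm p 0) (rtVd p 0 b' (rtCut p (rtTm 0 0) 0 b (rtS3 (-(1 / 4)) αS βS υS) v)) (rtVm p 0) (rtVd p 0 b v)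
      (RtRl (rtTm 0) (rtChTr 0) p.H 0 (Λ ^ 1) (αS + 1 / 1000) (βS + 3 / 1000) (υS + 2 / 1000) (-(1 / 4)) (-(1 / 4))) Set.univ
      (ENNReal.ofReal C) (ENNReal.ofReal (C * X)) := by
  obtain ⟨C₁, hC₁, hcut⟩ := rt_xk_cut bm N
  refine ⟨max 1000 C₁, le_max_left _ _, ?_⟩
  intro p b b' Λ αS βS υS X v hb hb' hΛ hd hαS0 hαS hβS hv
  obtain ⟨C, hC⟩ : ∃ C : ℝ, C = max 1000 C₁ := ⟨_, rfl⟩
  rw [← hC] at hΛ ⊢
  have hC1000 : 1000 ≤ C := by rw [hC]; exact le_max_left _ _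
  have hCC₁ : C₁ ≤ C := by rw [hC]; exact le_max_right _ _
  have hΛ1000 : 1000 ≤ Λ := hC1000.trans hΛ
  have hΛ1 : 1 ≤ Λ := by linarith
  have hH := p.H_pos
  have hd0 : 0 ≤ rdD p.H 0 := (rt_xg_ag_units hH 0).1.le
  have h₂ := hcut p 0 0 b b' Λ (rtS3 (-(1 / 4)) αS βS υS) v hb hb' (hCC₁.trans hΛ) (by norm_num) (rt_xg_s3_meas _ _ _ _) (rt_xg_s3_fin _ _ _ _)
  have hN0 : 0 ≤ Λ ^ (-(N : ℝ)) * ‖v‖ ^ 2 := by positivity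
  obtain ⟨hm, hnull⟩ := rt_xo_vm_null p 0
  refine rt_xo_null_src (Z0 := {z : RtZ | z.1 < 2 ^ 0}) (rt_xa_mono h₂ ?_ ?_ (ENNReal.ofReal_le_ofReal hCC₁) (ENNReal.ofReal_le_ofReal ?_)) hm ?_
  · rintro z hz z' ⟨hz0, hzS, has⟩
    have hz1 : z.1 = 0 := by
      have : z.1 < 2 ^ 0 := hz
      omega
    have hmg : Λ * rdD p.H 0 ≤ 1 / 1000 := by
      have := rt_xo_cb_marg (c := 1) (i := 1) (j := 1) hΛ1 hd0 (by linarith) (by omega) hd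
      rwa [one_mul, pow_one] at this
    have s1 := rt_xg_in_start (η := 1 / 1000) hH hαS0 (by linarith) hβS (by norm_num) hΛ1 hmg hz1 hz0 hzS has
    refine ⟨rt_xg_mono hH (by positivity) (by rw [pow_one]) (by linarith) le_rfl (by linarith) (by linarith) (by linarith) le_rfl le_rfl s1, by rw [hz0]; norm_num⟩
  · intro z hz
    have : z.1 < 2 ^ 0 := hz
    show z.1 = 0
    omega
  · rw [mul_assoc]
    exact mul_le_mul hCC₁ hv hN0 (by linarith)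
  · rw [← Set.compl_eq_univ_sdiff]
    exact hnull

/-- monotonicity of an association in the tolerance -/
theorem rt_xo_tl_as_mono {Ψ : RtCh} {H : ℝ} {k : ℕ} {Λ Λ' T T' : ℝ} {x x' : RdWvPar.Ph} (hH : 0 < H) (h0 : 0 ≤ Λ) (hΛ : Λ ≤ Λ')
    (h : RtAsR Ψ H k Λ T x T' x') : RtAsR Ψ H k Λ' T x T' x' := by
  obtain ⟨u1, u2, -, -⟩ := rt_xg_ag_units hH k
  exact ⟨h.1.trans (mul_le_mul_of_nonneg_right hΛ (rdLen_pos k).le), rt_xg_ag_near_mono h0 hΛ u1.le u2.le hH.le h.2⟩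

/-- LEAF `L-256-RT-XO-TL`.  **end of the input chain**: `rt_xk_chg` (`(0,0) → (2,1)`, generation `b0 + 1` = spectrum of the cut state, `rt_xk_cut_band`), `rt_xg_step_chg`; `rt_xk_cut` (`k = 2`, `j = 1`), `rt_xg_step_id`; the exact symmetry `hxs`, `rt_xg_xs_end`.
Tolerances `Λ^m → Λ^(2m+3) → Λ^(4m+9)`. -/
theorem rt_xo_tail (bm N : ℕ) : ∃ C : ℝ, 1000 ≤ C ∧ ∀ (ζ : Measure RtZ) (D : RtZ → ℝ≥0∞) (τ : ℕ → ℝ) (Z0 : Set RtZ) (Ψ : RtCh) (p p1 : RdWvPar) (k0 i0 b0 b' m : ℕ)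
    (r : ℝ) (c : RtRow) (e : ℝ × ℝ) (Λ α β υ t₁ t₂ αS βS υS a X : ℝ) (u v : RtKc), b0 + 1 ≤ bm → b' ≤ bm → C ≤ Λ → 0 < r → rtSq e = 1 →
    p1.H = p.H / (4 * rdLen k0 * r ^ 2) → -1 ≤ t₁ → t₂ ≤ 1 → 0 ≤ a → 0 ≤ X → Λ ^ (-(N : ℝ)) * ‖u‖ ^ 2 ≤ X →
    RtXf (rtVm p1 2) (rtVd p1 2 b0 u) (rtVmP p k0 {i0}) (rtVdP p k0 b0 v) (fun z' z => RtXsR (rtChS (tmL k0 i0) (4 * rdLen k0) r c e) k0 i0 1 z z')
      {z' | ∃ j ∈ ({i0} : Set ℕ), z'.1 + i0 = j + 1} 1 0 →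
    RtXf ζ D (rtVm p1 0) (rtVd p1 0 b' (rtCut p1 (rtTm 2 1) 2 b0 (rtS3 0 αS βS υS) u)) (RtRl τ Ψ p1.H 0 (Λ ^ m) α β υ t₁ t₂) Z0
      (ENNReal.ofReal a) (ENNReal.ofReal (a * X)) →
    RtXf ζ D (rtVmP p k0 {i0}) (rtVdP p k0 b0 v)
      (fun z z'' => z''.1 = i0 ∧ RtAsR ((rtChSi (tmL k0 i0) (4 * rdLen k0) r c e).comp Ψ) p.H k0 (Λ ^ (4 * m + 9)) (τ z.1) z.2 (tmL k0 z''.1) z''.2) Z0
      (ENNReal.ofReal (a * (2 * C))) (ENNReal.ofReal (a * (2 * C) * X)) := by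
  obtain ⟨C₁, hC₁, hcut⟩ := rt_xk_cut bm N
  obtain ⟨C₂, hC₂, hchg⟩ := rt_xk_chg bm N
  obtain ⟨Cg, hCg, hstep⟩ := rt_xg_step_chg
  refine ⟨1000 + C₁ + C₂ + Cg + C₂ * C₁, by nlinarith, ?_⟩
  intro ζ D τ Z0 Ψ p p1 k0 i0 b0 b' m r c e Λ α β υ t₁ t₂ αS βS υS a X u v hb0 hb' hΛ hr he hH1 ht₁ ht₂ ha hX hu hxs h₁
  obtain ⟨C, hC⟩ : ∃ C : ℝ, C = 1000 + C₁ + C₂ + Cg + C₂ * C₁ := ⟨_, rfl⟩
  rw [← hC] at hΛ ⊢
  have hCC : 0 ≤ C₂ * C₁ := by nlinarith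
  have hΛ1000 : 1000 ≤ Λ := by linarith
  have hΛ1 : 1 ≤ Λ := by linarith
  have hH := p1.H_pos
  obtain ⟨S, hS⟩ : ∃ S : Set RdWvPar.Ph, S = rtS3 0 αS βS υS := ⟨_, rfl⟩
  have hSm : MeasurableSet S := by rw [hS]; exact rt_xg_s3_meas _ _ _ _
  have hSf : volume S ≠ ⊤ := by rw [hS]; exact rt_xg_s3_fin _ _ _ _
  rw [← hS] at h₁
  obtain ⟨w, hw⟩ : ∃ w : RtKc, w = rtCut p1 (rtTm 2 1) 2 b0 S u := ⟨_, rfl⟩
  have hwle : ‖w‖ ≤ ‖u‖ := by rw [hw]; exact rt_xk_cut_le p1 _ 2 b0 S hSm u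
  have hwsp : p1.Spec (b0 + 1) w := by rw [hw]; exact rt_xk_cut_band p1 _ 2 b0 S u
  have hcl : CutLe (rtTm 0 0) 0 (rtTm 2 1) 2 := by
    refine ⟨by norm_num, ?_, ?_⟩ <;> simp only [rtTm, tmL] <;> norm_num
  have h₂ := hchg p1 0 0 2 1 (b0 + 1) b' Λ w hb0 hb' (by linarith) (by norm_num) (by norm_num) (by norm_num) hcl hwsp
  have h₃ := hcut p1 2 1 b0 (b0 + 1) Λ S u (by omega) hb0 (by linarith) (by norm_num) hSm hSf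
  rw [← hw] at h₁ h₃
  have hlam : 0 ≤ Λ ^ (-(N : ℝ)) := by positivity
  have hNu : 0 ≤ Λ ^ (-(N : ℝ)) * ‖u‖ ^ 2 := by positivity
  have hNw : 0 ≤ Λ ^ (-(N : ℝ)) * ‖w‖ ^ 2 := by positivity
  have hNwu : Λ ^ (-(N : ℝ)) * ‖w‖ ^ 2 ≤ X :=
    (mul_le_mul_of_nonneg_left (pow_le_pow_left₀ (norm_nonneg _) hwle 2) hlam).trans hu
  have e2 : 0 ≤ C₂ * Λ ^ (-(N : ℝ)) * ‖w‖ ^ 2 := by rw [mul_assoc]; exact mul_nonneg (by linarith) hNw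
  have e3 : 0 ≤ C₁ * Λ ^ (-(N : ℝ)) * ‖u‖ ^ 2 := by rw [mul_assoc]; exact mul_nonneg (by linarith) hNu
  have g₁ := rt_xo_cb_comp ha (mul_nonneg ha hX) e2 h₁ h₂ (fun z _ z' hr => by
    have := hr.2
    show z'.1 = 0
    omega)
  have g₂ := rt_xo_cb_comp (mul_nonneg ha (by linarith)) (add_nonneg (mul_nonneg ha hX) (mul_nonneg ha e2)) e3 g₁ h₃ (fun z _ z' hr => by
    obtain ⟨_, _, h, _⟩ := hr
    exact h)
  have hxs' : RtXf (rtVm p1 2) (rtVd p1 2 b0 u) (rtVmP p k0 {i0}) (rtVdP p k0 b0 v) (fun z' z => RtXsR (rtChS (tmL k0 i0) (4 * rdLen k0) r c e) k0 i0 1 z z')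
      {z' | ∃ j ∈ ({i0} : Set ℕ), z'.1 + i0 = j + 1} (ENNReal.ofReal 1) (ENNReal.ofReal 0) := by
    rw [ENNReal.ofReal_one, ENNReal.ofReal_zero]
    exact hxs
  have g₃ := rt_xo_cb_comp (mul_nonneg (mul_nonneg ha (by linarith)) (by linarith))
    (add_nonneg (add_nonneg (mul_nonneg ha hX) (mul_nonneg ha e2)) (mul_nonneg (mul_nonneg ha (by linarith)) e3)) le_rfl g₂ hxs' (fun z _ z' hr => by
    obtain ⟨_, _, h, _⟩ := hr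
    exact ⟨i0, rfl, by rw [h]; ring⟩)
  refine rt_xa_mono g₃ ?_ subset_rfl (ENNReal.ofReal_le_ofReal ?_) (ENNReal.ofReal_le_ofReal ?_)
  · rintro z - z'' ⟨z₃, ⟨z₂, ⟨z₁, ⟨hag, hz₁⟩, hz₂, hnear⟩, hz₃, -, has⟩, hx⟩
    have hz₁0 : z₁.1 = 0 := by omega
    have hm1 : 1 ≤ Λ ^ m := one_le_pow₀ hΛ1
    have s1 := hstep Ψ p1.H (Λ ^ m) Λ α β υ t₁ t₂ (τ z.1) z.2 z₁ z₂ hH hm1 hΛ1 ht₁ ht₂ hz₁0 hz₂ hag hnear
    have hq1 : 1 ≤ (Λ ^ m * Λ) ^ 2 := one_le_pow₀ (by nlinarith)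
    have hL1 : 1 ≤ Cg * (Λ ^ m * Λ) ^ 2 := by nlinarith
    have s2 := rt_xg_step_id hH hL1 hΛ1 s1 has
    rw [hH1] at s2
    have hl : 0 < 4 * rdLen k0 := by have := rdLen_pos k0; positivity
    have hlen : rdLen k0 = 4 * rdLen k0 * rdLen 2 := by
      have : rdLen 2 = 1 / 4 := by unfold rdLen; norm_num
      rw [this]; ring
    have hclk : (tmL k0 i0 / (4 * rdLen k0) - 1 / 4) * 2 ^ 2 = (i0 : ℝ) - (1 : ℕ) := by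
      have e1 : tmL k0 i0 = i0 * rdLen k0 := by
        unfold tmL rdLen
        rw [inv_pow, div_eq_mul_inv]
      have := (rdLen_pos k0).ne'
      rw [e1]
      field_simp
      push_cast
      ring
    have s3 := rt_xg_xs_end (tmL k0 i0) (4 * rdLen k0) r c e hl hr he k0 2 i0 1 hlen hclk p.H_pos (by positivity) s2 hx
    refine ⟨?_, rt_xo_tl_as_mono p.H_pos (by positivity) ?_ s3⟩
    · have := hx.1
      omega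
    · have hp0 : (0 : ℝ) ≤ Λ ^ (2 * m + 2) := by positivity
      have t1 : Cg * (Λ ^ m * Λ) ^ 2 ≤ Λ ^ (2 * m + 3) := by
        calc Cg * (Λ ^ m * Λ) ^ 2 = Cg * Λ ^ (2 * m + 2) := by ring
          _ ≤ Λ * Λ ^ (2 * m + 2) := mul_le_mul_of_nonneg_right (by linarith) hp0
          _ = Λ ^ (2 * m + 3) := by ring
      calc 8 * (Cg * (Λ ^ m * Λ) ^ 2 * Λ) ^ 2 ≤ 8 * (Λ ^ (2 * m + 3) * Λ) ^ 2 := by
            refine mul_le_mul_of_nonneg_left (pow_le_pow_left₀ (by positivity) (mul_le_mul_of_nonneg_right t1 (by linarith)) 2) (by norm_num)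
        _ = 8 * Λ ^ (4 * m + 8) := by ring
        _ ≤ Λ * Λ ^ (4 * m + 8) := mul_le_mul_of_nonneg_right (by linarith) (by positivity)
        _ = Λ ^ (4 * m + 9) := by ring
  · rw [mul_one, mul_assoc]
    exact mul_le_mul_of_nonneg_left (by linarith) ha
  · have f2 : C₂ * Λ ^ (-(N : ℝ)) * ‖w‖ ^ 2 ≤ C₂ * X := by
      rw [mul_assoc]; exact mul_le_mul_of_nonneg_left hNwu (by linarith)
    have f3 : C₁ * Λ ^ (-(N : ℝ)) * ‖u‖ ^ 2 ≤ C₁ * X := by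
      rw [mul_assoc]; exact mul_le_mul_of_nonneg_left hu (by linarith)
    have g2 : a * (C₂ * Λ ^ (-(N : ℝ)) * ‖w‖ ^ 2) ≤ a * (C₂ * X) := mul_le_mul_of_nonneg_left f2 ha
    have g3 : a * C₂ * (C₁ * Λ ^ (-(N : ℝ)) * ‖u‖ ^ 2) ≤ a * C₂ * (C₁ * X) := mul_le_mul_of_nonneg_left f3 (mul_nonneg ha (by linarith))
    have haX : 0 ≤ a * X := mul_nonneg ha hX
    have e : a * (2 * C) * X = (a * X) * (2 * C) := by ring
    have e' : a * X + a * (C₂ * X) + a * C₂ * (C₁ * X) = (a * X) * (1 + C₂ + C₂ * C₁) := by ring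
    have : (a * X) * (1 + C₂ + C₂ * C₁) ≤ (a * X) * (2 * C) := mul_le_mul_of_nonneg_left (by linarith) haX
    rw [e, mul_zero, add_zero]
    linarith

theorem rt_xo_so_t21 : rtTm 2 1 = 0 := by
  unfold rtTm tmL
  norm_num

/-- the time window of the output chain -/
theorem rt_xo_so_win {n i0 j j' : ℕ} (h1 : i0 * 2 ^ n ≤ j) (h2 : j < (i0 + 1) * 2 ^ n) (h : j' + i0 * 2 ^ n = j + 2 ^ n) :
    j' < 2 ^ (n + 2) ∧ 0 ≤ rtTm (n + 2) j' ∧ rtTm (n + 2) j' ≤ 1 / 4 := by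
  have e0 : (i0 + 1) * 2 ^ n = i0 * 2 ^ n + 2 ^ n := by ring
  have e1 : 2 ^ (n + 2) = 4 * 2 ^ n := by rw [pow_add]; ring
  rw [e0] at h2
  obtain ⟨m, hm⟩ : ∃ m : ℕ, m = 2 ^ n := ⟨_, rfl⟩
  obtain ⟨q, hq⟩ : ∃ q : ℕ, q = i0 * 2 ^ n := ⟨_, rfl⟩
  have hm0 : 0 < m := by rw [hm]; positivity
  rw [← hq] at h1 h2 h
  rw [← hm] at h2 h
  have a1 : m ≤ j' := by omega
  have a2 : j' ≤ 2 * m := by omega
  have c0 : (0 : ℝ) < m := by exact_mod_cast hm0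
  have c1 : (m : ℝ) ≤ j' := by exact_mod_cast a1
  have c2 : (j' : ℝ) ≤ 2 * m := by exact_mod_cast a2
  have e2 : (2 : ℝ) ^ (n + 2) = 4 * m := by
    rw [hm, pow_add]
    push_cast
    ring
  refine ⟨by rw [e1, ← hm]; omega, ?_, ?_⟩
  · unfold rtTm tmL
    rw [e2, sub_nonneg, le_div_iff₀ (by positivity)]
    linarith
  · unfold rtTm tmL
    rw [e2]
    have : (j' : ℝ) / (4 * m) ≤ 1 / 2 := by
      rw [div_le_iff₀ (by positivity)]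
      linarith
    linarith

theorem rt_xo_so_win_meas (n : ℕ) : MeasurableSet {z : RtZ | z.1 < 2 ^ (n + 2) ∧ 0 ≤ rtTm (n + 2) z.1 ∧ rtTm (n + 2) z.1 ≤ 1 / 4} :=
  measurable_fst (MeasurableSet.of_discrete (s := {j : ℕ | j < 2 ^ (n + 2) ∧ 0 ≤ rtTm (n + 2) j ∧ rtTm (n + 2) j ≤ 1 / 4}))

/-- the cut state is negligible in the window outside the enlarged box -/
theorem rt_xo_so_far (bm N : ℕ) : ∃ C : ℝ, 0 ≤ C ∧ ∀ (p1 : RdWvPar) (n b0 bT : ℕ) (Λ αS βS υS : ℝ) (u : RtKc), b0 ≤ bm → bT ≤ bm → 1000 ≤ Λ →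
    Λ ^ 2 * rdD p1.H (n + 2) ≤ 1 → 0 ≤ αS → αS ≤ 9 / 100 → 0 ≤ βS →
    ∫⁻ z in {z : RtZ | z.1 < 2 ^ (n + 2) ∧ 0 ≤ rtTm (n + 2) z.1 ∧ rtTm (n + 2) z.1 ≤ 1 / 4} \
        rtRg (n + 2) (αS + 1 / 1000) (βS + 3 / 1000) (υS + 2 / 1000) 0 (1 / 4),
      rtVd p1 (n + 2) bT (rtCut p1 (rtTm 2 1) 2 b0 (rtS3 0 αS βS υS) u) z ∂(rtVm p1 (n + 2))
      ≤ ENNReal.ofReal (C * Λ ^ (-(N : ℝ)) * 2 ^ (2 * (n + 2)) * ‖u‖ ^ 2) := by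
  obtain ⟨C, hC, h⟩ := rt_xk_far bm N
  refine ⟨C, hC, ?_⟩
  intro p1 n b0 bT Λ αS βS υS u hb0 hbT hΛ hd hα0 hα hβ
  have hΛ0 : 0 < Λ := by linarith
  have hd0 : 0 ≤ rdD p1.H (n + 2) := Real.sqrt_nonneg _
  have hd' : Λ * rdD p1.H (n + 2) ≤ 1 / 1000 := by
    have h1 : Λ * (Λ * rdD p1.H (n + 2)) ≤ 1 := by
      calc Λ * (Λ * rdD p1.H (n + 2)) = Λ ^ 2 * rdD p1.H (n + 2) := by ring
        _ ≤ 1 := hd
    have h2 : 0 ≤ Λ * rdD p1.H (n + 2) := by positivity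
    nlinarith
  have h1 := h p1 2 1 (n + 2) b0 bT Λ (rtS3 0 αS βS υS)
    ({z : RtZ | z.1 < 2 ^ (n + 2) ∧ 0 ≤ rtTm (n + 2) z.1 ∧ rtTm (n + 2) z.1 ≤ 1 / 4} \
        rtRg (n + 2) (αS + 1 / 1000) (βS + 3 / 1000) (υS + 2 / 1000) 0 (1 / 4))
    (p1.an (rtTm 2 1) 2 b0 u) hb0 hbT (by linarith) (rt_xg_s3_meas _ _ _ _) ((rt_xo_so_win_meas n).diff (rt_xg_rg_meas _ _ _ _ _ _)) ?_ ?_
  · refine le_trans h1 (ENNReal.ofReal_le_ofReal ?_)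
    have h3 : ‖p1.an (rtTm 2 1) 2 b0 u‖ ≤ ‖u‖ := rt_w1c_an_le p1 _ 2 b0 u
    gcongr
  · rintro z ⟨⟨-, hz1, hz2⟩, -⟩
    rw [rt_xo_so_t21]
    refine ⟨by omega, hz1, ?_⟩
    norm_num
    linarith
  · rintro z ⟨⟨hz0, hz1, hz2⟩, hz3⟩ x hx
    rw [rt_xo_so_t21]
    have hz4 : rtZr (n + 2) z ∉ rtB3 (αS + 1 / 1000) (βS + 3 * (1 / 1000)) (υS + 2 * (1 / 1000)) := by
      intro hb
      apply hz3
      refine ⟨hz0, ?_, hz1, hz2⟩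
      have e1 : βS + 3 / 1000 = βS + 3 * (1 / 1000) := by ring
      have e2 : υS + 2 / 1000 = υS + 2 * (1 / 1000) := by ring
      rw [e1, e2]
      exact hb
    exact rt_xg_far' (k := n + 2) (k₀ := 2) (η := 1 / 1000) p1.H_pos (by omega) hα0 (by linarith) hβ (by norm_num) (by linarith) hd'
      (abs_le.2 ⟨by linarith, by linarith⟩) hx hz4

theorem rt_xo_so_len (k0 n : ℕ) : rdLen (k0 + n) = 4 * rdLen k0 * rdLen (n + 2) := by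
  unfold rdLen
  rw [pow_add, pow_add]
  ring

theorem rt_xo_so_clk (k0 i0 n : ℕ) : (tmL k0 i0 / (4 * rdLen k0) - 1 / 4) * 2 ^ (n + 2) = ((i0 * 2 ^ n : ℕ) : ℝ) - ((2 ^ n : ℕ) : ℝ) := by
  unfold tmL rdLen
  push_cast
  rw [inv_pow, pow_add]
  field_simp
  ring

/-- LEAF `L-256-RT-XO-SO`.  **start of the output chain**: the exact symmetry `hxs`; `D_u ≤ 2 D_{w₀} + 2 D_{u - w₀}`, `∫ D_{u - w₀} ≤ 2^K ‖u - w₀‖² ≤ 2^K ε₀` (`rt_xk_total`, `rt_xk_cut_err`);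
restriction to `rtRg K (αS+η) (βS+3η) (υS+2η) 0 (1/4)` (`rt_xa_restr`; the rest is negligible: `rt_xk_far`, `rt_xg_far'`; the times lie in `[0, 1/4)` by the relation of `hxs` and `z.1 ∈ I`); `rt_xg_xs_start`. -/
theorem rt_xo_so (bm N : ℕ) : ∃ C : ℝ, 1000 ≤ C ∧ ∀ (p p1 : RdWvPar) (k0 i0 n b0 bT : ℕ) (r : ℝ) (c : RtRow) (e : ℝ × ℝ) (Λ αS βS υS ε₀ X : ℝ) (u v : RtKc),
    b0 ≤ bm → bT ≤ bm → C ≤ Λ → 0 < r → rtSq e = 1 → Λ ^ 2 * rdD p1.H (n + 2) ≤ 1 → 0 ≤ αS → αS ≤ 9 / 100 → 0 ≤ βS → p1.Spec b0 u →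
    (p1.sys 0).ms (rtTm 2 1) 2 b0 (rtS3 0 αS βS υS)ᶜ u ≤ ε₀ → 2 ^ (2 * (n + 2)) * (ε₀ + Λ ^ (-(N : ℝ)) * ‖u‖ ^ 2) ≤ X →
    RtXf (rtVmP p (k0 + n) {j | i0 * 2 ^ n ≤ j ∧ j < (i0 + 1) * 2 ^ n}) (rtVdP p (k0 + n) bT v) (rtVm p1 (n + 2)) (rtVd p1 (n + 2) bT u)
      (RtXsR (rtChS (tmL k0 i0) (4 * rdLen k0) r c e) (k0 + n) (i0 * 2 ^ n) (2 ^ n)) Set.univ 1 0 →
    RtXf (rtVmP p (k0 + n) {j | i0 * 2 ^ n ≤ j ∧ j < (i0 + 1) * 2 ^ n}) (rtVdP p (k0 + n) bT v) (rtVm p1 (n + 2))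
      (rtVd p1 (n + 2) bT (rtCut p1 (rtTm 2 1) 2 b0 (rtS3 0 αS βS υS) u))
      (RtRl (tmL (k0 + n)) (rtChS (tmL k0 i0) (4 * rdLen k0) r c e) p1.H (n + 2) (Λ ^ 1) (αS + 1 / 1000) (βS + 3 / 1000) (υS + 2 / 1000) 0 (1 / 4))
      {z | i0 * 2 ^ n ≤ z.1 ∧ z.1 < (i0 + 1) * 2 ^ n} (ENNReal.ofReal C) (ENNReal.ofReal (C * X)) := by
  obtain ⟨Cf, hCf, hfar⟩ := rt_xo_so_far bm N
  refine ⟨1000 + 2 * Cf, by linarith, ?_⟩
  intro p p1 k0 i0 n b0 bT r c e Λ αS βS υS ε₀ X u v hb0 hbT hΛ hr he hd hα0 hα hβ hu hms hX hxs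
  have hΛ3 : 1000 ≤ Λ := by linarith
  have hΛ0 : 0 < Λ := by linarith
  obtain ⟨w0, hw0⟩ : ∃ w0, w0 = rtCut p1 (rtTm 2 1) 2 b0 (rtS3 0 αS βS υS) u := ⟨_, rfl⟩
  have hfar' := hfar p1 n b0 bT Λ αS βS υS u hb0 hbT hΛ3 hd hα0 hα hβ
  have herr : ‖u - w0‖ ^ 2 ≤ ε₀ := by
    rw [hw0]
    exact (rt_xk_cut_err p1 _ 2 b0 _ (rt_xg_s3_meas _ _ _ _) u hu).trans hms
  have hε0 : 0 ≤ ε₀ := le_trans (by positivity) herr
  rw [← hw0] at hfar' ⊢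
  -- step 1: the exact symmetry
  have s1 := rt_xa_mono hxs (R' := RtXsR (rtChS (tmL k0 i0) (4 * rdLen k0) r c e) (k0 + n) (i0 * 2 ^ n) (2 ^ n))
    (Z1 := {z | i0 * 2 ^ n ≤ z.1 ∧ z.1 < (i0 + 1) * 2 ^ n}) (fun _ _ _ h => h) (Set.subset_univ _) le_rfl le_rfl
  -- step 2: change of the state
  have s2 : RtXf (rtVm p1 (n + 2)) (rtVd p1 (n + 2) bT u) (rtVm p1 (n + 2)) (rtVd p1 (n + 2) bT w0) (fun z z' => z' = z)
      {z : RtZ | z.1 < 2 ^ (n + 2) ∧ 0 ≤ rtTm (n + 2) z.1 ∧ rtTm (n + 2) z.1 ≤ 1 / 4} 2 (ENNReal.ofReal (2 * (2 ^ (n + 2) * ε₀))) := by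
    refine rt_xa_dom (E := fun z => 2 * rtVd p1 (n + 2) bT (u - w0) z) (rt_xk_meas _ _ _ _) ((rt_xk_meas _ _ _ _).const_mul 2) ?_ ?_
    · filter_upwards [rt_xk_add p1 (n + 2) bT u w0] with z hz _
      exact hz
    · rw [lintegral_const_mul _ (rt_xk_vd_meas _ _ _ _)]
      calc 2 * ∫⁻ z, rtVd p1 (n + 2) bT (u - w0) z ∂(rtVm p1 (n + 2)) ≤ 2 * ENNReal.ofReal (2 ^ (n + 2) * ‖u - w0‖ ^ 2) := by
            gcongr
            exact rt_xk_total _ _ _ _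
        _ = ENNReal.ofReal (2 * (2 ^ (n + 2) * ‖u - w0‖ ^ 2)) := by
            rw [ENNReal.ofReal_mul (by norm_num : (0 : ℝ) ≤ 2)]
            norm_num
        _ ≤ _ := ENNReal.ofReal_le_ofReal (by gcongr)
  -- step 3: restriction to the enlarged box
  have s3 := rt_xa_restr (ζ := rtVm p1 (n + 2)) (D := rtVd p1 (n + 2) bT w0)
    (Z0 := {z : RtZ | z.1 < 2 ^ (n + 2) ∧ 0 ≤ rtTm (n + 2) z.1 ∧ rtTm (n + 2) z.1 ≤ 1 / 4})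
    (rt_xg_rg_meas (n + 2) (αS + 1 / 1000) (βS + 3 / 1000) (υS + 2 / 1000) 0 (1 / 4)) (rt_xk_meas _ _ _ _) _ subset_rfl hfar'
  have s23 := rt_xa_comp s2 s3 (fun z hz z' h => h ▸ hz)
  have s123 := rt_xa_comp s1 s23 (fun z hz z' h => rt_xo_so_win hz.1 hz.2 h.1)
  refine rt_xa_mono s123 ?_ subset_rfl ?_ ?_
  · rintro z - z' ⟨z1, h1, z2, h2, h3, h4⟩
    subst h2
    subst h3
    exact ⟨rt_xg_xs_start (tmL k0 i0) (4 * rdLen k0) r c e (mul_pos (by norm_num) (rdLen_pos k0)) hr he (k0 + n) (n + 2) (i0 * 2 ^ n) (2 ^ n)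
      (rt_xo_so_len k0 n) (rt_xo_so_clk k0 i0 n) p1.H_pos (by positivity) h1 h4, h4.1⟩
  · rw [one_mul, mul_one]
    have : (2 : ℝ≥0∞) = ENNReal.ofReal 2 := by norm_num
    rw [this]
    exact ENNReal.ofReal_le_ofReal (by linarith)
  · rw [zero_add, one_mul]
    have e2 : ∀ x : ℝ, (2 : ℝ≥0∞) * ENNReal.ofReal x = ENNReal.ofReal (2 * x) := fun x => by
      rw [ENNReal.ofReal_mul (by norm_num : (0 : ℝ) ≤ 2)]
      norm_num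
    have hN : 0 ≤ Λ ^ (-(N : ℝ)) := by positivity
    rw [e2, ← ENNReal.ofReal_add (by positivity) (by positivity)]
    refine ENNReal.ofReal_le_ofReal ?_
    have hp : (2 : ℝ) ^ (n + 2) ≤ 2 ^ (2 * (n + 2)) := pow_le_pow_right₀ (by norm_num) (by omega)
    have hq : (0 : ℝ) ≤ 2 ^ (2 * (n + 2)) := by positivity
    have hU : 0 ≤ Λ ^ (-(N : ℝ)) * ‖u‖ ^ 2 := by positivity
    calc 2 * (2 ^ (n + 2) * ε₀) + 2 * (Cf * Λ ^ (-(N : ℝ)) * 2 ^ (2 * (n + 2)) * ‖u‖ ^ 2)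
        ≤ 2 * (2 ^ (2 * (n + 2)) * ε₀) + 2 * (Cf * Λ ^ (-(N : ℝ)) * 2 ^ (2 * (n + 2)) * ‖u‖ ^ 2) := by gcongr
      _ = 2 * (2 ^ (2 * (n + 2)) * ε₀) + 2 * Cf * (2 ^ (2 * (n + 2)) * (Λ ^ (-(N : ℝ)) * ‖u‖ ^ 2)) := by ring
      _ ≤ (1000 + 2 * Cf) * (2 ^ (2 * (n + 2)) * ε₀) + (1000 + 2 * Cf) * (2 ^ (2 * (n + 2)) * (Λ ^ (-(N : ℝ)) * ‖u‖ ^ 2)) := by
          gcongr <;> linarith
      _ = (1000 + 2 * Cf) * (2 ^ (2 * (n + 2)) * (ε₀ + Λ ^ (-(N : ℝ)) * ‖u‖ ^ 2)) := by ring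
      _ ≤ (1000 + 2 * Cf) * X := by gcongr

/-- LEAF `L-256-RT-XO-RT`   (all the row maps and time maps are explicit measurable functions; or `rt_xs_zm`) -/
theorem rt_xo_zm_meas (θ l r : ℝ) (c : RtRow) (e : ℝ × ℝ) (T : ℝ) : Measurable (rtZm (rtChS θ l r c e) T) := by
  unfold rtZm
  simp only [rtChS, RtCh.tm, RtCh.dn, RtCh.comp, rtChSc, rtChRot, rtChCen, rtChTr, rtRay, RdWvPar.co, RtRow.flow, rtCfRowRot, rtCfRowCen, rtRot, rtIp, rtSq]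
  fun_prop

/-- one time slice of a view -/
theorem rt_xo_slice {X : Type} [MeasurableSpace X] (μ : Measure X) [SFinite μ] (I : Set ℕ) (j : ℕ) (hj : j ∈ I) (D : ℕ × X → ℝ≥0∞) (hD : Measurable D)
    (A : Set X) (hA : MeasurableSet A) :
    ∫⁻ z in {z : ℕ × X | z.1 = j ∧ z.2 ∈ A}, D z ∂(((Measure.count : Measure ℕ).restrict I).prod μ) = ∫⁻ x in A, D (j, x) ∂μ := by
  have hset : MeasurableSet {z : ℕ × X | z.1 = j ∧ z.2 ∈ A} :=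
    (measurable_fst (MeasurableSet.of_discrete : MeasurableSet ({j} : Set ℕ))).inter (measurable_snd hA)
  rw [← lintegral_indicator hset, lintegral_prod _ (hD.indicator hset).aemeasurable, rt_xs_cnt, tsum_eq_single j]
  · rw [Set.indicator_of_mem hj, ← lintegral_indicator hA]
    refine lintegral_congr fun x => ?_
    by_cases hx : x ∈ A
    · rw [Set.indicator_of_mem hx, Set.indicator_of_mem]
      exact ⟨rfl, hx⟩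
    · rw [Set.indicator_of_notMem hx, Set.indicator_of_notMem]
      exact fun h => hx h.2
  · intro i hi
    by_cases hiI : i ∈ I
    · rw [Set.indicator_of_mem hiI]
      have : ∀ x, Set.indicator {z : ℕ × X | z.1 = j ∧ z.2 ∈ A} D (i, x) = 0 := fun x => Set.indicator_of_notMem (fun h => hi h.1) _
      simp [this]
    · exact Set.indicator_of_notMem hiI _

/-- `ms` as a lower integral -/
theorem rt_xo_ms_lint (p : RdWvPar) (T : ℝ) (k b : ℕ) (A : Set RdWvPar.Ph) (hA : MeasurableSet A) (v : RtKc) :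
    ENNReal.ofReal ((p.sys 0).ms T k b A v) = ∫⁻ x in A, ‖(p.an T k b v : RdWvPar.Ph → ℂ) x‖ₑ ^ 2 ∂(p.rw k) := by
  rw [(rt_k_ms p 0 T k b A hA v).1, ofReal_integral_eq_lintegral_ofReal (gn_sq_integrable _).restrict (Filter.Eventually.of_forall fun x => by positivity)]
  refine lintegral_congr fun x => ?_
  rw [ENNReal.ofReal_pow (norm_nonneg _), ofReal_norm]

/-- LEAF `L-256-RT-XO-RT`.  **the root concentration in the normalised picture**: `rt_xa_set` for `hxs`, `S = {z' | z'.1 = 1 ∧ z'.2 ∉ S₀}`, `N = {z | rtZm .. z.2 ∉ S₀}`; `rt_k_ms`, `rt_xk_lint` (and its analogue for `rtVmP p k0 {i0}`); `ofReal_integral_eq_lintegral_ofReal` -/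
theorem rt_xo_root (p p1 : RdWvPar) (k0 i0 b0 : ℕ) (r : ℝ) (c : RtRow) (e : ℝ × ℝ) (S₀ : Set RdWvPar.Ph) (hS : MeasurableSet S₀) (u v : RtKc)
    (hm : MeasurableSet {x | rtZm (rtChS (tmL k0 i0) (4 * rdLen k0) r c e) (tmL k0 i0) x ∉ S₀})
    (hxs : RtXf (rtVm p1 2) (rtVd p1 2 b0 u) (rtVmP p k0 {i0}) (rtVdP p k0 b0 v) (fun z' z => RtXsR (rtChS (tmL k0 i0) (4 * rdLen k0) r c e) k0 i0 1 z z')
      {z' | ∃ j ∈ ({i0} : Set ℕ), z'.1 + i0 = j + 1} 1 0) :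
    (p1.sys 0).ms (rtTm 2 1) 2 b0 S₀ᶜ u ≤ (p.sys 0).ms (tmL k0 i0) k0 b0 {x | rtZm (rtChS (tmL k0 i0) (4 * rdLen k0) r c e) (tmL k0 i0) x ∉ S₀} v := by
  have sf1 := rt_k_rw_sf p1 2
  have sf2 := rt_k_rw_sf p k0
  have hset : MeasurableSet {z : RtZ | z.1 = 1 ∧ z.2 ∈ S₀ᶜ} :=
    (measurable_fst (MeasurableSet.of_discrete : MeasurableSet ({1} : Set ℕ))).inter (measurable_snd hS.compl)
  have h := rt_xa_set hxs (S := {z : RtZ | z.1 = 1 ∧ z.2 ∈ S₀ᶜ}) hset (fun z hz => ⟨i0, rfl, by rw [hz.1]; ring⟩)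
    (N := {z : RtZ | z.1 = i0 ∧ z.2 ∈ {x | rtZm (rtChS (tmL k0 i0) (4 * rdLen k0) r c e) (tmL k0 i0) x ∉ S₀}}) (by
      rintro z' hz' z ⟨h1, h2⟩
      have h3 : z.1 = i0 := by
        rw [hz'.1] at h1
        omega
      refine ⟨h3, ?_⟩
      have h4 := hz'.2
      rw [h2, h3] at h4
      exact h4)
  have hD2 : Measurable (rtVdP p k0 b0 v) := by
    refine measurable_from_prod_countable_right fun j => ?_
    exact ((Lp.stronglyMeasurable (p.an (tmL k0 j) k0 b0 v)).measurable.enorm).pow_const 2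
  unfold rtVm rtVmP at h
  rw [rt_xo_slice _ _ 1 (by simp) _ (rt_xk_aux_meas p1 2 b0 u) _ hS.compl, rt_xo_slice _ {i0} i0 rfl _ hD2 _ hm, one_mul, add_zero] at h
  have h5 : ENNReal.ofReal ((p1.sys 0).ms (rtTm 2 1) 2 b0 S₀ᶜ u)
      ≤ ENNReal.ofReal ((p.sys 0).ms (tmL k0 i0) k0 b0 {x | rtZm (rtChS (tmL k0 i0) (4 * rdLen k0) r c e) (tmL k0 i0) x ∉ S₀} v) := by
    exact (rt_xo_ms_lint p1 (rtTm 2 1) 2 b0 _ hS.compl u).le.trans (h.trans (rt_xo_ms_lint p (tmL k0 i0) k0 b0 _ hm v).ge)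
  exact (ENNReal.ofReal_le_ofReal_iff (gn_ms_nonneg _ _ _ _ _)).1 h5

end Claimed.Agent.R256
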