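import Claimed.Agent.R256.Rt.XsDefs
import Claimed.Agent.R256.Rt.XaContract
import Claimed.Agent.R256.Rt.Wv1

/-!
# Row 256, folder Rt, block I1, unit XS : THE EXACT SYMMETRIES      (block architect helper76; unit architect: BP-256-RT-XS; prefix `rt_xs_`)      CONTRACT FILE

EXIT (frozen; consumer `Rt/XoContract.lean`): `rt_xs_main`.      Definitions: `Rt/XsDefs.lean` (`rtChS`, `p.sc`, `rtZm`, explicit form `rt_xs_zm`), `Rt/XDefs.lean` (views), `Rt/XaContract.lean` (`RtXf`; add there or here a lemma "exact relabelling by an injective map").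
MATHEMATICS.   `S = rtChS θ l r c e`, `q = (ξ, ρ)`, `q' = (ξ', ρ') = (l r Rot_e(ξ - 2ρ A_c), l r² ρ)`, `dq' = l³ r⁴ dq`.      `<n(q), x> = <n(q'), S x> + (ξ·b_c - ρ y_c - θ|ξ|²/4ρ)`      (`<n(q), x> = rtXPh q x`).
  OPERATOR   `(U G)(q') = (l³r⁴)^{-1/2} e^{i(ξ·b_c - ρ y_c - θ|ξ|²/4ρ)} G(q)`:   unitary (linear change of variables: shear `ξ ↦ ξ - 2ρA_c`, rotation, dilations; a unimodular multiplier).
  EXACT RELABELLING   `H' ρ' = H ρ`, `d'_{k'} = d_k / r` (`rdLen k = l rdLen k'`), `ψ` radial:   `pk'(T', k', β, σ x)(q') e^{i(..)} = pk(T, k, β, x)(q)`, `T' = (T - θ)/l`, `σ = rtZm S T` (`rt_xs_zm`), hence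
        `(An'(T', k', β) (U G))(σ x) = (l³r⁴)^{1/2} (An(T, k, β) G)(x)`      for EVERY `x` at the level of `row` (`rt_w1_an_spec`),
  ROW MEASURES   `σ` is an affine bijection of `Ph`, `rw_k = l³ r⁴ · (rw'_{k'} ∘ σ)`      (`dA db dy = r² (l r)² (l r²) dA' db' dy'`, `ℓ/H = ℓ'/(H' r²)`).      So `∫ f ‖An G‖² d rw_k = ∫ (f ∘ σ⁻¹) ‖An' U G‖² d rw'_{k'}`.
  CLOCKS   old: `tmL k j`;   new: `rtTm k' j' = j' 2^-k' - 1/4`;   `(tmL k j - θ)/l = rtTm k' j'  ⟺  j' + s₁ = j + s₂`  when `(θ/l - 1/4) 2^k' = s₁ - s₂`.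
~900 l.
CUT (helper224, 23:00Z): `rt_xs_main` is PROVED below from the leaves `L-256-RT-XS-A .. I` (each `sorry` = one leaf or part of one; prove IN PLACE, statements verbatim, helper lemmas directly above your theorem, prefix `rt_xs_`).
-/

set_option autoImplicit false

namespace Claimed.Agent.R256

open MeasureTheory
open scoped ENNReal

/-- the relation of the exact relabelling -/
def RtXsR (S : RtCh) (k s₁ s₂ : ℕ) (z z' : RtZ) : Prop := z'.1 + s₁ = z.1 + s₂ ∧ z'.2 = rtZm S (tmL k z.1) z.2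

theorem rt_xs_eqns_cite : True := by
  have := @RtXsR.eq_1
  trivial

/-! ## 0. The explicit maps -/

/-- the momentum map `q ↦ q' = (l r Rot_e(ξ - 2ρ A_c), l r² ρ)` -/
noncomputable def rtXsK (l r : ℝ) (c : RtRow) (e : ℝ × ℝ) (q : RdWvPar.Mo) : RdWvPar.Mo :=
  ((l * r) • rtRot e (q.1 - (2 * q.2) • c.A), l * r ^ 2 * q.2)

/-- the inverse of the momentum map -/
noncomputable def rtXsKi (l r : ℝ) (c : RtRow) (e : ℝ × ℝ) (q : RdWvPar.Mo) : RdWvPar.Mo :=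
  (rtRot (-e.1, e.2) ((l * r)⁻¹ • q.1) + (2 * (q.2 / (l * r ^ 2))) • c.A, q.2 / (l * r ^ 2))

/-- the phase `ξ·b_c - ρ y_c - θ|ξ|²/4ρ` -/
noncomputable def rtXsPh (θ : ℝ) (c : RtRow) (q : RdWvPar.Mo) : ℝ := rtIp q.1 c.b - q.2 * c.y - θ * rtSq q.1 / (4 * q.2)

/-- the weight of the operator, as a function of the NEW momentum -/
noncomputable def rtXsW (θ l r : ℝ) (c : RtRow) (e : ℝ × ℝ) (q : RdWvPar.Mo) : ℂ :=
  (((Real.sqrt (l ^ 3 * r ^ 4))⁻¹ : ℝ) : ℂ) * Complex.exp (Complex.I * ((rtXsPh θ c (rtXsKi l r c e q) : ℝ) : ℂ))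

/-- the row map `σ_T` (`= rtZm (rtChS θ l r c e) T`: `rt_xs_zm`) -/
noncomputable def rtXsS (θ l r : ℝ) (c : RtRow) (e : ℝ × ℝ) (T : ℝ) (x : RdWvPar.Ph) : RdWvPar.Ph :=
  (r⁻¹ • rtRot e (x.1 - c.A), (l * r)⁻¹ • rtRot e (x.2.1 - c.b - (T - θ) • c.A),
    (x.2.2 - c.y - 2 * rtIp c.A (x.2.1 - c.b) + (T - θ) * rtSq c.A) / (l * r ^ 2))

/-- the inverse of the row map -/
noncomputable def rtXsSi (θ l r : ℝ) (c : RtRow) (e : ℝ × ℝ) (T : ℝ) (x : RdWvPar.Ph) : RdWvPar.Ph :=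
  (r • rtRot (-e.1, e.2) x.1 + c.A, (l * r) • rtRot (-e.1, e.2) x.2.1 + c.b + (T - θ) • c.A,
    l * r ^ 2 * x.2.2 + c.y + 2 * rtIp c.A ((l * r) • rtRot (-e.1, e.2) x.2.1 + (T - θ) • c.A) - (T - θ) * rtSq c.A)

theorem rt_xs_eqns_cite2 : True := by
  have := @rtXsK.eq_1
  have := @rtXsKi.eq_1
  have := @rtXsPh.eq_1
  have := @rtXsW.eq_1
  have := @rtXsS.eq_1
  have := @rtXsSi.eq_1
  trivial

/-! ## 1. Abstract lemmas (Mathlib only) -/

theorem rt_xs_cnt (I : Set ℕ) (F : ℕ → ℝ≥0∞) : ∫⁻ j in I, F j ∂(Measure.count : Measure ℕ) = ∑' j, I.indicator F j := by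
  rw [← lintegral_indicator (MeasurableSet.of_discrete), lintegral_count]

/-- LEAF `L-256-RT-XS-A`.  **exact relabelling, fibred over the time index, by an injective map of the indices.**
`θ' l (j', x') = θ l (j, τ j x')` if `j' = g j`, `j ∈ I ∩ J` (unique), else `0`.   Measurability: `measurable_from_prod_countable_right`.   Integrals: `lintegral_prod`, `lintegral_count` (after `lintegral_indicator`),
`tsum_subtype`, `ENNReal.tsum_comp_le_tsum_of_injective`. -/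
theorem rt_xs_fib {X X' : Type} [MeasurableSpace X] [MeasurableSpace X'] (μ : Measure X) (μ' : Measure X') [SFinite μ] [SFinite μ']
    (I I' J : Set ℕ) (D : ℕ × X → ℝ≥0∞) (D' : ℕ × X' → ℝ≥0∞) (hD : ∀ j, Measurable fun x => D (j, x)) (hD' : ∀ j, Measurable fun x => D' (j, x))
    (g : ℕ → ℕ) (τ : ℕ → X' → X) (hτ : ∀ j, Measurable (τ j)) (hinj : Set.InjOn g (I ∩ J)) (hmap : ∀ j ∈ I ∩ J, g j ∈ I')
    (h : ∀ j ∈ I ∩ J, ∀ f : X → ℝ≥0∞, Measurable f → ∫⁻ x, f x * D (j, x) ∂μ ≤ ∫⁻ x', f (τ j x') * D' (g j, x') ∂μ') :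
    RtXf (((Measure.count : Measure ℕ).restrict I).prod μ) D (((Measure.count : Measure ℕ).restrict I').prod μ') D'
      (fun z z' => z.1 ∈ I ∩ J ∧ z'.1 = g z.1 ∧ z.2 = τ z.1 z'.2) {z | z.1 ∈ J} 1 0 := by
  classical
  intro L θ hθ hc
  have hDm : Measurable D := measurable_from_prod_countable_right hD
  have hDm' : Measurable D' := measurable_from_prod_countable_right hD'
  obtain ⟨θ', hθ'⟩ : ∃ θ' : Fin L → ℕ × X' → ℝ≥0∞, θ' = fun l z' =>
      if hj : ∃ j, j ∈ I ∩ J ∧ g j = z'.1 then θ l (hj.choose, τ hj.choose z'.2) else 0 := ⟨_, rfl⟩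
  have hval : ∀ l, ∀ j ∈ I ∩ J, ∀ x', θ' l (g j, x') = θ l (j, τ j x') := by
    intro l j hj x'
    have hex : ∃ j0, j0 ∈ I ∩ J ∧ g j0 = g j := ⟨j, hj, rfl⟩
    have hch : hex.choose = j := hinj hex.choose_spec.1 hj hex.choose_spec.2
    rw [hθ']
    show (if hj : ∃ j0, j0 ∈ I ∩ J ∧ g j0 = g j then θ l (hj.choose, τ hj.choose x') else 0) = _
    rw [dif_pos hex, hch]
  have hzero : ∀ l, ∀ z' : ℕ × X', (¬ ∃ j, j ∈ I ∩ J ∧ g j = z'.1) → θ' l z' = 0 := by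
    intro l z' hn
    rw [hθ']
    exact dif_neg hn
  have hmeas : ∀ l, Measurable (θ' l) := by
    intro l
    refine measurable_from_prod_countable_right fun j' => ?_
    by_cases hex : ∃ j, j ∈ I ∩ J ∧ g j = j'
    · obtain ⟨j, hj, rfl⟩ := hex
      have : (fun x' => θ' l (g j, x')) = fun x' => θ l (j, τ j x') := funext fun x' => hval l j hj x'
      rw [this]
      exact (hθ.meas l).comp (measurable_const.prodMk (hτ j))
    · have : (fun x' => θ' l (j', x')) = fun _ => 0 := funext fun x' => hzero l (j', x') hex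
      rw [this]
      exact measurable_const
  refine ⟨θ', fun _ => 0, ⟨hmeas, ?_⟩, ?_, ?_, by simp⟩
  · rintro ⟨j', x'⟩
    by_cases hex : ∃ j, j ∈ I ∩ J ∧ g j = j'
    · obtain ⟨j, hj, rfl⟩ := hex
      rw [Finset.sum_congr rfl fun l _ => hval l j hj x']
      exact hθ.sum_le _
    · rw [Finset.sum_congr rfl fun l _ => hzero l (j', x') hex]
      simp
  · rintro l ⟨j', x'⟩ hne
    by_cases hex : ∃ j, j ∈ I ∩ J ∧ g j = j'
    · obtain ⟨j, hj, rfl⟩ := hex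
      rw [hval l j hj x'] at hne
      exact ⟨(j, τ j x'), hne, hj, rfl, rfl⟩
    · exact absurd (hzero l (j', x') hex) hne
  · intro l
    rw [one_mul, add_zero, lintegral_prod (fun z => θ l z * D z) ((hθ.meas l).mul hDm).aemeasurable,
      lintegral_prod (fun z' => θ' l z' * D' z') ((hmeas l).mul hDm').aemeasurable, rt_xs_cnt, rt_xs_cnt]
    set F : ℕ → ℝ≥0∞ := fun j => ∫⁻ x, θ l (j, x) * D (j, x) ∂μ with hF
    set G : ℕ → ℝ≥0∞ := fun j' => ∫⁻ x', θ' l (j', x') * D' (j', x') ∂μ' with hG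
    have h1 : ∀ j, I.indicator F j ≤ (I ∩ J).indicator (fun j => I'.indicator G (g j)) j := by
      intro j
      by_cases hj : j ∈ I ∩ J
      · rw [Set.indicator_of_mem hj, Set.indicator_of_mem hj.1, Set.indicator_of_mem (hmap j hj)]
        refine (h j hj (fun x => θ l (j, x)) ((hθ.meas l).comp measurable_prodMk_left)).trans (le_of_eq ?_)
        refine lintegral_congr fun x' => ?_
        rw [hval l j hj x']
      · rw [Set.indicator_of_notMem hj]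
        by_cases hjI : j ∈ I
        · rw [Set.indicator_of_mem hjI]
          have hjJ : j ∉ J := fun hJ => hj ⟨hjI, hJ⟩
          have : ∀ x, θ l (j, x) = 0 := fun x => by
            by_contra hne
            exact hjJ (hc l (j, x) hne)
          refine le_of_eq ?_
          show ∫⁻ x, θ l (j, x) * D (j, x) ∂μ = 0
          simp [this]
        · rw [Set.indicator_of_notMem hjI]
    calc ∑' j, I.indicator F j ≤ ∑' j, (I ∩ J).indicator (fun j => I'.indicator G (g j)) j := ENNReal.tsum_le_tsum h1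
      _ = ∑' j : ↥(I ∩ J), I'.indicator G (g j) := (tsum_subtype (I ∩ J) fun j => I'.indicator G (g j)).symm
      _ ≤ ∑' j', I'.indicator G j' :=
          ENNReal.tsum_comp_le_tsum_of_injective (f := fun j : ↥(I ∩ J) => g j) (fun a b hab => Subtype.ext (hinj a.2 b.2 hab)) _

theorem rt_xs_wc_norm {α : Type} [MeasurableSpace α] (μ : Measure α) (t : α → α) (ht : Measurable t) (w : α → ℂ) (a : ℝ) (ha : 0 < a)
    (hmap : Measure.map t μ = ENNReal.ofReal a • μ) (hnorm : ∀ x, ‖w x‖ ^ 2 = a⁻¹) (G : α → ℂ) (hG : Measurable G) :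
    eLpNorm (fun x => w x * G (t x)) 2 μ = eLpNorm G 2 μ := by
  have h2 : ((2 : ℝ≥0∞)) ≠ 0 := by norm_num
  have h2' : ((2 : ℝ≥0∞)) ≠ ⊤ := by norm_num
  rw [eLpNorm_eq_lintegral_rpow_enorm_toReal h2 h2', eLpNorm_eq_lintegral_rpow_enorm_toReal h2 h2']
  congr 1
  have e2 : (2 : ℝ≥0∞).toReal = 2 := by norm_num
  rw [e2]
  have hw : ∀ x, ‖w x‖ₑ ^ (2 : ℝ) = ENNReal.ofReal a⁻¹ := by
    intro x
    rw [← hnorm x, ← ofReal_norm, ENNReal.ofReal_rpow_of_nonneg (norm_nonneg _) (by norm_num)]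
    congr 1
    exact_mod_cast Real.rpow_natCast ‖w x‖ 2
  have e1 : ∀ x, ‖w x * G (t x)‖ₑ ^ (2 : ℝ) = ENNReal.ofReal a⁻¹ * ‖G (t x)‖ₑ ^ (2 : ℝ) := by
    intro x
    rw [enorm_mul, ENNReal.mul_rpow_of_nonneg _ _ (by norm_num), hw]
  simp_rw [e1]
  have hm : Measurable fun y => ‖G y‖ₑ ^ (2 : ℝ) := hG.enorm.pow_const _
  have hm' : Measurable fun x => ‖G (t x)‖ₑ ^ (2 : ℝ) := hm.comp ht
  have e3 : ∫⁻ x, ‖G (t x)‖ₑ ^ (2 : ℝ) ∂μ = ∫⁻ y, ‖G y‖ₑ ^ (2 : ℝ) ∂(Measure.map t μ) := (lintegral_map hm ht).symm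
  rw [lintegral_const_mul _ hm', e3, hmap, lintegral_smul_measure, smul_eq_mul, ← mul_assoc,
    ← ENNReal.ofReal_mul (by positivity), inv_mul_cancel₀ ha.ne', ENNReal.ofReal_one, one_mul]

/-- LEAF `L-256-RT-XS-B`.  **weighted composition operators.**   `G ↦ (MemLp ..).toLp`; a.e. classes: `t` is quasi measure preserving (`hmap`, `Measure.smul_absolutelyContinuous`);
norm: `∫⁻ ‖w‖ₑ² ‖G ∘ t‖ₑ² = a⁻¹ ∫⁻ ‖G‖ₑ² ∂(map t μ) = ∫⁻ ‖G‖ₑ²` (`lintegral_map`, `lintegral_smul_measure`; `Lp.stronglyMeasurable G`). -/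
theorem rt_xs_wc {α : Type} [MeasurableSpace α] (μ : Measure α) (t : α → α) (ht : Measurable t) (w : α → ℂ) (hw : Measurable w) (a : ℝ) (ha : 0 < a)
    (hmap : Measure.map t μ = ENNReal.ofReal a • μ) (hnorm : ∀ x, ‖w x‖ ^ 2 = a⁻¹) :
    ∃ U : Lp ℂ 2 μ →L[ℂ] Lp ℂ 2 μ, (∀ G, ‖U G‖ = ‖G‖) ∧ ∀ G, (U G : α → ℂ) =ᵐ[μ] fun x => w x * (G : α → ℂ) (t x) := by
  have hq : Measure.QuasiMeasurePreserving t μ μ := ⟨ht, by rw [hmap]; exact Measure.smul_absolutelyContinuous⟩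
  have hn : ∀ G : Lp ℂ 2 μ, eLpNorm (fun x => w x * (G : α → ℂ) (t x)) 2 μ = eLpNorm (G : α → ℂ) 2 μ := fun G =>
    rt_xs_wc_norm μ t ht w a ha hmap hnorm _ (Lp.stronglyMeasurable G).measurable
  have hmem : ∀ G : Lp ℂ 2 μ, MemLp (fun x => w x * (G : α → ℂ) (t x)) 2 μ := fun G =>
    ⟨(hw.mul ((Lp.stronglyMeasurable G).measurable.comp ht)).aestronglyMeasurable, by rw [hn G]; exact Lp.eLpNorm_lt_top G⟩
  let U₀ : Lp ℂ 2 μ →ₗ[ℂ] Lp ℂ 2 μ :=
    { toFun := fun G => (hmem G).toLp _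
      map_add' := fun G G' => by
        rw [← MemLp.toLp_add]
        apply MemLp.toLp_congr
        filter_upwards [hq.ae_eq_comp (Lp.coeFn_add G G')] with x hx
        have hx' : ((G + G' : Lp ℂ 2 μ) : α → ℂ) (t x) = (G : α → ℂ) (t x) + (G' : α → ℂ) (t x) := hx
        show w x * ((G + G' : Lp ℂ 2 μ) : α → ℂ) (t x) = w x * (G : α → ℂ) (t x) + w x * (G' : α → ℂ) (t x)
        rw [hx', mul_add]
      map_smul' := fun c G => by
        rw [RingHom.id_apply, ← MemLp.toLp_const_smul]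
        apply MemLp.toLp_congr
        filter_upwards [hq.ae_eq_comp (Lp.coeFn_smul c G)] with x hx
        have hx' : ((c • G : Lp ℂ 2 μ) : α → ℂ) (t x) = c * (G : α → ℂ) (t x) := hx
        show w x * ((c • G : Lp ℂ 2 μ) : α → ℂ) (t x) = c * (w x * (G : α → ℂ) (t x))
        rw [hx']
        ring }
  have hiso : ∀ G, ‖U₀ G‖ = ‖G‖ := fun G => by
    show ‖(hmem G).toLp _‖ = ‖G‖
    rw [Lp.norm_toLp, hn G, Lp.norm_def]
  refine ⟨U₀.mkContinuous 1 (fun G => by rw [hiso G, one_mul]), fun G => hiso G, fun G => ?_⟩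
  exact MemLp.coeFn_toLp (hmem G)

/-! ## 2. Algebra of the maps -/

theorem rt_xs_rot_a (e : ℝ × ℝ) (he : rtSq e = 1) (a : ℝ) (ha : a ≠ 0) (v : ℝ × ℝ) : a • rtRot e (rtRot (-e.1, e.2) (a⁻¹ • v)) = v := by
  unfold rtSq at he
  have h1 : a * a⁻¹ = 1 := mul_inv_cancel₀ ha
  apply Prod.ext
  · simp only [rtRot, Prod.smul_fst, Prod.smul_snd, smul_eq_mul]
    linear_combination (v.1 * (e.1 ^ 2 + e.2 ^ 2)) * h1 + v.1 * he
  · simp only [rtRot, Prod.smul_fst, Prod.smul_snd, smul_eq_mul]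
    linear_combination (v.2 * (e.1 ^ 2 + e.2 ^ 2)) * h1 + v.2 * he

theorem rt_xs_rot_b (e : ℝ × ℝ) (he : rtSq e = 1) (a : ℝ) (ha : a ≠ 0) (v : ℝ × ℝ) : a⁻¹ • rtRot e (a • rtRot (-e.1, e.2) v) = v := by
  unfold rtSq at he
  have h1 : a * a⁻¹ = 1 := mul_inv_cancel₀ ha
  apply Prod.ext
  · simp only [rtRot, Prod.smul_fst, Prod.smul_snd, smul_eq_mul]
    linear_combination (v.1 * (e.1 ^ 2 + e.2 ^ 2)) * h1 + v.1 * he
  · simp only [rtRot, Prod.smul_fst, Prod.smul_snd, smul_eq_mul]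
    linear_combination (v.2 * (e.1 ^ 2 + e.2 ^ 2)) * h1 + v.2 * he

theorem rt_xs_rot_c (e : ℝ × ℝ) (he : rtSq e = 1) (a : ℝ) (ha : a ≠ 0) (v : ℝ × ℝ) : a • rtRot (-e.1, e.2) (a⁻¹ • rtRot e v) = v := by
  unfold rtSq at he
  have h1 : a * a⁻¹ = 1 := mul_inv_cancel₀ ha
  apply Prod.ext
  · simp only [rtRot, Prod.smul_fst, Prod.smul_snd, smul_eq_mul]
    linear_combination (v.1 * (e.1 ^ 2 + e.2 ^ 2)) * h1 + v.1 * he
  · simp only [rtRot, Prod.smul_fst, Prod.smul_snd, smul_eq_mul]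
    linear_combination (v.2 * (e.1 ^ 2 + e.2 ^ 2)) * h1 + v.2 * he

/-- LEAF `L-256-RT-XS-C`. -/
theorem rt_xs_K_Ki (l r : ℝ) (c : RtRow) (e : ℝ × ℝ) (hl : 0 < l) (hr : 0 < r) (he : rtSq e = 1) (q : RdWvPar.Mo) :
    rtXsK l r c e (rtXsKi l r c e q) = q := by
  have hlr : l * r ≠ 0 := by positivity
  have hlr2 : l * r ^ 2 ≠ 0 := by positivity
  apply Prod.ext
  · show (l * r) • rtRot e (rtRot (-e.1, e.2) ((l * r)⁻¹ • q.1) + (2 * (q.2 / (l * r ^ 2))) • c.A - (2 * (q.2 / (l * r ^ 2))) • c.A) = q.1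
    rw [add_sub_cancel_right]
    exact rt_xs_rot_a e he _ hlr _
  · show l * r ^ 2 * (q.2 / (l * r ^ 2)) = q.2
    exact mul_div_cancel₀ _ hlr2

/-- LEAF `L-256-RT-XS-C`. -/
theorem rt_xs_S_Si (θ l r : ℝ) (c : RtRow) (e : ℝ × ℝ) (hl : 0 < l) (hr : 0 < r) (he : rtSq e = 1) (T : ℝ) (x : RdWvPar.Ph) :
    rtXsS θ l r c e T (rtXsSi θ l r c e T x) = x := by
  have hlr : l * r ≠ 0 := by positivity
  have hlr2 : l * r ^ 2 ≠ 0 := by positivity
  apply Prod.ext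
  · show r⁻¹ • rtRot e (r • rtRot (-e.1, e.2) x.1 + c.A - c.A) = x.1
    rw [add_sub_cancel_right]
    exact rt_xs_rot_b e he _ hr.ne' _
  · apply Prod.ext
    · show (l * r)⁻¹ • rtRot e ((l * r) • rtRot (-e.1, e.2) x.2.1 + c.b + (T - θ) • c.A - c.b - (T - θ) • c.A) = x.2.1
      have e1 : (l * r) • rtRot (-e.1, e.2) x.2.1 + c.b + (T - θ) • c.A - c.b - (T - θ) • c.A = (l * r) • rtRot (-e.1, e.2) x.2.1 := by
        abel
      rw [e1]
      exact rt_xs_rot_b e he _ hlr _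
    · show (l * r ^ 2 * x.2.2 + c.y + 2 * rtIp c.A ((l * r) • rtRot (-e.1, e.2) x.2.1 + (T - θ) • c.A) - (T - θ) * rtSq c.A - c.y
        - 2 * rtIp c.A ((l * r) • rtRot (-e.1, e.2) x.2.1 + c.b + (T - θ) • c.A - c.b) + (T - θ) * rtSq c.A) / (l * r ^ 2) = x.2.2
      have e1 : (l * r) • rtRot (-e.1, e.2) x.2.1 + c.b + (T - θ) • c.A - c.b = (l * r) • rtRot (-e.1, e.2) x.2.1 + (T - θ) • c.A := by
        abel
      rw [e1, div_eq_iff hlr2]
      ring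

/-- LEAF `L-256-RT-XS-C`. -/
theorem rt_xs_Si_S (θ l r : ℝ) (c : RtRow) (e : ℝ × ℝ) (hl : 0 < l) (hr : 0 < r) (he : rtSq e = 1) (T : ℝ) (x : RdWvPar.Ph) :
    rtXsSi θ l r c e T (rtXsS θ l r c e T x) = x := by
  have hlr : l * r ≠ 0 := by positivity
  have hlr2 : l * r ^ 2 ≠ 0 := by positivity
  apply Prod.ext
  · show r • rtRot (-e.1, e.2) (r⁻¹ • rtRot e (x.1 - c.A)) + c.A = x.1
    rw [rt_xs_rot_c e he _ hr.ne', sub_add_cancel]
  · apply Prod.ext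
    · show (l * r) • rtRot (-e.1, e.2) ((l * r)⁻¹ • rtRot e (x.2.1 - c.b - (T - θ) • c.A)) + c.b + (T - θ) • c.A = x.2.1
      rw [rt_xs_rot_c e he _ hlr]
      abel
    · show l * r ^ 2 * ((x.2.2 - c.y - 2 * rtIp c.A (x.2.1 - c.b) + (T - θ) * rtSq c.A) / (l * r ^ 2)) + c.y
        + 2 * rtIp c.A ((l * r) • rtRot (-e.1, e.2) ((l * r)⁻¹ • rtRot e (x.2.1 - c.b - (T - θ) • c.A)) + (T - θ) • c.A) - (T - θ) * rtSq c.A = x.2.2
      rw [rt_xs_rot_c e he _ hlr, sub_add_cancel, mul_div_cancel₀ _ hlr2]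
      ring

/-- LEAF `L-256-RT-XS-C`.  (`unfold`, `fun_prop`) -/
theorem rt_xs_meas (θ l r : ℝ) (c : RtRow) (e : ℝ × ℝ) (T : ℝ) :
    Measurable (rtXsKi l r c e) ∧ Measurable (rtXsW θ l r c e) ∧ Measurable (rtXsS θ l r c e T) ∧ Measurable (rtXsSi θ l r c e T) := by
  have h1 : Measurable (rtXsKi l r c e) := by
    unfold rtXsKi rtRot
    fun_prop
  refine ⟨h1, ?_, ?_, ?_⟩
  · have h2 : Measurable (rtXsPh θ c) := by
      unfold rtXsPh rtIp rtSq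
      fun_prop
    have h3 : Measurable fun q => rtXsPh θ c (rtXsKi l r c e q) := h2.comp h1
    unfold rtXsW
    fun_prop
  · unfold rtXsS rtRot rtIp
    fun_prop
  · unfold rtXsSi rtRot rtIp
    fun_prop

/-- LEAF `L-256-RT-XS-C`.  the clocks -/
theorem rt_xs_clock (θ l : ℝ) (hl : 0 < l) (k k' s₁ s₂ j j' : ℕ) (hk : rdLen k = l * rdLen k') (hs : (θ / l - 1 / 4) * 2 ^ k' = (s₁ : ℝ) - s₂)
    (hj : j' + s₁ = j + s₂) : (tmL k j - θ) / l = rtTm k' j' := by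
  have hP : (0 : ℝ) < 2 ^ k' := by positivity
  have hQ : (0 : ℝ) < 2 ^ k := by positivity
  have hk' : ((2 : ℝ) ^ k)⁻¹ = l * ((2 : ℝ) ^ k')⁻¹ := by
    have := hk
    unfold rdLen at this
    rwa [inv_pow, inv_pow] at this
  have hj' : (j' : ℝ) + s₁ = j + s₂ := by exact_mod_cast hj
  have h1 : θ / l = 1 / 4 + ((s₁ : ℝ) - s₂) * ((2 : ℝ) ^ k')⁻¹ := by
    rw [← hs, mul_assoc, mul_inv_cancel₀ hP.ne']
    ring
  show ((j : ℝ) / 2 ^ k - θ) / l = (j' : ℝ) / 2 ^ k' - 1 / 4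
  rw [sub_div, h1, div_eq_mul_inv (j : ℝ), hk', div_eq_mul_inv (j' : ℝ)]
  have h2 : (j : ℝ) * (l * ((2 : ℝ) ^ k')⁻¹) / l = (j : ℝ) * ((2 : ℝ) ^ k')⁻¹ := by
    field_simp
  rw [h2]
  have h3 : (j' : ℝ) = j + s₂ - s₁ := by linarith
  rw [h3]
  ring

/-! ## 3. Jacobians      (model proofs: `re_sc_jac_rot`, `re_sc_jac_aff`, `re_sc_jac_sh`, `re_sc_jac` of `Re/SecLin.lean`; do NOT import that file, copy with prefix `rt_xs_`) -/

/-- a dilation of the line -/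
theorem rt_xs_kj_aff (a : ℝ) (ha : 0 < a) :
    Measure.map (fun y : ℝ => y / a) volume = ENNReal.ofReal a • (volume : Measure ℝ) := by
  have h1 : (fun y : ℝ => y / a) = fun y => a⁻¹ * y := by
    funext y
    rw [div_eq_inv_mul]
  rw [h1, Real.map_volume_mul_left (inv_ne_zero ha.ne'), inv_inv, abs_of_pos ha]

/-- dilation and rotation of the plane -/
theorem rt_xs_kj_rot (e : ℝ × ℝ) (he : rtSq e = 1) (ρ : ℝ) (hρ : 0 < ρ) :
    Measure.map (fun b : ℝ × ℝ => rtRot e (ρ⁻¹ • b)) volume = ENNReal.ofReal (ρ ^ 2) • (volume : Measure (ℝ × ℝ)) := by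
  have h1 : (fun b : ℝ × ℝ => rtRot e (ρ⁻¹ • b))
      = (Matrix.toLin (Module.Basis.finTwoProd ℝ) (Module.Basis.finTwoProd ℝ)
          !![e.2 * ρ⁻¹, -e.1 * ρ⁻¹; e.1 * ρ⁻¹, e.2 * ρ⁻¹]) := by
    funext b
    rw [Matrix.toLin_finTwoProd_apply]
    unfold rtRot
    ext
    · simp only [Prod.smul_fst, Prod.smul_snd, smul_eq_mul]
      ring
    · simp only [Prod.smul_fst, Prod.smul_snd, smul_eq_mul]
      ring
  have hdet : LinearMap.det (Matrix.toLin (Module.Basis.finTwoProd ℝ) (Module.Basis.finTwoProd ℝ)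
      !![e.2 * ρ⁻¹, -e.1 * ρ⁻¹; e.1 * ρ⁻¹, e.2 * ρ⁻¹]) = (ρ ^ 2)⁻¹ := by
    rw [LinearMap.det_toLin, Matrix.det_fin_two_of]
    unfold rtSq at he
    have : e.2 * ρ⁻¹ * (e.2 * ρ⁻¹) - -e.1 * ρ⁻¹ * (e.1 * ρ⁻¹) = (e.1 ^ 2 + e.2 ^ 2) * (ρ ^ 2)⁻¹ := by
      rw [← inv_pow]
      ring
    rw [this, he, one_mul]
  have hne : LinearMap.det (Matrix.toLin (Module.Basis.finTwoProd ℝ) (Module.Basis.finTwoProd ℝ)
      !![e.2 * ρ⁻¹, -e.1 * ρ⁻¹; e.1 * ρ⁻¹, e.2 * ρ⁻¹]) ≠ 0 := by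
    rw [hdet]
    positivity
  rw [h1, Measure.map_linearMap_addHaar_eq_smul_addHaar _ hne, hdet, inv_inv, abs_of_pos (by positivity)]

/-- a shear: the first variable is translated by a function of the second -/
theorem rt_xs_kj_sh (φ : ℝ → ℝ × ℝ) (hφ : Measurable φ) :
    MeasurePreserving (fun p : (ℝ × ℝ) × ℝ => (p.1 + φ p.2, p.2)) (volume : Measure ((ℝ × ℝ) × ℝ)) volume := by
  have h := MeasurePreserving.skew_product (μa := (volume : Measure ℝ)) (μc := (volume : Measure (ℝ × ℝ))) (μd := (volume : Measure (ℝ × ℝ)))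
    (MeasurePreserving.id volume) (g := fun b x => x + φ b)
    (by
      show Measurable fun p : ℝ × (ℝ × ℝ) => p.2 + φ p.1
      fun_prop) (Filter.Eventually.of_forall fun b => map_add_right_eq_self volume (φ b))
  exact (Measure.measurePreserving_swap (μ := (volume : Measure ℝ)) (ν := (volume : Measure (ℝ × ℝ)))).comp
    (h.comp (Measure.measurePreserving_swap (μ := (volume : Measure (ℝ × ℝ))) (ν := (volume : Measure ℝ))))

/-- LEAF `L-256-RT-XS-D`.  `∫ F(κ⁻¹ q') dq' = l³r⁴ ∫ F(q) dq`      (rotation + dilation in `ξ'`, shear by `ρ'`, dilation in `ρ'`: `MeasurePreserving.skew_product` after a swap) -/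
theorem rt_xs_Ki_map (l r : ℝ) (c : RtRow) (e : ℝ × ℝ) (hl : 0 < l) (hr : 0 < r) (he : rtSq e = 1) :
    Measure.map (rtXsKi l r c e) volume = ENNReal.ofReal (l ^ 3 * r ^ 4) • (volume : Measure RdWvPar.Mo) := by
  have he' : rtSq (-e.1, e.2) = 1 := by
    unfold rtSq at he ⊢
    simpa using he
  have hm1 : Measurable fun b : ℝ × ℝ => rtRot (-e.1, e.2) ((l * r)⁻¹ • b) := by
    unfold rtRot
    fun_prop
  have hm2 : Measurable fun y : ℝ => y / (l * r ^ 2) := by fun_prop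
  have hsh := rt_xs_kj_sh (fun y => (2 * y) • c.A) (by fun_prop)
  have hcomp : rtXsKi l r c e = (fun p : (ℝ × ℝ) × ℝ => (p.1 + (2 * p.2) • c.A, p.2))
      ∘ (Prod.map (fun b : ℝ × ℝ => rtRot (-e.1, e.2) ((l * r)⁻¹ • b)) (fun y : ℝ => y / (l * r ^ 2))) := by
    funext q
    rfl
  have hD : Measure.map (Prod.map (fun b : ℝ × ℝ => rtRot (-e.1, e.2) ((l * r)⁻¹ • b)) (fun y : ℝ => y / (l * r ^ 2)))
      (volume : Measure ((ℝ × ℝ) × ℝ)) = ENNReal.ofReal (l ^ 3 * r ^ 4) • (volume : Measure ((ℝ × ℝ) × ℝ)) := by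
    have h0 : (volume : Measure ((ℝ × ℝ) × ℝ)) = (volume : Measure (ℝ × ℝ)).prod (volume : Measure ℝ) := rfl
    rw [h0, ← Measure.map_prod_map _ _ hm1 hm2, rt_xs_kj_rot _ he' _ (by positivity), rt_xs_kj_aff _ (by positivity),
      Measure.prod_smul_left, Measure.prod_smul_right, smul_smul, ← ENNReal.ofReal_mul (by positivity)]
    congr 2
    ring
  rw [hcomp, ← Measure.map_map hsh.measurable (hm1.prodMap hm2), hD, Measure.map_smul, hsh.map_eq]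

/-- an affine map of the line -/
theorem rt_xs_e_aff (a b : ℝ) (ha : 0 < a) :
    Measure.map (fun y : ℝ => (y + b) / a) volume = ENNReal.ofReal a • (volume : Measure ℝ) := by
  have h1 : (fun y : ℝ => (y + b) / a) = (fun y => a⁻¹ * y) ∘ (fun y => y + b) := by
    funext y
    simp [div_eq_inv_mul]
  rw [h1, ← Measure.map_map (by fun_prop) (by fun_prop), map_add_right_eq_self,
    Real.map_volume_mul_left (inv_ne_zero ha.ne'), inv_inv, abs_of_pos ha]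

/-- translation, rotation and dilation of the plane -/
theorem rt_xs_e_rot (e w : ℝ × ℝ) (he : rtSq e = 1) (ρ : ℝ) (hρ : 0 < ρ) :
    Measure.map (fun b : ℝ × ℝ => ρ⁻¹ • rtRot e (b - w)) volume = ENNReal.ofReal (ρ ^ 2) • (volume : Measure (ℝ × ℝ)) := by
  have h1 : (fun b : ℝ × ℝ => ρ⁻¹ • rtRot e (b - w))
      = (Matrix.toLin (Module.Basis.finTwoProd ℝ) (Module.Basis.finTwoProd ℝ)
          !![e.2 * ρ⁻¹, -e.1 * ρ⁻¹; e.1 * ρ⁻¹, e.2 * ρ⁻¹]) ∘ (fun b => b + (-w)) := by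
    funext b
    rw [Function.comp_apply, Matrix.toLin_finTwoProd_apply]
    unfold rtRot
    ext
    · simp only [Prod.smul_fst, Prod.smul_snd, Prod.fst_sub, Prod.snd_sub, Prod.fst_add, Prod.snd_add, Prod.fst_neg,
        Prod.snd_neg, smul_eq_mul]
      ring
    · simp only [Prod.smul_fst, Prod.smul_snd, Prod.fst_sub, Prod.snd_sub, Prod.fst_add, Prod.snd_add, Prod.fst_neg,
        Prod.snd_neg, smul_eq_mul]
      ring
  have hdet : LinearMap.det (Matrix.toLin (Module.Basis.finTwoProd ℝ) (Module.Basis.finTwoProd ℝ)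
      !![e.2 * ρ⁻¹, -e.1 * ρ⁻¹; e.1 * ρ⁻¹, e.2 * ρ⁻¹]) = (ρ ^ 2)⁻¹ := by
    rw [LinearMap.det_toLin, Matrix.det_fin_two_of]
    unfold rtSq at he
    have : e.2 * ρ⁻¹ * (e.2 * ρ⁻¹) - -e.1 * ρ⁻¹ * (e.1 * ρ⁻¹) = (e.1 ^ 2 + e.2 ^ 2) * (ρ ^ 2)⁻¹ := by
      rw [← inv_pow]
      ring
    rw [this, he, one_mul]
  have hne : LinearMap.det (Matrix.toLin (Module.Basis.finTwoProd ℝ) (Module.Basis.finTwoProd ℝ)
      !![e.2 * ρ⁻¹, -e.1 * ρ⁻¹; e.1 * ρ⁻¹, e.2 * ρ⁻¹]) ≠ 0 := by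
    rw [hdet]
    positivity
  rw [h1, ← Measure.map_map (LinearMap.continuous_of_finiteDimensional _).measurable (by fun_prop), map_add_right_eq_self,
    Measure.map_linearMap_addHaar_eq_smul_addHaar _ hne, hdet, inv_inv, abs_of_pos (by positivity)]

/-- LEAF `L-256-RT-XS-E`.  `∫ F(σ x) dx = l³r⁶ ∫ F(x') dx'` -/
theorem rt_xs_S_map (θ l r : ℝ) (c : RtRow) (e : ℝ × ℝ) (hl : 0 < l) (hr : 0 < r) (he : rtSq e = 1) (T : ℝ) :
    Measure.map (rtXsS θ l r c e T) volume = ENNReal.ofReal (l ^ 3 * r ^ 6) • (volume : Measure RdWvPar.Ph) := by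
  have hA : MeasurePreserving (fun A : ℝ × ℝ => r⁻¹ • rtRot e (A - c.A)) volume (ENNReal.ofReal (r ^ 2) • volume) :=
    ⟨by unfold rtRot; fun_prop, rt_xs_e_rot e _ he _ hr⟩
  have h1 : MeasurePreserving (fun β : ℝ × ℝ => (l * r)⁻¹ • rtRot e (β - (c.b + (T - θ) • c.A))) volume
      (ENNReal.ofReal ((l * r) ^ 2) • volume) :=
    ⟨by unfold rtRot; fun_prop, rt_xs_e_rot e _ he _ (by positivity)⟩
  have h2 := MeasurePreserving.skew_product (μc := (volume : Measure ℝ))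
    (μd := ENNReal.ofReal (l * r ^ 2) • (volume : Measure ℝ)) h1
    (g := fun β y => (y + (-c.y - 2 * rtIp c.A (β - c.b) + (T - θ) * rtSq c.A)) / (l * r ^ 2))
    (by
      show Measurable fun p : (ℝ × ℝ) × ℝ => (p.2 + (-c.y - 2 * rtIp c.A (p.1 - c.b) + (T - θ) * rtSq c.A)) / (l * r ^ 2)
      unfold rtIp
      fun_prop)
    (Filter.Eventually.of_forall fun β => rt_xs_e_aff _ _ (by positivity))
  have h3 := hA.prod h2
  have hC : (ENNReal.ofReal (r ^ 2) • (volume : Measure (ℝ × ℝ))).prod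
      ((ENNReal.ofReal ((l * r) ^ 2) • (volume : Measure (ℝ × ℝ))).prod (ENNReal.ofReal (l * r ^ 2) • (volume : Measure ℝ)))
      = ENNReal.ofReal (l ^ 3 * r ^ 6) • (volume : Measure RdWvPar.Ph) := by
    rw [Measure.prod_smul_left, Measure.prod_smul_left, Measure.prod_smul_right, Measure.prod_smul_right, Measure.prod_smul_right,
      smul_smul, smul_smul, ← ENNReal.ofReal_mul (by positivity), ← ENNReal.ofReal_mul (by positivity)]
    congr 2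
    ring
  have h4 : rtXsS θ l r c e T = Prod.map (fun A : ℝ × ℝ => r⁻¹ • rtRot e (A - c.A))
      (fun p : (ℝ × ℝ) × ℝ => ((l * r)⁻¹ • rtRot e (p.1 - (c.b + (T - θ) • c.A)),
        (p.2 + (-c.y - 2 * rtIp c.A (p.1 - c.b) + (T - θ) * rtSq c.A)) / (l * r ^ 2))) := by
    funext x
    unfold rtXsS
    refine Prod.ext rfl (Prod.ext ?_ ?_)
    · show (l * r)⁻¹ • rtRot e (x.2.1 - c.b - (T - θ) • c.A) = (l * r)⁻¹ • rtRot e (x.2.1 - (c.b + (T - θ) • c.A))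
      rw [sub_sub]
    · show (x.2.2 - c.y - 2 * rtIp c.A (x.2.1 - c.b) + (T - θ) * rtSq c.A) / (l * r ^ 2)
        = (x.2.2 + (-c.y - 2 * rtIp c.A (x.2.1 - c.b) + (T - θ) * rtSq c.A)) / (l * r ^ 2)
      congr 1
      ring
  rw [h4, ← hC]
  exact h3.map_eq

/-! ## 4. The packets -/

theorem rt_xs_pk_d (H l r : ℝ) (hl : 0 < l) (hr : 0 < r) (k k' : ℕ) (hk : rdLen k = l * rdLen k') :
    rdD (H / (l * r ^ 2)) k' = rdD H k / r := by
  unfold rdD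
  rw [hk]
  have h1 := rdLen_pos k'
  have h2 : H / (l * r ^ 2) / rdLen k' = H / (l * rdLen k') / r ^ 2 := by
    field_simp
  rw [h2, Real.sqrt_div' _ (by positivity), Real.sqrt_sq hr.le]

theorem rt_xs_pk_psi (e : ℝ × ℝ) (he : rtSq e = 1) (v : ℝ × ℝ) : rdPsi (rtRot e v) = rdPsi v := by
  unfold rdPsi rdPsi0
  rw [rt_rot_sq, he, one_mul]

theorem rt_xs_pk_chi0 (b : ℕ) : rdChi b 0 = 0 := by
  by_contra h
  have h1 := (rd_chi_supp h).1
  have h2 : (0 : ℝ) < (2 : ℝ)⁻¹ ^ (b + 5) := by positivity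
  linarith

/-- LEAF `L-256-RT-XS-F`.  **exact relabelling of the packets.**   `ρ = 0`: both sides vanish (`rdChi b 0 = 0`: `rd_chi_supp`).   `ρ ≠ 0`: `H'ρ' = Hρ`; `rdD H' k' = rdD H k / r`;
`(d')⁻¹((2ρ')⁻¹ξ' - A') = Rot_e (d⁻¹((2ρ)⁻¹ξ - A))`, `rdPsi` depends only on `rtSq` (`rt_rot_sq`); phases: `rt_rot_ip`, `rt_rot_sq`, `field_simp`, `ring`; `Complex.exp_add`. -/
theorem rt_xs_pk (p : RdWvPar) (θ l r : ℝ) (c : RtRow) (e : ℝ × ℝ) (hl : 0 < l) (hr : 0 < r) (he : rtSq e = 1) (k k' b : ℕ)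
    (hk : rdLen k = l * rdLen k') (T : ℝ) (x : RdWvPar.Ph) (q : RdWvPar.Mo) :
    (p.sc l r hl hr).pk ((T - θ) / l) k' b (rtXsS θ l r c e T x) (rtXsK l r c e q) * Complex.exp (Complex.I * ((rtXsPh θ c q : ℝ) : ℂ))
      = p.pk T k b x q := by
  obtain ⟨ξ, ρ⟩ := q
  obtain ⟨A, β, y⟩ := x
  have hamp : rdChi b ((p.sc l r hl hr).H * (rtXsK l r c e (ξ, ρ)).2) = rdChi b (p.H * ρ) := by
    congr 1
    show p.H / (l * r ^ 2) * (l * r ^ 2 * ρ) = p.H * ρ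
    field_simp
  by_cases hρ : ρ = 0
  · unfold RdWvPar.pk
    rw [hamp]
    simp only [hρ, mul_zero, rt_xs_pk_chi0, zero_mul, Complex.ofReal_zero]
  have hd : 0 < rdD p.H k := by
    unfold rdD
    exact Real.sqrt_pos.2 (div_pos p.H_pos (rdLen_pos k))
  have hpsi : rdPsi ((rdD (p.sc l r hl hr).H k')⁻¹ • ((2 * (rtXsK l r c e (ξ, ρ)).2)⁻¹ • (rtXsK l r c e (ξ, ρ)).1
      - (rtXsS θ l r c e T (A, β, y)).1)) = rdPsi ((rdD p.H k)⁻¹ • ((2 * ρ)⁻¹ • ξ - A)) := by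
    rw [← rt_xs_pk_psi e he ((rdD p.H k)⁻¹ • ((2 * ρ)⁻¹ • ξ - A))]
    congr 1
    show (rdD (p.H / (l * r ^ 2)) k')⁻¹ • ((2 * (l * r ^ 2 * ρ))⁻¹ • ((l * r) • rtRot e (ξ - (2 * ρ) • c.A)) - r⁻¹ • rtRot e (A - c.A)) = _
    rw [rt_xs_pk_d p.H l r hl hr k k' hk]
    unfold rtRot
    refine Prod.ext ?_ ?_
    · simp only [Prod.smul_fst, Prod.smul_snd, Prod.fst_sub, Prod.snd_sub, smul_eq_mul]
      field_simp
      ring
    · simp only [Prod.smul_fst, Prod.smul_snd, Prod.fst_sub, Prod.snd_sub, smul_eq_mul]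
      field_simp
      ring
  have hph : (rtIp (rtXsK l r c e (ξ, ρ)).1 (rtXsS θ l r c e T (A, β, y)).2.1 - (rtXsK l r c e (ξ, ρ)).2 * (rtXsS θ l r c e T (A, β, y)).2.2
      - (T - θ) / l * rtSq (rtXsK l r c e (ξ, ρ)).1 / (4 * (rtXsK l r c e (ξ, ρ)).2)) + rtXsPh θ c (ξ, ρ)
      = rtIp ξ β - ρ * y - T * rtSq ξ / (4 * ρ) := by
    have e1 : rtIp (rtXsK l r c e (ξ, ρ)).1 (rtXsS θ l r c e T (A, β, y)).2.1 = rtIp (ξ - (2 * ρ) • c.A) (β - c.b - (T - θ) • c.A) := by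
      rw [← one_mul (rtIp (ξ - (2 * ρ) • c.A) (β - c.b - (T - θ) • c.A)), ← he, ← rt_rot_ip]
      show rtIp ((l * r) • rtRot e (ξ - (2 * ρ) • c.A)) ((l * r)⁻¹ • rtRot e (β - c.b - (T - θ) • c.A)) = _
      simp only [rtIp, Prod.smul_fst, Prod.smul_snd, smul_eq_mul]
      field_simp
    have e2 : rtSq (rtXsK l r c e (ξ, ρ)).1 = (l * r) ^ 2 * rtSq (ξ - (2 * ρ) • c.A) := by
      rw [← one_mul (rtSq (ξ - (2 * ρ) • c.A)), ← he, ← rt_rot_sq]
      show rtSq ((l * r) • rtRot e (ξ - (2 * ρ) • c.A)) = _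
      simp only [rtSq, Prod.smul_fst, Prod.smul_snd, smul_eq_mul]
      ring
    rw [e1, e2]
    show rtIp (ξ - (2 * ρ) • c.A) (β - c.b - (T - θ) • c.A) - l * r ^ 2 * ρ * ((y - c.y - 2 * rtIp c.A (β - c.b) + (T - θ) * rtSq c.A) / (l * r ^ 2))
      - (T - θ) / l * ((l * r) ^ 2 * rtSq (ξ - (2 * ρ) • c.A)) / (4 * (l * r ^ 2 * ρ)) + (rtIp ξ c.b - ρ * c.y - θ * rtSq ξ / (4 * ρ)) = _
    simp only [rtIp, rtSq, Prod.smul_fst, Prod.smul_snd, Prod.fst_sub, Prod.snd_sub, smul_eq_mul]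
    field_simp
    ring
  unfold RdWvPar.pk
  rw [hamp, hpsi, mul_assoc, ← Complex.exp_add, ← mul_add, ← Complex.ofReal_add, hph]

/-- LEAF `L-256-RT-XS-G`.  **the rows.**   `∫ pk'(σx)(q') w(q') G(κ⁻¹q') dq' = ∫ Φ(κ⁻¹ q') dq'`, `Φ q = (l³r⁴)^{-1/2} pk(x)(q) G(q)` (`rt_xs_K_Ki`, `rt_xs_pk`), `= l³r⁴ ∫ Φ`
(`integral_map`, `rt_xs_Ki_map`, `integral_smul_measure`; measurability from `rt_w1_pk_int`). -/
theorem rt_xs_row (p : RdWvPar) (θ l r : ℝ) (c : RtRow) (e : ℝ × ℝ) (hl : 0 < l) (hr : 0 < r) (he : rtSq e = 1) (k k' b : ℕ)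
    (hk : rdLen k = l * rdLen k') (T : ℝ) (G UG : RtKc)
    (hU : (UG : RdWvPar.Mo → ℂ) =ᵐ[volume] fun q => rtXsW θ l r c e q * (G : RdWvPar.Mo → ℂ) (rtXsKi l r c e q)) (x : RdWvPar.Ph) :
    (p.sc l r hl hr).row ((T - θ) / l) k' b UG (rtXsS θ l r c e T x) = ((Real.sqrt (l ^ 3 * r ^ 4) : ℝ) : ℂ) * p.row T k b G x := by
  have hJ : (0 : ℝ) < l ^ 3 * r ^ 4 := by positivity
  have hm := (rt_xs_meas θ l r c e T).1
  have hmap := rt_xs_Ki_map l r c e hl hr he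
  have hint := rt_w1_pk_int p T k b G x
  have h1 : (p.sc l r hl hr).row ((T - θ) / l) k' b UG (rtXsS θ l r c e T x)
      = ∫ q', (fun q => (((Real.sqrt (l ^ 3 * r ^ 4))⁻¹ : ℝ) : ℂ) * (p.pk T k b x q * (G : RdWvPar.Mo → ℂ) q)) (rtXsKi l r c e q') := by
    unfold RdWvPar.row
    refine integral_congr_ae ?_
    filter_upwards [hU] with q' hq'
    rw [hq']
    have e1 := rt_xs_pk p θ l r c e hl hr he k k' b hk T x (rtXsKi l r c e q')
    rw [rt_xs_K_Ki l r c e hl hr he q'] at e1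
    show _ = (((Real.sqrt (l ^ 3 * r ^ 4))⁻¹ : ℝ) : ℂ) * (p.pk T k b x (rtXsKi l r c e q') * (G : RdWvPar.Mo → ℂ) (rtXsKi l r c e q'))
    rw [← e1]
    unfold rtXsW
    ring
  have hsm : AEStronglyMeasurable (fun q => (((Real.sqrt (l ^ 3 * r ^ 4))⁻¹ : ℝ) : ℂ) * (p.pk T k b x q * (G : RdWvPar.Mo → ℂ) q))
      (Measure.map (rtXsKi l r c e) volume) := by
    rw [hmap]
    exact (hint.aestronglyMeasurable.const_mul _).smul_measure _
  rw [h1, ← integral_map hm.aemeasurable hsm, hmap, integral_smul_measure, ENNReal.toReal_ofReal hJ.le, integral_const_mul]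
  unfold RdWvPar.row
  rw [Complex.real_smul, ← mul_assoc, ← Complex.ofReal_mul]
  congr 2
  have hs : Real.sqrt (l ^ 3 * r ^ 4) * Real.sqrt (l ^ 3 * r ^ 4) = l ^ 3 * r ^ 4 := Real.mul_self_sqrt hJ.le
  have hs0 : 0 < Real.sqrt (l ^ 3 * r ^ 4) := Real.sqrt_pos.2 hJ
  field_simp
  nlinarith

/-- LEAF `L-256-RT-XS-H`.  **the views.**   `an = row` a.e. (`rt_w1_an_spec`, twice; on the new side pulled back by `σ`, quasi measure preserving by `rt_xs_S_map`), `rt_xs_row`,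
`lintegral_map` + `rt_xs_S_map`;   constants: `(ℓ/H) (l³r⁴)⁻¹ l³r⁶ = ℓ'/H'`. -/
theorem rt_xs_star (p : RdWvPar) (θ l r : ℝ) (c : RtRow) (e : ℝ × ℝ) (hl : 0 < l) (hr : 0 < r) (he : rtSq e = 1) (k k' b : ℕ)
    (hk : rdLen k = l * rdLen k') (T : ℝ) (G UG : RtKc)
    (hU : (UG : RdWvPar.Mo → ℂ) =ᵐ[volume] fun q => rtXsW θ l r c e q * (G : RdWvPar.Mo → ℂ) (rtXsKi l r c e q))
    (f : RdWvPar.Ph → ℝ≥0∞) (hf : Measurable f) :
    ∫⁻ x, f (rtXsS θ l r c e T x) * ‖(p.an T k b G : RdWvPar.Ph → ℂ) x‖ₑ ^ 2 ∂(p.rw k)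
      = ∫⁻ x', f x' * ‖((p.sc l r hl hr).an ((T - θ) / l) k' b UG : RdWvPar.Ph → ℂ) x'‖ₑ ^ 2 ∂((p.sc l r hl hr).rw k') := by
  obtain ⟨-, -, hmS, -⟩ := rt_xs_meas θ l r c e T
  have hJ4 : (0 : ℝ) < l ^ 3 * r ^ 4 := by positivity
  have hlen := rdLen_pos k
  have hlen' := rdLen_pos k'
  have hH := p.H_pos
  have hH' := (p.sc l r hl hr).H_pos
  have hmap := rt_xs_S_map θ l r c e hl hr he T
  have hq : Measure.QuasiMeasurePreserving (rtXsS θ l r c e T) volume volume :=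
    ⟨hmS, by rw [hmap]; exact Measure.smul_absolutelyContinuous⟩
  have hc1 : ENNReal.ofReal (rdLen k / p.H) ≠ 0 := by
    rw [Ne, ENNReal.ofReal_eq_zero, not_le]; positivity
  have hc2 : ENNReal.ofReal (rdLen k' / (p.sc l r hl hr).H) ≠ 0 := by
    rw [Ne, ENNReal.ofReal_eq_zero, not_le]; positivity
  have h1 : (p.an T k b G : RdWvPar.Ph → ℂ) =ᵐ[volume] p.row T k b G := by
    have h := rt_w1_an_spec p T k b G
    exact (Measure.ae_ennreal_smul_measure_iff hc1).1 h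
  have h2 : ((p.sc l r hl hr).an ((T - θ) / l) k' b UG : RdWvPar.Ph → ℂ) =ᵐ[volume] (p.sc l r hl hr).row ((T - θ) / l) k' b UG := by
    have h := rt_w1_an_spec (p.sc l r hl hr) ((T - θ) / l) k' b UG
    exact (Measure.ae_ennreal_smul_measure_iff hc2).1 h
  have h3 := hq.ae_eq h2
  -- the function on the new side
  have hF : Measurable fun x' => f x' * ‖((p.sc l r hl hr).an ((T - θ) / l) k' b UG : RdWvPar.Ph → ℂ) x'‖ₑ ^ 2 :=
    hf.mul (((Lp.stronglyMeasurable _).measurable.enorm).pow_const 2)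
  have e1 : ∫⁻ x, (f (rtXsS θ l r c e T x) * ‖((p.sc l r hl hr).an ((T - θ) / l) k' b UG : RdWvPar.Ph → ℂ) (rtXsS θ l r c e T x)‖ₑ ^ 2)
      = ENNReal.ofReal (l ^ 3 * r ^ 6) * ∫⁻ x', f x' * ‖((p.sc l r hl hr).an ((T - θ) / l) k' b UG : RdWvPar.Ph → ℂ) x'‖ₑ ^ 2 := by
    rw [← lintegral_map hF hmS, hmap, lintegral_smul_measure, smul_eq_mul]
  have e2 : ∫⁻ x, (f (rtXsS θ l r c e T x) * ‖((p.sc l r hl hr).an ((T - θ) / l) k' b UG : RdWvPar.Ph → ℂ) (rtXsS θ l r c e T x)‖ₑ ^ 2)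
      = ENNReal.ofReal (l ^ 3 * r ^ 4) * ∫⁻ x, f (rtXsS θ l r c e T x) * ‖(p.an T k b G : RdWvPar.Ph → ℂ) x‖ₑ ^ 2 := by
    rw [← lintegral_const_mul' _ _ ENNReal.ofReal_ne_top]
    refine lintegral_congr_ae ?_
    filter_upwards [h1, h3] with x hx1 hx3
    have hx3' : ((p.sc l r hl hr).an ((T - θ) / l) k' b UG : RdWvPar.Ph → ℂ) (rtXsS θ l r c e T x)
        = (p.sc l r hl hr).row ((T - θ) / l) k' b UG (rtXsS θ l r c e T x) := hx3
    rw [hx3', hx1, rt_xs_row p θ l r c e hl hr he k k' b hk T G UG hU x, enorm_mul, mul_pow]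
    have e3 : ‖((Real.sqrt (l ^ 3 * r ^ 4) : ℝ) : ℂ)‖ₑ ^ 2 = ENNReal.ofReal (l ^ 3 * r ^ 4) := by
      rw [← ofReal_norm, Complex.norm_real, Real.norm_of_nonneg (Real.sqrt_nonneg _), ← ENNReal.ofReal_pow (Real.sqrt_nonneg _),
        Real.sq_sqrt hJ4.le]
    rw [e3]
    ring
  have e4 : ENNReal.ofReal (r ^ 2) * ∫⁻ x', f x' * ‖((p.sc l r hl hr).an ((T - θ) / l) k' b UG : RdWvPar.Ph → ℂ) x'‖ₑ ^ 2
      = ∫⁻ x, f (rtXsS θ l r c e T x) * ‖(p.an T k b G : RdWvPar.Ph → ℂ) x‖ₑ ^ 2 := by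
    have h0 : ENNReal.ofReal (l ^ 3 * r ^ 4) ≠ 0 := by
      rw [Ne, ENNReal.ofReal_eq_zero, not_le]; exact hJ4
    refine (ENNReal.mul_right_inj h0 ENNReal.ofReal_ne_top).1 ?_
    rw [← e2, e1, ← mul_assoc, ← ENNReal.ofReal_mul hJ4.le]
    congr 2
    ring
  have a1 : ∀ (p0 : RdWvPar) (k0 : ℕ) (F : RdWvPar.Ph → ℝ≥0∞), ∫⁻ x, F x ∂(p0.rw k0) = ENNReal.ofReal (rdLen k0 / p0.H) * ∫⁻ x, F x := by
    intro p0 k0 F
    unfold RdWvPar.rw
    rw [lintegral_smul_measure, smul_eq_mul]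
  rw [a1, a1, ← e4, ← mul_assoc, ← ENNReal.ofReal_mul (by positivity)]
  congr 2
  show rdLen k / p.H * r ^ 2 = rdLen k' / (p.H / (l * r ^ 2))
  rw [hk]
  field_simp

/-- LEAF `L-256-RT-XS-I`.  supports: an a.e. property of `G` is an a.e. property of `U G` at `κ⁻¹ q'` -/
theorem rt_xs_supp (θ l r : ℝ) (c : RtRow) (e : ℝ × ℝ) (hl : 0 < l) (hr : 0 < r) (he : rtSq e = 1) (G UG : RtKc)
    (hU : (UG : RdWvPar.Mo → ℂ) =ᵐ[volume] fun q => rtXsW θ l r c e q * (G : RdWvPar.Mo → ℂ) (rtXsKi l r c e q))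
    (P : RdWvPar.Mo → Prop) (hP : ∀ᵐ q ∂(volume : Measure RdWvPar.Mo), (G : RdWvPar.Mo → ℂ) q ≠ 0 → P q) :
    ∀ᵐ q ∂(volume : Measure RdWvPar.Mo), (UG : RdWvPar.Mo → ℂ) q ≠ 0 → P (rtXsKi l r c e q) := by
  have hm := (rt_xs_meas θ l r c e 0).1
  have hq : Measure.QuasiMeasurePreserving (rtXsKi l r c e) volume volume :=
    ⟨hm, by rw [rt_xs_Ki_map l r c e hl hr he]; exact Measure.smul_absolutelyContinuous⟩
  have h1 := hq.ae hP
  filter_upwards [hU, h1] with q h2 h3 h4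
  apply h3
  intro h5
  apply h4
  rw [h2, h5, mul_zero]


/-- **EXIT of XS.** -/
theorem rt_xs_main (p : RdWvPar) (θ l r : ℝ) (c : RtRow) (e : ℝ × ℝ) (hl : 0 < l) (hr : 0 < r) (he : rtSq e = 1) :
    ∃ U : RtKc →L[ℂ] RtKc, (∀ G, ‖U G‖ = ‖G‖) ∧
      (∀ (b : ℕ) (G : RtKc), p.Spec b G → (p.sc l r hl hr).Spec b (U G)) ∧
      (∀ (a : ℝ) (G : RtKc), (∀ᵐ q ∂(volume : Measure RdWvPar.Mo), (G : RdWvPar.Mo → ℂ) q ≠ 0 → 0 < q.2 ∧ rtSq (q.1 - (2 * q.2) • c.A) ≤ (2 * (a * r) * q.2) ^ 2) →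
        RtCone a (U G)) ∧
      ∀ (k k' b s₁ s₂ : ℕ) (I : Set ℕ) (G : RtKc), rdLen k = l * rdLen k' → (θ / l - 1 / 4) * 2 ^ k' = (s₁ : ℝ) - s₂ →
        (∀ j ∈ I, ∃ j', j' < 2 ^ k' ∧ j' + s₁ = j + s₂) →
        RtXf (rtVmP p k I) (rtVdP p k b G) (rtVm (p.sc l r hl hr) k') (rtVd (p.sc l r hl hr) k' b (U G)) (RtXsR (rtChS θ l r c e) k s₁ s₂) Set.univ 1 0 ∧
        RtXf (rtVm (p.sc l r hl hr) k') (rtVd (p.sc l r hl hr) k' b (U G)) (rtVmP p k I) (rtVdP p k b G) (fun z' z => RtXsR (rtChS θ l r c e) k s₁ s₂ z z')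
          {z' | ∃ j ∈ I, z'.1 + s₁ = j + s₂} 1 0 := by
  obtain ⟨hm1, hm2, -, -⟩ := rt_xs_meas θ l r c e 0
  have hJ : (0 : ℝ) < l ^ 3 * r ^ 4 := by positivity
  obtain ⟨U, hUn, hU⟩ := rt_xs_wc (volume : Measure RdWvPar.Mo) (rtXsKi l r c e) hm1 (rtXsW θ l r c e) hm2 (l ^ 3 * r ^ 4) hJ
    (rt_xs_Ki_map l r c e hl hr he) (fun q => by
      unfold rtXsW
      rw [norm_mul, mul_comm Complex.I, Complex.norm_exp_ofReal_mul_I, mul_one, Complex.norm_real, Real.norm_of_nonneg (by positivity),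
        inv_pow, Real.sq_sqrt hJ.le])
  refine ⟨U, hUn, ?_, ?_, ?_⟩
  · intro b G hG
    have h := rt_xs_supp θ l r c e hl hr he G (U G) (hU G) _ hG
    filter_upwards [h] with q hq h0
    have e1 : (p.sc l r hl hr).H * q.2 = p.H * (rtXsKi l r c e q).2 := by
      show p.H / (l * r ^ 2) * q.2 = p.H * (q.2 / (l * r ^ 2))
      ring
    rw [e1]
    exact hq h0
  · intro a G hG
    have h := rt_xs_supp θ l r c e hl hr he G (U G) (hU G) _ hG
    filter_upwards [h] with q hq h0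
    obtain ⟨h1, h2⟩ := hq h0
    have hK := rt_xs_K_Ki l r c e hl hr he q
    obtain ⟨q0, hq0⟩ : ∃ q0, q0 = rtXsKi l r c e q := ⟨_, rfl⟩
    rw [← hq0] at h1 h2 hK
    rw [← hK]
    constructor
    · show 0 < l * r ^ 2 * q0.2
      positivity
    · show rtSq ((l * r) • rtRot e (q0.1 - (2 * q0.2) • c.A)) ≤ (2 * a * (l * r ^ 2 * q0.2)) ^ 2
      have e1 : rtSq ((l * r) • rtRot e (q0.1 - (2 * q0.2) • c.A)) = (l * r) ^ 2 * rtSq (q0.1 - (2 * q0.2) • c.A) := by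
        rw [← one_mul (rtSq (q0.1 - (2 * q0.2) • c.A)), ← he, ← rt_rot_sq]
        simp only [rtSq, Prod.smul_fst, Prod.smul_snd, smul_eq_mul]
        ring
      have e2 : (2 * a * (l * r ^ 2 * q0.2)) ^ 2 = (l * r) ^ 2 * (2 * (a * r) * q0.2) ^ 2 := by ring
      rw [e1, e2]
      exact mul_le_mul_of_nonneg_left h2 (by positivity)
  · intro k k' b s₁ s₂ I G hk hs hI
    have sf1 : SFinite (p.rw k) := by
      unfold RdWvPar.rw
      infer_instance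
    have sf2 : SFinite ((p.sc l r hl hr).rw k') := by
      unfold RdWvPar.rw
      infer_instance
    have hst := fun T f hf => rt_xs_star p θ l r c e hl hr he k k' b hk T G (U G) (hU G) f hf
    have hZm : ∀ T x, rtZm (rtChS θ l r c e) T x = rtXsS θ l r c e T x := fun T x => rt_xs_zm θ l r c e hl.ne' hr.ne' he T x
    have hD : ∀ j, Measurable fun x => rtVdP p k b G (j, x) := fun j =>
      ((Lp.stronglyMeasurable (p.an (tmL k j) k b G)).measurable.enorm).pow_const 2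
    have hD' : ∀ j, Measurable fun x => rtVd (p.sc l r hl hr) k' b (U G) (j, x) := fun j =>
      ((Lp.stronglyMeasurable ((p.sc l r hl hr).an (rtTm k' j) k' b (U G))).measurable.enorm).pow_const 2
    constructor
    · have h := rt_xs_fib (p.rw k) ((p.sc l r hl hr).rw k') I (Set.Iio (2 ^ k')) Set.univ (rtVdP p k b G)
        (rtVd (p.sc l r hl hr) k' b (U G)) hD hD' (fun j => j + s₂ - s₁) (fun j => rtXsSi θ l r c e (tmL k j))
        (fun j => (rt_xs_meas θ l r c e _).2.2.2)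
        (by
          rintro j ⟨hj, -⟩ i ⟨hi, -⟩ hji
          obtain ⟨j', -, hj'⟩ := hI j hj
          obtain ⟨i', -, hi'⟩ := hI i hi
          simp only at hji
          omega)
        (by
          rintro j ⟨hj, -⟩
          obtain ⟨j', hj1, hj'⟩ := hI j hj
          have : j + s₂ - s₁ = j' := by omega
          rw [this]
          exact hj1)
        (by
          rintro j ⟨hj, -⟩ f hf
          obtain ⟨j', hj1, hj'⟩ := hI j hj
          have e1 : j + s₂ - s₁ = j' := by omega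
          have h2 := hst (tmL k j) (fun x' => f (rtXsSi θ l r c e (tmL k j) x')) (hf.comp (rt_xs_meas θ l r c e _).2.2.2)
          simp only [rt_xs_Si_S θ l r c e hl hr he] at h2
          rw [rt_xs_clock θ l hl k k' s₁ s₂ j j' hk hs hj'] at h2
          simp only [e1]
          exact h2.le)
      refine rt_xa_mono h ?_ (fun z _ => Set.mem_univ _) le_rfl le_rfl
      rintro z - z' ⟨⟨hzI, -⟩, h1, h2⟩
      obtain ⟨j', -, hj'⟩ := hI z.1 hzI
      refine ⟨by omega, ?_⟩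
      rw [hZm, h2, rt_xs_S_Si θ l r c e hl hr he]
    · have h := rt_xs_fib ((p.sc l r hl hr).rw k') (p.rw k) (Set.Iio (2 ^ k')) I {j' | ∃ j ∈ I, j' + s₁ = j + s₂}
        (rtVd (p.sc l r hl hr) k' b (U G)) (rtVdP p k b G) hD' hD (fun j' => j' + s₁ - s₂)
        (fun j' => rtXsS θ l r c e (tmL k (j' + s₁ - s₂)))
        (fun j => (rt_xs_meas θ l r c e _).2.2.1)
        (by
          rintro j ⟨-, j0, -, hj⟩ i ⟨-, i0, -, hi⟩ hji
          simp only at hji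
          omega)
        (by
          rintro j' ⟨-, j, hj, hj'⟩
          have : j' + s₁ - s₂ = j := by omega
          rw [this]
          exact hj)
        (by
          rintro j' ⟨-, j, hj, hj'⟩ f hf
          have e1 : j' + s₁ - s₂ = j := by omega
          have h2 := hst (tmL k j) f hf
          rw [rt_xs_clock θ l hl k k' s₁ s₂ j j' hk hs hj'] at h2
          simp only [e1]
          exact h2.ge)
      refine rt_xa_mono h ?_ (fun z hz => hz) le_rfl le_rfl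
      rintro z - z' ⟨⟨-, j, hj, hj'⟩, h1, h2⟩
      refine ⟨by omega, ?_⟩
      rw [hZm, h2, h1]

end Claimed.Agent.R256
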