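import Claimed.Agent.R256.Rt.XDefs

/-!
# Row 256, folder Rt, block I1, unit XS : DEFINITIONS of the exact symmetries      (architect helper76)      SORRY-FREE

* `rtChS θ l r c e = Sc(l, r) ∘ Rot(e) ∘ Cen(c) ∘ Tr(θ)`      the normalising chart in normal form: time origin `θ`, time unit `l`, width `r`, centre ray `c` (parametrised at the time `θ`), direction `e`;   `rtChSi` its inverse.
* `p.sc l r`      the Planck parameter `H/(l r²)` of the normalised picture.
* `rtZm Ψ T x`    the image of the row `x` of the time `T`: the instantaneous row of the ray `Ψ.row (rtRay T x)` at the time `Ψ.tm (rtRay T x) T`.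
-/

set_option autoImplicit false

namespace Claimed.Agent.R256

open MeasureTheory

/-- the normalising chart -/
noncomputable def rtChS (θ l r : ℝ) (c : RtRow) (e : ℝ × ℝ) : RtCh :=
  (rtChSc l r).comp ((rtChRot e).comp ((rtChCen c).comp (rtChTr θ)))

/-- its inverse -/
noncomputable def rtChSi (θ l r : ℝ) (c : RtRow) (e : ℝ × ℝ) : RtCh :=
  (rtChTr (-θ)).comp ((rtChCen ⟨-c.A, -c.b, 2 * rtIp c.A c.b - c.y⟩).comp ((rtChRot (-e.1, e.2)).comp (rtChSc l⁻¹ r⁻¹)))

/-- the normalised Planck parameter -/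
noncomputable def RdWvPar.sc (p : RdWvPar) (l r : ℝ) (hl : 0 < l) (hr : 0 < r) : RdWvPar := ⟨p.H / (l * r ^ 2), div_pos p.H_pos (by positivity)⟩

/-- the image of a row of the time `T` -/
noncomputable def rtZm (Ψ : RtCh) (T : ℝ) (x : RdWvPar.Ph) : RdWvPar.Ph :=
  (((Ψ.row (rtRay T x)).flow (Ψ.tm (rtRay T x) T)).A, ((Ψ.row (rtRay T x)).flow (Ψ.tm (rtRay T x) T)).b,
    ((Ψ.row (rtRay T x)).flow (Ψ.tm (rtRay T x) T)).y)

theorem rt_xsdefs_eqns_cite : True := by
  have := @rtChS.eq_1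
  have := @rtChSi.eq_1
  have := @RdWvPar.sc.eq_1
  have := @rtZm.eq_1
  trivial

/-- the new time under the normalising chart -/
theorem rt_xs_tm (θ l r : ℝ) (c : RtRow) (e : ℝ × ℝ) (hl : l ≠ 0) (hr : r ≠ 0) (p : RtRow) (t : ℝ) : (rtChS θ l r c e).tm p t = (t - θ) / l := by
  simp only [rtChS, RtCh.tm, RtCh.dn, RtCh.comp, rtChSc, rtChRot, rtChCen, rtChTr]
  field_simp
  ring

/-- the image of a row under the normalising chart, written out -/
theorem rt_xs_zm (θ l r : ℝ) (c : RtRow) (e : ℝ × ℝ) (hl : l ≠ 0) (hr : r ≠ 0) (he : rtSq e = 1) (T : ℝ) (x : RdWvPar.Ph) :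
    rtZm (rtChS θ l r c e) T x =
      (r⁻¹ • rtRot e (x.1 - c.A), (l * r)⁻¹ • rtRot e (x.2.1 - c.b - (T - θ) • c.A),
        (x.2.2 - c.y - 2 * rtIp c.A (x.2.1 - c.b) + (T - θ) * rtSq c.A) / (l * r ^ 2)) := by
  unfold rtZm
  rw [rt_xs_tm θ l r c e hl hr]
  simp only [rtChS, RtCh.comp, rtChSc, rtChRot, rtChCen, rtChTr, rtRay, RdWvPar.co, RtRow.flow, rtCfRowRot, rtCfRowCen, rtRot, rtIp, rtSq]
  refine Prod.ext ?_ (Prod.ext ?_ ?_)
  · rfl
  · refine Prod.ext ?_ ?_
    · simp only [Prod.fst_add, Prod.smul_fst, Prod.fst_sub, Prod.snd_sub, Prod.snd_add, Prod.smul_snd, smul_eq_mul]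
      field_simp
      ring
    · simp only [Prod.fst_add, Prod.smul_fst, Prod.fst_sub, Prod.snd_sub, Prod.snd_add, Prod.smul_snd, smul_eq_mul]
      field_simp
      ring
  · simp only [Prod.fst_add, Prod.smul_fst, Prod.fst_sub, Prod.snd_sub, Prod.snd_add, Prod.smul_snd, smul_eq_mul]
    have he' : e.1 ^ 2 = 1 - e.2 ^ 2 := by
      unfold rtSq at he
      linarith
    field_simp
    ring_nf
    rw [he']
    ring

end Claimed.Agent.R256
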